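import Mathlib
import Crest.Prelude.Def_DilutedSpinGlass
import Crest.Agent.R141.Closure

/-!
Row 141, Part L, sections 3.4 + 3.5: base definitions (kernels on finite types, averages over
sites, shapes, shape functionals, nested functionals).
-/

set_option autoImplicit false

namespace Crest.Agent.R141.Fact

open Finset
open Crest.ProbabilityR.Diluted (spinVal)

/-- `K` is a (finite) Markov kernel. -/
structure IsMarkov {Ω : Type} [Fintype Ω] (K : Ω → Ω → ℝ) : Prop where
  nonneg : ∀ ω ω', 0 ≤ K ω ω'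
  sum_one : ∀ ω, ∑ ω', K ω ω' = 1

/-- action of a kernel on functions -/
def Ek {Ω : Type} [Fintype Ω] (K : Ω → Ω → ℝ) (f : Ω → ℝ) (ω : Ω) : ℝ := ∑ ω', K ω ω' * f ω'

/-- conditional covariance -/
def Cov {Ω : Type} [Fintype Ω] (K : Ω → Ω → ℝ) (ω : Ω) (f g : Ω → ℝ) : ℝ :=
  Ek K (fun ω' => f ω' * g ω') ω - Ek K f ω * Ek K g ω

/-- independent copies of the kernel -/
def EkInd {Ω : Type} [Fintype Ω] {ns : ℕ} (K : Ω → Ω → ℝ) (F : (Fin ns → Ω) → ℝ)
    (w : Fin ns → Ω) : ℝ := ∑ w' : Fin ns → Ω, (∏ l, K (w l) (w' l)) * F w'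

/-- average over a finite type -/
noncomputable def avg {I : Type} [Fintype I] (f : I → ℝ) : ℝ := (Fintype.card I : ℝ)⁻¹ * ∑ i, f i

/-- average absolute covariance -/
noncomputable def avgCov {Ω : Type} [Fintype Ω] {I : Type} [Fintype I]
    (K : Ω → Ω → ℝ) (ω : Ω) (φ : I → Ω → ℝ) : ℝ :=
  avg (fun i : I => avg (fun i' : I => |Cov K ω (φ i) (φ i')|))

/-- shapes of depth `n` (those of `Closure.lean`) -/
abbrev Shape : ℕ → Type := Crest.Agent.R141.Clo.Shape

/-- a depth-0 shape as a boolean -/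
def _root_.Crest.Agent.R141.Clo.Shape.toBool (s : Shape 0) : Bool := s

/-- a shape of positive depth as a list -/
def _root_.Crest.Agent.R141.Clo.Shape.toList {n : ℕ} (s : Shape (n + 1)) : List (Shape n) := s

/-- a list as a shape -/
def _root_.Crest.Agent.R141.Clo.Shape.ofList {n : ℕ} (s : List (Shape n)) : Shape (n + 1) := s

/-- a boolean as a shape -/
def _root_.Crest.Agent.R141.Clo.Shape.ofBool (b : Bool) : Shape 0 := b

@[simp] lemma _root_.Crest.Agent.R141.Clo.Shape.toBool_ofBool (b : Bool) : (Clo.Shape.ofBool b).toBool = b := rfl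
@[simp] lemma _root_.Crest.Agent.R141.Clo.Shape.ofBool_toBool (b : Shape 0) : Clo.Shape.ofBool (b.toBool) = b := rfl

@[simp] lemma _root_.Crest.Agent.R141.Clo.Shape.toList_ofList {n : ℕ} (s : List (Shape n)) :
    (Clo.Shape.ofList s).toList = s := rfl

@[simp] lemma _root_.Crest.Agent.R141.Clo.Shape.ofList_toList {n : ℕ} (s : Shape (n + 1)) :
    Clo.Shape.ofList s.toList = s := rfl

section shapes

variable {Ω I : Type} [Fintype Ω]

/-- shape functionals: `K n` is the conditional law given `F_{t_{J-n}}` -/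
noncomputable def Vf (K : ℕ → Ω → Ω → ℝ) (sg : I → Ω → Bool) : (n : ℕ) → Shape n → I → Ω → ℝ
  | 0, s, i, ω => if s.toBool then spinVal (sg i ω) else 1
  | n + 1, s, i, ω => (s.toList.map (fun r : Shape n => Ek (K n) (Vf K sg n r i) ω)).prod

lemma Vf_zero (K : ℕ → Ω → Ω → ℝ) (sg : I → Ω → Bool) (b : Bool) (i : I) (ω : Ω) :
    Vf K sg 0 (Clo.Shape.ofBool b) i ω = if b then spinVal (sg i ω) else 1 := rfl

lemma Vf_succ (K : ℕ → Ω → Ω → ℝ) (sg : I → Ω → Bool) {n : ℕ} (s : List (Shape n)) (i : I)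
    (ω : Ω) :
    Vf K sg (n + 1) (Clo.Shape.ofList s) i ω =
      (s.map (fun r : Shape n => Ek (K n) (Vf K sg n r i) ω)).prod := rfl

end shapes

section theta

variable {Ω I : Type} [Fintype Ω] {ns : ℕ}

/-- common-path nested functional of depth `n` -/
noncomputable def Theta (K : ℕ → Ω → Ω → ℝ) (sg : I → Ω → Bool) (W0 : (Fin ns → Bool) → ℝ)
    (f : ℕ → ℝ → ℝ) : ℕ → (Fin ns → I) → Ω → ℝ
  | 0, i, ω => W0 (fun l => sg (i l) ω)
  | n + 1, i, ω => f n (Ek (K n) (Theta K sg W0 f n i) ω)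

/-- independent-path nested functional of depth `n` -/
noncomputable def ThetaI (K : ℕ → Ω → Ω → ℝ) (sg : I → Ω → Bool) (W0 : (Fin ns → Bool) → ℝ)
    (f : ℕ → ℝ → ℝ) : ℕ → (Fin ns → I) → (Fin ns → Ω) → ℝ
  | 0, i, w => W0 (fun l => sg (i l) (w l))
  | n + 1, i, w => f n (EkInd (K n) (ThetaI K sg W0 f n i) w)

end theta

end Crest.Agent.R141.Fact
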