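import Crest.Agent.R141.Sys
import Crest.Agent.R141.KerS

/-!
# Row 141, Part L: the interface `Sec23` between sections 2-3 and the assembly (helper552)
-/

set_option autoImplicit false

namespace Crest.Agent.R141.Asm

open Crest.Agent.R141.Fact Crest.Agent.R141.KerS

/-- spins of the enriched system -/
def sgN (p : Par) (N : ℕ) (i : Fin N) (ω : Om p N) : Bool := ω.1 i

/-- The levels `t 0 ≤ ... ≤ t J < L` lie in the windows of the exponents `j/(J+1)`. -/
structure Win (p : Par) (J : ℕ) (t : ℕ → ℕ) : Prop where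
  mono : Monotone t
  lt_L : t J < p.L
  low : ∀ l, l ≤ t 0 → p.xs l ≤ 2 / ((J : ℝ) + 1)
  mid : ∀ j, 1 ≤ j → j ≤ J → ∀ l, t (j - 1) < l → l ≤ t j →
    |p.xs l - (j : ℝ) / ((J : ℝ) + 1)| ≤ 2 / ((J : ℝ) + 1)
  top : ∀ l, t J < l → l ≤ p.L → 1 - p.xs l ≤ 2 / ((J : ℝ) + 1)

/-- **Output of sections 2 and 3.1-3.3**: for every finite set of shapes and every accuracy there
are parameters of the enriched system such that for all large `N` and all Hamiltonians `H` one can
choose, for every outer randomness `d`, levels `t d 0 ≤ ... ≤ t d J` in the windows, along which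
all the shape functionals of the spins are nearly uncorrelated across sites, in average over `d`
and the tilted law. -/
def Sec23 : Prop :=
  ∀ (J : ℕ), 1 ≤ J → ∀ (SS : (m : ℕ) → List (Shape m)) (δ ε : ℝ), 0 < δ → 0 < ε →
    ∃ p : Par, (p.nb : ℝ) / p.Q ≤ ε ∧ ∃ N0 : ℕ, ∀ N, N0 ≤ N → ∀ H : (Fin N → Bool) → ℝ,
      ∃ t : DD p N → ℕ → ℕ, (∀ d, Win p J (t d)) ∧
        ∀ m, m ≤ J → ∀ s ∈ SS m,
          Ed p N (fun d => ∑ ω, PP p N H d ω *
            avgCov (kerS (PP p N H d) ((fil p N).F (t d (J - m)))) ω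
              (VS (PP p N H d) (fun n => (fil p N).F (t d (J - n))) (sgN p N) m s)) ≤ δ

end Crest.Agent.R141.Asm
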