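import Crest.Agent.R141.HierA

/-!
Row 141 (S0192), Part L, (1g): exponent change.

`pm P r x f` is one step of the hierarchical functional: `(1/x) log E[exp (x f) | r]`.
-/

namespace Crest.Agent.R141.Exch

open Finset

noncomputable section

variable {Ω : Type*} [Fintype Ω] {P : Ω → ℝ} {r s : Setoid Ω} {f g : Ω → ℝ}

/-- the density `exp (x (f - pm f))` integrates to one. -/
theorem cE_dens (hP : IsProb P) {x : ℝ} (hx : 0 < x) (f : Ω → ℝ) (ω : Ω) :
    cE P r (fun a => Real.exp (x * (f a - pm P r x f a))) ω = 1 := by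
  have h1 : (fun a => Real.exp (x * (f a - pm P r x f a))) =
      fun a => Real.exp (-(x * pm P r x f a)) * Real.exp (x * f a) := by
    funext a
    rw [← Real.exp_add]
    congr 1; ring
  rw [h1, cE_mul_left (g := fun a => Real.exp (-(x * pm P r x f a)))]
  · rw [← exp_pm hP _ hx, ← Real.exp_add]
    simp
  · intro a b h
    simp only
    rw [pm_meas P r x f a b h]

/-- weighted Jensen -/
theorem jensen_weighted (hP : IsProb P) {g u : Ω → ℝ} (hg : ∀ a, 0 ≤ g a) (ω : Ω)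
    (h1 : cE P r g ω = 1) :
    Real.exp (cE P r (fun a => g a * u a) ω) ≤ cE P r (fun a => g a * Real.exp (u a)) ω := by
  set c := cE P r (fun a => g a * u a) ω with hc
  have key : ∀ a, g a * (Real.exp c * (1 + (u a - c))) ≤ g a * Real.exp (u a) := by
    intro a
    apply mul_le_mul_of_nonneg_left _ (hg a)
    have : Real.exp (u a) = Real.exp c * Real.exp (u a - c) := by
      rw [← Real.exp_add]; congr 1; ring
    rw [this]
    apply mul_le_mul_of_nonneg_left _ (Real.exp_pos c).le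
    have := Real.add_one_le_exp (u a - c)
    linarith
  have h2 := cE_mono' (r := r) hP key ω
  have h3 : cE P r (fun a => g a * (Real.exp c * (1 + (u a - c)))) ω = Real.exp c := by
    have : (fun a => g a * (Real.exp c * (1 + (u a - c)))) =
        fun a => Real.exp c * ((1 - c) * g a + g a * u a) := by
      funext a; ring
    rw [this, cE_smul, cE_add, cE_smul, h1, ← hc]
    ring
  rw [h3] at h2
  exact h2

theorem jensen_exp (hP : IsProb P) (u : Ω → ℝ) (ω : Ω) :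
    Real.exp (cE P r u ω) ≤ cE P r (fun a => Real.exp (u a)) ω := by
  have := jensen_weighted (r := r) (g := fun _ => 1) (u := u) hP (fun _ => zero_le_one) ω
    (cE_const hP r 1 ω)
  simpa using this

theorem pm_abs_le (hP : IsProb P) {x : ℝ} (hx : 0 < x) {f : Ω → ℝ} {c : ℝ}
    (h : ∀ a, |f a| ≤ c) (ω : Ω) : |pm P r x f ω| ≤ c := by
  rw [abs_le]
  constructor
  · rw [← pm_const hP r hx (-c) ω]
    exact pm_mono hP hx ω (fun a _ => (abs_le.mp (h a)).1)
  · rw [← pm_const hP r hx c ω]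
    exact pm_mono hP hx ω (fun a _ => (abs_le.mp (h a)).2)

/-- convexity of the power-mean step: gradient inequality at `f'`. -/
theorem pm_sub_le (hP : IsProb P) {x : ℝ} (hx : 0 < x) (f f' : Ω → ℝ) (ω : Ω) :
    pm P r x f' ω - pm P r x f ω ≤
      cE P r (fun a => Real.exp (x * (f' a - pm P r x f' a)) * (f' a - f a)) ω := by
  have h1 := jensen_weighted (r := r) (g := fun a => Real.exp (x * (f' a - pm P r x f' a)))
    (u := fun a => x * (f a - f' a)) hP (fun a => (Real.exp_pos _).le) ω (cE_dens hP hx f' ω)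
  have h2 : cE P r (fun a => Real.exp (x * (f' a - pm P r x f' a)) *
      Real.exp (x * (f a - f' a))) ω = Real.exp (x * (pm P r x f ω - pm P r x f' ω)) := by
    have h3 : (fun a => Real.exp (x * (f' a - pm P r x f' a)) * Real.exp (x * (f a - f' a))) =
        fun a => Real.exp (-(x * pm P r x f' a)) * Real.exp (x * f a) := by
      funext a
      rw [← Real.exp_add, ← Real.exp_add]
      congr 1; ring
    rw [h3, cE_mul_left (g := fun a => Real.exp (-(x * pm P r x f' a)))]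
    · rw [← exp_pm hP _ hx, ← Real.exp_add]
      congr 1; ring
    · intro a b h
      simp only
      rw [pm_meas P r x f' a b h]
  rw [h2, Real.exp_le_exp] at h1
  have h4 : cE P r (fun a => Real.exp (x * (f' a - pm P r x f' a)) * (x * (f a - f' a))) ω =
      -(x * cE P r (fun a => Real.exp (x * (f' a - pm P r x f' a)) * (f' a - f a)) ω) := by
    rw [← cE_smul, ← neg_one_mul, ← cE_smul]
    congr 1; funext a; ring
  rw [h4] at h1
  have h5 : x * (pm P r x f' ω - pm P r x f ω) ≤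
      x * cE P r (fun a => Real.exp (x * (f' a - pm P r x f' a)) * (f' a - f a)) ω := by
    linarith
  exact le_of_mul_le_mul_left h5 hx

theorem exp_sub_one_le (v : ℝ) : |Real.exp v - 1| ≤ |v| * Real.exp |v| := by
  rcases le_total 0 v with h | h
  · rw [abs_of_nonneg h, abs_of_nonneg (by linarith [Real.one_le_exp h])]
    have := Real.add_one_le_exp (-v)
    have h2 : Real.exp v * Real.exp (-v) = 1 := by rw [← Real.exp_add]; simp
    nlinarith [Real.exp_pos v]
  · rw [abs_of_nonpos h, abs_of_nonpos (by linarith [Real.exp_le_one_iff.mpr h])]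
    have := Real.add_one_le_exp v
    have h3 : 1 ≤ Real.exp (-v) := Real.one_le_exp (by linarith)
    nlinarith [Real.exp_pos v]

theorem exp_sub_one_sub_le (v : ℝ) : Real.exp v - 1 - v ≤ v ^ 2 * Real.exp |v| := by
  have h := exp_sub_one_le v
  -- `e^v - 1 ≤ v e^v` for all v, so `e^v - 1 - v ≤ v (e^v - 1)`
  have h1 : Real.exp v - 1 ≤ v * Real.exp v := by
    have := Real.add_one_le_exp (-v)
    have h2 : Real.exp v * Real.exp (-v) = 1 := by rw [← Real.exp_add]; simp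
    nlinarith [Real.exp_pos v]
  calc Real.exp v - 1 - v ≤ v * (Real.exp v - 1) := by linarith
    _ ≤ |v * (Real.exp v - 1)| := le_abs_self _
    _ = |v| * |Real.exp v - 1| := abs_mul _ _
    _ ≤ |v| * (|v| * Real.exp |v|) := mul_le_mul_of_nonneg_left h (abs_nonneg _)
    _ = v ^ 2 * Real.exp |v| := by rw [← mul_assoc, ← sq, sq_abs]

/-- conditional variance -/
def cVar (P : Ω → ℝ) (r : Setoid Ω) (f : Ω → ℝ) (ω : Ω) : ℝ :=
  cE P r (fun a => (f a - cE P r f a) ^ 2) ω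

theorem cVar_nonneg (hP : IsProb P) (r : Setoid Ω) (f : Ω → ℝ) (ω : Ω) : 0 ≤ cVar P r f ω :=
  cE_nonneg hP (fun _ => sq_nonneg _) ω

theorem cVar_eq (hP : IsProb P) (r : Setoid Ω) (f : Ω → ℝ) (ω : Ω) :
    cVar P r f ω = cE P r (fun a => f a ^ 2) ω - cE P r f ω ^ 2 := by
  unfold cVar
  have h : (fun a => (f a - cE P r f a) ^ 2) =
      fun a => f a ^ 2 - (2 * (cE P r f a * f a) - cE P r f a * cE P r f a) := by
    funext a; ring
  rw [h, cE_sub, cE_sub, cE_smul, cE_mul_left (cE_meas P r f),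
    cE_mul_left (cE_meas P r f), cE_of_meas hP (cE_meas P r f)]
  ring

theorem exp_pm_sub (hP : IsProb P) {x : ℝ} (hx : 0 < x) (f : Ω → ℝ) (c : ℝ) (ω : Ω) :
    Real.exp (x * (pm P r x f ω - c)) = cE P r (fun a => Real.exp (x * (f a - c))) ω := by
  have h : (fun a => Real.exp (x * (f a - c))) =
      fun a => Real.exp (-(x * c)) * Real.exp (x * f a) := by
    funext a; rw [← Real.exp_add]; congr 1; ring
  rw [h, cE_smul, ← exp_pm hP _ hx, ← Real.exp_add]
  congr 1; ring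

/-- changing the exponent of one step costs at most a variance -/
theorem pm_expo_le (hP : IsProb P) {x x' a : ℝ} (hx : 0 < x) (hxx : x ≤ x') (hx1 : x' ≤ 1)
    {f : Ω → ℝ} (hf : ∀ b, |f b| ≤ a) (ω : Ω) :
    pm P r x' f ω - pm P r x f ω ≤ (x' - x) * Real.exp (2 * a) * cVar P r f ω := by
  have hx' : 0 < x' := hx.trans_le hxx
  set c := cE P r f ω with hc
  set h := x' - x with hh
  have hh0 : 0 ≤ h := by linarith
  set V := cVar P r f ω with hV
  have hV0 : 0 ≤ V := cVar_nonneg hP r f ω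
  have hcle : c ≤ pm P r x f ω := cE_le_pm hP r hx f ω
  have hca : |c| ≤ a := abs_cE_le_of_le hP hf ω
  have key : ∀ b, r ω b → Real.exp (x' * (f b - c)) ≤
      Real.exp (x * (f b - c)) + h * (f b - c) +
        h * x' * Real.exp (2 * a) * (f b - cE P r f b) ^ 2 := by
    intro b hb
    have hcb : cE P r f b = c := (cE_meas P r f ω b hb).symm
    rw [hcb]
    set u := f b - c with hu
    have hu2 : |u| ≤ 2 * a := by
      rw [hu]
      have := abs_sub (f b) c
      linarith [hf b]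
    have e1 : Real.exp (x' * u) = Real.exp (x * u) * Real.exp (h * u) := by
      rw [← Real.exp_add]; congr 1; rw [hh]; ring
    have e2 := exp_sub_one_sub_le (h * u)
    have e3 := exp_sub_one_le (x * u)
    have e4 : Real.exp (x * u) * ((h * u) ^ 2 * Real.exp |h * u|) ≤
        h ^ 2 * u ^ 2 * Real.exp (2 * a) := by
      have : Real.exp (x * u) * ((h * u) ^ 2 * Real.exp |h * u|) =
          h ^ 2 * u ^ 2 * Real.exp (x * u + |h * u|) := by
        rw [Real.exp_add]; ring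
      rw [this]
      apply mul_le_mul_of_nonneg_left _ (by positivity)
      rw [Real.exp_le_exp]
      rw [abs_mul, abs_of_nonneg hh0]
      have h1 : x * u ≤ x * |u| := mul_le_mul_of_nonneg_left (le_abs_self u) hx.le
      have h2 : x * |u| + h * |u| = x' * |u| := by rw [hh]; ring
      have h3 : x' * |u| ≤ 1 * |u| := mul_le_mul_of_nonneg_right hx1 (abs_nonneg u)
      linarith
    have e5 : h * ((Real.exp (x * u) - 1) * u) ≤ h * (x * u ^ 2 * Real.exp (2 * a)) := by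
      apply mul_le_mul_of_nonneg_left _ hh0
      calc (Real.exp (x * u) - 1) * u ≤ |(Real.exp (x * u) - 1) * u| := le_abs_self _
        _ = |Real.exp (x * u) - 1| * |u| := abs_mul _ _
        _ ≤ (|x * u| * Real.exp |x * u|) * |u| :=
            mul_le_mul_of_nonneg_right e3 (abs_nonneg _)
        _ = x * u ^ 2 * Real.exp |x * u| := by
            rw [abs_mul x u, abs_of_pos hx]
            have : u ^ 2 = |u| * |u| := by rw [← sq, sq_abs]
            rw [this]; ring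
        _ ≤ x * u ^ 2 * Real.exp (2 * a) := by
            apply mul_le_mul_of_nonneg_left _ (by positivity)
            rw [Real.exp_le_exp, abs_mul, abs_of_pos hx]
            have : x * |u| ≤ 1 * |u| :=
              mul_le_mul_of_nonneg_right (hxx.trans hx1) (abs_nonneg u)
            linarith
    have e6 : Real.exp (x * u) * (Real.exp (h * u) - 1 - h * u) ≤
        Real.exp (x * u) * ((h * u) ^ 2 * Real.exp |h * u|) :=
      mul_le_mul_of_nonneg_left e2 (Real.exp_pos _).le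
    rw [e1]
    have e7 : h * x' * Real.exp (2 * a) * u ^ 2 =
        h ^ 2 * u ^ 2 * Real.exp (2 * a) + h * (x * u ^ 2 * Real.exp (2 * a)) := by
      rw [hh]; ring
    rw [e7]
    nlinarith
  have h2 := cE_mono hP ω key
  rw [cE_add, cE_add, cE_smul, cE_smul, cE_sub, cE_const hP, ← exp_pm_sub hP hx',
    ← exp_pm_sub hP hx] at h2
  have hV' : cE P r (fun b => (f b - cE P r f b) ^ 2) ω = V := rfl
  rw [hV', ← hc, sub_self, mul_zero, add_zero] at h2
  set M := Real.exp (x * (pm P r x f ω - c)) with hM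
  have hM1 : 1 ≤ M := Real.one_le_exp (mul_nonneg hx.le (by linarith))
  have hK0 : 0 ≤ h * x' * Real.exp (2 * a) * V := by positivity
  have h3 : Real.exp (x' * (pm P r x' f ω - c)) ≤
      Real.exp (x * (pm P r x f ω - c) + h * x' * Real.exp (2 * a) * V) := by
    rw [Real.exp_add, ← hM]
    refine h2.trans ?_
    have := Real.add_one_le_exp (h * x' * Real.exp (2 * a) * V)
    nlinarith [Real.exp_pos (h * x' * Real.exp (2 * a) * V)]
  rw [Real.exp_le_exp] at h3
  have h4 : x' * (pm P r x' f ω - pm P r x f ω) ≤ x' * (h * Real.exp (2 * a) * V) := by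
    have : x * (pm P r x f ω - c) ≤ x' * (pm P r x f ω - c) :=
      mul_le_mul_of_nonneg_right hxx (by linarith)
    nlinarith
  exact le_of_mul_le_mul_left h4 hx'

theorem cVar_meas (P : Ω → ℝ) (r : Setoid Ω) (f : Ω → ℝ) : RMeas r (cVar P r f) :=
  cE_meas P r _

/-- total variance of the functional along the filtration is bounded -/
theorem sum_cVar_A_le {𝓕 : Filt Ω} {x : ℕ → ℝ} {U : Ω → ℝ}
    (hP : IsProb P) (hx : IsExpo x) {a : ℝ} (hU : ∀ ω, |U ω| ≤ a)
    (k m : ℕ) (hkm : k ≤ m) :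
    ∑ l ∈ Ico k m, eE P (cVar P (𝓕.F l) (A P 𝓕 x U (l + 1))) ≤ 5 * a ^ 2 := by
  have hA := A_abs_le (𝓕 := 𝓕) hP hx.pos hU
  have ha : 0 ≤ a ∨ IsEmpty Ω := by
    rcases isEmpty_or_nonempty Ω with h1 | ⟨⟨ω⟩⟩
    · exact Or.inr h1
    · exact Or.inl ((abs_nonneg _).trans (hU ω))
  rcases ha with ha | ha
  swap
  · have : ∀ f : Ω → ℝ, eE P f = 0 := fun f => by simp [eE]
    simp only [this, Finset.sum_const_zero]; positivity
  have key : ∀ l, eE P (cVar P (𝓕.F l) (A P 𝓕 x U (l + 1))) ≤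
      (eE P (fun ω => A P 𝓕 x U (l + 1) ω ^ 2) - 2 * a * eE P (A P 𝓕 x U (l + 1))) -
      (eE P (fun ω => A P 𝓕 x U l ω ^ 2) - 2 * a * eE P (A P 𝓕 x U l)) := by
    intro l
    have h1 : ∀ ω, cVar P (𝓕.F l) (A P 𝓕 x U (l + 1)) ω ≤
        cE P (𝓕.F l) (fun ω => A P 𝓕 x U (l + 1) ω ^ 2) ω - A P 𝓕 x U l ω ^ 2 +
          2 * a * (A P 𝓕 x U l ω - cE P (𝓕.F l) (A P 𝓕 x U (l + 1)) ω) := by
      intro ω
      rw [cVar_eq hP]
      have h2 : cE P (𝓕.F l) (A P 𝓕 x U (l + 1)) ω ≤ A P 𝓕 x U l ω :=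
        A_super hP hx.pos U (Nat.le_succ l) ω
      have h3 : |cE P (𝓕.F l) (A P 𝓕 x U (l + 1)) ω| ≤ a := abs_cE_le_of_le hP (hA (l + 1)) ω
      have h4 := hA l ω
      rw [abs_le] at h3 h4
      nlinarith
    have h2 := eE_mono hP h1
    rw [eE_add, eE_sub, eE_smul, eE_sub, eE_cE hP, eE_cE hP] at h2
    linarith
  have htel : ∀ n, k ≤ n → ∑ l ∈ Ico k n, eE P (cVar P (𝓕.F l) (A P 𝓕 x U (l + 1))) ≤
      (eE P (fun ω => A P 𝓕 x U n ω ^ 2) - 2 * a * eE P (A P 𝓕 x U n)) -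
      (eE P (fun ω => A P 𝓕 x U k ω ^ 2) - 2 * a * eE P (A P 𝓕 x U k)) := by
    intro n hn
    induction hn with
    | refl => simp
    | @step n hn ih =>
      rw [Finset.sum_Ico_succ_top hn]
      have := key n
      linarith
  have h1 := htel m hkm
  have h2 : eE P (fun ω => A P 𝓕 x U m ω ^ 2) ≤ a ^ 2 := by
    rw [← eE_const hP (a ^ 2)]
    exact eE_mono hP (fun ω => sq_le_sq' (by linarith [(abs_le.mp (hA m ω)).1])
      (abs_le.mp (hA m ω)).2)
  have h3 : 0 ≤ eE P (fun ω => A P 𝓕 x U k ω ^ 2) := eE_nonneg hP (fun _ => sq_nonneg _)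
  have h4 : -a ≤ eE P (A P 𝓕 x U m) := by
    rw [← eE_const hP (-a)]
    exact eE_mono hP (fun ω => (abs_le.mp (hA m ω)).1)
  have h5 : eE P (A P 𝓕 x U k) ≤ a := by
    rw [← eE_const hP a]
    exact eE_mono hP (fun ω => (abs_le.mp (hA k ω)).2)
  nlinarith

/-- monotonicity of the hierarchical functional in the exponents -/
theorem A_mono_expo {𝓕 : Filt Ω} {x x' : ℕ → ℝ} {U : Ω → ℝ}
    (hP : IsProb P) (hx : IsExpo x) (hx' : IsExpo x') {k₀ : ℕ} (hle : ∀ k, k₀ < k → x k ≤ x' k)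
    (k : ℕ) : k₀ ≤ k → ∀ ω, A P 𝓕 x U k ω ≤ A P 𝓕 x' U k ω := by
  refine back_induction 𝓕
    (Q := fun k => k₀ ≤ k → ∀ ω, A P 𝓕 x U k ω ≤ A P 𝓕 x' U k ω) ?_ ?_ k
  · intro k hk _ ω; rw [A_of_ge U hk, A_of_ge U hk]
  · intro k ih hk ω
    rw [A_step hP hx.pos U k, A_step hP hx'.pos U k]
    exact (pm_le_pm hP _ (hx.pos _) (hle (k + 1) (by omega)) _ ω).trans
      (pm_mono hP (hx'.pos _) ω (fun a _ => ih (by omega) a))

/-- (1g) EXPONENT CHANGE -/
theorem expChange {𝓕 : Filt Ω} {x x' : ℕ → ℝ} {U : Ω → ℝ}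
    (hP : IsProb P) (hx : IsExpo x) (hx' : IsExpo x') {a δ : ℝ} (hU : ∀ ω, |U ω| ≤ a) {k₀ : ℕ}
    (hle : ∀ k, k₀ < k → x k ≤ x' k) (hδ : ∀ k, k₀ < k → x' k ≤ x k + δ) (hδ0 : 0 ≤ δ) :
    eE P (fun ω => A P 𝓕 x' U k₀ ω - A P 𝓕 x U k₀ ω) ≤
      5 * a ^ 2 * Real.exp (4 * a) * δ := by
  have hA := A_abs_le (𝓕 := 𝓕) hP hx.pos hU
  have hA' := A_abs_le (𝓕 := 𝓕) hP hx'.pos hU
  set M : ℕ → Ω → ℝ := fun k ω => Real.exp (S P 𝓕 x' U k₀ k ω) with hM
  have hMmeas : ∀ k, RMeas (𝓕.F k) (M k) := by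
    intro k b c hbc
    simp only [hM]
    rw [S_meas hP hx'.pos U k₀ k b c hbc]
  have hMle : ∀ k, k₀ ≤ k → ∀ ω, M k ω ≤ Real.exp (2 * a) := by
    intro k hk ω
    simp only [hM]
    rw [Real.exp_le_exp]
    exact (le_abs_self _).trans (S_abs_le hP hx' hU hk ω)
  have hMpos : ∀ k ω, 0 < M k ω := fun k ω => Real.exp_pos _
  have hMsucc : ∀ k, k₀ ≤ k → ∀ ω, M (k + 1) ω =
      M k ω * Real.exp (x' (k + 1) * (A P 𝓕 x' U (k + 1) ω - A P 𝓕 x' U k ω)) := by
    intro k hk ω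
    simp only [hM]
    rw [S_succ U hk, Real.exp_add]
  set b : ℕ → ℝ := fun k => eE P (fun ω => M k ω * (A P 𝓕 x' U k ω - A P 𝓕 x U k ω)) with hb
  have hstep : ∀ k, k₀ ≤ k → b k ≤ b (k + 1) +
      (δ * Real.exp (4 * a)) * eE P (cVar P (𝓕.F k) (A P 𝓕 x U (k + 1))) := by
    intro k hk
    have h1 : ∀ ω, M k ω * (A P 𝓕 x' U k ω - A P 𝓕 x U k ω) ≤
        cE P (𝓕.F k) (fun ω => M (k + 1) ω *
          (A P 𝓕 x' U (k + 1) ω - A P 𝓕 x U (k + 1) ω)) ω +
          (δ * Real.exp (4 * a)) * cVar P (𝓕.F k) (A P 𝓕 x U (k + 1)) ω := by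
      intro ω
      have e1 : A P 𝓕 x' U k = pm P (𝓕.F k) (x' (k + 1)) (A P 𝓕 x' U (k + 1)) :=
        A_step hP hx'.pos U k
      have e2 : A P 𝓕 x U k = pm P (𝓕.F k) (x (k + 1)) (A P 𝓕 x U (k + 1)) :=
        A_step hP hx.pos U k
      have g1 := pm_sub_le (r := 𝓕.F k) hP (hx'.pos (k + 1)) (A P 𝓕 x U (k + 1))
        (A P 𝓕 x' U (k + 1)) ω
      have g2 := pm_expo_le (r := 𝓕.F k) hP (hx.pos (k + 1)) (hle (k + 1) (by omega))
        (hx'.le_one _) (hA (k + 1)) ω
      have g3 : cE P (𝓕.F k) (fun ω => M (k + 1) ω *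
          (A P 𝓕 x' U (k + 1) ω - A P 𝓕 x U (k + 1) ω)) ω =
          M k ω * cE P (𝓕.F k) (fun b => Real.exp (x' (k + 1) *
            (A P 𝓕 x' U (k + 1) b - pm P (𝓕.F k) (x' (k + 1)) (A P 𝓕 x' U (k + 1)) b)) *
              (A P 𝓕 x' U (k + 1) b - A P 𝓕 x U (k + 1) b)) ω := by
        rw [← cE_mul_left (hMmeas k)]
        congr 1
        funext c
        rw [hMsucc k hk, e1]
        ring
      have g4 : M k ω * ((x' (k + 1) - x (k + 1)) * Real.exp (2 * a) *
          cVar P (𝓕.F k) (A P 𝓕 x U (k + 1)) ω) ≤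
          (δ * Real.exp (4 * a)) * cVar P (𝓕.F k) (A P 𝓕 x U (k + 1)) ω := by
        have hv := cVar_nonneg hP (𝓕.F k) (A P 𝓕 x U (k + 1)) ω
        have hd0 : 0 ≤ x' (k + 1) - x (k + 1) := by linarith [hle (k + 1) (by omega)]
        have hd1 : x' (k + 1) - x (k + 1) ≤ δ := by linarith [hδ (k + 1) (by omega)]
        have he : Real.exp (4 * a) = Real.exp (2 * a) * Real.exp (2 * a) := by
          rw [← Real.exp_add]; congr 1; ring
        calc M k ω * ((x' (k + 1) - x (k + 1)) * Real.exp (2 * a) *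
              cVar P (𝓕.F k) (A P 𝓕 x U (k + 1)) ω)
            ≤ Real.exp (2 * a) * ((x' (k + 1) - x (k + 1)) * Real.exp (2 * a) *
              cVar P (𝓕.F k) (A P 𝓕 x U (k + 1)) ω) :=
              mul_le_mul_of_nonneg_right (hMle k hk ω) (by positivity)
          _ ≤ Real.exp (2 * a) * (δ * Real.exp (2 * a) *
              cVar P (𝓕.F k) (A P 𝓕 x U (k + 1)) ω) := by
              apply mul_le_mul_of_nonneg_left _ (Real.exp_pos _).le
              apply mul_le_mul_of_nonneg_right _ hv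
              exact mul_le_mul_of_nonneg_right hd1 (Real.exp_pos _).le
          _ = (δ * Real.exp (4 * a)) * cVar P (𝓕.F k) (A P 𝓕 x U (k + 1)) ω := by
              rw [he]; ring
      have g5 : A P 𝓕 x' U k ω - A P 𝓕 x U k ω ≤
          cE P (𝓕.F k) (fun b => Real.exp (x' (k + 1) *
            (A P 𝓕 x' U (k + 1) b - pm P (𝓕.F k) (x' (k + 1)) (A P 𝓕 x' U (k + 1)) b)) *
              (A P 𝓕 x' U (k + 1) b - A P 𝓕 x U (k + 1) b)) ω +
          (x' (k + 1) - x (k + 1)) * Real.exp (2 * a) *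
            cVar P (𝓕.F k) (A P 𝓕 x U (k + 1)) ω := by
        have f1 := congrFun e1 ω
        have f2 := congrFun e2 ω
        rw [f1, f2]; linarith
      have g6 := mul_le_mul_of_nonneg_left g5 (hMpos k ω).le
      rw [mul_add, ← g3] at g6
      linarith
    have h2 := eE_mono hP h1
    rw [eE_add, eE_cE hP, eE_smul] at h2
    exact h2
  have hsum : ∀ n, b k₀ ≤ b (k₀ + n) +
      (δ * Real.exp (4 * a)) *
        ∑ l ∈ Ico k₀ (k₀ + n), eE P (cVar P (𝓕.F l) (A P 𝓕 x U (l + 1))) := by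
    intro n
    induction n with
    | zero => simp
    | succ n ih =>
      rw [← add_assoc, Finset.sum_Ico_succ_top (by omega : k₀ ≤ k₀ + n)]
      have := hstep (k₀ + n) (by omega)
      rw [mul_add]
      linarith
  have h0 : b k₀ = eE P (fun ω => A P 𝓕 x' U k₀ ω - A P 𝓕 x U k₀ ω) := by
    simp only [hb, hM]
    congr 1
    funext ω
    simp [S]
  have hend : b (k₀ + 𝓕.L) = 0 := by
    simp only [hb]
    have : (fun ω => M (k₀ + 𝓕.L) ω *
        (A P 𝓕 x' U (k₀ + 𝓕.L) ω - A P 𝓕 x U (k₀ + 𝓕.L) ω)) = fun _ => 0 := by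
      funext ω
      rw [A_of_ge U (by omega), A_of_ge U (by omega), sub_self, mul_zero]
    rw [this]
    simp [eE]
  have hfin := hsum 𝓕.L
  rw [h0, hend, zero_add] at hfin
  have hv := sum_cVar_A_le (𝓕 := 𝓕) hP hx hU k₀ (k₀ + 𝓕.L) (by omega)
  calc _ ≤ _ := hfin
    _ ≤ (δ * Real.exp (4 * a)) * (5 * a ^ 2) :=
        mul_le_mul_of_nonneg_left hv (by positivity)
    _ = _ := by ring

theorem isExpo_sup {x x' : ℕ → ℝ} (hx : IsExpo x) (hx' : IsExpo x') :
    IsExpo (fun k => max (x k) (x' k)) where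
  pos k := lt_max_of_lt_left (hx.pos k)
  mono := fun _ _ h => max_le_max (hx.mono h) (hx'.mono h)
  le_one k := max_le (hx.le_one k) (hx'.le_one k)

theorem eE_abs_le_of (hP : IsProb P) {f g h : Ω → ℝ} (h1 : ∀ ω, f ω ≤ h ω) (h2 : ∀ ω, g ω ≤ h ω) :
    eE P (fun ω => |f ω - g ω|) ≤
      eE P (fun ω => h ω - f ω) + eE P (fun ω => h ω - g ω) := by
  rw [← eE_add]
  apply eE_mono hP
  intro ω
  rw [abs_le]
  constructor <;> linarith [h1 ω, h2 ω]

/-- (1g) two-sided exponent change -/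
theorem expChange_abs {𝓕 : Filt Ω} {x x' : ℕ → ℝ} {U : Ω → ℝ}
    (hP : IsProb P) (hx : IsExpo x) (hx' : IsExpo x') {a δ : ℝ} (hU : ∀ ω, |U ω| ≤ a) {k₀ : ℕ}
    (hδ : ∀ k, k₀ < k → |x k - x' k| ≤ δ) (hδ0 : 0 ≤ δ) :
    eE P (fun ω => |A P 𝓕 x U k₀ ω - A P 𝓕 x' U k₀ ω|) ≤
      10 * a ^ 2 * Real.exp (4 * a) * δ := by
  have hx'' := isExpo_sup hx hx'
  have m1 : ∀ k, k₀ < k → x k ≤ max (x k) (x' k) := fun k _ => le_max_left _ _
  have m2 : ∀ k, k₀ < k → x' k ≤ max (x k) (x' k) := fun k _ => le_max_right _ _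
  have d1 : ∀ k, k₀ < k → max (x k) (x' k) ≤ x k + δ := fun k hk => by
    have := abs_le.mp (hδ k hk)
    exact max_le (by linarith) (by linarith)
  have d2 : ∀ k, k₀ < k → max (x k) (x' k) ≤ x' k + δ := fun k hk => by
    have := abs_le.mp (hδ k hk)
    exact max_le (by linarith) (by linarith)
  have e1 := expChange (𝓕 := 𝓕) hP hx hx'' hU m1 d1 hδ0
  have e2 := expChange (𝓕 := 𝓕) hP hx' hx'' hU m2 d2 hδ0
  have e3 := eE_abs_le_of hP
    (A_mono_expo (𝓕 := 𝓕) (U := U) hP hx hx'' m1 k₀ le_rfl)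
    (A_mono_expo (𝓕 := 𝓕) (U := U) hP hx' hx'' m2 k₀ le_rfl)
  linarith

/-- one step versus the conditional expectation -/
theorem pm_sub_cE_le (hP : IsProb P) {x a : ℝ} (hx : 0 < x) (hx1 : x ≤ 1)
    {f : Ω → ℝ} (hf : ∀ b, |f b| ≤ a) (ω : Ω) :
    pm P r x f ω - cE P r f ω ≤ x * Real.exp (2 * a) * cVar P r f ω := by
  set c := cE P r f ω with hc
  set V := cVar P r f ω with hV
  have hV0 : 0 ≤ V := cVar_nonneg hP r f ω
  have hca : |c| ≤ a := abs_cE_le_of_le hP hf ω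
  have key : ∀ b, r ω b → Real.exp (x * (f b - c)) ≤
      1 + x * (f b - c) + x ^ 2 * Real.exp (2 * a) * (f b - cE P r f b) ^ 2 := by
    intro b hb
    have hcb : cE P r f b = c := (cE_meas P r f ω b hb).symm
    rw [hcb]
    set u := f b - c with hu
    have hu2 : |u| ≤ 2 * a := by
      rw [hu]
      have := abs_sub (f b) c
      linarith [hf b]
    have e2 := exp_sub_one_sub_le (x * u)
    have e4 : (x * u) ^ 2 * Real.exp |x * u| ≤ x ^ 2 * Real.exp (2 * a) * u ^ 2 := by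
      have : Real.exp |x * u| ≤ Real.exp (2 * a) := by
        rw [Real.exp_le_exp, abs_mul, abs_of_pos hx]
        have : x * |u| ≤ 1 * |u| := mul_le_mul_of_nonneg_right hx1 (abs_nonneg u)
        linarith
      calc (x * u) ^ 2 * Real.exp |x * u| ≤ (x * u) ^ 2 * Real.exp (2 * a) :=
            mul_le_mul_of_nonneg_left this (sq_nonneg _)
        _ = _ := by ring
    linarith
  have h2 := cE_mono hP ω key
  rw [cE_add, cE_add, cE_smul, cE_smul, cE_sub, cE_const hP, cE_const hP,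
    ← exp_pm_sub hP hx] at h2
  have hV' : cE P r (fun b => (f b - cE P r f b) ^ 2) ω = V := rfl
  rw [hV', ← hc, sub_self, mul_zero, add_zero] at h2
  have h3 := Real.add_one_le_exp (x * (pm P r x f ω - c))
  have h4 : x * (pm P r x f ω - c) ≤ x * (x * Real.exp (2 * a) * V) := by
    nlinarith
  exact le_of_mul_le_mul_left h4 hx

/-- low part: exponents up to `t` are at most `δ` -/
theorem A_low {𝓕 : Filt Ω} {x : ℕ → ℝ} {U : Ω → ℝ}
    (hP : IsProb P) (hx : IsExpo x) {a δ : ℝ} (hU : ∀ ω, |U ω| ≤ a)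
    {k t : ℕ} (hkt : k ≤ t) (hδ : ∀ l, l ≤ t → x l ≤ δ) (hδ0 : 0 ≤ δ) :
    |eE P (A P 𝓕 x U k) - eE P (A P 𝓕 x U t)| ≤ 5 * a ^ 2 * Real.exp (2 * a) * δ := by
  have hA := A_abs_le (𝓕 := 𝓕) hP hx.pos hU
  have hstep : ∀ l, l < t → eE P (A P 𝓕 x U l) - eE P (A P 𝓕 x U (l + 1)) ≤
      (δ * Real.exp (2 * a)) * eE P (cVar P (𝓕.F l) (A P 𝓕 x U (l + 1))) := by
    intro l hl
    have h1 : ∀ ω, A P 𝓕 x U l ω - cE P (𝓕.F l) (A P 𝓕 x U (l + 1)) ω ≤
        (δ * Real.exp (2 * a)) * cVar P (𝓕.F l) (A P 𝓕 x U (l + 1)) ω := by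
      intro ω
      have e1 := congrFun (A_step (𝓕 := 𝓕) hP hx.pos U l) ω
      rw [e1]
      refine (pm_sub_cE_le hP (hx.pos _) (hx.le_one _) (hA (l + 1)) ω).trans ?_
      apply mul_le_mul_of_nonneg_right _ (cVar_nonneg hP _ _ _)
      exact mul_le_mul_of_nonneg_right (hδ _ (by omega)) (Real.exp_pos _).le
    have h2 := eE_mono hP h1
    rw [eE_sub, eE_cE hP, eE_smul] at h2
    exact h2
  have hge : ∀ l, eE P (A P 𝓕 x U (l + 1)) ≤ eE P (A P 𝓕 x U l) := by
    intro l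
    rw [← eE_cE hP (𝓕.F l) (A P 𝓕 x U (l + 1))]
    exact eE_mono hP (A_super hP hx.pos U (Nat.le_succ l))
  have hsum : ∀ n, k + n ≤ t → eE P (A P 𝓕 x U k) - eE P (A P 𝓕 x U (k + n)) ≤
      (δ * Real.exp (2 * a)) *
        ∑ l ∈ Ico k (k + n), eE P (cVar P (𝓕.F l) (A P 𝓕 x U (l + 1))) ∧
      eE P (A P 𝓕 x U (k + n)) ≤ eE P (A P 𝓕 x U k) := by
    intro n
    induction n with
    | zero => intro _; simp
    | succ n ih =>
      intro hn
      rw [← add_assoc, Finset.sum_Ico_succ_top (by omega : k ≤ k + n), mul_add]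
      have h1 := hstep (k + n) (by omega)
      have h2 := ih (by omega)
      have h3 := hge (k + n)
      constructor
      · linarith [h2.1]
      · linarith [h2.2]
  obtain ⟨n, rfl⟩ : ∃ n, t = k + n := ⟨t - k, by omega⟩
  have h1 := hsum n le_rfl
  have hv := sum_cVar_A_le (𝓕 := 𝓕) hP hx hU k (k + n) (by omega)
  rw [abs_of_nonneg (by linarith [h1.2])]
  calc _ ≤ _ := h1.1
    _ ≤ (δ * Real.exp (2 * a)) * (5 * a ^ 2) :=
        mul_le_mul_of_nonneg_left hv (by positivity)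
    _ = _ := by ring

end

end Crest.Agent.R141.Exch
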