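import Crest.Agent.R141.HierE

/-!
Row 141 (S0192), Part L, Section 1 (1a)-(1d): the hierarchical log-functional `A` (LOG FORM:
`U = log W`), path sums `S`, tilted law `tl`, cocycle identity, Abel bounds, density bounds, collapse.
-/

set_option autoImplicit false

namespace Crest.Agent.R141

open Finset

noncomputable section

variable {Ω : Type*} [Fintype Ω]

/-! ### conditional expectations as weighted sums -/

theorem cE_weights {P : Ω → ℝ} (hP : IsProb P) (r : Setoid Ω) (ω : Ω) :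
    ∃ (t : Finset Ω) (w : Ω → ℝ), (∀ i ∈ t, 0 < w i) ∧ ∑ i ∈ t, w i = 1 ∧ (∀ i ∈ t, r ω i) ∧
      ∀ f : Ω → ℝ, cE P r f ω = ∑ i ∈ t, w i * f i := by
  classical
  refine ⟨univ.filter (fun a => r ω a),
    fun a => P a / ∑ ω' ∈ univ.filter (fun ω' => r ω ω'), P ω', ?_, ?_, ?_, ?_⟩
  · intro i _; exact div_pos (hP.pos i) (cls_pos hP r ω)
  · rw [← Finset.sum_div]; exact div_self (cls_pos hP r ω).ne'
  · intro i hi; simpa using hi
  · intro f
    unfold cE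
    rw [Finset.sum_div]
    exact Finset.sum_congr rfl fun i _ => by ring

/-- conditional Cauchy-Schwarz -/
theorem cE_mul_sq_le {P : Ω → ℝ} (hP : IsProb P) (r : Setoid Ω) (f g : Ω → ℝ) (ω : Ω) :
    (cE P r (fun a => f a * g a) ω) ^ 2 ≤
      cE P r (fun a => f a ^ 2) ω * cE P r (fun a => g a ^ 2) ω := by
  obtain ⟨t, w, hw, -, -, h⟩ := cE_weights hP r ω
  rw [h, h, h]
  have h2 := Finset.sum_mul_sq_le_sq_mul_sq t
    (fun i => Real.sqrt (w i) * f i) (fun i => Real.sqrt (w i) * g i)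
  have e1 : ∑ i ∈ t, Real.sqrt (w i) * f i * (Real.sqrt (w i) * g i) =
      ∑ i ∈ t, w i * (f i * g i) := Finset.sum_congr rfl fun i hi => by
    rw [show Real.sqrt (w i) * f i * (Real.sqrt (w i) * g i) =
      (Real.sqrt (w i) * Real.sqrt (w i)) * (f i * g i) by ring, Real.mul_self_sqrt (hw i hi).le]
  have e2 : ∀ u : Ω → ℝ, ∑ i ∈ t, (Real.sqrt (w i) * u i) ^ 2 = ∑ i ∈ t, w i * u i ^ 2 :=
    fun u => Finset.sum_congr rfl fun i hi => by rw [mul_pow, Real.sq_sqrt (hw i hi).le]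
  rw [e1, e2, e2] at h2
  exact h2

/-- conditional Jensen for the square -/
theorem cE_sq_le {P : Ω → ℝ} (hP : IsProb P) (r : Setoid Ω) (f : Ω → ℝ) (ω : Ω) :
    (cE P r f ω) ^ 2 ≤ cE P r (fun a => f a ^ 2) ω := by
  have h := cE_mul_sq_le hP r f (fun _ => 1) ω
  simp only [mul_one, one_pow] at h
  rwa [cE_const hP, mul_one] at h

/-- conditional Jensen for `exp` -/
theorem exp_cE_le {P : Ω → ℝ} (hP : IsProb P) (r : Setoid Ω) (f : Ω → ℝ) (ω : Ω) :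
    Real.exp (cE P r f ω) ≤ cE P r (fun a => Real.exp (f a)) ω := by
  obtain ⟨t, w, hw, hs, -, h⟩ := cE_weights hP r ω
  rw [h, h]
  have := convexOn_exp.map_sum_le (t := t) (w := w) (p := f) (fun i hi => (hw i hi).le) hs
    (fun i _ => Set.mem_univ _)
  simpa [smul_eq_mul] using this

omit [Fintype Ω] in
theorem Filt.anti' (𝓕 : Filt Ω) {k l : ℕ} (h : k ≤ l) : 𝓕.F l ≤ 𝓕.F k := by
  induction l, h using Nat.le_induction with
  | base => exact le_refl _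
  | succ n _ ih => exact (𝓕.anti n).trans ih

theorem eE_abs_le {P : Ω → ℝ} (hP : IsProb P) (f : Ω → ℝ) :
    |eE P f| ≤ eE P (fun a => |f a|) := by
  unfold eE
  refine (Finset.abs_sum_le_sum_abs _ _).trans (Finset.sum_le_sum fun ω _ => ?_)
  rw [abs_mul, abs_of_pos (hP.pos ω)]

theorem eE_le_of_le {P : Ω → ℝ} (hP : IsProb P) {f : Ω → ℝ} {c : ℝ} (h : ∀ a, f a ≤ c) :
    eE P f ≤ c := by
  have := eE_mono hP (g := fun _ => c) h
  rwa [eE_const hP] at this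

/-! ### power means -/

/-- log-form power mean `(1/x) log E_r exp (x f)`. -/
def pm (P : Ω → ℝ) (r : Setoid Ω) (x : ℝ) (f : Ω → ℝ) (ω : Ω) : ℝ :=
  (1 / x) * Real.log (cE P r (fun a => Real.exp (x * f a)) ω)

theorem exp_pm {P : Ω → ℝ} (hP : IsProb P) (r : Setoid Ω) {x : ℝ} (hx : 0 < x) (f : Ω → ℝ)
    (ω : Ω) : Real.exp (x * pm P r x f ω) = cE P r (fun a => Real.exp (x * f a)) ω := by
  unfold pm
  rw [← mul_assoc, mul_one_div_cancel hx.ne', one_mul, Real.exp_log]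
  exact cE_pos hP (fun _ => Real.exp_pos _) ω

theorem pm_meas (P : Ω → ℝ) (r : Setoid Ω) (x : ℝ) (f : Ω → ℝ) : RMeas r (pm P r x f) := by
  intro a b h
  unfold pm
  rw [cE_meas P r _ a b h]

theorem pm_mono {P : Ω → ℝ} (hP : IsProb P) {r : Setoid Ω} {x : ℝ} (hx : 0 < x) {f g : Ω → ℝ}
    (ω : Ω) (h : ∀ a, r ω a → f a ≤ g a) : pm P r x f ω ≤ pm P r x g ω := by
  unfold pm
  apply mul_le_mul_of_nonneg_left _ (by positivity)
  apply Real.log_le_log (cE_pos hP (fun _ => Real.exp_pos _) ω)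
  exact cE_mono hP ω fun a ha => Real.exp_le_exp.mpr (mul_le_mul_of_nonneg_left (h a ha) hx.le)

theorem pm_add_meas {P : Ω → ℝ} (hP : IsProb P) {r : Setoid Ω} {x : ℝ} (hx : 0 < x)
    (f : Ω → ℝ) {c : Ω → ℝ} (hc : RMeas r c) (ω : Ω) :
    pm P r x (fun a => f a + c a) ω = pm P r x f ω + c ω := by
  unfold pm
  have h1 : cE P r (fun a => Real.exp (x * (f a + c a))) ω =
      Real.exp (x * c ω) * cE P r (fun a => Real.exp (x * f a)) ω := by
    rw [← cE_mul_left (P := P) (r := r) (g := fun a => Real.exp (x * c a))]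
    · congr 1; funext a; rw [← Real.exp_add]; ring_nf
    · intro a b h; simp only [hc a b h]
  rw [h1, Real.log_mul (Real.exp_pos _).ne' (cE_pos hP (fun _ => Real.exp_pos _) ω).ne',
    Real.log_exp]
  field_simp
  ring

theorem pm_const {P : Ω → ℝ} (hP : IsProb P) (r : Setoid Ω) {x : ℝ} (hx : 0 < x)
    (c : ℝ) (ω : Ω) : pm P r x (fun _ => c) ω = c := by
  unfold pm
  rw [cE_const hP, Real.log_exp]; field_simp

theorem pm_of_meas {P : Ω → ℝ} (hP : IsProb P) {r : Setoid Ω} {x : ℝ} (hx : 0 < x)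
    {f : Ω → ℝ} (hf : RMeas r f) (ω : Ω) : pm P r x f ω = f ω := by
  have h := pm_add_meas hP hx (fun _ => (0 : ℝ)) hf ω
  rw [pm_const hP r hx] at h
  simpa using h

theorem cE_le_pm {P : Ω → ℝ} (hP : IsProb P) (r : Setoid Ω) {x : ℝ} (hx : 0 < x)
    (f : Ω → ℝ) (ω : Ω) : cE P r f ω ≤ pm P r x f ω := by
  have h := exp_cE_le hP r (fun a => x * f a) ω
  rw [← exp_pm hP r hx, Real.exp_le_exp, cE_smul] at h
  exact le_of_mul_le_mul_left h hx

/-- power means increase with the exponent -/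
theorem pm_le_pm {P : Ω → ℝ} (hP : IsProb P) (r : Setoid Ω) {x y : ℝ} (hx : 0 < x) (hxy : x ≤ y)
    (f : Ω → ℝ) (ω : Ω) : pm P r x f ω ≤ pm P r y f ω := by
  have hy : 0 < y := lt_of_lt_of_le hx hxy
  obtain ⟨t, w, hw, hs, -, h⟩ := cE_weights hP r ω
  have h1 := Real.rpow_arith_mean_le_arith_mean_rpow t w (fun i => Real.exp (x * f i))
    (fun i hi => (hw i hi).le) hs (fun i _ => (Real.exp_pos _).le) (p := y / x)
    (by rw [le_div_iff₀ hx]; linarith)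
  rw [← h] at h1
  have e1 : ∀ i, Real.exp (x * f i) ^ (y / x) = Real.exp (y * f i) := by
    intro i; rw [← Real.exp_mul]; congr 1; field_simp
  simp only [e1] at h1
  rw [← h, ← exp_pm hP r hx, ← exp_pm hP r hy, ← Real.exp_mul, Real.exp_le_exp] at h1
  have e2 : x * pm P r x f ω * (y / x) = y * pm P r x f ω := by field_simp
  rw [e2] at h1
  exact le_of_mul_le_mul_left h1 hy

/-- conditional power mean of power mean, same exponent: tower. -/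
theorem pm_tower {P : Ω → ℝ} (hP : IsProb P) {r s : Setoid Ω} (hrs : s ≤ r) {x : ℝ} (hx : 0 < x)
    (f : Ω → ℝ) (ω : Ω) : pm P r x (pm P s x f) ω = pm P r x f ω := by
  unfold pm
  congr 2
  rw [← cE_tower hP hrs (fun a => Real.exp (x * f a)) ω]
  congr 1
  funext a
  exact exp_pm hP s hx f a

/-! ### the hierarchical functional -/

/-- `A` in backward time. -/
def Ab (P : Ω → ℝ) (𝓕 : Filt Ω) (x : ℕ → ℝ) (U : Ω → ℝ) : ℕ → Ω → ℝ
  | 0 => U
  | j + 1 => pm P (𝓕.F (𝓕.L - (j + 1))) (x (𝓕.L - j)) (Ab P 𝓕 x U j)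

/-- The hierarchical log-functional: `A_L = U`, `A_k = (1/x_{k+1}) log E_k exp (x_{k+1} A_{k+1})`. -/
def A (P : Ω → ℝ) (𝓕 : Filt Ω) (x : ℕ → ℝ) (U : Ω → ℝ) (k : ℕ) : Ω → ℝ :=
  Ab P 𝓕 x U (𝓕.L - k)

variable {P : Ω → ℝ} {𝓕 : Filt Ω} {x : ℕ → ℝ}

theorem A_of_ge (U : Ω → ℝ) {k : ℕ} (h : 𝓕.L ≤ k) : A P 𝓕 x U k = U := by
  unfold A
  rw [Nat.sub_eq_zero_of_le h]; rfl

theorem A_step_lt (U : Ω → ℝ) {k : ℕ} (h : k < 𝓕.L) :
    A P 𝓕 x U k = pm P (𝓕.F k) (x (k + 1)) (A P 𝓕 x U (k + 1)) := by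
  unfold A
  obtain ⟨j, hj⟩ : ∃ j, 𝓕.L - k = j + 1 := ⟨𝓕.L - k - 1, by omega⟩
  have h1 : 𝓕.L - (k + 1) = j := by omega
  have h2 : 𝓕.L - (j + 1) = k := by omega
  have h3 : 𝓕.L - j = k + 1 := by omega
  rw [hj, h1]
  show pm P (𝓕.F (𝓕.L - (j + 1))) (x (𝓕.L - j)) (Ab P 𝓕 x U j) = _
  rw [h2, h3]

omit [Fintype Ω] in
theorem rmeas_bot (f : Ω → ℝ) : RMeas (⊥ : Setoid Ω) f := by
  intro a b h
  have : a = b := h
  rw [this]

omit [Fintype Ω] in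
theorem rmeas_of_ge {k : ℕ} (h : 𝓕.L ≤ k) (f : Ω → ℝ) : RMeas (𝓕.F k) f := by
  rw [𝓕.bot k h]; exact rmeas_bot f

/-- the recursion holds at every `k` -/
theorem A_step (hP : IsProb P) (hx : ∀ k, 0 < x k) (U : Ω → ℝ) (k : ℕ) :
    A P 𝓕 x U k = pm P (𝓕.F k) (x (k + 1)) (A P 𝓕 x U (k + 1)) := by
  rcases lt_or_ge k 𝓕.L with h | h
  · exact A_step_lt U h
  · rw [A_of_ge U h, A_of_ge U (h.trans (Nat.le_succ k))]
    funext ω
    exact (pm_of_meas hP (hx _) (rmeas_of_ge h U) ω).symm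

omit [Fintype Ω] in
/-- backward induction -/
theorem back_induction (𝓕 : Filt Ω) {Q : ℕ → Prop} (h0 : ∀ k, 𝓕.L ≤ k → Q k)
    (h1 : ∀ k, Q (k + 1) → Q k) (k : ℕ) : Q k := by
  by_cases hk : 𝓕.L ≤ k
  · exact h0 k hk
  · push Not at hk
    have : ∀ j, j ≤ 𝓕.L → Q (𝓕.L - j) := by
      intro j
      induction j with
      | zero => intro _; exact h0 _ (by simp)
      | succ n ih =>
        intro hn
        apply h1
        have : 𝓕.L - (n + 1) + 1 = 𝓕.L - n := by omega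
        rw [this]; exact ih (by omega)
    have h2 := this (𝓕.L - k) (by omega)
    have h3 : 𝓕.L - (𝓕.L - k) = k := by omega
    rwa [h3] at h2

theorem exp_A_step (hP : IsProb P) (hx : ∀ k, 0 < x k) (U : Ω → ℝ) (k : ℕ) (ω : Ω) :
    Real.exp (x (k + 1) * A P 𝓕 x U k ω) =
      cE P (𝓕.F k) (fun w => Real.exp (x (k + 1) * A P 𝓕 x U (k + 1) w)) ω := by
  rw [A_step hP hx U k]
  exact exp_pm hP _ (hx _) _ ω

theorem A_meas (hP : IsProb P) (hx : ∀ k, 0 < x k) (U : Ω → ℝ) (k : ℕ) :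
    RMeas (𝓕.F k) (A P 𝓕 x U k) := by
  rw [A_step hP hx U k]; exact pm_meas _ _ _ _

theorem A_mono (hP : IsProb P) (hx : ∀ k, 0 < x k) {U V : Ω → ℝ} (h : ∀ ω, U ω ≤ V ω) (k : ℕ) :
    ∀ ω, A P 𝓕 x U k ω ≤ A P 𝓕 x V k ω := by
  refine back_induction 𝓕 (Q := fun k => ∀ ω, A P 𝓕 x U k ω ≤ A P 𝓕 x V k ω) ?_ ?_ k
  · intro k hk ω; rw [A_of_ge U hk, A_of_ge V hk]; exact h ω
  · intro k ih ω
    rw [A_step hP hx U k, A_step hP hx V k]
    exact pm_mono hP (hx _) ω fun a _ => ih a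

/-- monotonicity localised on a class -/
theorem A_mono_class (hP : IsProb P) (hx : ∀ k, 0 < x k) {U V : Ω → ℝ} (k : ℕ) :
    ∀ ω, (∀ a, 𝓕.F k ω a → U a ≤ V a) → A P 𝓕 x U k ω ≤ A P 𝓕 x V k ω := by
  refine back_induction 𝓕
    (Q := fun k => ∀ ω, (∀ a, 𝓕.F k ω a → U a ≤ V a) → A P 𝓕 x U k ω ≤ A P 𝓕 x V k ω) ?_ ?_ k
  · intro k hk ω h; rw [A_of_ge U hk, A_of_ge V hk]; exact h ω ((𝓕.F k).refl ω)
  · intro k ih ω h
    rw [A_step hP hx U k, A_step hP hx V k]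
    refine pm_mono hP (hx _) ω fun a ha => ih a fun b hb => h b ?_
    exact (𝓕.F k).trans ha (𝓕.anti k hb)

theorem A_congr_class (hP : IsProb P) (hx : ∀ k, 0 < x k) {U V : Ω → ℝ} (k : ℕ)
    (ω : Ω) (h : ∀ a, 𝓕.F k ω a → U a = V a) : A P 𝓕 x U k ω = A P 𝓕 x V k ω :=
  le_antisymm (A_mono_class hP hx k ω fun a ha => (h a ha).le)
    (A_mono_class hP hx k ω fun a ha => (h a ha).ge)

/-- shift by a function known at time `k0` -/
theorem A_add_meas (hP : IsProb P) (hx : ∀ k, 0 < x k) (U : Ω → ℝ) {c : Ω → ℝ} {k0 : ℕ}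
    (hc : RMeas (𝓕.F k0) c) (k : ℕ) :
    k0 ≤ k → ∀ ω, A P 𝓕 x (fun w => U w + c w) k ω = A P 𝓕 x U k ω + c ω := by
  refine back_induction 𝓕
    (Q := fun k => k0 ≤ k → ∀ ω, A P 𝓕 x (fun w => U w + c w) k ω = A P 𝓕 x U k ω + c ω) ?_ ?_ k
  · intro k hk _ ω; rw [A_of_ge _ hk, A_of_ge _ hk]
  · intro k ih hk ω
    rw [A_step hP hx _ k, A_step hP hx U k]
    have e : A P 𝓕 x (fun w => U w + c w) (k + 1) = fun w => A P 𝓕 x U (k + 1) w + c w := by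
      funext w; exact ih (hk.trans (Nat.le_succ k)) w
    rw [e]
    exact pm_add_meas hP (hx _) _ (hc.mono (𝓕.anti' hk)) ω

theorem A_add_const (hP : IsProb P) (hx : ∀ k, 0 < x k) (U : Ω → ℝ) (c : ℝ) (k : ℕ) (ω : Ω) :
    A P 𝓕 x (fun w => U w + c) k ω = A P 𝓕 x U k ω + c := by
  have := A_add_meas (𝓕 := 𝓕) hP hx U (c := fun _ => c) (k0 := 0) (fun _ _ _ => rfl) k
    (Nat.zero_le _) ω
  simpa using this

theorem A_const (hP : IsProb P) (hx : ∀ k, 0 < x k) (c : ℝ) (k : ℕ) :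
    ∀ ω, A P 𝓕 x (fun _ => c) k ω = c := by
  refine back_induction 𝓕 (Q := fun k => ∀ ω, A P 𝓕 x (fun _ => c) k ω = c) ?_ ?_ k
  · intro k hk ω; rw [A_of_ge _ hk]
  · intro k ih ω
    rw [A_step hP hx _ k]
    have e : A P 𝓕 x (fun _ => c) (k + 1) = fun _ => c := by funext w; exact ih w
    rw [e]; exact pm_const hP _ (hx _) c ω

/-- a function known at time `k` -/
theorem A_of_meas (hP : IsProb P) (hx : ∀ k, 0 < x k) {U : Ω → ℝ} {k : ℕ}
    (hU : RMeas (𝓕.F k) U) (ω : Ω) : A P 𝓕 x U k ω = U ω := by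
  have h := A_add_meas (𝓕 := 𝓕) hP hx (fun _ => (0 : ℝ)) hU k le_rfl ω
  rw [A_const hP hx] at h
  simpa using h

theorem A_le_of_le (hP : IsProb P) (hx : ∀ k, 0 < x k) {U : Ω → ℝ} {c : ℝ} (h : ∀ ω, U ω ≤ c)
    (k : ℕ) (ω : Ω) : A P 𝓕 x U k ω ≤ c := by
  have := A_mono (𝓕 := 𝓕) hP hx (V := fun _ => c) h k ω
  rwa [A_const hP hx] at this

theorem le_A_of_le (hP : IsProb P) (hx : ∀ k, 0 < x k) {U : Ω → ℝ} {c : ℝ} (h : ∀ ω, c ≤ U ω)
    (k : ℕ) (ω : Ω) : c ≤ A P 𝓕 x U k ω := by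
  have := A_mono (𝓕 := 𝓕) hP hx (U := fun _ => c) h k ω
  rwa [A_const hP hx] at this

theorem A_abs_le (hP : IsProb P) (hx : ∀ k, 0 < x k) {U : Ω → ℝ} {a : ℝ} (h : ∀ ω, |U ω| ≤ a)
    (k : ℕ) (ω : Ω) : |A P 𝓕 x U k ω| ≤ a := by
  rw [abs_le]
  exact ⟨le_A_of_le hP hx (fun ω => (abs_le.mp (h ω)).1) k ω,
    A_le_of_le hP hx (fun ω => (abs_le.mp (h ω)).2) k ω⟩

/-- sup-norm Lipschitz -/
theorem A_sub_abs_le (hP : IsProb P) (hx : ∀ k, 0 < x k) {U V : Ω → ℝ} {a : ℝ}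
    (h : ∀ ω, |U ω - V ω| ≤ a) (k : ℕ) (ω : Ω) :
    |A P 𝓕 x U k ω - A P 𝓕 x V k ω| ≤ a := by
  have h1 := A_mono (𝓕 := 𝓕) hP hx (U := U) (V := fun w => V w + a)
    (fun w => by have := (abs_le.mp (h w)).2; linarith) k ω
  have h2 := A_mono (𝓕 := 𝓕) hP hx (U := V) (V := fun w => U w + a)
    (fun w => by have := (abs_le.mp (h w)).1; linarith) k ω
  rw [A_add_const hP hx] at h1 h2
  rw [abs_le]; constructor <;> linarith

/-- supermartingale property, Jensen lower bound -/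
theorem A_super (hP : IsProb P) (hx : ∀ k, 0 < x k) (U : Ω → ℝ) {k l : ℕ} (h : k ≤ l) :
    ∀ ω, cE P (𝓕.F k) (A P 𝓕 x U l) ω ≤ A P 𝓕 x U k ω := by
  induction l, h using Nat.le_induction with
  | base => intro ω; rw [cE_of_meas hP (A_meas hP hx U k)]
  | succ n hn ih =>
    intro ω
    refine le_trans ?_ (ih ω)
    rw [← cE_tower hP (𝓕.anti' hn)]
    apply cE_mono' hP
    intro a
    rw [A_step hP hx U n]
    exact cE_le_pm hP _ (hx _) _ a

theorem cE_le_A (hP : IsProb P) (hx : ∀ k, 0 < x k) (U : Ω → ℝ) (k : ℕ) (ω : Ω) :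
    cE P (𝓕.F k) U ω ≤ A P 𝓕 x U k ω := by
  rcases le_or_gt k 𝓕.L with h | h
  · have := A_super (𝓕 := 𝓕) hP hx U h ω
    rwa [A_of_ge U le_rfl] at this
  · rw [A_of_ge U h.le, cE_of_meas hP (rmeas_of_ge h.le U)]

/-- Jensen upper bound with a common exponent bound `y` -/
theorem A_le_pm (hP : IsProb P) (hx : ∀ k, 0 < x k) {y : ℝ} (U : Ω → ℝ)
    {k l : ℕ} (h : k ≤ l) (hy : ∀ j, k < j → j ≤ l → x j ≤ y) (hy0 : 0 < y) :
    ∀ ω, A P 𝓕 x U k ω ≤ pm P (𝓕.F k) y (A P 𝓕 x U l) ω := by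
  induction l, h using Nat.le_induction with
  | base => intro ω; rw [pm_of_meas hP hy0 (A_meas hP hx U k)]
  | succ n hn ih =>
    intro ω
    refine le_trans (ih (fun j h1 h2 => hy j h1 (h2.trans (Nat.le_succ n))) ω) ?_
    rw [← pm_tower hP (𝓕.anti' hn) hy0 (A P 𝓕 x U (n + 1)) ω]
    apply pm_mono hP hy0 ω
    intro a _
    rw [A_step hP hx U n]
    exact pm_le_pm hP _ (hx _) (hy _ (by omega) le_rfl) _ a

theorem A_le_log (hP : IsProb P) (hx : IsExpo x) (U : Ω → ℝ) (k : ℕ) (ω : Ω) :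
    A P 𝓕 x U k ω ≤ Real.log (cE P (𝓕.F k) (fun w => Real.exp (U w)) ω) := by
  rcases le_or_gt k 𝓕.L with h | h
  · have := A_le_pm (𝓕 := 𝓕) hP hx.pos U h (fun j _ _ => hx.le_one j) one_pos ω
    rw [A_of_ge U le_rfl] at this
    simpa [pm] using this
  · rw [A_of_ge U h.le, cE_of_meas hP (rmeas_of_ge h.le _), Real.log_exp]

/-- collapse of a block of equal exponents -/
theorem A_collapse (hP : IsProb P) (hx : ∀ k, 0 < x k) {y : ℝ} (hy0 : 0 < y) (U : Ω → ℝ)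
    {k l : ℕ} (h : k ≤ l) (hy : ∀ j, k < j → j ≤ l → x j = y) :
    ∀ ω, A P 𝓕 x U k ω = pm P (𝓕.F k) y (A P 𝓕 x U l) ω := by
  induction l, h using Nat.le_induction with
  | base => intro ω; rw [pm_of_meas hP hy0 (A_meas hP hx U k)]
  | succ n hn ih =>
    intro ω
    rw [ih (fun j h1 h2 => hy j h1 (h2.trans (Nat.le_succ n))) ω,
      ← pm_tower hP (𝓕.anti' hn) hy0 (A P 𝓕 x U (n + 1)) ω]
    congr 1
    rw [A_step hP hx U n, hy (n + 1) (by omega) le_rfl]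

/-! ### path sums and the tilted law -/

/-- path sum `∑_{l=k+1}^{m} x_l (A_l - A_{l-1})`. -/
def S (P : Ω → ℝ) (𝓕 : Filt Ω) (x : ℕ → ℝ) (U : Ω → ℝ) (k m : ℕ) (ω : Ω) : ℝ :=
  ∑ l ∈ Ico k m, x (l + 1) * (A P 𝓕 x U (l + 1) ω - A P 𝓕 x U l ω)

/-- the tilted law `P^U`. -/
def tl (P : Ω → ℝ) (𝓕 : Filt Ω) (x : ℕ → ℝ) (U : Ω → ℝ) (ω : Ω) : ℝ :=
  P ω * Real.exp (S P 𝓕 x U 0 𝓕.L ω)

theorem S_self (U : Ω → ℝ) (k : ℕ) (ω : Ω) : S P 𝓕 x U k k ω = 0 := by simp [S]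

theorem S_succ (U : Ω → ℝ) {k m : ℕ} (h : k ≤ m) (ω : Ω) :
    S P 𝓕 x U k (m + 1) ω =
      S P 𝓕 x U k m ω + x (m + 1) * (A P 𝓕 x U (m + 1) ω - A P 𝓕 x U m ω) := by
  unfold S; rw [Finset.sum_Ico_succ_top h]

theorem S_add (U : Ω → ℝ) {k l m : ℕ} (h : k ≤ l) (h' : l ≤ m) (ω : Ω) :
    S P 𝓕 x U k l ω + S P 𝓕 x U l m ω = S P 𝓕 x U k m ω := by
  unfold S; exact Finset.sum_Ico_consecutive _ h h'

theorem S_meas (hP : IsProb P) (hx : ∀ k, 0 < x k) (U : Ω → ℝ) (k m : ℕ) :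
    RMeas (𝓕.F m) (S P 𝓕 x U k m) := by
  intro a b h
  unfold S
  refine Finset.sum_congr rfl fun l hl => ?_
  rw [Finset.mem_Ico] at hl
  rw [(A_meas hP hx U (l + 1)).mono (𝓕.anti' (by omega)) a b h,
    (A_meas hP hx U l).mono (𝓕.anti' (by omega)) a b h]

theorem S_of_ge (U : Ω → ℝ) {k m : ℕ} (hk : 𝓕.L ≤ k) (ω : Ω) : S P 𝓕 x U k m ω = 0 := by
  unfold S
  refine Finset.sum_eq_zero fun l hl => ?_
  rw [Finset.mem_Ico] at hl
  rw [A_of_ge U (by omega), A_of_ge U (by omega)]; ring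

/-- `E_k exp S_{k,m} = 1` -/
theorem cE_exp_S (hP : IsProb P) (hx : ∀ k, 0 < x k) (U : Ω → ℝ) {k m : ℕ} (h : k ≤ m) :
    ∀ ω, cE P (𝓕.F k) (fun w => Real.exp (S P 𝓕 x U k m w)) ω = 1 := by
  induction m, h using Nat.le_induction with
  | base => intro ω; simp only [S_self, Real.exp_zero]; exact cE_const hP _ 1 ω
  | succ n hn ih =>
    intro ω
    rw [← cE_tower hP (𝓕.anti' hn)]
    rw [← ih ω]
    congr 1
    funext a
    have e : (fun w => Real.exp (S P 𝓕 x U k (n + 1) w)) = fun w =>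
        (Real.exp (S P 𝓕 x U k n w) * Real.exp (-(x (n + 1) * A P 𝓕 x U n w))) *
          Real.exp (x (n + 1) * A P 𝓕 x U (n + 1) w) := by
      funext w
      rw [S_succ U hn, ← Real.exp_add, ← Real.exp_add]; ring_nf
    rw [e, cE_mul_left, ← exp_A_step hP hx]
    · rw [mul_assoc, ← Real.exp_add]; simp
    · intro b c hbc
      simp only [S_meas hP hx U k n b c hbc, A_meas hP hx U n b c hbc]

theorem tl_pos (hP : IsProb P) (U : Ω → ℝ) (ω : Ω) : 0 < tl P 𝓕 x U ω :=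
  mul_pos (hP.pos ω) (Real.exp_pos _)

theorem tl_isProb (hP : IsProb P) (hx : ∀ k, 0 < x k) (U : Ω → ℝ) : IsProb (tl P 𝓕 x U) := by
  refine ⟨fun ω => tl_pos hP U ω, ?_⟩
  have h1 : ∑ ω, tl P 𝓕 x U ω = eE P (fun w => Real.exp (S P 𝓕 x U 0 𝓕.L w)) := rfl
  rw [h1, ← eE_cE hP (𝓕.F 0)]
  have h2 : cE P (𝓕.F 0) (fun w => Real.exp (S P 𝓕 x U 0 𝓕.L w)) = fun _ => 1 := by
    funext ω; exact cE_exp_S hP hx U (Nat.zero_le _) ω
  rw [h2, eE_const hP]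

/-- change of measure for conditional expectations -/
theorem cE_density (hP : IsProb P) (r : Setoid Ω) (ρ f : Ω → ℝ) (ω : Ω) :
    cE (fun w => P w * ρ w) r f ω = cE P r (fun w => ρ w * f w) ω / cE P r ρ ω := by
  classical
  unfold cE
  rw [div_div_div_cancel_right₀ (cls_pos hP r ω).ne']
  congr 1
  exact Finset.sum_congr rfl fun i _ => by ring

theorem cE_tl' (hP : IsProb P) (hx : ∀ k, 0 < x k) (U f : Ω → ℝ) {k : ℕ} (hk : k ≤ 𝓕.L) (ω : Ω) :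
    cE (tl P 𝓕 x U) (𝓕.F k) f ω =
      cE P (𝓕.F k) (fun w => Real.exp (S P 𝓕 x U k 𝓕.L w) * f w) ω := by
  have h0 : tl P 𝓕 x U = fun w => P w * Real.exp (S P 𝓕 x U 0 𝓕.L w) := rfl
  rw [h0, cE_density hP]
  have e1 : ∀ g : Ω → ℝ, cE P (𝓕.F k) (fun w => Real.exp (S P 𝓕 x U 0 𝓕.L w) * g w) ω =
      Real.exp (S P 𝓕 x U 0 k ω) *
        cE P (𝓕.F k) (fun w => Real.exp (S P 𝓕 x U k 𝓕.L w) * g w) ω := by
    intro g
    rw [← cE_mul_left (P := P) (r := 𝓕.F k) (g := fun w => Real.exp (S P 𝓕 x U 0 k w))]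
    · congr 1; funext w
      rw [← S_add U (Nat.zero_le k) hk, Real.exp_add]; ring
    · intro a b h; simp only [S_meas hP hx U 0 k a b h]
  have e2 := e1 f
  have e3 := e1 (fun _ => 1)
  simp only [mul_one] at e3
  rw [e2, e3, cE_exp_S hP hx U hk, mul_one, mul_comm,
    mul_div_assoc, div_self (Real.exp_pos _).ne', mul_one]

/-- conditional expectation under the tilt (all `k`) -/
theorem cE_tl (hP : IsProb P) (hx : ∀ k, 0 < x k) (U f : Ω → ℝ) (k : ℕ) (ω : Ω) :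
    cE (tl P 𝓕 x U) (𝓕.F k) f ω =
      cE P (𝓕.F k) (fun w => Real.exp (S P 𝓕 x U k 𝓕.L w) * f w) ω := by
  rcases le_or_gt k 𝓕.L with h | h
  · exact cE_tl' hP hx U f h ω
  · rw [cE_of_meas (tl_isProb hP hx U) (rmeas_of_ge h.le f), cE_of_meas hP (rmeas_of_ge h.le _),
      S_of_ge U h.le]; simp

/-- for a function known at time `m` only the path sum up to `m` matters -/
theorem cE_tl_meas (hP : IsProb P) (hx : ∀ k, 0 < x k) (U : Ω → ℝ) {f : Ω → ℝ} {k m : ℕ}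
    (hkm : k ≤ m) (hf : RMeas (𝓕.F m) f) (ω : Ω) :
    cE (tl P 𝓕 x U) (𝓕.F k) f ω =
      cE P (𝓕.F k) (fun w => Real.exp (S P 𝓕 x U k m w) * f w) ω := by
  rw [cE_tl hP hx]
  rcases le_or_gt m 𝓕.L with h | h
  · rw [← cE_tower hP (𝓕.anti' hkm)]
    congr 1
    funext a
    have e : (fun w => Real.exp (S P 𝓕 x U k 𝓕.L w) * f w) = fun w =>
        (Real.exp (S P 𝓕 x U k m w) * f w) * Real.exp (S P 𝓕 x U m 𝓕.L w) := by
      funext w; rw [← S_add U hkm h, Real.exp_add]; ring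
    rw [e, cE_mul_left, cE_exp_S hP hx U h, mul_one]
    intro b c hbc
    simp only [S_meas hP hx U k m b c hbc, hf b c hbc]
  · congr 1
    funext w
    rcases le_or_gt k 𝓕.L with h' | h'
    · rw [← S_add U h' h.le w, S_of_ge U le_rfl, add_zero]
    · rw [S_of_ge U h'.le, S_of_ge U h'.le]

/-- expectation under the tilt -/
theorem eE_tl (hP : IsProb P) (hx : ∀ k, 0 < x k) (U : Ω → ℝ) {f : Ω → ℝ} {m : ℕ}
    (hf : RMeas (𝓕.F m) f) :
    eE (tl P 𝓕 x U) f = eE P (fun w => Real.exp (S P 𝓕 x U 0 m w) * f w) := by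
  rcases le_or_gt m 𝓕.L with h | h
  · have e0 : eE (tl P 𝓕 x U) f = eE P (fun w => Real.exp (S P 𝓕 x U 0 𝓕.L w) * f w) := by
      unfold eE tl; exact Finset.sum_congr rfl fun i _ => by ring
    rw [e0, ← eE_cE hP (𝓕.F m)]
    congr 1
    funext a
    have e : (fun w => Real.exp (S P 𝓕 x U 0 𝓕.L w) * f w) = fun w =>
        (Real.exp (S P 𝓕 x U 0 m w) * f w) * Real.exp (S P 𝓕 x U m 𝓕.L w) := by
      funext w; rw [← S_add U (Nat.zero_le m) h, Real.exp_add]; ring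
    rw [e, cE_mul_left, cE_exp_S hP hx U h, mul_one]
    intro b c hbc
    simp only [S_meas hP hx U 0 m b c hbc, hf b c hbc]
  · have e1 : ∀ w, S P 𝓕 x U 0 m w = S P 𝓕 x U 0 𝓕.L w := by
      intro w
      rw [← S_add U (Nat.zero_le 𝓕.L) h.le w, S_of_ge U le_rfl, add_zero]
    simp only [e1]
    unfold eE tl; exact Finset.sum_congr rfl fun i _ => by ring

/-- COCYCLE: `A^P[U+V] = A^P[U] + A^{P^U}[V]` -/
theorem A_cocycle (hP : IsProb P) (hx : ∀ k, 0 < x k) (U V : Ω → ℝ) (k : ℕ) :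
    ∀ ω, A P 𝓕 x (fun w => U w + V w) k ω =
      A P 𝓕 x U k ω + A (tl P 𝓕 x U) 𝓕 x V k ω := by
  refine back_induction 𝓕 (Q := fun k => ∀ ω, A P 𝓕 x (fun w => U w + V w) k ω =
      A P 𝓕 x U k ω + A (tl P 𝓕 x U) 𝓕 x V k ω) ?_ ?_ k
  · intro k hk ω; rw [A_of_ge _ hk, A_of_ge _ hk, A_of_ge _ hk]
  · intro k ih ω
    have hQ := tl_isProb (𝓕 := 𝓕) hP hx U
    have hmeas : RMeas (𝓕.F (k + 1))
        (fun w => Real.exp (x (k + 1) * A (tl P 𝓕 x U) 𝓕 x V (k + 1) w)) := by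
      intro a b h; simp only [A_meas hQ hx V (k + 1) a b h]
    have h1 := exp_A_step (𝓕 := 𝓕) hP hx (fun w => U w + V w) k ω
    have h2 := exp_A_step (𝓕 := 𝓕) hQ hx V k ω
    rw [cE_tl_meas hP hx U (Nat.le_succ k) hmeas] at h2
    have e : (fun w => Real.exp (x (k + 1) * A P 𝓕 x (fun w => U w + V w) (k + 1) w)) = fun w =>
        Real.exp (x (k + 1) * A P 𝓕 x U k w) * (Real.exp (S P 𝓕 x U k (k + 1) w) *
          Real.exp (x (k + 1) * A (tl P 𝓕 x U) 𝓕 x V (k + 1) w)) := by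
      funext w
      rw [ih w, S_succ U le_rfl, S_self, ← Real.exp_add, ← Real.exp_add]; ring_nf
    rw [e, cE_mul_left, ← h2, ← Real.exp_add, Real.exp_eq_exp, ← mul_add] at h1
    · exact mul_left_cancel₀ (hx (k + 1)).ne' h1
    · intro a b h; simp only [A_meas hP hx U k a b h]

theorem S_cocycle (hP : IsProb P) (hx : ∀ k, 0 < x k) (U V : Ω → ℝ) (k m : ℕ) (ω : Ω) :
    S P 𝓕 x (fun w => U w + V w) k m ω = S P 𝓕 x U k m ω + S (tl P 𝓕 x U) 𝓕 x V k m ω := by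
  unfold S
  rw [← Finset.sum_add_distrib]
  refine Finset.sum_congr rfl fun l _ => ?_
  rw [A_cocycle hP hx U V, A_cocycle hP hx U V]; ring

/-- composition of tilts -/
theorem tl_add (hP : IsProb P) (hx : ∀ k, 0 < x k) (U V : Ω → ℝ) :
    tl P 𝓕 x (fun w => U w + V w) = tl (tl P 𝓕 x U) 𝓕 x V := by
  funext ω
  unfold tl
  rw [S_cocycle hP hx U V, Real.exp_add, ← mul_assoc]
  rfl

theorem S_const (hP : IsProb P) (hx : ∀ k, 0 < x k) (c : ℝ) (k m : ℕ) (ω : Ω) :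
    S P 𝓕 x (fun _ => c) k m ω = 0 := by
  unfold S
  refine Finset.sum_eq_zero fun l _ => ?_
  rw [A_const hP hx, A_const hP hx]; ring

theorem tl_const (hP : IsProb P) (hx : ∀ k, 0 < x k) (c : ℝ) :
    tl P 𝓕 x (fun _ => c) = P := by
  funext ω; unfold tl; rw [S_const hP hx]; simp

/-! ### Abel bounds -/

theorem abel_upper {x u : ℕ → ℝ} (hx : IsExpo x) {k m : ℕ} (hkm : k ≤ m) {a : ℝ}
    (h : ∀ l, k ≤ l → l < m → -a ≤ u l) (hm : -a ≤ u m) :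
    ∑ l ∈ Ico k m, x (l + 1) * (u (l + 1) - u l) ≤ x m * (u m + a) := by
  have key : ∀ n, k ≤ n → n ≤ m →
      ∑ l ∈ Ico k n, x (l + 1) * (u (l + 1) - u l) ≤ x n * (u n + a) := by
    intro n hn
    induction n, hn using Nat.le_induction with
    | base =>
      intro hk
      simp only [Finset.Ico_self, Finset.sum_empty]
      have : -a ≤ u k := by
        rcases eq_or_lt_of_le hk with h1 | h1
        · rw [h1]; exact hm
        · exact h k le_rfl h1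
      exact mul_nonneg (hx.pos k).le (by linarith)
    | succ n hn ih =>
      intro hnm
      rw [Finset.sum_Ico_succ_top hn]
      have h1 := ih (by omega)
      have h2 : -a ≤ u n := h n hn (by omega)
      have h3 : x n ≤ x (n + 1) := hx.mono (Nat.le_succ n)
      nlinarith
  exact key m hkm le_rfl

theorem abel_lower {x u : ℕ → ℝ} (hx : IsExpo x) {k m : ℕ} (hkm : k ≤ m) {a : ℝ}
    (h : ∀ l, k ≤ l → l < m → u l ≤ a) (hk : k = m → u m ≤ a) :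
    - (∑ l ∈ Ico k m, x (l + 1) * (u (l + 1) - u l)) ≤ x m * (a - u m) := by
  have key : ∀ n, k ≤ n → n ≤ m →
      - (∑ l ∈ Ico k n, x (l + 1) * (u (l + 1) - u l)) ≤ x n * (a - u n) := by
    intro n hn
    induction n, hn using Nat.le_induction with
    | base =>
      intro hk'
      simp only [Finset.Ico_self, Finset.sum_empty, neg_zero]
      have : u k ≤ a := by
        rcases eq_or_lt_of_le hk' with h1 | h1
        · rw [h1]; exact hk h1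
        · exact h k le_rfl h1
      exact mul_nonneg (hx.pos k).le (by linarith)
    | succ n hn ih =>
      intro hnm
      rw [Finset.sum_Ico_succ_top hn]
      have h1 := ih (by omega)
      have h2 : u n ≤ a := h n hn (by omega)
      have h3 : x n ≤ x (n + 1) := hx.mono (Nat.le_succ n)
      nlinarith
  exact key m hkm le_rfl

theorem abel_abs {x u : ℕ → ℝ} (hx : IsExpo x) {k m : ℕ} (hkm : k ≤ m) {a : ℝ}
    (h : ∀ l, k ≤ l → l ≤ m → |u l| ≤ a) :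
    |∑ l ∈ Ico k m, x (l + 1) * (u (l + 1) - u l)| ≤ 2 * a := by
  have hm := abs_le.mp (h m hkm le_rfl)
  have ha : 0 ≤ a := (abs_nonneg _).trans (h m hkm le_rfl)
  have h1 := abel_upper hx hkm (u := u) (a := a)
    (fun l h1 h2 => (abs_le.mp (h l h1 h2.le)).1) hm.1
  have h2 := abel_lower hx hkm (u := u) (a := a)
    (fun l h1 h2 => (abs_le.mp (h l h1 h2.le)).2) (fun _ => hm.2)
  have hxm := hx.le_one m
  have hxm0 := (hx.pos m).le
  rw [abs_le]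
  constructor <;> nlinarith

theorem S_abs_le (hP : IsProb P) (hx : IsExpo x) {U : Ω → ℝ} {a : ℝ} (h : ∀ ω, |U ω| ≤ a)
    {k m : ℕ} (hkm : k ≤ m) (ω : Ω) : |S P 𝓕 x U k m ω| ≤ 2 * a :=
  abel_abs hx hkm (u := fun l => A P 𝓕 x U l ω) fun l _ _ => A_abs_le hP hx.pos h l ω

/-! ### density bounds -/

theorem tl_le (hP : IsProb P) (hx : IsExpo x) {U : Ω → ℝ} {a : ℝ} (h : ∀ ω, |U ω| ≤ a) (ω : Ω) :
    tl P 𝓕 x U ω ≤ Real.exp (2 * a) * P ω := by
  unfold tl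
  rw [mul_comm]
  exact mul_le_mul_of_nonneg_right
    (Real.exp_le_exp.mpr (abs_le.mp (S_abs_le hP hx h (Nat.zero_le _) ω)).2) (hP.pos ω).le

theorem le_tl (hP : IsProb P) (hx : IsExpo x) {U : Ω → ℝ} {a : ℝ} (h : ∀ ω, |U ω| ≤ a) (ω : Ω) :
    P ω ≤ Real.exp (2 * a) * tl P 𝓕 x U ω := by
  unfold tl
  have h1 : 1 ≤ Real.exp (2 * a) * Real.exp (S P 𝓕 x U 0 𝓕.L ω) := by
    rw [← Real.exp_add, ← Real.exp_zero]
    apply Real.exp_le_exp.mpr
    have := (abs_le.mp (S_abs_le (𝓕 := 𝓕) hP hx h (Nat.zero_le 𝓕.L) ω)).1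
    linarith
  calc P ω = 1 * P ω := (one_mul _).symm
    _ ≤ (Real.exp (2 * a) * Real.exp (S P 𝓕 x U 0 𝓕.L ω)) * P ω :=
      mul_le_mul_of_nonneg_right h1 (hP.pos ω).le
    _ = _ := by ring

theorem eE_tl_le (hP : IsProb P) (hx : IsExpo x) {U : Ω → ℝ} {a : ℝ} (h : ∀ ω, |U ω| ≤ a)
    {f : Ω → ℝ} (hf : ∀ ω, 0 ≤ f ω) :
    eE (tl P 𝓕 x U) f ≤ Real.exp (2 * a) * eE P f := by
  unfold eE
  rw [Finset.mul_sum]
  refine Finset.sum_le_sum fun ω _ => ?_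
  rw [← mul_assoc]
  exact mul_le_mul_of_nonneg_right (tl_le hP hx h ω) (hf ω)

theorem eE_le_tl (hP : IsProb P) (hx : IsExpo x) {U : Ω → ℝ} {a : ℝ} (h : ∀ ω, |U ω| ≤ a)
    {f : Ω → ℝ} (hf : ∀ ω, 0 ≤ f ω) :
    eE P f ≤ Real.exp (2 * a) * eE (tl P 𝓕 x U) f := by
  unfold eE
  rw [Finset.mul_sum]
  refine Finset.sum_le_sum fun ω _ => ?_
  rw [← mul_assoc]
  exact mul_le_mul_of_nonneg_right (le_tl hP hx h ω) (hf ω)

theorem cE_tl_le (hP : IsProb P) (hx : IsExpo x) {U : Ω → ℝ} {a : ℝ} (h : ∀ ω, |U ω| ≤ a)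
    {f : Ω → ℝ} (hf : ∀ ω, 0 ≤ f ω) (k : ℕ) (ω : Ω) :
    cE (tl P 𝓕 x U) (𝓕.F k) f ω ≤ Real.exp (2 * a) * cE P (𝓕.F k) f ω := by
  rw [cE_tl hP hx.pos, ← cE_smul]
  apply cE_mono' hP
  intro w
  refine mul_le_mul_of_nonneg_right (Real.exp_le_exp.mpr ?_) (hf w)
  rcases le_or_gt k 𝓕.L with h' | h'
  · exact (abs_le.mp (S_abs_le hP hx h h' w)).2
  · rw [S_of_ge U h'.le]
    have := (abs_nonneg _).trans (h w)
    linarith

theorem cE_le_tl (hP : IsProb P) (hx : IsExpo x) {U : Ω → ℝ} {a : ℝ} (h : ∀ ω, |U ω| ≤ a)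
    {f : Ω → ℝ} (hf : ∀ ω, 0 ≤ f ω) (k : ℕ) (ω : Ω) :
    cE P (𝓕.F k) f ω ≤ Real.exp (2 * a) * cE (tl P 𝓕 x U) (𝓕.F k) f ω := by
  rw [cE_tl hP hx.pos, ← cE_smul]
  apply cE_mono' hP
  intro w
  have h1 : 1 ≤ Real.exp (2 * a) * Real.exp (S P 𝓕 x U k 𝓕.L w) := by
    rw [← Real.exp_add, ← Real.exp_zero]
    apply Real.exp_le_exp.mpr
    rcases le_or_gt k 𝓕.L with h' | h'
    · have := (abs_le.mp (S_abs_le (𝓕 := 𝓕) hP hx h h' w)).1
      linarith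
    · rw [S_of_ge U h'.le]
      have := (abs_nonneg _).trans (h w)
      linarith
  calc f w = 1 * f w := (one_mul _).symm
    _ ≤ (Real.exp (2 * a) * Real.exp (S P 𝓕 x U k 𝓕.L w)) * f w :=
      mul_le_mul_of_nonneg_right h1 (hf w)
    _ = _ := by ring

end

end Crest.Agent.R141
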