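import Crest.Agent.R141.Bridge36

/-!
Row 141, bridge 3.5 → 3.6, part b: reindexing of the slots, the skeleton exponents
`m_j = j/(J+1)`, and the nonlinearities `fExp` for these exponents.
-/

set_option autoImplicit false

open MeasureTheory

namespace Crest.Agent.R141.Br

open Crest.ProbabilityR.Diluted

/-- Reindexing the slots of the independent-path recursion. -/
theorem thInd_reindex {Om I S S' : Type*} [Fintype Om] [Fintype S] [DecidableEq S]
    [Fintype S'] [DecidableEq S'] (e : S ≃ S')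
    (Kk : ℕ → Om → Om → ℝ) (sg : I → Om → Bool) (f : ℕ → ℝ → ℝ) (W0 : (S → Bool) → ℝ)
    (site : S' → I) (n : ℕ) (w : S' → Om) :
    thInd Kk sg f (fun σ : S' → Bool => W0 (fun l => σ (e l))) site n w =
      thInd Kk sg f W0 (fun l => site (e l)) n (fun l => w (e l)) := by
  induction n generalizing w with
  | zero => rfl
  | succ n ih =>
    simp only [thInd, ih]
    congr 1
    refine Fintype.sum_equiv (Equiv.arrowCongr e (Equiv.refl Om)).symm _ _ fun w' => ?_
    congr 1
    rw [← Equiv.prod_comp e]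
    rfl

/-- The average over the sites of the reindexed recursion. -/
theorem sum_site_reindex {Om I S S' : Type*} [Fintype Om] [Fintype I] [Fintype S] [DecidableEq S]
    [Fintype S'] [DecidableEq S'] (e : S ≃ S')
    (Kk : ℕ → Om → Om → ℝ) (sg : I → Om → Bool) (f : ℕ → ℝ → ℝ) (W0 : (S → Bool) → ℝ)
    (n : ℕ) (w0 : Om) :
    (Fintype.card (S' → I) : ℝ)⁻¹ * ∑ site : S' → I,
      thInd Kk sg f (fun σ : S' → Bool => W0 (fun l => σ (e l))) site n (fun _ => w0) =
    (Fintype.card (S → I) : ℝ)⁻¹ * ∑ site : S → I, thInd Kk sg f W0 site n (fun _ => w0) := by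
  classical
  have hc : Fintype.card (S' → I) = Fintype.card (S → I) :=
    Fintype.card_congr (Equiv.arrowCongr e (Equiv.refl I)).symm
  rw [hc]
  congr 1
  refine Fintype.sum_equiv (Equiv.arrowCongr e (Equiv.refl I)).symm _ _ fun site => ?_
  rw [thInd_reindex]
  rfl

/-- The skeleton exponents `m_{j+1} = (j+1)/(J+1)`. -/
noncomputable def mSk (J : ℕ) (j : ℕ) : ℝ := ((j : ℝ) + 1) / ((J : ℝ) + 1)

theorem mSk_pos (J j : ℕ) : 0 < mSk J j := by unfold mSk; positivity

theorem admissible_mSk (J : ℕ) : AdmissibleExponents (fun d : Fin J => mSk J d) := by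
  refine ⟨fun a b hab => ?_, fun d => ⟨mSk_pos J d, ?_⟩⟩
  · have h : (a : ℕ) < (b : ℕ) := hab
    have h' : ((a : ℕ) : ℝ) < ((b : ℕ) : ℝ) := by exact_mod_cast h
    simp only [mSk]
    rw [div_lt_div_iff_of_pos_right (by positivity)]
    linarith
  · have h : (d : ℕ) < J := d.isLt
    have h' : ((d : ℕ) : ℝ) < (J : ℝ) := by exact_mod_cast h
    unfold mSk
    rw [div_lt_one (by positivity)]
    linarith

theorem mSk_last (J : ℕ) (hJ : 1 ≤ J) : mSk J (J - 1) = (J : ℝ) / ((J : ℝ) + 1) := by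
  unfold mSk
  congr 1
  rw [Nat.cast_sub hJ]
  ring

theorem mSk_ratio (J n : ℕ) (hn : n < J) :
    mSk J (J - n - 1) / mSk J (J - n) = ((J : ℝ) - n) / ((J : ℝ) - n + 1) := by
  unfold mSk
  have h1 : ((J - n - 1 : ℕ) : ℝ) = (J : ℝ) - n - 1 := by
    rw [Nat.cast_sub (by omega), Nat.cast_sub (by omega)]; norm_num
  have h2 : ((J - n : ℕ) : ℝ) = (J : ℝ) - n := by
    rw [Nat.cast_sub (by omega)]
  rw [h1, h2]
  have h3 : (0 : ℝ) < (J : ℝ) + 1 := by positivity
  have h4 : (0 : ℝ) < (J : ℝ) - n + 1 := by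
    have : (n : ℝ) < J := by exact_mod_cast hn
    linarith
  field_simp
  ring

/-- The explicit nonlinearities for the skeleton exponents. -/
theorem fExp_mSk (J : ℕ) (hJ : 1 ≤ J) (n : ℕ) (s : ℝ) :
    fExp J (mSk J) n s = if n = 0 then s ^ ((J : ℝ) / ((J : ℝ) + 1))
      else if n < J then s ^ (((J : ℝ) - n) / ((J : ℝ) - n + 1))
      else ((J : ℝ) + 1) * Real.log s := by
  unfold fExp
  by_cases h0 : n = 0
  · rw [if_pos h0, if_pos h0, mSk_last J hJ]
  · rw [if_neg h0, if_neg h0]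
    by_cases h1 : n < J
    · rw [if_pos h1, if_pos h1, mSk_ratio J n h1]
    · rw [if_neg h1, if_neg h1]
      unfold mSk
      simp

end Crest.Agent.R141.Br
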