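import Mathlib
import Crest.Prelude.Def_DilutedSpinGlass
import Crest.Agent.R141.FactDef

/-!
Row 141, Part L, sections 3.4 + 3.5: multi-site factorization and the polynomial/shape expression
calculus comparing the common-path nested functional with the independent-path one.
-/

set_option autoImplicit false

namespace Crest.Agent.R141.Fact

open Finset
open Crest.ProbabilityR.Diluted (spinVal)

/-! ### Markov kernels on finite types -/

section basic

variable {Ω : Type} [Fintype Ω] {K : Ω → Ω → ℝ}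

lemma Ek_mono (hK : IsMarkov K) {f g : Ω → ℝ} (h : ∀ ω, f ω ≤ g ω) (ω : Ω) :
    Ek K f ω ≤ Ek K g ω :=
  Finset.sum_le_sum fun ω' _ => mul_le_mul_of_nonneg_left (h ω') (hK.nonneg ω ω')

lemma Ek_const (hK : IsMarkov K) (c : ℝ) (ω : Ω) : Ek K (fun _ => c) ω = c := by
  simp only [Ek, ← Finset.sum_mul, hK.sum_one, one_mul]

lemma Ek_add (f g : Ω → ℝ) (ω : Ω) : Ek K (fun a => f a + g a) ω = Ek K f ω + Ek K g ω := by
  simp only [Ek, mul_add, Finset.sum_add_distrib]

lemma Ek_sub (f g : Ω → ℝ) (ω : Ω) : Ek K (fun a => f a - g a) ω = Ek K f ω - Ek K g ω := by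
  simp only [Ek, mul_sub, Finset.sum_sub_distrib]

lemma Ek_smul (c : ℝ) (f : Ω → ℝ) (ω : Ω) : Ek K (fun a => c * f a) ω = c * Ek K f ω := by
  simp only [Ek, Finset.mul_sum]
  exact Finset.sum_congr rfl fun _ _ => by ring

lemma Ek_mul_const (c : ℝ) (f : Ω → ℝ) (ω : Ω) : Ek K (fun a => f a * c) ω = Ek K f ω * c := by
  simp only [Ek, Finset.sum_mul]
  exact Finset.sum_congr rfl fun _ _ => by ring

lemma Ek_sum {ι : Type*} (s : Finset ι) (f : ι → Ω → ℝ) (ω : Ω) :
    Ek K (fun a => ∑ i ∈ s, f i a) ω = ∑ i ∈ s, Ek K (f i) ω := by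
  simp only [Ek, Finset.mul_sum]
  exact Finset.sum_comm

lemma Ek_listSum {ι : Type*} (L : List ι) (f : ι → Ω → ℝ) (ω : Ω) :
    Ek K (fun a => (L.map fun t => f t a).sum) ω = (L.map fun t => Ek K (f t) ω).sum := by
  induction L with
  | nil => simp [Ek]
  | cons t L ih =>
    simp only [List.map_cons, List.sum_cons]
    rw [Ek_add, ih]

lemma Ek_abs_le (hK : IsMarkov K) (f : Ω → ℝ) (ω : Ω) :
    |Ek K f ω| ≤ Ek K (fun a => |f a|) ω := by
  unfold Ek
  refine (Finset.abs_sum_le_sum_abs _ _).trans (Finset.sum_le_sum fun ω' _ => ?_)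
  rw [abs_mul, abs_of_nonneg (hK.nonneg ω ω')]

lemma Ek_bdd (hK : IsMarkov K) {f : Ω → ℝ} {c : ℝ} (h : ∀ ω, |f ω| ≤ c) (ω : Ω) :
    |Ek K f ω| ≤ c :=
  (Ek_abs_le hK f ω).trans ((Ek_mono hK h ω).trans (Ek_const hK c ω).le)

lemma Ek_mem_Icc (hK : IsMarkov K) {f : Ω → ℝ} {a b : ℝ} (h : ∀ ω, f ω ∈ Set.Icc a b) (ω : Ω) :
    Ek K f ω ∈ Set.Icc a b :=
  ⟨(Ek_const hK a ω).ge.trans (Ek_mono hK (fun x => (h x).1) ω),
    (Ek_mono hK (fun x => (h x).2) ω).trans (Ek_const hK b ω).le⟩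

/-- Cauchy-Schwarz for a kernel -/
lemma Ek_mul_sq_le (hK : IsMarkov K) (f g : Ω → ℝ) (ω : Ω) :
    (Ek K (fun a => f a * g a) ω) ^ 2 ≤ Ek K (fun a => f a ^ 2) ω * Ek K (fun a => g a ^ 2) ω := by
  have h := Finset.sum_mul_sq_le_sq_mul_sq (Finset.univ : Finset Ω)
    (fun a => Real.sqrt (K ω a) * f a) (fun a => Real.sqrt (K ω a) * g a)
  have e1 : ∀ a, Real.sqrt (K ω a) * f a * (Real.sqrt (K ω a) * g a) = K ω a * (f a * g a) := by
    intro a
    have := Real.mul_self_sqrt (hK.nonneg ω a)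
    calc _ = (Real.sqrt (K ω a) * Real.sqrt (K ω a)) * (f a * g a) := by ring
      _ = _ := by rw [this]
  have e2 : ∀ a, (Real.sqrt (K ω a) * f a) ^ 2 = K ω a * (f a) ^ 2 := by
    intro a; rw [mul_pow, Real.sq_sqrt (hK.nonneg ω a)]
  have e3 : ∀ a, (Real.sqrt (K ω a) * g a) ^ 2 = K ω a * (g a) ^ 2 := by
    intro a; rw [mul_pow, Real.sq_sqrt (hK.nonneg ω a)]
  simp only [e1, e2, e3] at h
  exact h

lemma Cov_eq (hK : IsMarkov K) (ω : Ω) (f g : Ω → ℝ) :
    Cov K ω f g = Ek K (fun a => (f a - Ek K f ω) * (g a - Ek K g ω)) ω := by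
  have : (fun a => (f a - Ek K f ω) * (g a - Ek K g ω)) =
      fun a => (f a * g a - Ek K f ω * g a) - (f a * Ek K g ω - Ek K f ω * Ek K g ω) := by
    funext a; ring
  rw [this, Ek_sub, Ek_sub, Ek_sub, Ek_smul, Ek_mul_const, Ek_const hK]
  unfold Cov; ring

lemma Cov_self_nonneg (hK : IsMarkov K) (ω : Ω) (f : Ω → ℝ) : 0 ≤ Cov K ω f f := by
  rw [Cov_eq hK]
  exact Finset.sum_nonneg fun a _ => mul_nonneg (hK.nonneg ω a) (mul_self_nonneg _)

lemma Cov_sq_le (hK : IsMarkov K) (ω : Ω) (f g : Ω → ℝ) :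
    (Cov K ω f g) ^ 2 ≤ Cov K ω f f * Cov K ω g g := by
  rw [Cov_eq hK, Cov_eq hK ω f f, Cov_eq hK ω g g]
  have := Ek_mul_sq_le hK (fun a => f a - Ek K f ω) (fun a => g a - Ek K g ω) ω
  simpa only [sq] using this

lemma Cov_self_le_one (hK : IsMarkov K) (ω : Ω) {g : Ω → ℝ} (h : ∀ a, |g a| ≤ 1) :
    Cov K ω g g ≤ 1 := by
  unfold Cov
  have h1 : Ek K (fun a => g a * g a) ω ≤ 1 := by
    have := Ek_mono hK (f := fun a => g a * g a) (g := fun _ => 1) (fun a => by
      have := h a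
      have h2 := abs_le.1 this
      nlinarith) ω
    rwa [Ek_const hK] at this
  nlinarith [mul_self_nonneg (Ek K g ω)]

lemma Cov_sum_left {ι : Type*} (s : Finset ι) (c : ι → ℝ) (φ : ι → Ω → ℝ) (g : Ω → ℝ) (ω : Ω) :
    Cov K ω (fun a => ∑ i ∈ s, c i * φ i a) g = ∑ i ∈ s, c i * Cov K ω (φ i) g := by
  unfold Cov
  have : (fun a => (∑ i ∈ s, c i * φ i a) * g a) = fun a => ∑ i ∈ s, c i * (φ i a * g a) := by
    funext a; rw [Finset.sum_mul]; exact Finset.sum_congr rfl fun _ _ => by ring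
  rw [this, Ek_sum, Ek_sum]
  simp only [Ek_smul, mul_sub, Finset.sum_sub_distrib, Finset.sum_mul]
  congr 1
  exact Finset.sum_congr rfl fun _ _ => by ring

lemma Cov_comm (f g : Ω → ℝ) (ω : Ω) : Cov K ω f g = Cov K ω g f := by
  unfold Cov
  rw [mul_comm (Ek K f ω)]
  congr 2
  funext a; ring

end basic

/-! ### Averages over sites -/

section avg
variable {I : Type} [Fintype I]

lemma avg_nonneg {f : I → ℝ} (h : ∀ i, 0 ≤ f i) : 0 ≤ avg f :=
  mul_nonneg (by positivity) (Finset.sum_nonneg fun i _ => h i)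

lemma avg_mono {f g : I → ℝ} (h : ∀ i, f i ≤ g i) : avg f ≤ avg g :=
  mul_le_mul_of_nonneg_left (Finset.sum_le_sum fun i _ => h i) (by positivity)

lemma avg_add (f g : I → ℝ) : avg (fun i => f i + g i) = avg f + avg g := by
  simp only [avg, Finset.sum_add_distrib, mul_add]

lemma avg_smul (c : ℝ) (f : I → ℝ) : avg (fun i => c * f i) = c * avg f := by
  simp only [avg, ← Finset.mul_sum]; ring

lemma avg_const [Nonempty I] (c : ℝ) : avg (fun _ : I => c) = c := by
  have : (Fintype.card I : ℝ) ≠ 0 := by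
    exact_mod_cast Fintype.card_ne_zero
  simp only [avg, Finset.sum_const, Finset.card_univ, nsmul_eq_mul]
  field_simp

lemma avg_finsum {ι : Type*} (s : Finset ι) (f : ι → I → ℝ) :
    avg (fun i => ∑ t ∈ s, f t i) = ∑ t ∈ s, avg (f t) := by
  simp only [avg, Finset.mul_sum]
  exact Finset.sum_comm

lemma avg_listSum {ι : Type*} (L : List ι) (f : ι → I → ℝ) :
    avg (fun i => (L.map fun t => f t i).sum) = (L.map fun t => avg (f t)).sum := by
  induction L with
  | nil => simp [avg]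
  | cons t L ih =>
    simp only [List.map_cons, List.sum_cons]
    rw [avg_add, ih]

lemma avg_comm {I' : Type} [Fintype I'] (f : I → I' → ℝ) :
    avg (fun i => avg (fun j => f i j)) = avg (fun j => avg (fun i => f i j)) := by
  simp only [avg, Finset.mul_sum]
  rw [Finset.sum_comm]
  exact Finset.sum_congr rfl fun _ _ => Finset.sum_congr rfl fun _ _ => by ring

lemma avg_fin_succ {n : ℕ} (F : (Fin (n + 1) → I) → ℝ) :
    avg F = avg (fun a : I => avg (fun i : Fin n → I => F (Fin.cons a i))) := by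
  unfold avg
  have h1 : ∑ i, F i = ∑ a : I, ∑ i : Fin n → I, F (Fin.cons a i) := by
    rw [← (Fin.consEquiv (fun _ => I)).sum_comp, Fintype.sum_prod_type]
    rfl
  rw [h1]
  simp only [Fintype.card_fun, Fintype.card_fin, ← Finset.mul_sum]
  push_cast
  rw [pow_succ, mul_inv]
  ring

lemma avg_fin_zero (F : (Fin 0 → I) → ℝ) : avg F = F Fin.elim0 := by
  unfold avg
  simp only [Fintype.card_fun, Fintype.card_fin, pow_zero, Nat.cast_one, inv_one, one_mul]
  rw [Fintype.sum_subsingleton _ Fin.elim0]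

end avg

/-! ### 3.4 : multi-site factorization -/

section factorization

variable {Ω : Type} [Fintype Ω] {K : Ω → Ω → ℝ} {I : Type} [Fintype I]

lemma avgCov_nonneg (ω : Ω) (φ : I → Ω → ℝ) : 0 ≤ avgCov K ω φ :=
  avg_nonneg fun _ => avg_nonneg fun _ => abs_nonneg _

lemma avg_abs_cov_le (hK : IsMarkov K) (ω : Ω) (φ : I → Ω → ℝ) {G : Ω → ℝ}
    (hG : ∀ a, |G a| ≤ 1) :
    avg (fun i => |Cov K ω (φ i) G|) ≤ Real.sqrt (avgCov K ω φ) := by
  classical
  -- signs
  let c : I → ℝ := fun i => if 0 ≤ Cov K ω (φ i) G then 1 else -1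
  have hc : ∀ i, |c i| = 1 := by
    intro i; simp only [c]; split_ifs <;> simp
  have hcc : ∀ i, |Cov K ω (φ i) G| = c i * Cov K ω (φ i) G := by
    intro i
    simp only [c]
    split_ifs with h
    · rw [abs_of_nonneg h, one_mul]
    · rw [abs_of_neg (not_le.1 h)]; ring
  set N : ℝ := (Fintype.card I : ℝ)⁻¹ with hN
  have hN0 : 0 ≤ N := by positivity
  let Φ : Ω → ℝ := fun a => ∑ i ∈ (Finset.univ : Finset I), (N * c i) * φ i a
  have h1 : avg (fun i => |Cov K ω (φ i) G|) = Cov K ω Φ G := by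
    rw [Cov_sum_left]
    simp only [avg, hcc, Finset.mul_sum]
    exact Finset.sum_congr rfl fun _ _ => by ring
  have h2 : Cov K ω Φ Φ ≤ avgCov K ω φ := by
    have e1 : Cov K ω Φ Φ = ∑ i : I, (N * c i) * ∑ i' : I, (N * c i') * Cov K ω (φ i) (φ i') := by
      rw [Cov_sum_left]
      refine Finset.sum_congr rfl fun i _ => ?_
      rw [Cov_comm, Cov_sum_left]
      congr 1
      exact Finset.sum_congr rfl fun _ _ => by rw [Cov_comm]
    rw [e1]
    simp only [avgCov, avg, ← hN, Finset.mul_sum]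
    refine Finset.sum_le_sum fun i _ => Finset.sum_le_sum fun i' _ => ?_
    have : N * c i * (N * c i' * Cov K ω (φ i) (φ i'))
        ≤ |N * c i * (N * c i' * Cov K ω (φ i) (φ i'))| := le_abs_self _
    refine this.trans (le_of_eq ?_)
    simp only [abs_mul, hc, abs_of_nonneg hN0]
    ring
  have h3 : (Cov K ω Φ G) ^ 2 ≤ avgCov K ω φ := by
    have := Cov_sq_le hK ω Φ G
    have hg := Cov_self_le_one hK ω hG
    have h0 := Cov_self_nonneg hK ω Φ
    nlinarith
  rw [h1]
  exact Real.le_sqrt_of_sq_le h3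

/-- **3.4** multi-site factorization -/
theorem factorization (hK : IsMarkov K) (ω : Ω) :
    ∀ (ns : ℕ) (φ : Fin ns → I → Ω → ℝ), (∀ l i a, |φ l i a| ≤ 1) → Nonempty I →
    avg (fun i : Fin ns → I => |Ek K (fun a => ∏ l, φ l (i l) a) ω - ∏ l, Ek K (φ l (i l)) ω|)
      ≤ ∑ l, Real.sqrt (avgCov K ω (φ l)) := by
  intro ns
  induction ns with
  | zero =>
    intro φ _ _
    rw [avg_fin_zero]
    simp [Ek_const hK]
  | succ n ih =>
    intro φ hφ hI
    rw [avg_fin_succ, Fin.sum_univ_succ]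
    have key : ∀ (a : I) (i : Fin n → I),
        |Ek K (fun x => ∏ l : Fin (n + 1), φ l ((Fin.cons a i : Fin (n + 1) → I) l) x) ω
          - ∏ l : Fin (n + 1), Ek K (φ l ((Fin.cons a i : Fin (n + 1) → I) l)) ω| ≤
        |Cov K ω (φ 0 a) (fun x => ∏ l : Fin n, φ l.succ (i l) x)| +
        |Ek K (fun x => ∏ l : Fin n, φ l.succ (i l) x) ω - ∏ l : Fin n, Ek K (φ l.succ (i l)) ω| := by
      intro a i
      simp only [Fin.prod_univ_succ, Fin.cons_zero, Fin.cons_succ]
      have e : Ek K (fun x => φ 0 a x * ∏ l : Fin n, φ l.succ (i l) x) ω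
          - Ek K (φ 0 a) ω * ∏ l : Fin n, Ek K (φ l.succ (i l)) ω
          = Cov K ω (φ 0 a) (fun x => ∏ l : Fin n, φ l.succ (i l) x) +
            Ek K (φ 0 a) ω * (Ek K (fun x => ∏ l : Fin n, φ l.succ (i l) x) ω
              - ∏ l : Fin n, Ek K (φ l.succ (i l)) ω) := by
        unfold Cov; ring
      rw [e]
      refine (abs_add_le _ _).trans (add_le_add le_rfl ?_)
      rw [abs_mul]
      have h1 : |Ek K (φ 0 a) ω| ≤ 1 := Ek_bdd hK (hφ 0 a) ω
      calc _ ≤ 1 * |Ek K (fun x => ∏ l : Fin n, φ l.succ (i l) x) ω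
              - ∏ l : Fin n, Ek K (φ l.succ (i l)) ω| :=
            mul_le_mul_of_nonneg_right h1 (abs_nonneg _)
        _ = _ := one_mul _
    refine (avg_mono fun a => avg_mono fun i => key a i).trans ?_
    simp only [avg_add]
    refine add_le_add ?_ ?_
    · rw [avg_comm]
      refine (avg_mono fun i : Fin n → I => avg_abs_cov_le hK ω (φ 0) ?_).trans ?_
      · intro x
        rw [Finset.abs_prod]
        exact Finset.prod_le_one (fun _ _ => abs_nonneg _) (fun l _ => hφ _ _ _)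
      · rw [avg_const]
    · rw [avg_const]
      exact ih (fun l => φ l.succ) (fun l i x => hφ _ _ _) hI

end factorization

/-! ### 3.5 : shapes and expressions -/

section shapes

variable {Ω I : Type} [Fintype Ω]

lemma abs_spinVal (b : Bool) : |spinVal b| = 1 := by
  cases b <;> simp [spinVal]

lemma Vf_bdd {K : ℕ → Ω → Ω → ℝ} (hK : ∀ n, IsMarkov (K n)) (sg : I → Ω → Bool) :
    ∀ (n : ℕ) (s : Shape n) (i : I) (ω : Ω), |Vf K sg n s i ω| ≤ 1 := by
  intro n
  induction n with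
  | zero =>
    intro s i ω
    simp only [Vf]
    split_ifs
    · exact (abs_spinVal _).le
    · simp
  | succ n ih =>
    intro s i ω
    simp only [Vf]
    have hs : ∀ L : List (Shape n),
        |(L.map (fun r : Shape n => Ek (K n) (Vf K sg n r i) ω)).prod| ≤ 1 := by
      intro L
      induction L with
      | nil => simp
      | cons r L ihL =>
        rw [List.map_cons, List.prod_cons, abs_mul]
        exact mul_le_one₀ (Ek_bdd (hK n) (ih r i) ω) (abs_nonneg _) ihL
    exact hs s.toList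

/-- expressions: linear combinations of products of shape functionals over `ns` sites -/
abbrev Expr (ns n : ℕ) : Type := List (ℝ × (Fin ns → Shape n))

/-- evaluation on independent paths -/
noncomputable def evalI {ns n : ℕ} (K : ℕ → Ω → Ω → ℝ) (sg : I → Ω → Bool) (E : Expr ns n)
    (i : Fin ns → I) (w : Fin ns → Ω) : ℝ :=
  (E.map (fun t => t.1 * ∏ l, Vf K sg n (t.2 l) (i l) (w l))).sum

/-- evaluation of the kernel applied to an expression (independent paths) -/
noncomputable def kevalI {ns n : ℕ} (K : ℕ → Ω → Ω → ℝ) (sg : I → Ω → Bool) (E : Expr ns n)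
    (i : Fin ns → I) (w : Fin ns → Ω) : ℝ :=
  (E.map (fun t => t.1 * ∏ l, Ek (K n) (Vf K sg n (t.2 l) (i l)) (w l))).sum

end shapes

/-! operations on expressions of positive depth -/

/-- constant expression -/
def Expr.const {ns n : ℕ} (c : ℝ) : Expr ns (n + 1) := [(c, fun _ => Clo.Shape.ofList [])]

/-- wrap all shapes in one-element lists -/
def Expr.lift {ns n : ℕ} (E : Expr ns n) : Expr ns (n + 1) :=
  E.map (fun t => (t.1, fun l => Clo.Shape.ofList [t.2 l]))

/-- product of a term and an expression -/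
def Expr.mul1 {ns n : ℕ} (t : ℝ × (Fin ns → Shape (n + 1))) (E' : Expr ns (n + 1)) :
    Expr ns (n + 1) :=
  E'.map (fun t' => (t.1 * t'.1, fun l => Clo.Shape.ofList ((t.2 l).toList ++ (t'.2 l).toList)))

/-- product of expressions -/
def Expr.mul {ns n : ℕ} (E E' : Expr ns (n + 1)) : Expr ns (n + 1) :=
  E.flatMap (fun t => Expr.mul1 t E')

section ops

variable {Ω I : Type} [Fintype Ω] {ns n : ℕ} (K : ℕ → Ω → Ω → ℝ) (sg : I → Ω → Bool)
  (i : Fin ns → I) (w : Fin ns → Ω)

lemma evalI_append (E E' : Expr ns n) :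
    evalI K sg (E ++ E') i w = evalI K sg E i w + evalI K sg E' i w := by
  simp only [evalI, List.map_append, List.sum_append]

lemma evalI_cons (t : ℝ × (Fin ns → Shape n)) (E : Expr ns n) :
    evalI K sg (t :: E) i w = t.1 * ∏ l, Vf K sg n (t.2 l) (i l) (w l) + evalI K sg E i w := by
  simp only [evalI, List.map_cons, List.sum_cons]

lemma evalI_const (c : ℝ) : evalI K sg (Expr.const c : Expr ns (n + 1)) i w = c := by
  simp [evalI, Expr.const, Vf]

lemma evalI_lift (E : Expr ns n) : evalI K sg (E.lift) i w = kevalI K sg E i w := by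
  unfold evalI kevalI Expr.lift
  rw [List.map_map]
  congr 1
  refine List.map_congr_left fun t _ => ?_
  simp [Vf]

lemma evalI_mul1 (t : ℝ × (Fin ns → Shape (n + 1))) (E' : Expr ns (n + 1)) :
    evalI K sg (Expr.mul1 t E') i w =
      (t.1 * ∏ l, Vf K sg (n + 1) (t.2 l) (i l) (w l)) * evalI K sg E' i w := by
  unfold evalI Expr.mul1
  rw [List.map_map, ← List.sum_map_mul_left]
  congr 1
  refine List.map_congr_left fun t' _ => ?_
  simp only [Function.comp, Vf, Clo.Shape.toList_ofList, List.map_append, List.prod_append,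
    Finset.prod_mul_distrib]
  ring

lemma evalI_mul (E E' : Expr ns (n + 1)) :
    evalI K sg (E.mul E') i w = evalI K sg E i w * evalI K sg E' i w := by
  induction E with
  | nil => simp [evalI, Expr.mul]
  | cons t L ih =>
    have h1 : Expr.mul (t :: L) E' = Expr.mul1 t E' ++ Expr.mul L E' := rfl
    rw [h1, evalI_append, ih, evalI_mul1, evalI_cons]
    ring

end ops

/-- polynomial of a lifted expression -/
lemma exists_poly_expr {ns n : ℕ} (E : Expr ns n) (Q : Polynomial ℝ) :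
    ∃ E' : Expr ns (n + 1), ∀ (Ω I : Type) [Fintype Ω] (K : ℕ → Ω → Ω → ℝ) (sg : I → Ω → Bool)
      (i : Fin ns → I) (w : Fin ns → Ω),
      evalI K sg E' i w = Q.eval (kevalI K sg E i w) := by
  induction Q using Polynomial.induction_on' with
  | add p q hp hq =>
    obtain ⟨E1, h1⟩ := hp
    obtain ⟨E2, h2⟩ := hq
    refine ⟨E1 ++ E2, ?_⟩
    intro Ω I _ K sg i w
    rw [evalI_append, h1, h2, Polynomial.eval_add]
  | monomial k c =>
    induction k with
    | zero =>
      refine ⟨Expr.const c, ?_⟩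
      intro Ω I _ K sg i w
      rw [evalI_const]
      simp
    | succ k ih =>
      obtain ⟨E1, h1⟩ := ih
      refine ⟨E1.mul E.lift, ?_⟩
      intro Ω I _ K sg i w
      rw [evalI_mul, h1, evalI_lift]
      simp only [Polynomial.eval_monomial, pow_succ, mul_assoc]

/-! ### independent kernels -/

section ind

variable {Ω I : Type} [Fintype Ω] {ns : ℕ}

lemma EkInd_prod (K : Ω → Ω → ℝ) (φ : Fin ns → Ω → ℝ) (w : Fin ns → Ω) :
    EkInd K (fun w' => ∏ l, φ l (w' l)) w = ∏ l, Ek K (φ l) (w l) := by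
  unfold EkInd Ek
  have h := Finset.prod_univ_sum (fun _ : Fin ns => (Finset.univ : Finset Ω))
    (fun l ω' => K (w l) ω' * φ l ω')
  rw [h, Fintype.piFinset_univ]
  exact Finset.sum_congr rfl fun w' _ => by rw [Finset.prod_mul_distrib]

lemma EkInd_one {K : Ω → Ω → ℝ} (hK : IsMarkov K) (w : Fin ns → Ω) :
    ∑ w' : Fin ns → Ω, ∏ l, K (w l) (w' l) = 1 := by
  have h := EkInd_prod K (fun (_ : Fin ns) _ => (1 : ℝ)) w
  simp only [EkInd, Finset.prod_const_one, mul_one, Ek_const hK] at h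
  exact h

lemma EkInd_sub (K : Ω → Ω → ℝ) (F G : (Fin ns → Ω) → ℝ) (w : Fin ns → Ω) :
    EkInd K (fun a => F a - G a) w = EkInd K F w - EkInd K G w := by
  simp only [EkInd, mul_sub, Finset.sum_sub_distrib]

lemma EkInd_add (K : Ω → Ω → ℝ) (F G : (Fin ns → Ω) → ℝ) (w : Fin ns → Ω) :
    EkInd K (fun a => F a + G a) w = EkInd K F w + EkInd K G w := by
  simp only [EkInd, mul_add, Finset.sum_add_distrib]

lemma EkInd_smul (K : Ω → Ω → ℝ) (c : ℝ) (F : (Fin ns → Ω) → ℝ) (w : Fin ns → Ω) :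
    EkInd K (fun a => c * F a) w = c * EkInd K F w := by
  simp only [EkInd, Finset.mul_sum]
  exact Finset.sum_congr rfl fun _ _ => by ring

lemma EkInd_mono {K : Ω → Ω → ℝ} (hK : IsMarkov K) {F G : (Fin ns → Ω) → ℝ}
    (h : ∀ w, F w ≤ G w) (w : Fin ns → Ω) : EkInd K F w ≤ EkInd K G w :=
  Finset.sum_le_sum fun w' _ => mul_le_mul_of_nonneg_left (h w')
    (Finset.prod_nonneg fun _ _ => hK.nonneg _ _)

lemma EkInd_const {K : Ω → Ω → ℝ} (hK : IsMarkov K) (c : ℝ) (w : Fin ns → Ω) :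
    EkInd K (fun _ => c) w = c := by
  simp only [EkInd, ← Finset.sum_mul, EkInd_one hK, one_mul]

lemma EkInd_mem_Icc {K : Ω → Ω → ℝ} (hK : IsMarkov K) {F : (Fin ns → Ω) → ℝ} {a b : ℝ}
    (h : ∀ w, F w ∈ Set.Icc a b) (w : Fin ns → Ω) : EkInd K F w ∈ Set.Icc a b :=
  ⟨(EkInd_const hK a w).ge.trans (EkInd_mono hK (fun x => (h x).1) w),
    (EkInd_mono hK (fun x => (h x).2) w).trans (EkInd_const hK b w).le⟩

lemma EkInd_evalI {n : ℕ} (K : ℕ → Ω → Ω → ℝ) (sg : I → Ω → Bool) (E : Expr ns n)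
    (i : Fin ns → I) (w : Fin ns → Ω) :
    EkInd (K n) (fun w' => evalI K sg E i w') w = kevalI K sg E i w := by
  induction E with
  | nil => simp [EkInd, evalI, kevalI]
  | cons t L ih =>
    have h1 : (fun w' => evalI K sg (t :: L) i w') =
        fun w' => t.1 * (∏ l, Vf K sg n (t.2 l) (i l) (w' l)) + evalI K sg L i w' := by
      funext w'; exact evalI_cons K sg i w' t L
    rw [h1, EkInd_add, ih, EkInd_smul, EkInd_prod (K n) (fun l => Vf K sg n (t.2 l) (i l)) w]
    simp only [kevalI, List.map_cons, List.sum_cons]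

end ind

/-! ### the nested functionals -/

lemma spin_ind (b c : Bool) : (1 : ℝ) / 2 + spinVal c / 2 * spinVal b = if c = b then 1 else 0 := by
  cases b <;> cases c <;> simp [spinVal] <;> norm_num

/-- Fourier expansion: depth `0` expression of a function of `ns` spins. -/
lemma exists_expr_zero {ns : ℕ} (W0 : (Fin ns → Bool) → ℝ) :
    ∃ E : Expr ns 0, ∀ (Ω I : Type) [Fintype Ω] (K : ℕ → Ω → Ω → ℝ) (sg : I → Ω → Bool)
      (i : Fin ns → I) (w : Fin ns → Ω),
      evalI K sg E i w = W0 (fun l => sg (i l) (w l)) := by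
  classical
  refine ⟨(Finset.univ : Finset ((Fin ns → Bool) × (Fin ns → Bool))).toList.map fun cA =>
    (W0 cA.1 * ∏ l, (if cA.2 l then spinVal (cA.1 l) / 2 else 1 / 2),
      fun l => Clo.Shape.ofBool (cA.2 l)), ?_⟩
  intro Ω I _ K sg i w
  have h0 : ∀ F : ((Fin ns → Bool) × (Fin ns → Bool)) → (ℝ × (Fin ns → Shape 0)),
      evalI K sg ((Finset.univ : Finset ((Fin ns → Bool) × (Fin ns → Bool))).toList.map F) i w =
        ∑ c : Fin ns → Bool, ∑ A : Fin ns → Bool,
          (F (c, A)).1 * ∏ l, Vf K sg 0 ((F (c, A)).2 l) (i l) (w l) := by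
    intro F
    unfold evalI
    rw [List.map_map, ← Fintype.sum_prod_type'
      (f := fun c A => (F (c, A)).1 * ∏ l, Vf K sg 0 ((F (c, A)).2 l) (i l) (w l))]
    exact Finset.sum_map_toList _ _
  rw [h0]
  simp only [Vf_zero]
  have h1 : ∀ c : Fin ns → Bool,
      ∑ A : Fin ns → Bool, (W0 c * ∏ l, (if A l then spinVal (c l) / 2 else 1 / 2)) *
        ∏ l, (if A l then spinVal (sg (i l) (w l)) else 1) =
      W0 c * if c = (fun l => sg (i l) (w l)) then 1 else 0 := by
    intro c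
    have h2 : ∏ l : Fin ns, ∑ a : Bool, ((if a then spinVal (c l) / 2 else 1 / 2) *
        (if a then spinVal (sg (i l) (w l)) else 1)) =
        ∑ A : Fin ns → Bool, ∏ l, ((if A l then spinVal (c l) / 2 else 1 / 2) *
          (if A l then spinVal (sg (i l) (w l)) else 1)) := by
      rw [Finset.prod_univ_sum, Fintype.piFinset_univ]
    have h3 : ∏ l : Fin ns, ∑ a : Bool, ((if a then spinVal (c l) / 2 else 1 / 2) *
        (if a then spinVal (sg (i l) (w l)) else 1)) =
        if c = (fun l => sg (i l) (w l)) then (1 : ℝ) else 0 := by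
      have h4 : ∀ l : Fin ns, ∑ a : Bool, ((if a then spinVal (c l) / 2 else 1 / 2) *
          (if a then spinVal (sg (i l) (w l)) else (1 : ℝ))) =
          if c l = sg (i l) (w l) then 1 else 0 := by
        intro l
        rw [← spin_ind]
        simp
        ring
      simp only [h4]
      by_cases hc : c = fun l => sg (i l) (w l)
      · rw [if_pos hc]
        refine Finset.prod_eq_one fun l _ => ?_
        rw [if_pos (congrFun hc l)]
      · rw [if_neg hc]
        obtain ⟨l, hl⟩ := Function.ne_iff.1 hc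
        exact Finset.prod_eq_zero (Finset.mem_univ l) (if_neg hl)
    rw [← h3, h2, Finset.mul_sum]
    refine Finset.sum_congr rfl fun A _ => ?_
    rw [Finset.prod_mul_distrib]
    ring
  simp only [h1, mul_ite, mul_one, mul_zero]
  rw [Finset.sum_ite_eq' Finset.univ (fun l => sg (i l) (w l)) W0, if_pos (Finset.mem_univ _)]

/-- bounds of the nested functionals -/
lemma exists_bound {ns : ℕ} (W0 : (Fin ns → Bool) → ℝ) (f : ℕ → ℝ → ℝ)
    (hf : ∀ n, Continuous (f n)) (n : ℕ) :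
    ∃ R : ℝ, 0 ≤ R ∧ ∀ (Ω I : Type) [Fintype Ω] (K : ℕ → Ω → Ω → ℝ) (sg : I → Ω → Bool),
      (∀ m, IsMarkov (K m)) →
      (∀ i w, ThetaI K sg W0 f n i w ∈ Set.Icc (-R) R) ∧
      (∀ i ω, Theta K sg W0 f n i ω ∈ Set.Icc (-R) R) := by
  induction n with
  | zero =>
    refine ⟨∑ b, |W0 b|, Finset.sum_nonneg fun _ _ => abs_nonneg _, ?_⟩
    intro Ω I _ K sg _
    have h : ∀ b, |W0 b| ≤ ∑ b, |W0 b| := fun b =>
      Finset.single_le_sum (f := fun b => |W0 b|) (fun _ _ => abs_nonneg _) (Finset.mem_univ b)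
    exact ⟨fun i w => abs_le.1 (h _), fun i ω => abs_le.1 (h _)⟩
  | succ n ih =>
    obtain ⟨R, hR0, hR⟩ := ih
    obtain ⟨C, hC⟩ := (isCompact_Icc (a := -R) (b := R)).exists_bound_of_continuousOn
      (hf n).continuousOn
    refine ⟨max C 0, le_max_right _ _, ?_⟩
    intro Ω I _ K sg hK
    obtain ⟨h1, h2⟩ := hR Ω I K sg hK
    have hb : ∀ x ∈ Set.Icc (-R) R, f n x ∈ Set.Icc (-(max C 0)) (max C 0) := by
      intro x hx
      have := hC x hx
      rw [Real.norm_eq_abs] at this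
      exact abs_le.1 (this.trans (le_max_left _ _))
    exact ⟨fun i w => hb _ (EkInd_mem_Icc (hK n) (h1 i) w),
      fun i ω => hb _ (Ek_mem_Icc (hK n) (h2 i) ω)⟩

/-- a continuous function on a compact interval is "almost Lipschitz" -/
lemma exists_modulus {f : ℝ → ℝ} (hf : Continuous f) (R : ℝ) {ε : ℝ} (hε : 0 < ε) :
    ∃ C : ℝ, 0 ≤ C ∧ ∀ x ∈ Set.Icc (-R) R, ∀ y ∈ Set.Icc (-R) R,
      |f x - f y| ≤ ε + C * |x - y| := by
  have hcomp := isCompact_Icc (a := -R) (b := R)
  obtain ⟨M, hM⟩ := hcomp.exists_bound_of_continuousOn hf.continuousOn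
  have huc := hcomp.uniformContinuousOn_of_continuous hf.continuousOn
  rw [Metric.uniformContinuousOn_iff] at huc
  obtain ⟨d, hd, hd2⟩ := huc ε hε
  refine ⟨2 * |M| / d, by positivity, ?_⟩
  intro x hx y hy
  by_cases h : |x - y| < d
  · have := hd2 x hx y hy (by rwa [Real.dist_eq])
    rw [Real.dist_eq] at this
    have h2 : 0 ≤ 2 * |M| / d * |x - y| := by positivity
    linarith
  · have h1 : |f x - f y| ≤ 2 * |M| := by
      have ha := hM x hx
      have hb := hM y hy
      rw [Real.norm_eq_abs] at ha hb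
      have := le_abs_self M
      calc |f x - f y| ≤ |f x| + |f y| := abs_sub _ _
        _ ≤ 2 * |M| := by linarith
    have h2 : 2 * |M| ≤ 2 * |M| / d * |x - y| := by
      rw [div_mul_eq_mul_div, le_div_iff₀ hd]
      exact mul_le_mul_of_nonneg_left (not_lt.1 h) (by positivity)
    linarith

section step

variable {Ω I : Type} [Fintype Ω] [Fintype I] {ns : ℕ}

lemma sum_P_Ek {P : Ω → ℝ} {K : Ω → Ω → ℝ} (hinv : ∀ ω', ∑ ω, P ω * K ω ω' = P ω')
    (f : Ω → ℝ) : ∑ ω, P ω * Ek K f ω = ∑ ω, P ω * f ω := by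
  unfold Ek
  simp only [Finset.mul_sum]
  rw [Finset.sum_comm]
  refine Finset.sum_congr rfl fun ω' _ => ?_
  rw [← hinv ω', Finset.sum_mul]
  exact Finset.sum_congr rfl fun _ _ => by ring

lemma sum_P_sqrt_le {P : Ω → ℝ} (hP : ∀ ω, 0 ≤ P ω) (hP1 : ∑ ω, P ω = 1) {a : Ω → ℝ}
    (ha : ∀ ω, 0 ≤ a ω) : ∑ ω, P ω * Real.sqrt (a ω) ≤ Real.sqrt (∑ ω, P ω * a ω) := by
  by_cases hne : Nonempty Ω
  · obtain ⟨ω0⟩ := hne
    have hK : IsMarkov (fun _ ω' : Ω => P ω') := ⟨fun _ => hP, fun _ => hP1⟩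
    have h := Ek_mul_sq_le hK (fun ω => Real.sqrt (a ω)) (fun _ => 1) ω0
    simp only [mul_one, one_pow, Ek_const hK] at h
    have h2 : Ek (fun _ ω' : Ω => P ω') (fun ω => Real.sqrt (a ω) ^ 2) ω0 = ∑ ω, P ω * a ω := by
      unfold Ek
      refine Finset.sum_congr rfl fun ω _ => ?_
      simp only [Real.sq_sqrt (ha ω)]
    rw [h2] at h
    exact Real.le_sqrt_of_sq_le h
  · have : IsEmpty Ω := not_nonempty_iff.1 hne
    simp

/-- factorization error of an expression -/
lemma expr_factorization {n : ℕ} (hI : Nonempty I) {P : Ω → ℝ} {K : ℕ → Ω → Ω → ℝ}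
    {sg : I → Ω → Bool}
    (hP : ∀ ω, 0 ≤ P ω) (hP1 : ∑ ω, P ω = 1) (hK : ∀ m, IsMarkov (K m)) {δ : ℝ}
    (E : Expr ns n)
    (hpure : ∀ t ∈ E, ∀ l, ∑ ω, P ω * avgCov (K n) ω (Vf K sg n (t.2 l)) ≤ δ) :
    avg (fun i : Fin ns → I => ∑ ω, P ω *
      |Ek (K n) (fun ω' => evalI K sg E i (fun _ => ω')) ω - kevalI K sg E i (fun _ => ω)|) ≤
      (E.map fun t => |t.1|).sum * (ns * Real.sqrt δ) := by
  induction E with
  | nil => simp [evalI, kevalI, Ek, avg]
  | cons t L ih =>
    have ih' := ih fun t' ht' l => hpure t' (List.mem_cons_of_mem _ ht') l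
    have h1 : ∀ (i : Fin ns → I) (ω : Ω),
        |Ek (K n) (fun ω' => evalI K sg (t :: L) i (fun _ => ω')) ω -
          kevalI K sg (t :: L) i (fun _ => ω)| ≤
        |t.1| * |Ek (K n) (fun ω' => ∏ l, Vf K sg n (t.2 l) (i l) ω') ω -
          ∏ l, Ek (K n) (Vf K sg n (t.2 l) (i l)) ω| +
        |Ek (K n) (fun ω' => evalI K sg L i (fun _ => ω')) ω - kevalI K sg L i (fun _ => ω)| := by
      intro i ω
      have e1 : (fun ω' => evalI K sg (t :: L) i (fun _ => ω')) =
          fun ω' => t.1 * (∏ l, Vf K sg n (t.2 l) (i l) ω') + evalI K sg L i (fun _ => ω') := by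
        funext ω'; exact evalI_cons K sg i (fun _ => ω') t L
      have e2 : kevalI K sg (t :: L) i (fun _ => ω) =
          t.1 * (∏ l, Ek (K n) (Vf K sg n (t.2 l) (i l)) ω) + kevalI K sg L i (fun _ => ω) := by
        simp only [kevalI, List.map_cons, List.sum_cons]
      rw [e1, e2, Ek_add, Ek_smul, ← abs_mul]
      refine le_trans (le_of_eq ?_) (abs_add_le _ _)
      congr 1; ring
    have h2 : avg (fun i : Fin ns → I => ∑ ω, P ω *
        |Ek (K n) (fun ω' => evalI K sg (t :: L) i (fun _ => ω')) ω -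
          kevalI K sg (t :: L) i (fun _ => ω)|) ≤
        |t.1| * (∑ ω, P ω * avg (fun i : Fin ns → I =>
          |Ek (K n) (fun ω' => ∏ l, Vf K sg n (t.2 l) (i l) ω') ω -
          ∏ l, Ek (K n) (Vf K sg n (t.2 l) (i l)) ω|)) +
        avg (fun i : Fin ns → I => ∑ ω, P ω *
          |Ek (K n) (fun ω' => evalI K sg L i (fun _ => ω')) ω -
            kevalI K sg L i (fun _ => ω)|) := by
      have e3 : |t.1| * (∑ ω, P ω * avg (fun i : Fin ns → I =>
          |Ek (K n) (fun ω' => ∏ l, Vf K sg n (t.2 l) (i l) ω') ω -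
          ∏ l, Ek (K n) (Vf K sg n (t.2 l) (i l)) ω|)) =
          avg (fun i : Fin ns → I => ∑ ω, P ω * (|t.1| *
          |Ek (K n) (fun ω' => ∏ l, Vf K sg n (t.2 l) (i l) ω') ω -
          ∏ l, Ek (K n) (Vf K sg n (t.2 l) (i l)) ω|)) := by
        rw [avg_finsum, Finset.mul_sum]
        refine Finset.sum_congr rfl fun ω _ => ?_
        rw [avg_smul, avg_smul]
        ring
      rw [e3, ← avg_add]
      refine avg_mono fun i => ?_
      rw [← Finset.sum_add_distrib]
      refine Finset.sum_le_sum fun ω _ => ?_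
      rw [← mul_add]
      exact mul_le_mul_of_nonneg_left (h1 i ω) (hP ω)
    refine h2.trans ?_
    rw [List.map_cons, List.sum_cons, add_mul]
    refine add_le_add (mul_le_mul_of_nonneg_left ?_ (abs_nonneg _)) ih'
    have h3 : ∀ ω, avg (fun i : Fin ns → I =>
          |Ek (K n) (fun ω' => ∏ l, Vf K sg n (t.2 l) (i l) ω') ω -
          ∏ l, Ek (K n) (Vf K sg n (t.2 l) (i l)) ω|) ≤
          ∑ l, Real.sqrt (avgCov (K n) ω (Vf K sg n (t.2 l))) := fun ω =>
      factorization (hK n) ω ns (fun l => Vf K sg n (t.2 l))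
        (fun l i a => Vf_bdd hK sg n _ _ _) hI
    calc _ ≤ ∑ ω, P ω * ∑ l, Real.sqrt (avgCov (K n) ω (Vf K sg n (t.2 l))) :=
          Finset.sum_le_sum fun ω _ => mul_le_mul_of_nonneg_left (h3 ω) (hP ω)
      _ = ∑ l, ∑ ω, P ω * Real.sqrt (avgCov (K n) ω (Vf K sg n (t.2 l))) := by
          simp only [Finset.mul_sum]; exact Finset.sum_comm
      _ ≤ ∑ l : Fin ns, Real.sqrt δ := by
          refine Finset.sum_le_sum fun l _ => ?_
          refine (sum_P_sqrt_le hP hP1 fun ω => avgCov_nonneg ω _).trans ?_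
          exact Real.sqrt_le_sqrt (hpure t (List.mem_cons_self) l)
      _ = ns * Real.sqrt δ := by
          rw [Finset.sum_const, Finset.card_univ, Fintype.card_fin, nsmul_eq_mul]

end step

end Crest.Agent.R141.Fact
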