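import Mathlib
import Crest.Prelude.Def_DilutedSpinGlass
import Crest.Agent.R141.FactDef
import Crest.Agent.R141.Fact

/-!
Row 141, Part L, section 3.5: comparison of the common-path nested functional `Theta` with the
independent-path one `ThetaI` (main theorem `fact_main`).
-/

set_option autoImplicit false

namespace Crest.Agent.R141.Fact

open Finset
open Crest.ProbabilityR.Diluted (spinVal)

/-- the approximation claim, by induction on the depth -/
theorem approx {ns : ℕ} (W0 : (Fin ns → Bool) → ℝ) (f : ℕ → ℝ → ℝ)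
    (hf : ∀ n, Continuous (f n)) (n : ℕ) : ∀ ε : ℝ, 0 < ε →
    ∃ (E : Expr ns n) (SS : (m : ℕ) → List (Shape m)) (δ : ℝ), 0 < δ ∧ (∀ m, n ≤ m → SS m = []) ∧
      ∀ (Ω I : Type) [Fintype Ω] [Fintype I] (P : Ω → ℝ) (K : ℕ → Ω → Ω → ℝ)
        (sg : I → Ω → Bool), Nonempty I → (∀ ω, 0 ≤ P ω) → (∑ ω, P ω = 1) →
        (∀ m, IsMarkov (K m)) → (∀ m < n, ∀ ω', ∑ ω, P ω * K m ω ω' = P ω') →
        (∀ m, ∀ s ∈ SS m, ∑ ω, P ω * avgCov (K m) ω (Vf K sg m s) ≤ δ) →
        (∀ i w, |ThetaI K sg W0 f n i w - evalI K sg E i w| ≤ ε) ∧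
        avg (fun i : Fin ns → I => ∑ ω, P ω *
          |Theta K sg W0 f n i ω - evalI K sg E i (fun _ => ω)|) ≤ ε := by
  induction n with
  | zero =>
    intro ε hε
    obtain ⟨E, hE⟩ := exists_expr_zero W0
    refine ⟨E, fun _ => [], 1, one_pos, fun _ _ => rfl, ?_⟩
    intro Ω I _ _ P K sg _ _ _ _ _ _
    refine ⟨?_, ?_⟩
    · intro i w
      rw [hE]
      simp only [ThetaI, sub_self, abs_zero]
      exact hε.le
    · have : ∀ (i : Fin ns → I) (ω : Ω),
          Theta K sg W0 f 0 i ω - evalI K sg E i (fun _ => ω) = 0 := by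
        intro i ω
        rw [hE]
        simp only [Theta, sub_self]
      simp only [this, abs_zero, mul_zero, Finset.sum_const_zero, avg]
      exact hε.le
  | succ n ih =>
    intro ε hε
    obtain ⟨R, hR0, hR⟩ := exists_bound W0 f hf n
    obtain ⟨C, hC0, hC⟩ := exists_modulus (hf n) (R + 1) (ε := ε / 3) (by positivity)
    obtain ⟨Q, hQ⟩ := exists_polynomial_near_of_continuousOn (-(R + 1)) (R + 1) (f n)
      (hf n).continuousOn (ε / 3) (by positivity)
    -- accuracy at the previous depth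
    set ε' : ℝ := min 1 (ε / (6 * (C + 1))) with hε'
    have hε'0 : 0 < ε' := lt_min one_pos (by positivity)
    obtain ⟨E, SS, δ, hδ, hSS, hE⟩ := ih ε' hε'0
    obtain ⟨E', hE'⟩ := exists_poly_expr E Q
    set M : ℝ := (E.map fun t => |t.1|).sum with hM
    have hM0 : 0 ≤ M := List.sum_nonneg (by
      intro x hx
      obtain ⟨t, _, rfl⟩ := List.mem_map.1 hx
      exact abs_nonneg _)
    set δ' : ℝ := (ε / (6 * (C + 1) * (M + 1) * (ns + 1))) ^ 2 with hδ'
    have hδ'0 : 0 < δ' := by positivity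
    refine ⟨E', Function.update SS n (E.flatMap fun t => List.ofFn t.2), min δ δ',
      lt_min hδ hδ'0, ?_, ?_⟩
    · intro m hm
      rw [Function.update_of_ne (by omega)]
      exact hSS m (by omega)
    intro Ω I _ _ P K sg hI hP hP1 hK hinv hpure
    have hpure1 : ∀ m, ∀ s ∈ SS m, ∑ ω, P ω * avgCov (K m) ω (Vf K sg m s) ≤ δ := by
      intro m s hs
      by_cases hm : m = n
      · subst hm
        rw [hSS m le_rfl] at hs
        exact absurd hs (List.not_mem_nil)
      · refine (hpure m s ?_).trans (min_le_left _ _)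
        rwa [Function.update_of_ne hm]
    have hpure2 : ∀ t ∈ E, ∀ l, ∑ ω, P ω * avgCov (K n) ω (Vf K sg n (t.2 l)) ≤ δ' := by
      intro t ht l
      refine (hpure n (t.2 l) ?_).trans (min_le_right _ _)
      rw [Function.update_self]
      exact List.mem_flatMap.2 ⟨t, ht, by rw [List.mem_ofFn]; exact ⟨l, rfl⟩⟩
    obtain ⟨hind, hcom⟩ := hE Ω I P K sg hI hP hP1 hK (fun m hm => hinv m (by omega)) hpure1
    obtain ⟨hRI, hRC⟩ := hR Ω I K sg hK
    have hε'1 : ε' ≤ 1 := min_le_left _ _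
    have hε'2 : C * ε' ≤ ε / 6 := by
      have h1 : ε' ≤ ε / (6 * (C + 1)) := min_le_right _ _
      calc C * ε' ≤ (C + 1) * (ε / (6 * (C + 1))) := by
            apply mul_le_mul _ h1 hε'0.le (by positivity); linarith
        _ = ε / 6 := by field_simp
    -- range of the expression evaluations
    have hev : ∀ i w, evalI K sg E i w ∈ Set.Icc (-(R + 1)) (R + 1) := by
      intro i w
      have h1 := abs_le.1 (hind i w)
      have h2 := hRI i w
      constructor
      · linarith [h1.2, h2.1]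
      · linarith [h1.1, h2.2]
    have hkev : ∀ i w, kevalI K sg E i w ∈ Set.Icc (-(R + 1)) (R + 1) := by
      intro i w
      rw [← EkInd_evalI K sg E i w]
      exact EkInd_mem_Icc (hK n) (hev i) w
    have hsub : Set.Icc (-R) R ⊆ Set.Icc (-(R + 1)) (R + 1) :=
      Set.Icc_subset_Icc (by linarith) (by linarith)
    -- the basic estimate
    have hbasic : ∀ x ∈ Set.Icc (-(R + 1)) (R + 1), ∀ y ∈ Set.Icc (-(R + 1)) (R + 1),
        |f n x - Q.eval y| ≤ 2 * (ε / 3) + C * |x - y| := by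
      intro x hx y hy
      have h1 := hC x hx y hy
      have h2 := (hQ y hy).le
      have h3 : |f n x - Q.eval y| ≤ |f n x - f n y| + |Q.eval y - f n y| := by
        have := abs_sub_le (f n x) (f n y) (Q.eval y)
        rwa [abs_sub_comm (f n y)] at this
      linarith
    refine ⟨?_, ?_⟩
    · intro i w
      rw [hE']
      simp only [ThetaI]
      have hx : EkInd (K n) (ThetaI K sg W0 f n i) w ∈ Set.Icc (-R) R :=
        EkInd_mem_Icc (hK n) (hRI i) w
      refine (hbasic _ (hsub hx) _ (hkev i w)).trans ?_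
      have h1 : |EkInd (K n) (ThetaI K sg W0 f n i) w - kevalI K sg E i w| ≤ ε' := by
        rw [← EkInd_evalI K sg E i w, ← EkInd_sub]
        have := EkInd_mem_Icc (hK n) (F := fun a => ThetaI K sg W0 f n i a - evalI K sg E i a)
          (a := -ε') (b := ε') (fun a => abs_le.1 (hind i a)) w
        exact abs_le.2 this
      have h2 : C * |EkInd (K n) (ThetaI K sg W0 f n i) w - kevalI K sg E i w| ≤ C * ε' :=
        mul_le_mul_of_nonneg_left h1 hC0
      linarith
    · simp only [hE', Theta]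
      have h1 : ∀ (i : Fin ns → I) (ω : Ω),
          |f n (Ek (K n) (Theta K sg W0 f n i) ω) - Q.eval (kevalI K sg E i fun _ => ω)| ≤
          2 * (ε / 3) + (C * Ek (K n) (fun ω' => |Theta K sg W0 f n i ω' -
            evalI K sg E i (fun _ => ω')|) ω +
            C * |Ek (K n) (fun ω' => evalI K sg E i (fun _ => ω')) ω -
              kevalI K sg E i (fun _ => ω)|) := by
        intro i ω
        have hx : Ek (K n) (Theta K sg W0 f n i) ω ∈ Set.Icc (-R) R :=
          Ek_mem_Icc (hK n) (hRC i) ω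
        refine (hbasic _ (hsub hx) _ (hkev i _)).trans ?_
        rw [← mul_add]
        refine add_le_add le_rfl (mul_le_mul_of_nonneg_left ?_ hC0)
        have h2 := abs_sub_le (Ek (K n) (Theta K sg W0 f n i) ω)
          (Ek (K n) (fun ω' => evalI K sg E i (fun _ => ω')) ω) (kevalI K sg E i (fun _ => ω))
        have h3 : |Ek (K n) (Theta K sg W0 f n i) ω -
            Ek (K n) (fun ω' => evalI K sg E i (fun _ => ω')) ω| ≤
            Ek (K n) (fun ω' => |Theta K sg W0 f n i ω' - evalI K sg E i (fun _ => ω')|) ω := by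
          rw [← Ek_sub]
          exact Ek_abs_le (hK n) _ ω
        linarith
      have h2 : avg (fun i : Fin ns → I => ∑ ω, P ω *
          |f n (Ek (K n) (Theta K sg W0 f n i) ω) - Q.eval (kevalI K sg E i fun _ => ω)|) ≤
          2 * (ε / 3) + (C * avg (fun i : Fin ns → I => ∑ ω, P ω *
            |Theta K sg W0 f n i ω - evalI K sg E i (fun _ => ω)|) +
            C * avg (fun i : Fin ns → I => ∑ ω, P ω *
              |Ek (K n) (fun ω' => evalI K sg E i (fun _ => ω')) ω -
              kevalI K sg E i (fun _ => ω)|)) := by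
        rw [← avg_smul, ← avg_smul, ← avg_add]
        have hc : (2 * (ε / 3)) = avg (fun _ : Fin ns → I => 2 * (ε / 3)) := (avg_const _).symm
        rw [hc, ← avg_add]
        refine avg_mono fun i => ?_
        have e1 := sum_P_Ek (hinv n (Nat.lt_succ_self n)) (fun ω' => |Theta K sg W0 f n i ω' -
            evalI K sg E i (fun _ => ω')|)
        have e2 : 2 * (ε / 3) = ∑ ω, P ω * (2 * (ε / 3)) := by
          rw [← Finset.sum_mul, hP1, one_mul]
        rw [e2, ← e1, Finset.mul_sum, Finset.mul_sum, ← Finset.sum_add_distrib,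
          ← Finset.sum_add_distrib]
        refine Finset.sum_le_sum fun ω _ => ?_
        refine (mul_le_mul_of_nonneg_left (h1 i ω) (hP ω)).trans (le_of_eq ?_)
        ring
      have h3 := expr_factorization hI hP hP1 hK E hpure2
      have h4 : C * (M * (ns * Real.sqrt δ')) ≤ ε / 6 := by
        have e1 : Real.sqrt δ' = ε / (6 * (C + 1) * (M + 1) * (ns + 1)) := by
          rw [hδ']
          exact Real.sqrt_sq (by positivity)
        rw [e1]
        have h5 : C * (M * (ns * (ε / (6 * (C + 1) * (M + 1) * (ns + 1))))) ≤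
            (C + 1) * ((M + 1) * ((ns + 1) * (ε / (6 * (C + 1) * (M + 1) * (ns + 1))))) := by
          gcongr <;> linarith
        refine h5.trans (le_of_eq ?_)
        field_simp
      have h5 : C * avg (fun i : Fin ns → I => ∑ ω, P ω *
            |Theta K sg W0 f n i ω - evalI K sg E i (fun _ => ω)|) ≤ C * ε' :=
        mul_le_mul_of_nonneg_left hcom hC0
      have h6 : C * avg (fun i : Fin ns → I => ∑ ω, P ω *
              |Ek (K n) (fun ω' => evalI K sg E i (fun _ => ω')) ω -
              kevalI K sg E i (fun _ => ω)|) ≤ C * (M * (ns * Real.sqrt δ')) :=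
        mul_le_mul_of_nonneg_left h3 hC0
      linarith

/-- **Main theorem of 3.4/3.5** (globally continuous version). -/
theorem fact_main_cont {ns : ℕ} (W0 : (Fin ns → Bool) → ℝ) (f : ℕ → ℝ → ℝ)
    (hf : ∀ n, Continuous (f n)) (n : ℕ) (ε : ℝ) (hε : 0 < ε) :
    ∃ (SS : (m : ℕ) → List (Shape m)) (δ : ℝ), 0 < δ ∧ (∀ m, n ≤ m → SS m = []) ∧
      ∀ (Ω I : Type) [Fintype Ω] [Fintype I] (P : Ω → ℝ) (K : ℕ → Ω → Ω → ℝ)
        (sg : I → Ω → Bool), Nonempty I → (∀ ω, 0 ≤ P ω) → (∑ ω, P ω = 1) →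
        (∀ m, IsMarkov (K m)) → (∀ m < n, ∀ ω', ∑ ω, P ω * K m ω ω' = P ω') →
        (∀ m, ∀ s ∈ SS m, ∑ ω, P ω * avgCov (K m) ω (Vf K sg m s) ≤ δ) →
        avg (fun i : Fin ns → I => ∑ ω, P ω *
          |Theta K sg W0 f n i ω - ThetaI K sg W0 f n i (fun _ => ω)|) ≤ ε := by
  obtain ⟨E, SS, δ, hδ, hSS, hE⟩ := approx W0 f hf n (ε / 2) (by positivity)
  refine ⟨SS, δ, hδ, hSS, ?_⟩
  intro Ω I _ _ P K sg hI hP hP1 hK hinv hpure
  obtain ⟨hind, hcom⟩ := hE Ω I P K sg hI hP hP1 hK hinv hpure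
  have h1 : avg (fun i : Fin ns → I => ∑ ω, P ω *
      |Theta K sg W0 f n i ω - ThetaI K sg W0 f n i (fun _ => ω)|) ≤
      avg (fun i : Fin ns → I => ∑ ω, P ω *
          |Theta K sg W0 f n i ω - evalI K sg E i (fun _ => ω)|) + avg (fun _ : Fin ns → I => ε / 2) := by
    rw [← avg_add]
    refine avg_mono fun i => ?_
    have e2 : ε / 2 = ∑ ω, P ω * (ε / 2) := by rw [← Finset.sum_mul, hP1, one_mul]
    conv_rhs => rw [e2]
    rw [← Finset.sum_add_distrib]
    refine Finset.sum_le_sum fun ω _ => ?_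
    rw [← mul_add]
    refine mul_le_mul_of_nonneg_left ?_ (hP ω)
    have h2 := abs_sub_le (Theta K sg W0 f n i ω) (evalI K sg E i (fun _ => ω))
      (ThetaI K sg W0 f n i (fun _ => ω))
    have h3 := hind i (fun _ => ω)
    rw [abs_sub_comm] at h3
    linarith
  rw [avg_const] at h1
  linarith

/-- clamp -/
noncomputable def clamp (a b x : ℝ) : ℝ := max a (min x b)

lemma clamp_of_mem {a b x : ℝ} (h : x ∈ Set.Icc a b) : clamp a b x = x := by
  unfold clamp
  rw [min_eq_left h.2, max_eq_right h.1]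

lemma clamp_mem {a b x : ℝ} (h : a ≤ b) : clamp a b x ∈ Set.Icc a b :=
  ⟨le_max_left _ _, max_le h (min_le_right _ _)⟩

lemma continuous_clamp (a b : ℝ) : Continuous (clamp a b) := by
  unfold clamp
  fun_prop

/-- **Main theorem of 3.4/3.5.** -/
theorem fact_main {ns : ℕ} (W0 : (Fin ns → Bool) → ℝ) (f : ℕ → ℝ → ℝ) (lo hi : ℕ → ℝ) (n : ℕ)
    (hW0 : ∀ b, W0 b ∈ Set.Icc (lo 0) (hi 0))
    (hf : ∀ m < n, ContinuousOn (f m) (Set.Icc (lo m) (hi m)))
    (hmaps : ∀ m < n, Set.MapsTo (f m) (Set.Icc (lo m) (hi m)) (Set.Icc (lo (m + 1)) (hi (m + 1))))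
    (ε : ℝ) (hε : 0 < ε) :
    ∃ (SS : (m : ℕ) → List (Shape m)) (δ : ℝ), 0 < δ ∧ (∀ m, n ≤ m → SS m = []) ∧
      ∀ (Ω I : Type) [Fintype Ω] [Fintype I] (P : Ω → ℝ) (K : ℕ → Ω → Ω → ℝ)
        (sg : I → Ω → Bool), Nonempty I → (∀ ω, 0 ≤ P ω) → (∑ ω, P ω = 1) →
        (∀ m, IsMarkov (K m)) → (∀ m < n, ∀ ω', ∑ ω, P ω * K m ω ω' = P ω') →
        (∀ m, ∀ s ∈ SS m, ∑ ω, P ω * avgCov (K m) ω (Vf K sg m s) ≤ δ) →
        avg (fun i : Fin ns → I => ∑ ω, P ω *
          |Theta K sg W0 f n i ω - ThetaI K sg W0 f n i (fun _ => ω)|) ≤ ε := by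
  have hle : ∀ m ≤ n, lo m ≤ hi m := by
    intro m
    induction m with
    | zero => intro _; exact (hW0 (fun _ => true)).1.trans (hW0 (fun _ => true)).2
    | succ m ih =>
      intro hm
      have h1 := hmaps m (by omega) (Set.left_mem_Icc.2 (ih (by omega)))
      exact h1.1.trans h1.2
  set f' : ℕ → ℝ → ℝ := fun m x => if m < n then f m (clamp (lo m) (hi m) x) else 0 with hf'
  have hcont : ∀ m, Continuous (f' m) := by
    intro m
    by_cases hm : m < n
    · have : f' m = fun x => f m (clamp (lo m) (hi m) x) := by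
        funext x; simp only [hf', if_pos hm]
      rw [this]
      exact (hf m hm).comp_continuous (continuous_clamp _ _) (fun x => clamp_mem (hle m hm.le))
    · have : f' m = fun _ => 0 := by
        funext x; simp only [hf', if_neg hm]
      rw [this]; exact continuous_const
  obtain ⟨SS, δ, hδ, hSS, hE⟩ := fact_main_cont W0 f' hcont n ε hε
  refine ⟨SS, δ, hδ, hSS, ?_⟩
  intro Ω I _ _ P K sg hI hP hP1 hK hinv hpure
  have hT : ∀ m ≤ n, (∀ i ω, Theta K sg W0 f m i ω ∈ Set.Icc (lo m) (hi m)) ∧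
      (∀ i ω, Theta K sg W0 f' m i ω = Theta K sg W0 f m i ω) := by
    intro m
    induction m with
    | zero => intro _; exact ⟨fun i ω => hW0 _, fun i ω => rfl⟩
    | succ m ih =>
      intro hm
      obtain ⟨h1, h2⟩ := ih (by omega)
      have h3 : ∀ i, Theta K sg W0 f' m i = Theta K sg W0 f m i := fun i => funext (h2 i)
      have h4 : ∀ i ω, Ek (K m) (Theta K sg W0 f m i) ω ∈ Set.Icc (lo m) (hi m) :=
        fun i ω => Ek_mem_Icc (hK m) (h1 i) ω
      refine ⟨fun i ω => hmaps m (by omega) (h4 i ω), fun i ω => ?_⟩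
      simp only [Theta, h3]
      simp only [hf', if_pos (show m < n by omega), clamp_of_mem (h4 i ω)]
  have hTI : ∀ m ≤ n, (∀ i w, ThetaI K sg W0 f m i w ∈ Set.Icc (lo m) (hi m)) ∧
      (∀ i w, ThetaI K sg W0 f' m i w = ThetaI K sg W0 f m i w) := by
    intro m
    induction m with
    | zero => intro _; exact ⟨fun i ω => hW0 _, fun i ω => rfl⟩
    | succ m ih =>
      intro hm
      obtain ⟨h1, h2⟩ := ih (by omega)
      have h3 : ∀ i, ThetaI K sg W0 f' m i = ThetaI K sg W0 f m i := fun i => funext (h2 i)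
      have h4 : ∀ i w, EkInd (K m) (ThetaI K sg W0 f m i) w ∈ Set.Icc (lo m) (hi m) :=
        fun i w => EkInd_mem_Icc (hK m) (h1 i) w
      refine ⟨fun i w => hmaps m (by omega) (h4 i w), fun i w => ?_⟩
      simp only [ThetaI, h3]
      simp only [hf', if_pos (show m < n by omega), clamp_of_mem (h4 i w)]
  have := hE Ω I P K sg hI hP hP1 hK hinv hpure
  simpa only [(hT n le_rfl).2, (hTI n le_rfl).2] using this

end Crest.Agent.R141.Fact
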