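import Mathlib
import Crest.Agent.R141.HierE
import Crest.Agent.R141.FactMain

/-!
Row 141, Part L: bridge between the kernel form (`Fact`) and the conditional expectations `cE`,
and the version of `fact_main` for finite families of site functions averaged over an outer finite
randomness.
-/

set_option autoImplicit false

namespace Crest.Agent.R141.Fact

open Finset
open Crest.ProbabilityR.Diluted (spinVal)

/-! ### kernels of conditional expectations -/

section kern

variable {Ω : Type} [Fintype Ω]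

open scoped Classical in
/-- The kernel of the conditional expectation `cE P r`. -/
noncomputable def kern (P : Ω → ℝ) (r : Setoid Ω) (ω ω' : Ω) : ℝ :=
  if r ω ω' then P ω' / (∑ a ∈ univ.filter (fun a => r ω a), P a) else 0

theorem Ek_kern (P : Ω → ℝ) (r : Setoid Ω) (f : Ω → ℝ) (ω : Ω) :
    Ek (kern P r) f ω = cE P r f ω := by
  classical
  unfold Ek kern cE
  generalize (∑ a ∈ univ.filter (fun a => r ω a), P a) = D
  rw [Finset.sum_div, Finset.sum_filter]
  refine Finset.sum_congr rfl fun a _ => ?_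
  split_ifs
  · ring
  · simp

theorem kern_isMarkov {P : Ω → ℝ} (hP : IsProb P) (r : Setoid Ω) : IsMarkov (kern P r) := by
  classical
  constructor
  · intro ω ω'
    unfold kern
    split_ifs
    · exact div_nonneg (hP.pos ω').le (cls_pos hP r ω).le
    · exact le_rfl
  · intro ω
    have h := Ek_kern P r (fun _ => (1 : ℝ)) ω
    rw [cE_const hP] at h
    simpa only [Ek, mul_one] using h

theorem kern_inv {P : Ω → ℝ} (hP : IsProb P) (r : Setoid Ω) (ω' : Ω) :
    ∑ ω, P ω * kern P r ω ω' = P ω' := by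
  classical
  have h := eE_cE hP r (fun a => if a = ω' then (1 : ℝ) else 0)
  unfold eE at h
  simp only [← Ek_kern] at h
  simpa [Ek] using h

theorem Cov_kern (P : Ω → ℝ) (r : Setoid Ω) (f g : Ω → ℝ) (ω : Ω) :
    Cov (kern P r) ω f g = cE P r (fun a => f a * g a) ω - cE P r f ω * cE P r g ω := by
  unfold Cov
  rw [Ek_kern, Ek_kern, Ek_kern]

/-- `Theta` with kernels `kern P (r n)`: one step. -/
theorem Theta_kern_succ {I : Type} {ns : ℕ} (P : Ω → ℝ) (r : ℕ → Setoid Ω) (sg : I → Ω → Bool)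
    (W0 : (Fin ns → Bool) → ℝ) (f : ℕ → ℝ → ℝ) (n : ℕ) (i : Fin ns → I) (ω : Ω) :
    Theta (fun m => kern P (r m)) sg W0 f (n + 1) i ω =
      f n (cE P (r n) (Theta (fun m => kern P (r m)) sg W0 f n i) ω) := by
  simp only [Theta, Ek_kern]

theorem Vf_kern_succ {I : Type} (P : Ω → ℝ) (r : ℕ → Setoid Ω) (sg : I → Ω → Bool)
    (n : ℕ) (s : Shape (n + 1)) (i : I) (ω : Ω) :
    Vf (fun m => kern P (r m)) sg (n + 1) s i ω =
      (s.toList.map (fun s' : Shape n =>
        cE P (r n) (Vf (fun m => kern P (r m)) sg n s' i) ω)).prod := by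
  simp only [Vf, Ek_kern]

end kern

/-! ### ranges -/

section ranges

variable {Ω I : Type} [Fintype Ω] {ns : ℕ} {K : ℕ → Ω → Ω → ℝ} {sg : I → Ω → Bool}
  {W0 : (Fin ns → Bool) → ℝ} {f : ℕ → ℝ → ℝ} {lo hi : ℕ → ℝ} {n : ℕ}

theorem Theta_mem (hK : ∀ m, IsMarkov (K m)) (hW0 : ∀ b, W0 b ∈ Set.Icc (lo 0) (hi 0))
    (hmaps : ∀ m < n, Set.MapsTo (f m) (Set.Icc (lo m) (hi m))
      (Set.Icc (lo (m + 1)) (hi (m + 1)))) :
    ∀ m ≤ n, ∀ i ω, Theta K sg W0 f m i ω ∈ Set.Icc (lo m) (hi m) := by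
  intro m
  induction m with
  | zero => intro _ i ω; exact hW0 _
  | succ m ih =>
    intro hm i ω
    exact hmaps m (by omega) (Ek_mem_Icc (hK m) (ih (by omega) i) ω)

theorem ThetaI_mem (hK : ∀ m, IsMarkov (K m)) (hW0 : ∀ b, W0 b ∈ Set.Icc (lo 0) (hi 0))
    (hmaps : ∀ m < n, Set.MapsTo (f m) (Set.Icc (lo m) (hi m))
      (Set.Icc (lo (m + 1)) (hi (m + 1)))) :
    ∀ m ≤ n, ∀ i w, ThetaI K sg W0 f m i w ∈ Set.Icc (lo m) (hi m) := by
  intro m
  induction m with
  | zero => intro _ i ω; exact hW0 _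
  | succ m ih =>
    intro hm i w
    exact hmaps m (by omega) (EkInd_mem_Icc (hK m) (ih (by omega) i) w)

end ranges

/-- **Family version of `fact_main` with an outer average.** -/
theorem fact_family {A : Type} [Fintype A] (ns : A → ℕ)
    (W0 : (a : A) → (Fin (ns a) → Bool) → ℝ) (f : ℕ → ℝ → ℝ) (lo hi : ℕ → ℝ) (n : ℕ)
    (hW0 : ∀ a b, W0 a b ∈ Set.Icc (lo 0) (hi 0))
    (hf : ∀ m < n, ContinuousOn (f m) (Set.Icc (lo m) (hi m)))
    (hmaps : ∀ m < n, Set.MapsTo (f m) (Set.Icc (lo m) (hi m)) (Set.Icc (lo (m + 1)) (hi (m + 1))))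
    (ε : ℝ) (hε : 0 < ε) :
    ∃ (SS : (m : ℕ) → List (Shape m)) (δ : ℝ), 0 < δ ∧ (∀ m, n ≤ m → SS m = []) ∧
      ∀ (Ω I D : Type) [Fintype Ω] [Fintype I] [Fintype D] (q : D → ℝ) (P : D → Ω → ℝ)
        (K : D → ℕ → Ω → Ω → ℝ) (sg : I → Ω → Bool), Nonempty I →
        (∀ d, 0 ≤ q d) → (∑ d, q d ≤ 1) → (∀ d ω, 0 ≤ P d ω) → (∀ d, ∑ ω, P d ω = 1) →
        (∀ d m, IsMarkov (K d m)) → (∀ d, ∀ m < n, ∀ ω', ∑ ω, P d ω * K d m ω ω' = P d ω') →
        (∀ m, ∀ s ∈ SS m, ∑ d, q d * ∑ ω, P d ω * avgCov (K d m) ω (Vf (K d) sg m s) ≤ δ) →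
        ∀ a, ∑ d, q d * avg (fun i : Fin (ns a) → I => ∑ ω, P d ω *
          |Theta (K d) sg (W0 a) f n i ω - ThetaI (K d) sg (W0 a) f n i (fun _ => ω)|) ≤ ε := by
  classical
  choose SS δ hδ hSS hmain using fun a => fact_main (W0 a) f lo hi n (hW0 a) hf hmaps (ε / 2)
    (by positivity)
  -- number of shapes for `a`
  set c : A → ℝ := fun a => ∑ m ∈ Finset.range n, ((SS a m).length : ℝ) with hc
  have hc0 : ∀ a, 0 ≤ c a := fun a => Finset.sum_nonneg fun _ _ => by positivity
  set Rg : ℝ := |hi n - lo n| with hRg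
  have hRg0 : 0 ≤ Rg := abs_nonneg _
  set η : A → ℝ := fun a => (ε / 2) * δ a / ((Rg + 1) * (c a + 1)) with hη
  have hη0 : ∀ a, 0 < η a := fun a => by
    have := hδ a; have := hc0 a
    simp only [hη]; positivity
  obtain ⟨δ0, hδ0, hδ0le⟩ : ∃ δ0 : ℝ, 0 < δ0 ∧ ∀ a, δ0 ≤ η a := by
    by_cases hA : Nonempty A
    · refine ⟨Finset.univ.inf' Finset.univ_nonempty η, ?_, fun a => Finset.inf'_le _ (Finset.mem_univ a)⟩
      rw [Finset.lt_inf'_iff]
      exact fun a _ => hη0 a
    · exact ⟨1, one_pos, fun a => absurd ⟨a⟩ hA⟩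
  refine ⟨fun m => (Finset.univ : Finset A).toList.flatMap (fun a => SS a m), δ0, hδ0, ?_, ?_⟩
  · intro m hm
    simp only [hSS _ m hm]
    induction (Finset.univ : Finset A).toList with
    | nil => rfl
    | cons a L ih => simp
  intro Ω I D _ _ _ q P K sg hI hq hq1 hP hP1 hK hinv hpure a
  -- total impurity for `a`
  set imp : D → ℝ := fun d => ∑ m ∈ Finset.range n,
    ((SS a m).map fun s => ∑ ω, P d ω * avgCov (K d m) ω (Vf (K d) sg m s)).sum with himp
  have hterm0 : ∀ d m (s : Shape m), 0 ≤ ∑ ω, P d ω * avgCov (K d m) ω (Vf (K d) sg m s) :=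
    fun d m s => Finset.sum_nonneg fun ω _ => mul_nonneg (hP d ω) (avgCov_nonneg _ _)
  have himp0 : ∀ d, 0 ≤ imp d := fun d => Finset.sum_nonneg fun m _ => List.sum_nonneg (by
    intro x hx
    obtain ⟨s, _, rfl⟩ := List.mem_map.1 hx
    exact hterm0 d m s)
  have hle : ∀ d, ∀ m, ∀ s ∈ SS a m,
      ∑ ω, P d ω * avgCov (K d m) ω (Vf (K d) sg m s) ≤ imp d := by
    intro d m s hs
    have hm : m < n := by
      by_contra h
      rw [hSS a m (not_lt.1 h)] at hs
      exact absurd hs List.not_mem_nil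
    calc _ ≤ ((SS a m).map fun s => ∑ ω, P d ω * avgCov (K d m) ω (Vf (K d) sg m s)).sum := by
          apply List.single_le_sum
          · intro x hx
            obtain ⟨s, _, rfl⟩ := List.mem_map.1 hx
            exact hterm0 d m s
          · exact List.mem_map.2 ⟨s, hs, rfl⟩
      _ ≤ imp d := Finset.single_le_sum (f := fun m => ((SS a m).map fun s =>
            ∑ ω, P d ω * avgCov (K d m) ω (Vf (K d) sg m s)).sum)
          (fun m _ => List.sum_nonneg (by
            intro x hx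
            obtain ⟨s, _, rfl⟩ := List.mem_map.1 hx
            exact hterm0 d m s)) (Finset.mem_range.2 hm)
  have hfac : ∀ d, avg (fun i : Fin (ns a) → I => ∑ ω, P d ω *
      |Theta (K d) sg (W0 a) f n i ω - ThetaI (K d) sg (W0 a) f n i (fun _ => ω)|) ≤
      ε / 2 + Rg / δ a * imp d := by
    intro d
    by_cases h : imp d ≤ δ a
    · have h1 := hmain a Ω I (P d) (K d) sg hI (hP d) (hP1 d) (hK d) (hinv d)
        (fun m s hs => (hle d m s hs).trans h)
      have h2 : 0 ≤ Rg / δ a * imp d :=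
        mul_nonneg (div_nonneg hRg0 (hδ a).le) (himp0 d)
      linarith
    · have h1 : ∀ (i : Fin (ns a) → I) (ω : Ω),
          |Theta (K d) sg (W0 a) f n i ω - ThetaI (K d) sg (W0 a) f n i (fun _ => ω)| ≤ Rg := by
        intro i ω
        have h2 := Theta_mem (sg := sg) (hK d) (hW0 a) hmaps n le_rfl i ω
        have h3 := ThetaI_mem (sg := sg) (hK d) (hW0 a) hmaps n le_rfl i (fun _ => ω)
        refine le_trans ?_ (le_abs_self _)
        rw [abs_le]
        constructor
        · linarith [h2.1, h3.2]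
        · linarith [h2.2, h3.1]
      have h2 : avg (fun i : Fin (ns a) → I => ∑ ω, P d ω *
          |Theta (K d) sg (W0 a) f n i ω - ThetaI (K d) sg (W0 a) f n i (fun _ => ω)|) ≤ Rg := by
        refine (avg_mono (g := fun _ => Rg) fun i => ?_).trans (avg_const _).le
        calc _ ≤ ∑ ω, P d ω * Rg :=
              Finset.sum_le_sum fun ω _ => mul_le_mul_of_nonneg_left (h1 i ω) (hP d ω)
          _ = Rg := by rw [← Finset.sum_mul, hP1, one_mul]
      have h3 : Rg ≤ Rg / δ a * imp d := by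
        rw [div_mul_eq_mul_div, le_div_iff₀ (hδ a)]
        exact mul_le_mul_of_nonneg_left (not_le.1 h).le hRg0
      linarith
  have hsum_imp : ∑ d, q d * imp d ≤ c a * δ0 := by
    have e1 : ∑ d, q d * imp d = ∑ m ∈ Finset.range n, ((SS a m).map fun s =>
        ∑ d, q d * ∑ ω, P d ω * avgCov (K d m) ω (Vf (K d) sg m s)).sum := by
      simp only [himp, Finset.mul_sum]
      rw [Finset.sum_comm]
      refine Finset.sum_congr rfl fun m _ => ?_
      induction SS a m with
      | nil => simp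
      | cons s L ih =>
        simp only [List.map_cons, List.sum_cons, mul_add, Finset.sum_add_distrib, Finset.mul_sum]
        rw [ih]
    rw [e1, hc, Finset.sum_mul]
    refine Finset.sum_le_sum fun m _ => ?_
    have hb : ∀ s ∈ SS a m, ∑ d, q d * ∑ ω, P d ω * avgCov (K d m) ω (Vf (K d) sg m s) ≤ δ0 := by
      intro s hs
      exact hpure m s (List.mem_flatMap.2 ⟨a, by simp, hs⟩)
    have : ∀ L : List (Shape m), (∀ s ∈ L, ∑ d, q d * ∑ ω, P d ω *
        avgCov (K d m) ω (Vf (K d) sg m s) ≤ δ0) →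
        (L.map fun s => ∑ d, q d * ∑ ω, P d ω * avgCov (K d m) ω (Vf (K d) sg m s)).sum ≤
          (L.length : ℝ) * δ0 := by
      intro L
      induction L with
      | nil => intro _; simp
      | cons s L ih =>
        intro h
        simp only [List.map_cons, List.sum_cons, List.length_cons]
        have h1 := h s List.mem_cons_self
        have h2 := ih fun s' hs' => h s' (List.mem_cons_of_mem _ hs')
        push_cast
        linarith
    exact this _ hb
  calc _ ≤ ∑ d, q d * (ε / 2 + Rg / δ a * imp d) :=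
        Finset.sum_le_sum fun d _ => mul_le_mul_of_nonneg_left (hfac d) (hq d)
    _ = (∑ d, q d) * (ε / 2) + Rg / δ a * ∑ d, q d * imp d := by
        rw [Finset.mul_sum, Finset.sum_mul, ← Finset.sum_add_distrib]
        exact Finset.sum_congr rfl fun _ _ => by ring
    _ ≤ 1 * (ε / 2) + Rg / δ a * (c a * δ0) := by
        refine add_le_add (mul_le_mul_of_nonneg_right hq1 (by positivity))
          (mul_le_mul_of_nonneg_left hsum_imp (div_nonneg hRg0 (hδ a).le))
    _ ≤ ε / 2 + ε / 2 := by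
        rw [one_mul]
        refine add_le_add le_rfl ?_
        have h1 : Rg / δ a * (c a * δ0) ≤ (Rg + 1) / δ a * ((c a + 1) * η a) := by
          have := hδ a
          have := hc0 a
          have := hδ0le a
          have := (hη0 a).le
          gcongr <;> linarith
        refine h1.trans (le_of_eq ?_)
        simp only [hη]
        have := hδ a
        have := hc0 a
        field_simp
    _ = ε := by ring

end Crest.Agent.R141.Fact
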