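import Mathlib
import Crest.Agent.R141.HierA
import Crest.Agent.R141.KerS
import Crest.Agent.R141.FactHier
import Crest.Agent.R141.Bridge36b

/-!
Row 141, Part L: the nested functional `Theta` with the skeleton exponents in log form (`skelA`,
chain of `pm`), and the final form `fact_skel` of the comparison between the common-path skeleton
value and the independent-path recursion `Br.thInd`, for finite families of site functions with
arbitrary finite slot types.
-/

set_option autoImplicit false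

namespace Crest.Agent.R141.Fact

open Finset
open Crest.ProbabilityR.Diluted (spinVal)
open Crest.Agent.R141.KerS

/-- skeleton exponents by depth: `ySk J n = (J + 1 - n) / (J + 1)` -/
noncomputable def ySk (J n : ℕ) : ℝ := ((J : ℝ) + 1 - n) / ((J : ℝ) + 1)

theorem ySk_zero (J : ℕ) : ySk J 0 = 1 := by
  unfold ySk
  have : (0 : ℝ) < (J : ℝ) + 1 := by positivity
  rw [Nat.cast_zero, sub_zero, div_self this.ne']

theorem ySk_pos {J n : ℕ} (h : n ≤ J) : 0 < ySk J n := by
  unfold ySk
  have h1 : (n : ℝ) ≤ J := by exact_mod_cast h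
  apply div_pos <;> [linarith; positivity]

theorem ySk_le_one (J n : ℕ) : ySk J n ≤ 1 := by
  unfold ySk
  rw [div_le_one (by positivity)]
  have : (0 : ℝ) ≤ n := by positivity
  linarith

/-- the chain of log power means along the partitions `r 0, r 1, ...` (inner to outer) -/
noncomputable def skelA {Ω : Type} [Fintype Ω] (P : Ω → ℝ) (r : ℕ → Setoid Ω) (y : ℕ → ℝ)
    (U : Ω → ℝ) : ℕ → Ω → ℝ
  | 0 => U
  | n + 1 => pm P (r n) (y n) (skelA P r y U n)

section skel

variable {Ω I : Type} [Fintype Ω] {P : Ω → ℝ} {ns : ℕ}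

theorem fExp_step {J n : ℕ} (hJ : 1 ≤ J) (hn : n < J) (z : ℝ) :
    Br.fExp J (Br.mSk J) n (Real.exp (ySk J n * z)) = Real.exp (ySk J (n + 1) * z) := by
  rw [Br.fExp_mSk J hJ]
  have hJ0 : (0 : ℝ) < (J : ℝ) + 1 := by positivity
  have hn' : (n : ℝ) < J := by exact_mod_cast hn
  by_cases h0 : n = 0
  · subst h0
    rw [if_pos rfl, ySk_zero, one_mul, ← Real.exp_mul]
    congr 1
    unfold ySk
    push_cast
    field_simp
    ring
  · rw [if_neg h0, if_pos hn, ← Real.exp_mul]
    congr 1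
    unfold ySk
    push_cast
    have h1 : (0 : ℝ) < (J : ℝ) - n + 1 := by linarith
    field_simp
    ring

theorem fExp_last {J : ℕ} (hJ : 1 ≤ J) (z : ℝ) :
    Br.fExp J (Br.mSk J) J (Real.exp (ySk J J * z)) = z := by
  rw [Br.fExp_mSk J hJ, if_neg (by omega), if_neg (lt_irrefl _), Real.log_exp]
  unfold ySk
  have hJ0 : (0 : ℝ) < (J : ℝ) + 1 := by positivity
  field_simp
  ring

theorem Theta_eq_exp_skelA (hP : IsProb P) {J : ℕ} (hJ : 1 ≤ J) (r : ℕ → Setoid Ω)
    (sg : I → Ω → Bool) (W0 : (Fin ns → Bool) → ℝ) (hW0 : ∀ b, 0 < W0 b) (i : Fin ns → I) :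
    ∀ n ≤ J, ∀ ω, Theta (fun m => kerS P (r m)) sg W0 (Br.fExp J (Br.mSk J)) n i ω =
      Real.exp (ySk J n * skelA P r (ySk J) (fun ω => Real.log (W0 (fun l => sg (i l) ω))) n ω) := by
  intro n
  induction n with
  | zero =>
    intro _ ω
    rw [ySk_zero, one_mul]
    simp only [skelA, Theta]
    rw [Real.exp_log (hW0 _)]
  | succ n ih =>
    intro hn ω
    simp only [Theta, Ek_kerS]
    have h1 : Theta (fun m => kerS P (r m)) sg W0 (Br.fExp J (Br.mSk J)) n i = fun ω =>
        Real.exp (ySk J n * skelA P r (ySk J) (fun ω => Real.log (W0 (fun l => sg (i l) ω))) n ω) :=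
      funext (ih (by omega))
    rw [h1, ← exp_pm hP (r n) (ySk_pos (by omega))]
    simp only [skelA]
    exact fExp_step hJ (by omega) _

theorem Theta_eq_skelA (hP : IsProb P) {J : ℕ} (hJ : 1 ≤ J) (r : ℕ → Setoid Ω)
    (sg : I → Ω → Bool) (W0 : (Fin ns → Bool) → ℝ) (hW0 : ∀ b, 0 < W0 b) (i : Fin ns → I) (ω : Ω) :
    Theta (fun m => kerS P (r m)) sg W0 (Br.fExp J (Br.mSk J)) (J + 1) i ω =
      skelA P r (ySk J) (fun ω => Real.log (W0 (fun l => sg (i l) ω))) (J + 1) ω := by
  simp only [Theta, Ek_kerS]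
  have h1 : Theta (fun m => kerS P (r m)) sg W0 (Br.fExp J (Br.mSk J)) J i = fun ω =>
      Real.exp (ySk J J * skelA P r (ySk J) (fun ω => Real.log (W0 (fun l => sg (i l) ω))) J ω) :=
    funext (Theta_eq_exp_skelA hP hJ r sg W0 hW0 i J le_rfl)
  rw [h1, ← exp_pm hP (r J) (ySk_pos le_rfl)]
  simp only [skelA]
  exact fExp_last hJ _

end skel

theorem ThetaI_eq_thInd {Ω I : Type} [Fintype Ω] {ns : ℕ} (K : ℕ → Ω → Ω → ℝ)
    (sg : I → Ω → Bool) (W0 : (Fin ns → Bool) → ℝ) (f : ℕ → ℝ → ℝ) (n : ℕ) (i : Fin ns → I)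
    (w : Fin ns → Ω) : ThetaI K sg W0 f n i w = Br.thInd K sg f W0 i n w := by
  induction n generalizing w with
  | zero => rfl
  | succ n ih =>
    simp only [ThetaI, Br.thInd, EkInd, ih]

/-- **Final comparison of Part L**: skeleton value along the common path versus the
independent-path recursion. -/
theorem fact_skel {A : Type} [Fintype A] (S : A → Type) [∀ a, Fintype (S a)]
    [∀ a, DecidableEq (S a)] (W0 : (a : A) → (S a → Bool) → ℝ) (hW0 : ∀ a b, 0 < W0 a b)
    (c : ℝ) (hc : ∀ a b, |Real.log (W0 a b)| ≤ c) (J : ℕ) (hJ : 1 ≤ J) (ε : ℝ) (hε : 0 < ε) :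
    ∃ (SS : (m : ℕ) → List (Shape m)) (δ : ℝ), 0 < δ ∧ (∀ m, J + 1 ≤ m → SS m = []) ∧
      ∀ (Ω I D : Type) [Fintype Ω] [Fintype I] [Fintype D] (q : D → ℝ) (P : D → Ω → ℝ)
        (r : D → ℕ → Setoid Ω) (sg : I → Ω → Bool), Nonempty I →
        (∀ d, 0 ≤ q d) → (∑ d, q d ≤ 1) → (∀ d, IsProb (P d)) →
        (∀ m, ∀ s ∈ SS m, ∑ d, q d * ∑ ω, P d ω *
          avgCov (kerS (P d) (r d m)) ω (VS (P d) (r d) sg m s) ≤ δ) →
        ∀ a, ∑ d, q d * avg (fun i : S a → I => ∑ ω, P d ω *
          |skelA (P d) (r d) (ySk J) (fun ω => Real.log (W0 a (fun l => sg (i l) ω))) (J + 1) ω -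
            Br.thInd (fun m => kerS (P d) (r d m)) sg (Br.fExp J (Br.mSk J)) (W0 a) i (J + 1)
              (fun _ => ω)|) ≤ ε := by
  classical
  set ns : A → ℕ := fun a => Fintype.card (S a) with hns
  let e : (a : A) → S a ≃ Fin (ns a) := fun a => Fintype.equivFin (S a)
  set W1 : (a : A) → (Fin (ns a) → Bool) → ℝ := fun a σ => W0 a (fun l => σ (e a l)) with hW1
  have hc0 : ∀ a b, W1 a b ∈ Set.Icc (Real.exp (-c)) (Real.exp c) := by
    intro a b
    have h1 := abs_le.1 (hc a (fun l => b (e a l)))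
    have h2 : W1 a b = Real.exp (Real.log (W0 a (fun l => b (e a l)))) :=
      (Real.exp_log (hW0 _ _)).symm
    rw [h2]
    exact ⟨Real.exp_le_exp.2 h1.1, Real.exp_le_exp.2 h1.2⟩
  set lo : ℕ → ℝ := fun n => if n ≤ J then Real.exp (-c) else -(((J : ℝ) + 1) * |c|) with hlo
  set hi : ℕ → ℝ := fun n => if n ≤ J then Real.exp c else ((J : ℝ) + 1) * |c| with hhi
  have hJ0 : (0 : ℝ) < (J : ℝ) + 1 := by positivity
  have hf : ∀ m < J + 1, ContinuousOn (Br.fExp J (Br.mSk J) m) (Set.Icc (lo m) (hi m)) := by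
    intro m hm
    have hpos : ∀ x ∈ Set.Icc (lo m) (hi m), 0 < x := by
      intro x hx
      have h1 : lo m = Real.exp (-c) := by simp only [hlo, if_pos (show m ≤ J by omega)]
      exact lt_of_lt_of_le (h1 ▸ Real.exp_pos _) hx.1
    by_cases h0 : m = 0
    · have : Br.fExp J (Br.mSk J) m = fun s : ℝ => s ^ ((J : ℝ) / ((J : ℝ) + 1)) := by
        funext s; rw [Br.fExp_mSk J hJ, if_pos h0]
      rw [this]
      exact fun x hx => (Real.continuousAt_rpow_const x _ (Or.inl (hpos x hx).ne')).continuousWithinAt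
    · by_cases h1 : m < J
      · have : Br.fExp J (Br.mSk J) m = fun s : ℝ => s ^ (((J : ℝ) - m) / ((J : ℝ) - m + 1)) := by
          funext s; rw [Br.fExp_mSk J hJ, if_neg h0, if_pos h1]
        rw [this]
        exact fun x hx =>
          (Real.continuousAt_rpow_const x _ (Or.inl (hpos x hx).ne')).continuousWithinAt
      · have : Br.fExp J (Br.mSk J) m = fun s : ℝ => ((J : ℝ) + 1) * Real.log s := by
          funext s; rw [Br.fExp_mSk J hJ, if_neg h0, if_neg h1]
        rw [this]
        exact fun x hx =>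
          (continuousAt_const.mul (Real.continuousAt_log (hpos x hx).ne')).continuousWithinAt
  have hmaps : ∀ m < J + 1, Set.MapsTo (Br.fExp J (Br.mSk J) m) (Set.Icc (lo m) (hi m))
      (Set.Icc (lo (m + 1)) (hi (m + 1))) := by
    intro m hm x hx
    have e1 : lo m = Real.exp (-c) := by simp only [hlo, if_pos (show m ≤ J by omega)]
    have e2 : hi m = Real.exp c := by simp only [hhi, if_pos (show m ≤ J by omega)]
    rw [e1, e2] at hx
    have hx0 : 0 < x := lt_of_lt_of_le (Real.exp_pos _) hx.1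
    have hl1 : -c ≤ Real.log x := by
      rw [← Real.log_exp (-c)]; exact Real.log_le_log (Real.exp_pos _) hx.1
    have hl2 : Real.log x ≤ c := by
      rw [← Real.log_exp c]; exact Real.log_le_log hx0 hx.2
    have hcc : 0 ≤ c := by linarith
    -- power case
    have hpow : ∀ ρ : ℝ, 0 ≤ ρ → ρ ≤ 1 → x ^ ρ ∈ Set.Icc (Real.exp (-c)) (Real.exp c) := by
      intro ρ h0 h1
      rw [Real.rpow_def_of_pos hx0]
      have hlow : -c ≤ Real.log x * ρ := by nlinarith
      have hupp : Real.log x * ρ ≤ c := by nlinarith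
      exact ⟨Real.exp_le_exp.2 hlow, Real.exp_le_exp.2 hupp⟩
    rw [Br.fExp_mSk J hJ]
    by_cases h0 : m = 0
    · have e3 : lo (m + 1) = Real.exp (-c) := by simp only [hlo, if_pos (show m + 1 ≤ J by omega)]
      have e4 : hi (m + 1) = Real.exp c := by simp only [hhi, if_pos (show m + 1 ≤ J by omega)]
      rw [if_pos h0, e3, e4]
      apply hpow
      · positivity
      · rw [div_le_one hJ0]; linarith
    · by_cases h1 : m < J
      · have e3 : lo (m + 1) = Real.exp (-c) := by
          simp only [hlo, if_pos (show m + 1 ≤ J by omega)]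
        have e4 : hi (m + 1) = Real.exp c := by simp only [hhi, if_pos (show m + 1 ≤ J by omega)]
        have hm' : (m : ℝ) < J := by exact_mod_cast h1
        rw [if_neg h0, if_pos h1, e3, e4]
        apply hpow
        · apply div_nonneg <;> linarith
        · rw [div_le_one (by linarith)]; linarith
      · have e3 : lo (m + 1) = -(((J : ℝ) + 1) * |c|) := by
          simp only [hlo, if_neg (show ¬ (m + 1 ≤ J) by omega)]
        have e4 : hi (m + 1) = ((J : ℝ) + 1) * |c| := by
          simp only [hhi, if_neg (show ¬ (m + 1 ≤ J) by omega)]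
        rw [if_neg h0, if_neg h1, e3, e4, abs_of_nonneg hcc]
        constructor <;> nlinarith
  obtain ⟨SS, δ, hδ, hSS, hmain⟩ := fact_family ns W1 (Br.fExp J (Br.mSk J)) lo hi (J + 1)
    (by
      intro a b
      have e1 : lo 0 = Real.exp (-c) := by simp only [hlo, if_pos (Nat.zero_le J)]
      have e2 : hi 0 = Real.exp c := by simp only [hhi, if_pos (Nat.zero_le J)]
      rw [e1, e2]
      exact hc0 a b) hf hmaps ε hε
  refine ⟨SS, δ, hδ, hSS, ?_⟩
  intro Ω I D _ _ _ q P r sg hI hq hq1 hP hpure a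
  have h := hmain Ω I D q P (fun d m => kerS (P d) (r d m)) sg hI hq hq1
    (fun d ω => ((hP d).pos ω).le) (fun d => (hP d).sum) (fun d m => isMarkov_kerS (hP d) _)
    (fun d m _ => stat_kerS (hP d) _) hpure a
  refine le_trans (le_of_eq ?_) h
  refine Finset.sum_congr rfl fun d _ => ?_
  congr 1
  unfold avg
  have hcard : Fintype.card (S a → I) = Fintype.card (Fin (ns a) → I) :=
    Fintype.card_congr (Equiv.arrowCongr (e a) (Equiv.refl I))
  rw [hcard]
  congr 1
  refine Fintype.sum_equiv (Equiv.arrowCongr (e a) (Equiv.refl I)) _ _ fun i => ?_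
  refine Finset.sum_congr rfl fun ω _ => ?_
  congr 2
  have hi' : ∀ l, (Equiv.arrowCongr (e a) (Equiv.refl I)) i (e a l) = i l := by
    intro l; simp [Equiv.arrowCongr]
  rw [Theta_eq_skelA (hP d) hJ (r d) sg (W1 a) (fun b => hW0 _ _), ThetaI_eq_thInd]
  congr 1
  · simp only [hW1, hi']
  · have h2 := Br.thInd_reindex (e a) (fun m => kerS (P d) (r d m)) sg (Br.fExp J (Br.mSk J))
      (W0 a) ((Equiv.arrowCongr (e a) (Equiv.refl I)) i) (J + 1) (fun _ => ω)
    simp only [hi'] at h2
    exact h2.symm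

end Crest.Agent.R141.Fact
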