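import Mathlib
import Crest.Agent.R141.HierA
import Crest.Agent.R141.ExpChange
import Crest.Agent.R141.SkelPm

/-!
Row 141, Part L, 3.1: the value `A_0` of a hierarchical structure versus the skeleton value
`eE P (skelA ... (J+1))` along the levels `t 0 ≤ t 1 ≤ ... ≤ t J` with exponents `j/(J+1)`.
-/

set_option autoImplicit false

namespace Crest.Agent.R141.Skel31

open Finset
open Crest.Agent.R141 Crest.Agent.R141.Exch Crest.Agent.R141.Fact

/-- number of skeleton levels below `k` -/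
def cnt (J : ℕ) (t : ℕ → ℕ) (k : ℕ) : ℕ := ((Finset.range (J + 1)).filter (fun j => t j < k)).card

theorem cnt_mono (J : ℕ) (t : ℕ → ℕ) : Monotone (cnt J t) := by
  intro k l hkl
  refine Finset.card_le_card fun j hj => ?_
  rw [Finset.mem_filter] at hj ⊢
  exact ⟨hj.1, lt_of_lt_of_le hj.2 hkl⟩

theorem cnt_le (J : ℕ) (t : ℕ → ℕ) (k : ℕ) : cnt J t k ≤ J + 1 := by
  refine (Finset.card_filter_le _ _).trans ?_
  rw [Finset.card_range]

theorem cnt_mid {J : ℕ} {t : ℕ → ℕ} (ht : Monotone t) {j k : ℕ} (hj : j ≤ J) (h1 : 1 ≤ j)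
    (h2 : t (j - 1) < k) (h3 : k ≤ t j) : cnt J t k = j := by
  unfold cnt
  have : (Finset.range (J + 1)).filter (fun j' => t j' < k) = Finset.range j := by
    ext j'
    rw [Finset.mem_filter, Finset.mem_range, Finset.mem_range]
    constructor
    · rintro ⟨_, h⟩
      by_contra hc
      have : t j ≤ t j' := ht (not_lt.1 hc)
      omega
    · intro h
      have : t j' ≤ t (j - 1) := ht (by omega)
      exact ⟨by omega, by omega⟩
  rw [this, Finset.card_range]

theorem cnt_top {J : ℕ} {t : ℕ → ℕ} (ht : Monotone t) {k : ℕ} (h : t J < k) :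
    cnt J t k = J + 1 := by
  unfold cnt
  have : (Finset.range (J + 1)).filter (fun j' => t j' < k) = Finset.range (J + 1) := by
    refine Finset.filter_true_of_mem fun j' hj' => ?_
    rw [Finset.mem_range] at hj'
    have : t j' ≤ t J := ht (by omega)
    omega
  rw [this, Finset.card_range]

/-- skeleton exponents on all steps -/
noncomputable def xsk (J : ℕ) (t : ℕ → ℕ) (k : ℕ) : ℝ :=
  ((max 1 (cnt J t k) : ℕ) : ℝ) / ((J : ℝ) + 1)

theorem xsk_expo (J : ℕ) (t : ℕ → ℕ) : IsExpo (xsk J t) where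
  pos k := by
    unfold xsk
    have : (0 : ℕ) < max 1 (cnt J t k) := lt_of_lt_of_le Nat.one_pos (le_max_left _ _)
    have : (0 : ℝ) < ((max 1 (cnt J t k) : ℕ) : ℝ) := by exact_mod_cast this
    positivity
  mono := by
    intro k l hkl
    unfold xsk
    have h : max 1 (cnt J t k) ≤ max 1 (cnt J t l) := max_le_max le_rfl (cnt_mono J t hkl)
    have h' : ((max 1 (cnt J t k) : ℕ) : ℝ) ≤ ((max 1 (cnt J t l) : ℕ) : ℝ) := by exact_mod_cast h
    gcongr
  le_one k := by
    unfold xsk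
    rw [div_le_one (by positivity)]
    have h : max 1 (cnt J t k) ≤ J + 1 := max_le (by omega) (cnt_le J t k)
    exact_mod_cast h

variable {Ω : Type} [Fintype Ω] {P : Ω → ℝ} {𝓕 : Filt Ω}

/-- `A` depends only on the exponents up to `L` -/
theorem A_congr_expo {x x' : ℕ → ℝ} (U : Ω → ℝ) (h : ∀ k, k ≤ 𝓕.L → x k = x' k) (k : ℕ) :
    A P 𝓕 x U k = A P 𝓕 x' U k := by
  refine back_induction 𝓕 (Q := fun k => A P 𝓕 x U k = A P 𝓕 x' U k) ?_ ?_ k
  · intro k hk
    rw [A_of_ge U hk, A_of_ge U hk]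
  · intro k ih
    by_cases hk : 𝓕.L ≤ k
    · rw [A_of_ge U hk, A_of_ge U hk]
    · rw [A_step_lt U (not_le.1 hk), A_step_lt U (not_le.1 hk), ih, h (k + 1) (by omega)]

/-- the skeleton chain is the hierarchical functional with the exponents `xsk` -/
theorem skelA_eq_A (hP : IsProb P) (U : Ω → ℝ) {J : ℕ} {t : ℕ → ℕ} (ht : Monotone t)
    (htL : t J ≤ 𝓕.L) : ∀ n ≤ J, ∀ ω,
    skelA P (fun n => 𝓕.F (t (J - n))) (ySk J) U (n + 1) ω = A P 𝓕 (xsk J t) U (t (J - n)) ω := by
  have hx := xsk_expo J t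
  have hJ0 : (0 : ℝ) < (J : ℝ) + 1 := by positivity
  intro n
  induction n with
  | zero =>
    intro _ ω
    simp only [skelA, Nat.sub_zero]
    rw [A_collapse hP hx.pos (y := 1) one_pos U htL ?_ ω, A_of_ge U le_rfl, ySk_zero]
    intro j h1 _
    unfold xsk
    rw [cnt_top ht h1, max_eq_right (by omega)]
    push_cast
    field_simp
  | succ n ih =>
    intro hn ω
    have ih' : skelA P (fun n => 𝓕.F (t (J - n))) (ySk J) U (n + 1) =
        A P 𝓕 (xsk J t) U (t (J - n)) := funext (ih (by omega))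
    have hstep : skelA P (fun n => 𝓕.F (t (J - n))) (ySk J) U (n + 1 + 1) ω =
        pm P (𝓕.F (t (J - (n + 1)))) (ySk J (n + 1))
          (skelA P (fun n => 𝓕.F (t (J - n))) (ySk J) U (n + 1)) ω := rfl
    rw [hstep, ih']
    have hle : t (J - (n + 1)) ≤ t (J - n) := ht (by omega)
    refine (A_collapse hP hx.pos (ySk_pos hn) U hle ?_ ω).symm
    intro j h1 h2
    have hc : cnt J t j = J - n := cnt_mid ht (by omega) (by omega)
      (by rwa [show J - n - 1 = J - (n + 1) by omega]) h2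
    unfold xsk ySk
    rw [hc, max_eq_right (by omega), Nat.cast_sub (by omega)]
    push_cast
    congr 1
    ring

/-- **3.1**: skeleton value theorem. -/
theorem skeleton_value (hP : IsProb P) {x : ℕ → ℝ} (hx : IsExpo x) {U : Ω → ℝ} {a δ : ℝ}
    (hU : ∀ ω, |U ω| ≤ a) (hδ0 : 0 ≤ δ) (hF0 : 𝓕.F 0 = ⊤) {J : ℕ} {t : ℕ → ℕ} (ht : Monotone t)
    (htL : t J ≤ 𝓕.L) (hlow : ∀ l, l ≤ t 0 → x l ≤ δ)
    (hmid : ∀ j, 1 ≤ j → j ≤ J → ∀ l, t (j - 1) < l → l ≤ t j →
      |x l - (j : ℝ) / ((J : ℝ) + 1)| ≤ δ)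
    (htop : ∀ l, t J < l → l ≤ 𝓕.L → 1 - x l ≤ δ) (ω : Ω) :
    |A P 𝓕 x U 0 ω - eE P (skelA P (fun n => 𝓕.F (t (J - n))) (ySk J) U (J + 1))| ≤
      15 * a ^ 2 * Real.exp (4 * a) * δ := by
  have hJ0 : (0 : ℝ) < (J : ℝ) + 1 := by positivity
  have ha : 0 ≤ a := (abs_nonneg _).trans (hU ω)
  -- modified exponents
  set x2 : ℕ → ℝ := fun k => if k ≤ 𝓕.L then x k else 1 with hx2
  have hx2e : IsExpo x2 := by
    refine ⟨fun k => ?_, fun k l hkl => ?_, fun k => ?_⟩
    · simp only [hx2]; split_ifs <;> [exact hx.pos k; exact one_pos]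
    · simp only [hx2]
      split_ifs with h1 h2
      · exact hx.mono hkl
      · exact hx.le_one k
      · omega
      · exact le_rfl
    · simp only [hx2]; split_ifs <;> [exact hx.le_one k; exact le_rfl]
  have hA : ∀ k, A P 𝓕 x U k = A P 𝓕 x2 U k := fun k =>
    A_congr_expo U (fun k hk => by simp only [hx2, if_pos hk]) k
  have ht0L : t 0 ≤ 𝓕.L := (ht (Nat.zero_le J)).trans htL
  -- step 1: constant at time 0
  have h1 : A P 𝓕 x U 0 ω = eE P (A P 𝓕 x2 U 0) := by
    have hm := A_meas (𝓕 := 𝓕) hP hx2e.pos U 0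
    rw [hF0] at hm
    rw [hA 0, ← eE_top hP (A P 𝓕 x2 U 0) ω]
    exact (cE_of_meas hP hm ω).symm
  -- step 2: low part
  have h2 := A_low (𝓕 := 𝓕) (x := x2) hP hx2e hU (Nat.zero_le (t 0)) (δ := δ)
    (fun l hl => by
      simp only [hx2, if_pos (hl.trans ht0L)]
      exact hlow l hl) hδ0
  -- step 3: exponent change
  have h3 := expChange_abs (𝓕 := 𝓕) (x := x2) (x' := xsk J t) hP hx2e (xsk_expo J t) hU
    (k₀ := t 0) (δ := δ) (by
      intro k hk
      by_cases hkJ : t J < k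
      · have e1 : xsk J t k = 1 := by
          unfold xsk
          rw [cnt_top ht hkJ, max_eq_right (by omega)]
          push_cast
          field_simp
        rw [e1]
        simp only [hx2]
        split_ifs with hkL
        · have := htop k hkJ hkL
          have := hx.le_one k
          rw [abs_le]; constructor <;> linarith
        · rw [sub_self, abs_zero]; exact hδ0
      · -- find `j`
        have hex : ∃ j, k ≤ t j := ⟨J, not_lt.1 hkJ⟩
        classical
        set j := Nat.find hex with hj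
        have hj1 : k ≤ t j := Nat.find_spec hex
        have hj0 : j ≠ 0 := by
          intro h0
          rw [h0] at hj1
          omega
        have hjJ : j ≤ J := Nat.find_le (n := J) (h := hex) (not_lt.1 hkJ)
        have hj2 : t (j - 1) < k := by
          have := Nat.find_min hex (m := j - 1) (by omega)
          omega
        have e1 : xsk J t k = (j : ℝ) / ((J : ℝ) + 1) := by
          unfold xsk
          rw [cnt_mid ht hjJ (by omega) hj2 hj1, max_eq_right (by omega)]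
        rw [e1]
        simp only [hx2, if_pos ((not_lt.1 hkJ).trans htL)]
        exact hmid j (by omega) hjJ k hj2 hj1) hδ0
  have h4 : skelA P (fun n => 𝓕.F (t (J - n))) (ySk J) U (J + 1) = A P 𝓕 (xsk J t) U (t 0) := by
    funext ω'
    have := skelA_eq_A (𝓕 := 𝓕) hP U ht htL J le_rfl ω'
    rwa [Nat.sub_self] at this
  have h5 : |eE P (A P 𝓕 x2 U (t 0)) - eE P (A P 𝓕 (xsk J t) U (t 0))| ≤
      eE P (fun ω => |A P 𝓕 x2 U (t 0) ω - A P 𝓕 (xsk J t) U (t 0) ω|) := by
    rw [← eE_sub]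
    exact eE_abs_le hP _
  rw [h1, h4]
  have h6 := abs_sub_le (eE P (A P 𝓕 x2 U 0)) (eE P (A P 𝓕 x2 U (t 0)))
    (eE P (A P 𝓕 (xsk J t) U (t 0)))
  have h7 : Real.exp (2 * a) ≤ Real.exp (4 * a) := Real.exp_le_exp.2 (by linarith)
  have h8 : 5 * a ^ 2 * Real.exp (2 * a) * δ ≤ 5 * a ^ 2 * Real.exp (4 * a) * δ := by gcongr
  calc _ ≤ _ := h6
    _ ≤ 5 * a ^ 2 * Real.exp (4 * a) * δ + 10 * a ^ 2 * Real.exp (4 * a) * δ :=
        add_le_add (h2.trans h8) (h5.trans h3)
    _ = _ := by ring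

end Crest.Agent.R141.Skel31
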