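import Crest.Agent.R141.Sys

/-!
Row 141, Part L, (F4)/(A3): common definitions for the comparison of the systems of sizes `N` and
`N + 1` (helper585, helper716).
-/

set_option autoImplicit false

namespace Crest.Agent.R141

/-- the outer randomness of the system of size `N`, seen in the system of size `N + 1`. -/
def embD (p : Par) (N : ℕ) (d : DD p N) : DD p (N + 1) :=
  fun k => (d k).map (fun c => (Fin.castSucc c.1, c.2))

/-- trace out the last spin. -/
noncomputable def redH {N : ℕ} (H : (Fin (N + 1) → Bool) → ℝ) : (Fin N → Bool) → ℝ :=
  fun s => Real.log (∑ e : Bool, Real.exp (H (Fin.snoc s e)))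

end Crest.Agent.R141
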