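import Crest.Agent.R141.SysIC
import Crest.Agent.R141.SysEmb

/-!
Row 141 (S0192), Part L, section 2.1: (F2) and (F4) (fixed outer randomness) for the enriched system.
-/

set_option autoImplicit false

namespace Crest.Agent.R141

namespace SysF

open Finset SysIC

noncomputable section

/-! ### expectations of products under uniform weights -/

theorem unif_prod {ι Λ : Type} [Fintype ι] [DecidableEq ι] [Fintype Λ] (f : ι → Λ → ℝ) :
    eE (unif (ι → Λ)) (fun l => ∏ i, f i (l i)) = ∏ i, eE (unif Λ) (f i) := by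
  rw [unif_eE]
  simp only [unif_eE]
  rw [Finset.prod_mul_distrib, Fintype.prod_sum]
  congr 1
  simp

theorem unif_coord {ι Λ : Type} [Fintype ι] [DecidableEq ι] [Fintype Λ] [Nonempty Λ] (i : ι)
    (f : Λ → ℝ) : eE (unif (ι → Λ)) (fun l => f (l i)) = eE (unif Λ) f := by
  have h := unif_prod (ι := ι) (Λ := Λ) (fun j c => if j = i then f c else 1)
  have e1 : (fun l : ι → Λ => ∏ j, (if j = i then f (l j) else 1)) = fun l => f (l i) := by
    funext l
    rw [Finset.prod_eq_single i]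
    · simp
    · intro j _ hj; simp [hj]
    · intro h; exact absurd (Finset.mem_univ _) h
  rw [e1] at h
  rw [h, Finset.prod_eq_single i]
  · simp
  · intro j _ hj
    simp only [hj, if_false]
    exact eE_const (unif_isProb Λ) 1
  · intro h; exact absurd (Finset.mem_univ _) h

theorem nonemptyQ (p : Par) : Nonempty (Fin p.Q) := ⟨p.z⟩

theorem eE_vb (p : Par) (b : Fin p.nb) :
    eE (unif (Fin p.nc → Fin p.Q)) (vb p b) = (p.Q : ℝ)⁻¹ := by
  have := nonemptyQ p
  have h := unif_coord (ι := Fin p.nc) (Λ := Fin p.Q) (p.lev b)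
    (fun c => if c = p.z then (1 : ℝ) else 0)
  have e : vb p b = fun l : Fin p.nc → Fin p.Q => (if l (p.lev b) = p.z then (1 : ℝ) else 0) := by
    funext l; rfl
  rw [e, h, unif_eE]
  simp

theorem vb_mem (p : Par) (b : Fin p.nb) (l : Fin p.nc → Fin p.Q) : vb p b l = 0 ∨ vb p b l = 1 := by
  unfold vb; split_ifs <;> simp

theorem gval_of_vb_zero (p : Par) (b : Fin p.nb) (l : Fin p.nc → Fin p.Q) (h : vb p b l = 0) :
    gval p b l = 0 := by
  unfold vb at h
  unfold gval
  split_ifs at h ⊢ with h1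
  · norm_num at h
  · rfl

/-- pointwise bounds of the gadget factor -/
theorem gfac_ge (p : Par) (N : ℕ) (i : Fin N) (b : Fin p.nb) (ω : Om p N) :
    - vb p b (ω.2.1 i b) ≤ gfac p N i b ω := by
  unfold gfac
  have hs := sv_abs (ω.1 i)
  have hg := gval_abs p b (ω.2.1 i b)
  rcases vb_mem p b (ω.2.1 i b) with h | h
  · rw [gval_of_vb_zero p b _ h, h]; simp
  · rw [h]
    have h1 : |gval p b (ω.2.1 i b) * sv (ω.1 i)| ≤ 1 / 2 := by rw [abs_mul, hs, mul_one]; exact hg
    have h2 := (abs_le.mp h1).1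
    have h3 : (1 / 2 : ℝ) ≤ 1 + gval p b (ω.2.1 i b) * sv (ω.1 i) := by linarith
    have h4 : Real.log (1 / 2) ≤ Real.log (1 + gval p b (ω.2.1 i b) * sv (ω.1 i)) :=
      Real.log_le_log (by norm_num) h3
    have h5 : Real.log (1 / 2) = - Real.log 2 := by rw [one_div, Real.log_inv]
    have h6 := Real.log_two_lt_d9
    linarith

theorem exp_gfac_le (p : Par) (N : ℕ) (i : Fin N) (b : Fin p.nb) (ω : Om p N) :
    Real.exp (gfac p N i b ω) ≤ 1 + 1 / 2 * vb p b (ω.2.1 i b) := by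
  unfold gfac
  have hs := sv_abs (ω.1 i)
  have hg := gval_abs p b (ω.2.1 i b)
  have h1 : |gval p b (ω.2.1 i b) * sv (ω.1 i)| ≤ 1 / 2 := by rw [abs_mul, hs, mul_one]; exact hg
  have h2 := (abs_le.mp h1)
  rw [Real.exp_log (by linarith [h2.1])]
  rcases vb_mem p b (ω.2.1 i b) with h | h
  · rw [gval_of_vb_zero p b _ h, h]; simp
  · rw [h]; linarith [h2.2]

/-! ### the full spin and label coordinates -/

theorem ic_spins (p : Par) (N : ℕ) : IC (prior p N) (fil p N).F (fun ω => ω.1)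
    (fun ω c => (c, ω.2)) (unif (Fin N → Bool)) (stepF (Fin N → Bool) p.L) where
  get_upd ω c := rfl
  upd_get ω := rfl
  upd_upd ω c c' := rfl
  prob ω c := rfl
  rel k ω ω' c := by
    rw [stepF_iff]
    constructor
    · intro h
      have h : frel p N k ω ω' := h
      exact ⟨⟨h.1, h.2.1, fun _ => rfl⟩, h.2.2⟩
    · rintro ⟨h, h'⟩
      have h : frel p N k (c, ω.2) (c, ω'.2) := h
      exact ⟨h.1, h.2.1, h'⟩

/-- all labels: revealed coordinates. -/
def labsF (p : Par) (N : ℕ) (k : ℕ) : Setoid (Fin N → Fin p.nb → Fin p.nc → Fin p.Q) :=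
  ⟨fun l l' => ∀ (i : Fin N) (b : Fin p.nb) (g : Fin p.nc), p.mt g ≤ k → l i b g = l' i b g, ⟨fun _ _ _ _ _ => rfl,
    fun h i b g hg => (h i b g hg).symm,
    fun h h' i b g hg => (h i b g hg).trans (h' i b g hg)⟩⟩

theorem ic_labs (p : Par) (N : ℕ) : IC (prior p N) (fil p N).F (fun ω => ω.2.1)
    (fun ω c => (ω.1, c, ω.2.2)) (unif (Fin N → Fin p.nb → Fin p.nc → Fin p.Q)) (labsF p N) where
  get_upd ω c := rfl
  upd_get ω := rfl
  upd_upd ω c c' := rfl
  prob ω c := rfl
  rel k ω ω' c := by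
    constructor
    · intro h
      have h : frel p N k ω ω' := h
      exact ⟨⟨fun _ _ _ _ => rfl, h.2.1, h.2.2⟩, h.1⟩
    · rintro ⟨h, h'⟩
      have h : frel p N k (ω.1, c, ω.2.2) (ω'.1, c, ω'.2.2) := h
      exact ⟨h', h.2.1, h.2.2⟩

/-! ### A at level zero -/

theorem A_eq_below {Ω : Type*} [Fintype Ω] {P : Ω → ℝ} {𝓕 : Filt Ω} {x : ℕ → ℝ} (hP : IsProb P)
    (hx : ∀ k, 0 < x k) {U V : Ω → ℝ} {k0 : ℕ} (h : A P 𝓕 x U k0 = A P 𝓕 x V k0) :
    ∀ j, A P 𝓕 x U (k0 - j) = A P 𝓕 x V (k0 - j) := by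
  intro j
  induction j with
  | zero => simpa using h
  | succ n ih =>
    by_cases hn : k0 ≤ n
    · have e1 : k0 - (n + 1) = k0 - n := by omega
      rw [e1]; exact ih
    · have e1 : k0 - n = (k0 - (n + 1)) + 1 := by omega
      rw [e1] at ih
      rw [A_step hP hx U, A_step hP hx V, ih]

theorem A_zero_eq {Ω : Type*} [Fintype Ω] {P : Ω → ℝ} {𝓕 : Filt Ω} {x : ℕ → ℝ} (hP : IsProb P)
    (hx : ∀ k, 0 < x k) {U V : Ω → ℝ} (k0 : ℕ) (h : A P 𝓕 x U k0 = A P 𝓕 x V k0) :
    A P 𝓕 x U 0 = A P 𝓕 x V 0 := by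
  have := A_eq_below hP hx h k0
  simpa using this

/-- bounds of `eE P A_0` by the two Jensen inequalities, `F 0 = ⊤` -/
theorem A_zero_bounds (p : Par) (N : ℕ) {Q : Om p N → ℝ} (hQ : IsProb Q) (G : Om p N → ℝ)
    (ω : Om p N) : eE Q G ≤ A Q (fil p N) p.xs G 0 ω ∧
      A Q (fil p N) p.xs G 0 ω ≤ Real.log (eE Q (fun w => Real.exp (G w))) := by
  have h1 := cE_le_A (𝓕 := fil p N) hQ p.xs_expo.pos G 0 ω
  have h2 := A_le_log (𝓕 := fil p N) hQ p.xs_expo G 0 ω
  rw [fil_zero, eE_top hQ] at h1 h2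
  exact ⟨h1, h2⟩

theorem L_pos (p : Par) : 0 < p.L := by unfold Par.L; omega

theorem xs_L (p : Par) : p.xs p.L = 1 := p.xs_last le_rfl

/-- the level `L-1` value -/
theorem A_pred (p : Par) (N : ℕ) {Q : Om p N → ℝ} (hQ : IsProb Q) (U : Om p N → ℝ) (ω : Om p N) :
    A Q (fil p N) p.xs U (p.L - 1) ω =
      Real.log (cE Q ((fil p N).F (p.L - 1)) (fun w => Real.exp (U w)) ω) := by
  rw [A_step hQ p.xs_expo.pos U (p.L - 1)]
  have h1 : p.L - 1 + 1 = p.L := by have := L_pos p; omega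
  rw [h1]
  have h2 : A Q (fil p N) p.xs U p.L = U := A_of_ge (𝓕 := fil p N) U (le_refl p.L)
  rw [h2]
  unfold pm
  rw [xs_L]
  simp

/-! ### (F2) -/

theorem A_zero_spin (p : Par) (N : ℕ) (H : (Fin N → Bool) → ℝ) (ω : Om p N) :
    A (prior p N) (fil p N) p.xs (fun ω => H ω.1) 0 ω =
      Real.log (∑ s, Real.exp (H s)) - N * Real.log 2 := by
  have hP := prior_isProb p N
  have hx := p.xs_expo.pos
  have hlt : ¬ p.L ≤ p.L - 1 := by have := L_pos p; omega
  have h1 : A (prior p N) (fil p N) p.xs (fun ω => H ω.1) (p.L - 1) =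
      fun _ => Real.log (∑ s, Real.exp (H s)) - N * Real.log 2 := by
    funext ω
    rw [A_pred p N hP]
    have hu : IsProb (unif (Fin N → Bool)) := unif_isProb _
    rw [(ic_spins p N).cE_coord hP hu (p.L - 1) (fun s => Real.exp (H s)) ω]
    have e : stepF (Fin N → Bool) p.L (p.L - 1) = ⊤ := by unfold stepF; rw [if_neg hlt]
    rw [e, eE_top hu, unif_eE]
    have hpos : 0 < ∑ s : Fin N → Bool, Real.exp (H s) :=
      Finset.sum_pos (fun _ _ => Real.exp_pos _) ⟨fun _ => true, Finset.mem_univ _⟩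
    have hc : (Fintype.card (Fin N → Bool) : ℝ) = 2 ^ N := by simp
    rw [hc, Real.log_mul (by positivity) hpos.ne', Real.log_inv, Real.log_pow]
    ring
  have h2 : A (prior p N) (fil p N) p.xs (fun ω => H ω.1) (p.L - 1) =
      A (prior p N) (fil p N) p.xs
        (fun _ => Real.log (∑ s, Real.exp (H s)) - N * Real.log 2) (p.L - 1) := by
    rw [h1]; funext ω; rw [A_const hP hx]
  rw [A_zero_eq hP hx _ h2, A_const hP hx]

/-- sum of products bound -/
theorem prod_le_exp {ι : Type*} [Fintype ι] (c : ℝ) (hc : 0 ≤ c) :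
    ∏ _i : ι, (1 + c) ≤ Real.exp (Fintype.card ι * c) := by
  rw [Finset.prod_const, Finset.card_univ, mul_comm, Real.exp_mul]
  rw [Real.rpow_natCast]
  exact pow_le_pow_left₀ (by linarith) (by have := Real.add_one_le_exp c; linarith) _

theorem eE_labs_prod (p : Par) (N : ℕ) :
    eE (unif (Fin N → Fin p.nb → Fin p.nc → Fin p.Q))
      (fun l => ∏ i, ∏ b, (1 + 1 / 2 * vb p b (l i b))) ≤
      Real.exp (N * (p.nb * (1 / 2 * (p.Q : ℝ)⁻¹))) := by
  have := nonemptyQ p
  have e0 : 0 ≤ 1 / 2 * (p.Q : ℝ)⁻¹ := by positivity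
  rw [unif_prod (ι := Fin N) (Λ := Fin p.nb → Fin p.nc → Fin p.Q)
    (fun _ l => ∏ b, (1 + 1 / 2 * vb p b (l b)))]
  have e1 : ∀ i : Fin N, eE (unif (Fin p.nb → Fin p.nc → Fin p.Q))
      (fun l => ∏ b, (1 + 1 / 2 * vb p b (l b))) = (1 + 1 / 2 * (p.Q : ℝ)⁻¹) ^ p.nb := by
    intro _
    rw [unif_prod (ι := Fin p.nb) (Λ := Fin p.nc → Fin p.Q)
      (fun b l => 1 + 1 / 2 * vb p b l)]
    have e2 : ∀ b : Fin p.nb, eE (unif (Fin p.nc → Fin p.Q)) (fun l => 1 + 1 / 2 * vb p b l) =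
        1 + 1 / 2 * (p.Q : ℝ)⁻¹ := by
      intro b
      have h := eE_add (unif (Fin p.nc → Fin p.Q)) (fun _ => 1) (fun l => 1 / 2 * vb p b l)
      rw [h, eE_smul, eE_vb]
      rw [eE_const (unif_isProb _)]
    rw [Finset.prod_congr rfl fun b _ => e2 b, Finset.prod_const, Finset.card_univ,
      Fintype.card_fin]
  rw [Finset.prod_congr rfl fun i _ => e1 i, Finset.prod_const, Finset.card_univ,
    Fintype.card_fin, ← pow_mul]
  have h3 : (1 + 1 / 2 * (p.Q : ℝ)⁻¹) ≤ Real.exp (1 / 2 * (p.Q : ℝ)⁻¹) := by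
    have := Real.add_one_le_exp (1 / 2 * (p.Q : ℝ)⁻¹); linarith
  calc (1 + 1 / 2 * (p.Q : ℝ)⁻¹) ^ (p.nb * N) ≤ (Real.exp (1 / 2 * (p.Q : ℝ)⁻¹)) ^ (p.nb * N) :=
        pow_le_pow_left₀ (by linarith) h3 _
    _ = Real.exp (N * (p.nb * (1 / 2 * (p.Q : ℝ)⁻¹))) := by
        rw [← Real.exp_nat_mul]; congr 1; push_cast; ring

theorem cfac_mem (p : Par) (N : ℕ) (o : Option (Crd p N)) (k : Stp p) (ω : Om p N) :
    0 ≤ cfac p N o k ω ∧ cfac p N o k ω ≤ p.τ := by
  have hτ := p.hτ0
  unfold cfac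
  cases o with
  | none => exact ⟨le_refl _, hτ.le⟩
  | some c =>
    have h1 := cv_nonneg p N c ω
    have h2 := cv_le_one p N c ω
    show 0 ≤ p.τ * ((if ω.2.2 k.1 k.2 = true then 1 else 0) * cv p N c ω) ∧
      p.τ * ((if ω.2.2 k.1 k.2 = true then 1 else 0) * cv p N c ω) ≤ p.τ
    split_ifs
    · constructor
      · positivity
      · nlinarith
    · constructor
      · simp
      · simp only [zero_mul, mul_zero]; exact hτ.le

/-- (F2) -/
theorem Phi_F2 (p : Par) (N : ℕ) (H : (Fin N → Bool) → ℝ) (d : DD p N) :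
    |Phi p N H d - Real.log (∑ s, Real.exp (H s))| ≤
      N * (p.nb * (p.Q : ℝ)⁻¹) + p.τ * Fintype.card (Stp p) := by
  have hP := prior_isProb p N
  have hx := p.xs_expo.pos
  have hQ0 : (0 : ℝ) ≤ (p.Q : ℝ)⁻¹ := by positivity
  have hτ := p.hτ0
  set Q := tl (prior p N) (fil p N) p.xs (fun ω => H ω.1) with hQdef
  have hQ : IsProb Q := tl_isProb hP hx _
  have hic : IC Q (fil p N).F (fun ω => ω.2.1)
      (fun ω c => (ω.1, c, ω.2.2)) (unif (Fin N → Fin p.nb → Fin p.nc → Fin p.Q)) (labsF p N) :=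
    (ic_labs p N).tl_inv hP (by have := nonemptyQ p; exact unif_isProb _) hx (fun _ _ => rfl)
  have hu : IsProb (unif (Fin N → Fin p.nb → Fin p.nc → Fin p.Q)) := by
    have := nonemptyQ p; exact unif_isProb _
  -- cocycle
  have hco : ∀ ω, A (prior p N) (fil p N) p.xs (UU p N H d) 0 ω =
      (Real.log (∑ s, Real.exp (H s)) - N * Real.log 2) + A Q (fil p N) p.xs (WW p N d) 0 ω := by
    intro ω
    have h := A_cocycle (𝓕 := fil p N) hP hx (fun ω => H ω.1) (WW p N d) 0 ω
    rw [A_zero_spin] at h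
    exact h
  have hPhi : Phi p N H d - Real.log (∑ s, Real.exp (H s)) =
      eE (prior p N) (A Q (fil p N) p.xs (WW p N d) 0) := by
    unfold Phi
    have e : A (prior p N) (fil p N) p.xs (UU p N H d) 0 = fun ω =>
        (Real.log (∑ s, Real.exp (H s)) - N * Real.log 2) + A Q (fil p N) p.xs (WW p N d) 0 ω := by
      funext ω; exact hco ω
    rw [e, eE_add, eE_const hP]
    ring
  -- lower bound of E WW
  have hlow : -(N * (p.nb * (p.Q : ℝ)⁻¹)) ≤ eE Q (WW p N d) := by
    have h1 : eE Q (fun ω => - ∑ i, ∑ b, vb p b (ω.2.1 i b)) ≤ eE Q (WW p N d) := by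
      apply eE_mono hQ
      intro ω
      unfold WW
      have h2 : - ∑ i, ∑ b, vb p b (ω.2.1 i b) ≤ ∑ i, ∑ b, gfac p N i b ω := by
        rw [← Finset.sum_neg_distrib]
        refine Finset.sum_le_sum fun i _ => ?_
        rw [← Finset.sum_neg_distrib]
        exact Finset.sum_le_sum fun b _ => gfac_ge p N i b ω
      have h3 : 0 ≤ ∑ k, cfac p N (d k) k ω :=
        Finset.sum_nonneg fun k _ => (cfac_mem p N (d k) k ω).1
      linarith
    have h2 : eE Q (fun ω => - ∑ i, ∑ b, vb p b (ω.2.1 i b)) = -(N * (p.nb * (p.Q : ℝ)⁻¹)) := by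
      have h3 := hic.eE_coord hQ hu (fun l => - ∑ i, ∑ b, vb p b (l i b))
      rw [h3]
      have e : (fun l : Fin N → Fin p.nb → Fin p.nc → Fin p.Q => - ∑ i, ∑ b, vb p b (l i b)) =
          fun l => (-1) * ∑ i, ∑ b, vb p b (l i b) := by funext l; ring
      rw [e, eE_smul, eE_sum]
      have h4 : ∀ i : Fin N, eE (unif (Fin N → Fin p.nb → Fin p.nc → Fin p.Q))
          (fun l => ∑ b, vb p b (l i b)) = p.nb * (p.Q : ℝ)⁻¹ := by
        intro i
        have := nonemptyQ p
        rw [unif_coord (ι := Fin N) (Λ := Fin p.nb → Fin p.nc → Fin p.Q) i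
          (fun l => ∑ b, vb p b (l b)), eE_sum]
        have h5 : ∀ b : Fin p.nb, eE (unif (Fin p.nb → Fin p.nc → Fin p.Q))
            (fun l => vb p b (l b)) = (p.Q : ℝ)⁻¹ := by
          intro b
          rw [unif_coord (ι := Fin p.nb) (Λ := Fin p.nc → Fin p.Q) b (vb p b), eE_vb]
        rw [Finset.sum_congr rfl fun b _ => h5 b, Finset.sum_const, Finset.card_univ,
          Fintype.card_fin, nsmul_eq_mul]
      rw [Finset.sum_congr rfl fun i _ => h4 i, Finset.sum_const, Finset.card_univ,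
        Fintype.card_fin, nsmul_eq_mul]
      ring
    linarith
  -- upper bound
  have hupp : Real.log (eE Q (fun w => Real.exp (WW p N d w))) ≤
      N * (p.nb * (1 / 2 * (p.Q : ℝ)⁻¹)) + p.τ * Fintype.card (Stp p) := by
    have hne : Nonempty (Om p N) := inferInstance
    have hpos : 0 < eE Q (fun w => Real.exp (WW p N d w)) := by
      unfold eE
      exact Finset.sum_pos (fun ω _ => mul_pos (hQ.pos ω) (Real.exp_pos _))
        ⟨hne.some, Finset.mem_univ _⟩
    rw [Real.log_le_iff_le_exp hpos]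
    have h1 : eE Q (fun w => Real.exp (WW p N d w)) ≤
        eE Q (fun ω => Real.exp (p.τ * Fintype.card (Stp p)) *
          ∏ i, ∏ b, (1 + 1 / 2 * vb p b (ω.2.1 i b))) := by
      apply eE_mono hQ
      intro ω
      unfold WW
      rw [Real.exp_add, mul_comm]
      apply mul_le_mul
      · apply Real.exp_le_exp.mpr
        calc ∑ k, cfac p N (d k) k ω ≤ ∑ _k : Stp p, p.τ :=
              Finset.sum_le_sum fun k _ => (cfac_mem p N (d k) k ω).2
          _ = p.τ * Fintype.card (Stp p) := by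
              rw [Finset.sum_const, Finset.card_univ, nsmul_eq_mul, mul_comm]
      · rw [Real.exp_sum]
        refine Finset.prod_le_prod (fun _ _ => (Real.exp_pos _).le) fun i _ => ?_
        rw [Real.exp_sum]
        exact Finset.prod_le_prod (fun _ _ => (Real.exp_pos _).le) fun b _ => exp_gfac_le p N i b ω
      · exact (Real.exp_pos _).le
      · exact (Real.exp_pos _).le
    refine h1.trans ?_
    rw [eE_smul]
    have h3 := hic.eE_coord hQ hu (fun l => ∏ i, ∏ b, (1 + 1 / 2 * vb p b (l i b)))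
    rw [h3, add_comm (N * (p.nb * (1 / 2 * (p.Q : ℝ)⁻¹)) : ℝ), Real.exp_add]
    exact mul_le_mul_of_nonneg_left (eE_labs_prod p N) (Real.exp_pos _).le
  have hb : ∀ ω, -(N * (p.nb * (p.Q : ℝ)⁻¹)) ≤ A Q (fil p N) p.xs (WW p N d) 0 ω ∧
      A Q (fil p N) p.xs (WW p N d) 0 ω ≤
        N * (p.nb * (1 / 2 * (p.Q : ℝ)⁻¹)) + p.τ * Fintype.card (Stp p) := by
    intro ω
    have h := A_zero_bounds p N hQ (WW p N d) ω
    exact ⟨hlow.trans h.1, h.2.trans hupp⟩
  rw [hPhi, abs_le]
  constructor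
  · have h1 : eE (prior p N) (fun _ => -(N * (p.nb * (p.Q : ℝ)⁻¹))) ≤
        eE (prior p N) (A Q (fil p N) p.xs (WW p N d) 0) := eE_mono hP fun ω => (hb ω).1
    rw [eE_const hP] at h1
    have h2 : 0 ≤ p.τ * Fintype.card (Stp p) := by positivity
    linarith
  · have h1 := eE_le_of_le hP fun ω => (hb ω).2
    have h2 : (N : ℝ) * (p.nb * (1 / 2 * (p.Q : ℝ)⁻¹)) ≤ N * (p.nb * (p.Q : ℝ)⁻¹) := by
      apply mul_le_mul_of_nonneg_left _ (Nat.cast_nonneg _)
      apply mul_le_mul_of_nonneg_left _ (Nat.cast_nonneg _)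
      linarith
    linarith

/-! ### (F4) -/

/-- gadget part of the last site -/
def Glast (p : Par) (N : ℕ) (ω : Om p (N + 1)) : ℝ := ∑ b, gfac p (N + 1) (Fin.last N) b ω

theorem WW_embD (p : Par) (N : ℕ) (d : DD p N) (ω : Om p (N + 1)) :
    WW p (N + 1) (embD p N d) ω = WW p N d (proj p N ω) + Glast p N ω := by
  unfold WW Glast
  rw [Fin.sum_univ_castSucc]
  have e1 : ∀ k, cfac p (N + 1) (embD p N d k) k ω = cfac p N (d k) k (proj p N ω) := by
    intro k
    unfold embD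
    cases h : d k with
    | none => rfl
    | some c =>
      obtain ⟨i, o⟩ := c
      cases o with
      | none => rfl
      | some b => rfl
  have e2 : ∀ (i : Fin N) (b : Fin p.nb), gfac p (N + 1) i.castSucc b ω =
      gfac p N i b (proj p N ω) := fun i b => rfl
  simp only [e1, e2]
  ring

/-- the log-weight without the gadgets of the last site -/
def Vl (p : Par) (N : ℕ) (H : (Fin (N + 1) → Bool) → ℝ) (d : DD p N) (ω : Om p (N + 1)) : ℝ :=
  H ω.1 + WW p N d (proj p N ω)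

theorem snoc_update {N : ℕ} (s : Fin (N + 1) → Bool) (c : Bool) :
    Function.update s (Fin.last N) c =
      (Fin.snoc (fun i : Fin N => s i.castSucc) c : Fin (N + 1) → Bool) := by
  funext i
  refine Fin.lastCases ?_ (fun j => ?_) i
  · simp
  · simp

theorem A_Vl_zero (p : Par) (N : ℕ) (H : (Fin (N + 1) → Bool) → ℝ) (d : DD p N)
    (ω : Om p (N + 1)) :
    A (prior p (N + 1)) (fil p (N + 1)) p.xs (Vl p N H d) 0 ω =
      A (prior p N) (fil p N) p.xs (UU p N (redH H) d) 0 (proj p N ω) - Real.log 2 := by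
  have hP' := prior_isProb p (N + 1)
  have hP := prior_isProb p N
  have hx := p.xs_expo.pos
  have hlt : ¬ p.L ≤ p.L - 1 := by have := L_pos p; omega
  have hu : IsProb (unif Bool) := unif_isProb _
  have h1 : A (prior p (N + 1)) (fil p (N + 1)) p.xs (Vl p N H d) (p.L - 1) =
      A (prior p (N + 1)) (fil p (N + 1)) p.xs
        (fun w => (fun v => UU p N (redH H) d v - Real.log 2) (proj p N w)) (p.L - 1) := by
    funext w
    rw [A_pred p (N + 1) hP', A_pred p (N + 1) hP']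
    congr 1
    rw [(ic_spin p (N + 1) (Fin.last N)).cE_eq hu (p.L - 1)]
    congr 1
    funext w'
    have e : stepF Bool p.L (p.L - 1) = ⊤ := by unfold stepF; rw [if_neg hlt]
    rw [e, eE_top hu, unif_eE]
    have e2 : ∀ c : Bool, Real.exp (Vl p N H d (spinUpd p (N + 1) (Fin.last N) w' c)) =
        Real.exp (WW p N d (proj p N w')) * Real.exp (H (Fin.snoc (proj p N w').1 c)) := by
      intro c
      rw [← Real.exp_add]
      congr 1
      unfold Vl
      have e3 : (spinUpd p (N + 1) (Fin.last N) w' c).1 =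
          (Fin.snoc (proj p N w').1 c : Fin (N + 1) → Bool) := snoc_update w'.1 c
      have e4 : proj p N (spinUpd p (N + 1) (Fin.last N) w' c) = proj p N w' := by
        refine Prod.ext ?_ rfl
        funext i
        show Function.update w'.1 (Fin.last N) c i.castSucc = w'.1 i.castSucc
        rw [Function.update_of_ne (Fin.castSucc_lt_last i).ne]
      rw [e3, e4]; ring
    simp only [e2]
    rw [← Finset.mul_sum]
    have hpos : 0 < ∑ e : Bool, Real.exp (H (Fin.snoc (proj p N w').1 e)) :=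
      Finset.sum_pos (fun _ _ => Real.exp_pos _) ⟨true, Finset.mem_univ _⟩
    show _ = Real.exp (redH H (proj p N w').1 + WW p N d (proj p N w') - Real.log 2)
    unfold redH
    rw [Real.exp_sub, Real.exp_add, Real.exp_log hpos, Real.exp_log (by norm_num)]
    simp only [Fintype.card_bool]
    push_cast
    ring
  rw [A_zero_eq hP' hx _ h1,
    A_proj (𝓕' := fil p (N + 1)) (𝓕 := fil p N) hP' hP hx (proj p N)
      (fun k f ω' => cE_proj_last p N k f ω') (fun v => UU p N (redH H) d v - Real.log 2) 0 ω]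
  have := A_add_const (𝓕 := fil p N) hP hx (UU p N (redH H) d) (-Real.log 2) 0 (proj p N ω)
  simpa [sub_eq_add_neg] using this

/-- (F4), fixed outer randomness not touching the last site -/
theorem Phi_embD (p : Par) (N : ℕ) (H : (Fin (N + 1) → Bool) → ℝ) (d : DD p N) :
    |Phi p (N + 1) H (embD p N d) - Phi p N (redH H) d| ≤ p.nb / p.Q := by
  have hP' := prior_isProb p (N + 1)
  have hP := prior_isProb p N
  have hx := p.xs_expo.pos
  have hQ0 : (0 : ℝ) ≤ (p.Q : ℝ)⁻¹ := by positivity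
  set Q := tl (prior p (N + 1)) (fil p (N + 1)) p.xs (Vl p N H d) with hQdef
  have hQ : IsProb Q := tl_isProb hP' hx _
  have hu : IsProb (unif (Fin p.nb → Fin p.nc → Fin p.Q)) := by
    have := nonemptyQ p; exact unif_isProb _
  have hic : IC Q (fil p (N + 1)).F (fun ω => ω.2.1 (Fin.last N))
      (labUpd p (N + 1) (Fin.last N)) (unif (Fin p.nb → Fin p.nc → Fin p.Q)) (labF p) := by
    apply (ic_lab p (N + 1) (Fin.last N)).tl_inv hP' hu hx
    intro ω c
    unfold Vl
    have e4 : proj p N (labUpd p (N + 1) (Fin.last N) ω c) = proj p N ω := by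
      refine Prod.ext rfl (Prod.ext ?_ rfl)
      funext i
      show Function.update ω.2.1 (Fin.last N) c i.castSucc = ω.2.1 i.castSucc
      rw [Function.update_of_ne (Fin.castSucc_lt_last i).ne]
    rw [e4]
    rfl
  -- split
  have hUU : UU p (N + 1) H (embD p N d) = fun ω => Vl p N H d ω + Glast p N ω := by
    funext ω
    unfold UU Vl
    rw [WW_embD]; ring
  have hPhi : Phi p (N + 1) H (embD p N d) - Phi p N (redH H) d =
      eE (prior p (N + 1)) (A Q (fil p (N + 1)) p.xs (Glast p N) 0) := by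
    unfold Phi
    have e : A (prior p (N + 1)) (fil p (N + 1)) p.xs (UU p (N + 1) H (embD p N d)) 0 = fun ω =>
        (A (prior p N) (fil p N) p.xs (UU p N (redH H) d) 0 (proj p N ω) - Real.log 2) +
          A Q (fil p (N + 1)) p.xs (Glast p N) 0 ω := by
      funext ω
      rw [hUU, A_cocycle (𝓕 := fil p (N + 1)) hP' hx (Vl p N H d) (Glast p N) 0 ω, A_Vl_zero]
    rw [e, eE_add, eE_sub, eE_const hP']
    have e2 : eE (prior p (N + 1)) (fun a => A (prior p N) (fil p N) p.xs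
        (UU p N (redH H) d) 0 (proj p N a)) =
        eE (prior p N) (A (prior p N) (fil p N) p.xs (UU p N (redH H) d) 0) := by
      have hne : Nonempty (Om p (N + 1)) := inferInstance
      have h := cE_proj_last p N 0 (A (prior p N) (fil p N) p.xs (UU p N (redH H) d) 0) hne.some
      rw [fil_zero, fil_zero, eE_top hP', eE_top hP] at h
      exact h
    rw [e2]
    push_cast
    ring
  have hlow : -(p.nb * (p.Q : ℝ)⁻¹) ≤ eE Q (Glast p N) := by
    have h1 : eE Q (fun ω => - ∑ b, vb p b (ω.2.1 (Fin.last N) b)) ≤ eE Q (Glast p N) := by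
      apply eE_mono hQ
      intro ω
      unfold Glast
      rw [← Finset.sum_neg_distrib]
      exact Finset.sum_le_sum fun b _ => gfac_ge p (N + 1) (Fin.last N) b ω
    have h2 : eE Q (fun ω => - ∑ b, vb p b (ω.2.1 (Fin.last N) b)) = -(p.nb * (p.Q : ℝ)⁻¹) := by
      have h3 := hic.eE_coord hQ hu (fun l => - ∑ b, vb p b (l b))
      rw [h3]
      have e : (fun l : Fin p.nb → Fin p.nc → Fin p.Q => - ∑ b, vb p b (l b)) =
          fun l => (-1) * ∑ b, vb p b (l b) := by funext l; ring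
      rw [e, eE_smul, eE_sum]
      have := nonemptyQ p
      have h5 : ∀ b : Fin p.nb, eE (unif (Fin p.nb → Fin p.nc → Fin p.Q))
          (fun l => vb p b (l b)) = (p.Q : ℝ)⁻¹ := by
        intro b
        rw [unif_coord (ι := Fin p.nb) (Λ := Fin p.nc → Fin p.Q) b (vb p b), eE_vb]
      rw [Finset.sum_congr rfl fun b _ => h5 b, Finset.sum_const, Finset.card_univ,
        Fintype.card_fin, nsmul_eq_mul]
      ring
    linarith
  have hupp : Real.log (eE Q (fun w => Real.exp (Glast p N w))) ≤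
      p.nb * (1 / 2 * (p.Q : ℝ)⁻¹) := by
    have hne : Nonempty (Om p (N + 1)) := inferInstance
    have hpos : 0 < eE Q (fun w => Real.exp (Glast p N w)) := by
      unfold eE
      exact Finset.sum_pos (fun ω _ => mul_pos (hQ.pos ω) (Real.exp_pos _))
        ⟨hne.some, Finset.mem_univ _⟩
    rw [Real.log_le_iff_le_exp hpos]
    have h1 : eE Q (fun w => Real.exp (Glast p N w)) ≤
        eE Q (fun ω => ∏ b, (1 + 1 / 2 * vb p b (ω.2.1 (Fin.last N) b))) := by
      apply eE_mono hQ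
      intro ω
      unfold Glast
      rw [Real.exp_sum]
      exact Finset.prod_le_prod (fun _ _ => (Real.exp_pos _).le)
        fun b _ => exp_gfac_le p (N + 1) (Fin.last N) b ω
    refine h1.trans ?_
    have h3 := hic.eE_coord hQ hu (fun l => ∏ b, (1 + 1 / 2 * vb p b (l b)))
    rw [h3]
    have h4 := eE_labs_prod p 1
    rw [unif_prod (ι := Fin 1) (Λ := Fin p.nb → Fin p.nc → Fin p.Q)
      (fun _ l => ∏ b, (1 + 1 / 2 * vb p b (l b)))] at h4
    simpa using h4
  have hb : ∀ ω, -(p.nb * (p.Q : ℝ)⁻¹) ≤ A Q (fil p (N + 1)) p.xs (Glast p N) 0 ω ∧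
      A Q (fil p (N + 1)) p.xs (Glast p N) 0 ω ≤ p.nb * (1 / 2 * (p.Q : ℝ)⁻¹) := by
    intro ω
    have h := A_zero_bounds p (N + 1) hQ (Glast p N) ω
    exact ⟨hlow.trans h.1, h.2.trans hupp⟩
  rw [hPhi, abs_le, div_eq_mul_inv]
  constructor
  · have h1 : eE (prior p (N + 1)) (fun _ => -(p.nb * (p.Q : ℝ)⁻¹)) ≤
        eE (prior p (N + 1)) (A Q (fil p (N + 1)) p.xs (Glast p N) 0) :=
      eE_mono hP' fun ω => (hb ω).1
    rw [eE_const hP'] at h1
    exact h1
  · have h1 := eE_le_of_le hP' fun ω => (hb ω).2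
    have h2 : (p.nb : ℝ) * (1 / 2 * (p.Q : ℝ)⁻¹) ≤ p.nb * (p.Q : ℝ)⁻¹ := by
      apply mul_le_mul_of_nonneg_left _ (Nat.cast_nonneg _)
      linarith
    linarith

/-- (F3) -/
theorem Phi_F3 (p : Par) (N : ℕ) {H H' : (Fin N → Bool) → ℝ} {a : ℝ}
    (h : ∀ s, |H s - H' s| ≤ a) (d : DD p N) : |Phi p N H d - Phi p N H' d| ≤ a := by
  have hP := prior_isProb p N
  have hx := p.xs_expo.pos
  unfold Phi
  have h1 : ∀ ω, |A (prior p N) (fil p N) p.xs (UU p N H d) 0 ω -
      A (prior p N) (fil p N) p.xs (UU p N H' d) 0 ω| ≤ a := by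
    intro ω
    apply A_sub_abs_le hP hx
    intro w
    unfold UU
    have e : H w.1 + WW p N d w - (H' w.1 + WW p N d w) = H w.1 - H' w.1 := by ring
    rw [e]; exact h w.1
  have e2 : (N : ℝ) * Real.log 2 + eE (prior p N) (A (prior p N) (fil p N) p.xs (UU p N H d) 0) -
      ((N : ℝ) * Real.log 2 + eE (prior p N) (A (prior p N) (fil p N) p.xs (UU p N H' d) 0)) =
      eE (prior p N) (fun ω => A (prior p N) (fil p N) p.xs (UU p N H d) 0 ω -
        A (prior p N) (fil p N) p.xs (UU p N H' d) 0 ω) := by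
    rw [eE_sub]; ring
  rw [e2]
  exact (eE_abs_le hP _).trans (eE_le_of_le hP h1)

end

end SysF

end Crest.Agent.R141
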