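import Crest.Agent.R141.Asm0
import Crest.Agent.R141.Skel31
import Crest.Agent.R141.SkelPm
import Crest.Agent.R141.SysF4

/-!
# Row 141, Part L, assembly 1 (helper552)

Comparison of the averages over sites of `EPhi (H + log W) - EPhi H` with the independent-path
recursion `thInd`.
-/

set_option autoImplicit false

namespace Crest.Agent.R141.Asm

open Crest.Agent.R141.Fact Crest.Agent.R141.KerS

theorem EPhi_add (p : Par) (N : ℕ) (H V : (Fin N → Bool) → ℝ) :
    EPhi p N (fun s => H s + V s) - EPhi p N H =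
      Ed p N (fun d => eE (prior p N)
        (A (PP p N H d) (fil p N) p.xs (fun ω => V ω.1) 0)) := by
  unfold EPhi Ed
  rw [← Finset.sum_sub_distrib]
  refine Finset.sum_congr rfl fun d _ => ?_
  rw [← mul_sub, Phi_add]

theorem step31 (p : Par) (N : ℕ) (H : (Fin N → Bool) → ℝ) (d : DD p N) {J : ℕ} {t : ℕ → ℕ}
    (hW : Win p J t) {V : (Fin N → Bool) → ℝ} {c : ℝ} (hV : ∀ s, |V s| ≤ c) :
    |eE (prior p N) (A (PP p N H d) (fil p N) p.xs (fun ω => V ω.1) 0) -
      ∑ ω, PP p N H d ω * skelA (PP p N H d) (fun n => (fil p N).F (t (J - n))) (ySk J)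
        (fun ω => V ω.1) (J + 1) ω| ≤ 15 * c ^ 2 * Real.exp (4 * c) * (2 / ((J : ℝ) + 1)) := by
  have hP := PP_isProb p N H d
  have hQ := prior_isProb p N
  set Y : ℝ := eE (PP p N H d) (skelA (PP p N H d) (fun n => (fil p N).F (t (J - n))) (ySk J)
        (fun ω => V ω.1) (J + 1)) with hY
  have hpt : ∀ ω, |A (PP p N H d) (fil p N) p.xs (fun ω => V ω.1) 0 ω - Y| ≤
      15 * c ^ 2 * Real.exp (4 * c) * (2 / ((J : ℝ) + 1)) := by
    intro ω
    exact Skel31.skeleton_value hP p.xs_expo (fun ω => hV ω.1) (by positivity) (fil_zero p N)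
      hW.mono (le_of_lt hW.lt_L) hW.low hW.mid hW.top ω
  have h1 : ∑ ω, PP p N H d ω * skelA (PP p N H d) (fun n => (fil p N).F (t (J - n))) (ySk J)
        (fun ω => V ω.1) (J + 1) ω = Y := rfl
  rw [h1]
  have h2 : eE (prior p N) (A (PP p N H d) (fil p N) p.xs (fun ω => V ω.1) 0) - Y =
      eE (prior p N) (fun ω => A (PP p N H d) (fil p N) p.xs (fun ω => V ω.1) 0 ω - Y) := by
    rw [eE_sub, eE_const hQ]
  rw [h2]
  refine (eE_abs_le hQ _).trans (eE_le_of_le hQ hpt)

theorem avg_mono {I : Type} [Fintype I] {f g : I → ℝ} (h : ∀ i, f i ≤ g i) : avg f ≤ avg g :=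
  mul_le_mul_of_nonneg_left (Finset.sum_le_sum fun i _ => h i) (by positivity)

theorem avg_const_le {I : Type} [Fintype I] {c : ℝ} (hc : 0 ≤ c) : avg (fun _ : I => c) ≤ c := by
  unfold avg
  rw [Finset.sum_const, Finset.card_univ, nsmul_eq_mul, ← mul_assoc]
  by_cases h : (Fintype.card I : ℝ) = 0
  · rw [h]; simpa using hc
  · rw [inv_mul_cancel₀ h, one_mul]

theorem abs_avg_le' {I : Type} [Fintype I] (f : I → ℝ) : |avg f| ≤ avg (fun i => |f i|) := by
  unfold avg
  rw [abs_mul, abs_of_nonneg (by positivity : (0 : ℝ) ≤ (Fintype.card I : ℝ)⁻¹)]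
  exact mul_le_mul_of_nonneg_left (Finset.abs_sum_le_sum_abs _ _) (by positivity)

theorem avg_sub' {I : Type} [Fintype I] (f g : I → ℝ) :
    avg (fun i => f i - g i) = avg f - avg g := by
  unfold avg
  rw [Finset.sum_sub_distrib, mul_sub]

theorem avg_add' {I : Type} [Fintype I] (f g : I → ℝ) :
    avg (fun i => f i + g i) = avg f + avg g := by
  unfold avg
  rw [Finset.sum_add_distrib, mul_add]

theorem avg_sum_comm {I D : Type} [Fintype I] [Fintype D] (q : D → ℝ) (f : I → D → ℝ) :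
    avg (fun i => ∑ d, q d * f i d) = ∑ d, q d * avg (fun i => f i d) := by
  unfold avg
  rw [Finset.sum_comm, Finset.mul_sum]
  refine Finset.sum_congr rfl fun d _ => ?_
  rw [← Finset.mul_sum]
  ring

/-- **System comparison.** -/
theorem sys_compare (h23 : Sec23) {A₀ : Type} [Fintype A₀] (S : A₀ → Type) [∀ a, Fintype (S a)]
    [∀ a, DecidableEq (S a)] (W0 : (a : A₀) → (S a → Bool) → ℝ) (hW0 : ∀ a b, 0 < W0 a b)
    (c : ℝ) (hc : ∀ a b, |Real.log (W0 a b)| ≤ c) (J : ℕ) (hJ : 1 ≤ J) {ε ε' : ℝ}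
    (hε : 0 < ε) (hε' : 0 < ε')
    (hJc : 15 * c ^ 2 * Real.exp (4 * c) * (2 / ((J : ℝ) + 1)) ≤ ε) :
    ∃ p : Par, (p.nb : ℝ) / p.Q ≤ ε' ∧ ∃ N0 : ℕ, ∀ N, N0 ≤ N → ∀ H : (Fin N → Bool) → ℝ,
      ∃ t : DD p N → ℕ → ℕ, (∀ d, Win p J (t d)) ∧
        ∀ a, |avg (fun i : S a → Fin N =>
            EPhi p N (fun s => H s + Real.log (W0 a (fun l => s (i l)))) - EPhi p N H) -
          Ed p N (fun d => ∑ ω, PP p N H d ω * avg (fun i : S a → Fin N =>
            Br.thInd (fun m => kerS (PP p N H d) ((fil p N).F (t d (J - m)))) (sgN p N)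
              (Br.fExp J (Br.mSk J)) (W0 a) i (J + 1) (fun _ => ω)))| ≤ 2 * ε := by
  obtain ⟨SS, δ, hδ, hSS, hmain⟩ := fact_skel S W0 hW0 c hc J hJ ε hε
  obtain ⟨p, hp, N0, hN0⟩ := h23 J hJ SS δ ε' hδ hε'
  refine ⟨p, hp, max N0 1, fun N hN H => ?_⟩
  obtain ⟨t, htW, hcov⟩ := hN0 N ((le_max_left _ _).trans hN) H
  have hNpos : 0 < N := (le_max_right _ _).trans hN
  refine ⟨t, htW, fun a => ?_⟩
  have hI : Nonempty (Fin N) := ⟨⟨0, hNpos⟩⟩
  have hS := hmain (Om p N) (Fin N) (DD p N) (dw p N) (fun d => PP p N H d)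
    (fun d m => (fil p N).F (t d (J - m))) (sgN p N) hI (dw_nonneg p N) (dw_sum p hNpos).le
    (fun d => PP_isProb p N H d)
    (by
      intro m s hs
      by_cases hm : m ≤ J
      · exact hcov m hm s hs
      · rw [hSS m (by omega)] at hs
        exact absurd hs List.not_mem_nil) a
  -- abbreviations
  set X : (S a → Fin N) → DD p N → ℝ := fun i d => eE (prior p N)
    (A (PP p N H d) (fil p N) p.xs
      (fun ω => Real.log (W0 a (fun l => ω.1 (i l)))) 0) with hX
  set Y : (S a → Fin N) → DD p N → Om p N → ℝ := fun i d ω =>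
    skelA (PP p N H d) (fun n => (fil p N).F (t d (J - n))) (ySk J)
      (fun ω => Real.log (W0 a (fun l => sgN p N (i l) ω))) (J + 1) ω with hYd
  set Z : (S a → Fin N) → DD p N → Om p N → ℝ := fun i d ω =>
    Br.thInd (fun m => kerS (PP p N H d) ((fil p N).F (t d (J - m)))) (sgN p N)
      (Br.fExp J (Br.mSk J)) (W0 a) i (J + 1) (fun _ => ω) with hZ
  have e1 : avg (fun i : S a → Fin N =>
            EPhi p N (fun s => H s + Real.log (W0 a (fun l => s (i l)))) - EPhi p N H) =
      ∑ d, dw p N d * avg (fun i => X i d) := by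
    rw [← avg_sum_comm]
    unfold avg
    congr 1
    refine Finset.sum_congr rfl fun i _ => ?_
    exact EPhi_add p N H (fun s => Real.log (W0 a (fun l => s (i l))))
  have e2 : Ed p N (fun d => ∑ ω, PP p N H d ω * avg (fun i : S a → Fin N => Z i d ω)) =
      ∑ d, dw p N d * avg (fun i => ∑ ω, PP p N H d ω * Z i d ω) := by
    unfold Ed
    refine Finset.sum_congr rfl fun d _ => ?_
    rw [avg_sum_comm]
  rw [e1, e2, ← Finset.sum_sub_distrib]
  have hb : ∀ i d, |X i d - ∑ ω, PP p N H d ω * Y i d ω| ≤ ε := by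
    intro i d
    exact (step31 p N H d (htW d) (V := fun s => Real.log (W0 a (fun l => s (i l))))
      (fun s => hc a _)).trans hJc
  calc |∑ d, (dw p N d * avg (fun i => X i d) -
          dw p N d * avg (fun i => ∑ ω, PP p N H d ω * Z i d ω))|
      ≤ ∑ d, |dw p N d * avg (fun i => X i d) -
          dw p N d * avg (fun i => ∑ ω, PP p N H d ω * Z i d ω)| :=
        Finset.abs_sum_le_sum_abs _ _
    _ ≤ ∑ d, dw p N d * (ε + avg (fun i => ∑ ω, PP p N H d ω * |Y i d ω - Z i d ω|)) := by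
        refine Finset.sum_le_sum fun d _ => ?_
        rw [← mul_sub, abs_mul, abs_of_nonneg (dw_nonneg p N d), ← avg_sub']
        refine mul_le_mul_of_nonneg_left ?_ (dw_nonneg p N d)
        refine (abs_avg_le' _).trans ?_
        calc avg (fun i => |X i d - ∑ ω, PP p N H d ω * Z i d ω|)
            ≤ avg (fun i => ε + ∑ ω, PP p N H d ω * |Y i d ω - Z i d ω|) := by
              refine avg_mono fun i => ?_
              have h1 := hb i d
              have h2 : |∑ ω, PP p N H d ω * Y i d ω - ∑ ω, PP p N H d ω * Z i d ω| ≤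
                  ∑ ω, PP p N H d ω * |Y i d ω - Z i d ω| := by
                rw [← Finset.sum_sub_distrib]
                refine (Finset.abs_sum_le_sum_abs _ _).trans (Finset.sum_le_sum fun ω _ => ?_)
                rw [← mul_sub, abs_mul, abs_of_pos ((PP_isProb p N H d).pos ω)]
              calc |X i d - ∑ ω, PP p N H d ω * Z i d ω|
                  = |(X i d - ∑ ω, PP p N H d ω * Y i d ω) +
                    (∑ ω, PP p N H d ω * Y i d ω - ∑ ω, PP p N H d ω * Z i d ω)| := by ring_nf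
                _ ≤ _ := (abs_add_le _ _).trans (add_le_add h1 h2)
          _ = avg (fun _ : S a → Fin N => ε) +
              avg (fun i => ∑ ω, PP p N H d ω * |Y i d ω - Z i d ω|) := avg_add' _ _
          _ ≤ ε + avg (fun i => ∑ ω, PP p N H d ω * |Y i d ω - Z i d ω|) := by
              have := avg_const_le (I := S a → Fin N) hε.le
              linarith
    _ = ε * (∑ d, dw p N d) +
          ∑ d, dw p N d * avg (fun i => ∑ ω, PP p N H d ω * |Y i d ω - Z i d ω|) := by
        rw [Finset.mul_sum, ← Finset.sum_add_distrib]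
        exact Finset.sum_congr rfl fun d _ => by ring
    _ ≤ 2 * ε := by
        rw [dw_sum p hNpos]
        linarith

end Crest.Agent.R141.Asm
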