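import Crest.Agent.R141.Asm0
import Crest.Agent.R141.Bridge36b

/-!
# Row 141, Part L, assembly (helper552): magnetisations of the enriched system lie in `(-1,1)`
-/

set_option autoImplicit false

namespace Crest.Agent.R141.Asm

open Crest.Agent.R141.Fact Crest.Agent.R141.KerS

theorem kerS_pos {Ω : Type} [Fintype Ω] {P : Ω → ℝ} (hP : IsProb P) {r : Setoid Ω} {ω ω' : Ω}
    (h : r ω ω') : 0 < kerS P r ω ω' := by
  unfold kerS
  rw [if_pos h]
  exact div_pos (hP.pos _) (cls_pos hP r ω)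

theorem rel_update (p : Par) (N : ℕ) {k : ℕ} (hk : k < p.L) (ω : Om p N) (i : Fin N) (b : Bool) :
    (fil p N).F k ω (Function.update ω.1 i b, ω.2) := by
  rw [fil_rel]
  exact ⟨fun _ _ _ _ => rfl, fun _ _ _ => rfl, fun h => absurd h (not_le.2 hk)⟩

theorem hmag_sys (p : Par) (N : ℕ) (P : Om p N → ℝ) (hP : IsProb P) (R : ℕ → Setoid (Om p N))
    {k : ℕ} (hk : k < p.L) (hR : R 0 = (fil p N).F k) (i : Fin N) (ω : Om p N) :
    -1 < Br.magK (fun n => kerS P (R n)) (sgN p N) i ω ∧
      Br.magK (fun n => kerS P (R n)) (sgN p N) i ω < 1 := by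
  refine Br.magK_bounds (fun n => kerS P (R n)) (fun n => (isMarkov_kerS hP (R n)).nonneg)
    (fun n => (isMarkov_kerS hP (R n)).sum_one) (sgN p N) i ω ?_ ?_
  · refine ⟨(Function.update ω.1 i true, ω.2), ?_, ?_⟩
    · refine kerS_pos hP ?_
      rw [hR]
      exact rel_update p N hk ω i true
    · simp [sgN]
  · refine ⟨(Function.update ω.1 i false, ω.2), ?_, ?_⟩
    · refine kerS_pos hP ?_
      rw [hR]
      exact rel_update p N hk ω i false
    · simp [sgN]

end Crest.Agent.R141.Asm
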