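import Mathlib
import Crest.Prelude.Def_DilutedSpinGlass

/-!
# Row 141: interface between Part U, Part L and the final assembly (helper494)

* `finMeasure w x` : the finitely supported law `Σ_k w_k δ_{x_k}`.
* `siteFun`, `edgeFun` : the two pieces of `trialFunctional`.
* `swapInter l θ` : `θ` with the spin slots `l` and `p-1` exchanged.
* `PartU`, `PartL` : the two halves of the theorem (frozen statements).
-/

set_option autoImplicit false

open MeasureTheory Crest.ProbabilityR.Diluted

namespace Crest.Agent.R141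

/-- The finitely supported law `Σ_k w_k δ_{x_k}`. -/
noncomputable def finMeasure {K : Type} [Fintype K] {E : Type} [MeasurableSpace E]
    (w : K → ℝ) (x : K → E) : Measure E :=
  ∑ k, ENNReal.ofReal (w k) • Measure.dirac (x k)

/-- The site part of the trial functional (without `log 2`), with Poisson parameter `lam`. -/
noncomputable def siteFun (p : ℕ) (lam : ℝ) (μ : Measure (Inter p)) (ν : Measure ℝ)
    (r : ℕ) (m : Fin r → ℝ) (X : (Fin (r + 1) → unitInterval) → ℝ) : ℝ :=
  ∑' k : ℕ, poissonWeight lam k *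
      ∫ θs, ∫ h, ∫ u, Real.log (powerMeans m
          (fun u' : (Fin k × Fin (p - 1)) → Fin (r + 1) → unitInterval =>
            siteTerm h θs (fun j ℓ => X (u' (j, ℓ)))) u)
        ∂(uniformArrays (Fin k × Fin (p - 1)) r) ∂ν ∂(Measure.pi fun _ : Fin k => μ)

/-- The edge part of the trial functional (without `α (p-1)`). -/
noncomputable def edgeFun (p : ℕ) (μ : Measure (Inter p))
    (r : ℕ) (m : Fin r → ℝ) (X : (Fin (r + 1) → unitInterval) → ℝ) : ℝ :=
  ∫ θ, ∫ u, Real.log (powerMeans m
          (fun u' : Fin p → Fin (r + 1) → unitInterval => edgeTerm θ (fun ℓ => X (u' ℓ))) u)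
        ∂(uniformArrays (Fin p) r) ∂μ

theorem trialFunctional_eq (p : ℕ) (α : ℝ) (μ : Measure (Inter p)) (ν : Measure ℝ)
    (r : ℕ) (m : Fin r → ℝ) (X : (Fin (r + 1) → unitInterval) → ℝ) :
    trialFunctional p α μ ν r m X =
      Real.log 2 + siteFun p (α * p) μ ν r m X - α * (p - 1 : ℝ) * edgeFun p μ r m X := rfl

/-- The last slot of an interaction, `⟨p-1, _⟩` (needs `0 < p`; here through an element `l`). -/
def lastSlot {p : ℕ} (l : Fin p) : Fin p := ⟨p - 1, Nat.sub_lt (Fin.pos l) Nat.one_pos⟩

/-- Exchange the spin slots `l` and `p-1` of an interaction: in `siteMessage (swapInter l θ) x ε`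
the spin `ε` sits in the slot `l` of `θ`. -/
def swapInter {p : ℕ} (l : Fin p) (θ : Inter p) : Inter p :=
  fun s => θ (fun i => s (Equiv.swap l (lastSlot l) i))

/-- The symmetrized law of a finitely supported interaction law: the index set is `K × Fin p`,
weight `w k / p`, interaction `swapInter l (θ k)`. -/
noncomputable def symMeasure {K : Type} [Fintype K] {p : ℕ} (w : K → ℝ) (θ : K → Inter p) :
    Measure (Inter p) :=
  finMeasure (fun kl : K × Fin p => w kl.1 / p) (fun kl : K × Fin p => swapInter kl.2 (θ kl.1))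

/-- PART U (Franz–Leone upper bound), for given laws. -/
def PartU (p : ℕ) (α : ℝ) (μ : Measure (Inter p)) (ν : Measure ℝ) : Prop :=
  ∀ N : ℕ, 1 ≤ N → ∀ (r : ℕ) (m : Fin r → ℝ) (X : (Fin (r + 1) → unitInterval) → ℝ),
    AdmissibleExponents m → Measurable X →
      pressure p α μ ν N ≤ trialFunctional p α μ ν r m X

/-- PART L (lower bound) for finitely supported laws (no symmetry, no factorization needed):
if infinitely often `pressure N ≤ c` then for every `ε > 0` some admissible trial has symmetrized
functional at most `c + ε`. -/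
def PartL (p : ℕ) (α : ℝ) : Prop :=
  ∀ (K K' : Type) [Fintype K] [Fintype K'] (w : K → ℝ) (θ : K → Inter p)
    (w' : K' → ℝ) (h : K' → ℝ),
    (∀ k, 0 < w k) → ∑ k, w k = 1 → (∀ k, 0 < w' k) → ∑ k, w' k = 1 →
    ∀ c : ℝ,
      (∃ᶠ N in Filter.atTop, pressure p α (finMeasure w θ) (finMeasure w' h) N ≤ c) →
      ∀ ε : ℝ, 0 < ε →
        ∃ (r : ℕ) (m : Fin r → ℝ) (X : (Fin (r + 1) → unitInterval) → ℝ),
          AdmissibleExponents m ∧ Measurable X ∧
          Real.log 2 + siteFun p (α * p) (symMeasure w θ) (finMeasure w' h) r m X -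
            α * (p - 1 : ℝ) * edgeFun p (finMeasure w θ) r m X ≤ c + ε

end Crest.Agent.R141
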