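import Crest.Prelude.Def_DilutedSpinGlass

/-!
R141, reduction to finitely supported laws, part 1: Lipschitz bounds for `logPartition`,
`siteMessage`, `edgeTerm`, `siteTerm`.
-/

set_option autoImplicit false

namespace Crest.Agent.R141.Red

open MeasureTheory Crest.ProbabilityR.Diluted

section SupNorm

variable {p : ℕ}

theorem abs_le_supNorm (θ : Inter p) (s : Fin p → Bool) : |θ s| ≤ supNorm θ :=
  le_ciSup (f := fun s => |θ s|) (Set.finite_range _).bddAbove s

theorem supNorm_nonneg (θ : Inter p) : 0 ≤ supNorm θ :=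
  (abs_nonneg _).trans (abs_le_supNorm θ (fun _ => true))

theorem supNorm_le {θ : Inter p} {c : ℝ} (h : ∀ s, |θ s| ≤ c) : supNorm θ ≤ c :=
  ciSup_le h

theorem supNorm_add_le (θ θ' : Inter p) : supNorm (θ + θ') ≤ supNorm θ + supNorm θ' :=
  supNorm_le fun s => (abs_add_le _ _).trans
    (add_le_add (abs_le_supNorm θ s) (abs_le_supNorm θ' s))

theorem supNorm_sub_comm (θ θ' : Inter p) : supNorm (θ - θ') = supNorm (θ' - θ) := by
  unfold supNorm
  congr 1
  funext s
  rw [Pi.sub_apply, Pi.sub_apply, abs_sub_comm]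

theorem supNorm_sub_le (θ θ' : Inter p) : supNorm (θ - θ') ≤ supNorm θ + supNorm θ' :=
  supNorm_le fun s => (abs_sub _ _).trans
    (add_le_add (abs_le_supNorm θ s) (abs_le_supNorm θ' s))

theorem supNorm_zero : supNorm (0 : Inter p) = 0 := by
  unfold supNorm
  simp

theorem supNorm_eq_norm (θ : Inter p) : supNorm θ = ‖θ‖ := by
  apply le_antisymm
  · exact supNorm_le fun s => by
      rw [← Real.norm_eq_abs]; exact norm_le_pi_norm θ s
  · exact (pi_norm_le_iff_of_nonneg (supNorm_nonneg θ)).2 fun s => by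
      rw [Real.norm_eq_abs]; exact abs_le_supNorm θ s

theorem measurable_supNorm : Measurable (supNorm : Inter p → ℝ) := by
  have : (supNorm : Inter p → ℝ) = fun θ => ‖θ‖ := by
    funext θ; exact supNorm_eq_norm θ
  rw [this]
  exact measurable_norm

end SupNorm

/-! ### log-sum-exp type estimates -/

/-- `log` of positive combinations is monotone under multiplicative perturbation. -/
theorem abs_log_sub_log_le {a b c : ℝ} (ha : 0 < a) (hb : 0 < b)
    (h1 : a ≤ Real.exp c * b) (h2 : b ≤ Real.exp c * a) : |Real.log a - Real.log b| ≤ c := by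
  rw [abs_le]
  constructor
  · have := Real.log_le_log hb h2
    rw [Real.log_mul (Real.exp_pos c).ne' ha.ne', Real.log_exp] at this
    linarith
  · have := Real.log_le_log ha h1
    rw [Real.log_mul (Real.exp_pos c).ne' hb.ne', Real.log_exp] at this
    linarith

theorem le_exp_mul_of_log {a b c : ℝ} (ha : 0 < a) (hb : 0 < b)
    (h : |Real.log a - Real.log b| ≤ c) : a ≤ Real.exp c * b := by
  rw [abs_le] at h
  have h1 : Real.log a ≤ c + Real.log b := by linarith [h.2]
  have h2 := Real.exp_le_exp.2 h1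
  rwa [Real.exp_log ha, Real.exp_add, Real.exp_log hb] at h2

/-- weighted sums of exponentials: Lipschitz in the exponents. -/
theorem abs_log_sum_exp_le {ι : Type*} [Fintype ι] [Nonempty ι] (w : ι → ℝ) (hw : ∀ i, 0 < w i)
    (f g : ι → ℝ) (c : ℝ) (h : ∀ i, |f i - g i| ≤ c) :
    |Real.log (∑ i, w i * Real.exp (f i)) - Real.log (∑ i, w i * Real.exp (g i))| ≤ c := by
  have pos : ∀ f : ι → ℝ, 0 < ∑ i, w i * Real.exp (f i) := fun f =>
    Finset.sum_pos (fun i _ => mul_pos (hw i) (Real.exp_pos _)) Finset.univ_nonempty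
  have key : ∀ f g : ι → ℝ, (∀ i, |f i - g i| ≤ c) →
      ∑ i, w i * Real.exp (f i) ≤ Real.exp c * ∑ i, w i * Real.exp (g i) := by
    intro f g h
    rw [Finset.mul_sum]
    refine Finset.sum_le_sum fun i _ => ?_
    have h1 : f i ≤ c + g i := by
      have := (abs_le.1 (h i)).2
      linarith
    calc w i * Real.exp (f i) ≤ w i * Real.exp (c + g i) :=
          mul_le_mul_of_nonneg_left (Real.exp_le_exp.2 h1) (hw i).le
      _ = Real.exp c * (w i * Real.exp (g i)) := by rw [Real.exp_add]; ring
  exact abs_log_sub_log_le (pos f) (pos g) (key f g h)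
    (key g f fun i => by rw [abs_sub_comm]; exact h i)

/-! ### the partition function -/

theorem abs_spinVal (b : Bool) : |spinVal b| = 1 := by
  unfold spinVal; cases b <;> simp

theorem logPartition_lipschitz (N : ℕ) {p M : ℕ} (θs θs' : Fin M → Inter p)
    (idx : Fin M → Fin p → Fin N) (hs hs' : Fin N → ℝ) :
    |logPartition N θs idx hs - logPartition N θs' idx hs'| ≤
      ∑ k, supNorm (θs k - θs' k) + ∑ i, |hs i - hs' i| := by
  unfold logPartition
  have := abs_log_sum_exp_le (ι := Fin N → Bool) (fun _ => 1) (fun _ => one_pos)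
    (fun σ => (∑ k : Fin M, θs k (fun ℓ => σ (idx k ℓ))) + ∑ i : Fin N, hs i * spinVal (σ i))
    (fun σ => (∑ k : Fin M, θs' k (fun ℓ => σ (idx k ℓ))) + ∑ i : Fin N, hs' i * spinVal (σ i))
    (∑ k, supNorm (θs k - θs' k) + ∑ i, |hs i - hs' i|) (fun σ => by
      have e : ((∑ k : Fin M, θs k (fun ℓ => σ (idx k ℓ))) + ∑ i : Fin N, hs i * spinVal (σ i)) -
          ((∑ k : Fin M, θs' k (fun ℓ => σ (idx k ℓ))) + ∑ i : Fin N, hs' i * spinVal (σ i)) =
          (∑ k : Fin M, (θs k - θs' k) (fun ℓ => σ (idx k ℓ))) +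
            ∑ i : Fin N, (hs i - hs' i) * spinVal (σ i) := by
        simp only [Pi.sub_apply, Finset.sum_sub_distrib, sub_mul]
        ring
      rw [e]
      refine (abs_add_le _ _).trans (add_le_add ?_ ?_)
      · refine (Finset.abs_sum_le_sum_abs _ _).trans (Finset.sum_le_sum fun k _ => ?_)
        exact abs_le_supNorm _ _
      · refine (Finset.abs_sum_le_sum_abs _ _).trans (Finset.sum_le_sum fun i _ => ?_)
        rw [abs_mul, abs_spinVal, mul_one])
  simpa only [one_mul] using this

theorem logPartition_zero (N : ℕ) {p M : ℕ} (idx : Fin M → Fin p → Fin N) :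
    logPartition N (fun _ => (0 : Inter p)) idx (fun _ => 0) = N * Real.log 2 := by
  unfold logPartition
  simp

theorem abs_logPartition_le (N : ℕ) {p M : ℕ} (θs : Fin M → Inter p)
    (idx : Fin M → Fin p → Fin N) (hs : Fin N → ℝ) :
    |logPartition N θs idx hs| ≤ N * Real.log 2 + (∑ k, supNorm (θs k) + ∑ i, |hs i|) := by
  have h := logPartition_lipschitz N θs (fun _ => (0 : Inter p)) idx hs (fun _ => 0)
  rw [logPartition_zero] at h
  simp only [sub_zero] at h
  have h2 : |logPartition N θs idx hs| ≤ |logPartition N θs idx hs - N * Real.log 2| +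
      |(N : ℝ) * Real.log 2| := by
    have := abs_add_le (logPartition N θs idx hs - N * Real.log 2) (N * Real.log 2)
    simpa using this
  have h3 : |(N : ℝ) * Real.log 2| = N * Real.log 2 :=
    abs_of_nonneg (mul_nonneg (Nat.cast_nonneg _) (Real.log_nonneg one_le_two))
  rw [h3] at h2
  linarith

theorem continuous_logPartition (N : ℕ) {p M : ℕ} (idx : Fin M → Fin p → Fin N) :
    Continuous (fun z : (Fin M → Inter p) × (Fin N → ℝ) => logPartition N z.1 idx z.2) := by
  unfold logPartition
  refine Continuous.log ?_ fun z => ?_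
  · fun_prop
  · exact (Finset.sum_pos (fun σ _ => Real.exp_pos _) Finset.univ_nonempty).ne'

/-! ### one-spin laws, site messages, edge and site terms -/

theorem tilt_pos (x : ℝ) (s : Bool) : 0 < tilt x s := by
  unfold tilt
  have := Real.cosh_pos x
  positivity

theorem tilt_sum (x : ℝ) : ∑ s : Bool, tilt x s = 1 := by
  unfold tilt spinVal
  have h := Real.cosh_pos x
  simp only [Fintype.univ_bool, Finset.mem_singleton, Bool.true_eq_false, not_false_eq_true,
    Finset.sum_insert, if_true, Finset.sum_singleton, Bool.false_eq_true, if_false, mul_one,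
    mul_neg]
  rw [← add_div, Real.cosh_eq]
  field_simp

theorem tilt_prod_pos {n : ℕ} (x : Fin n → ℝ) (s : Fin n → Bool) : 0 < ∏ ℓ, tilt (x ℓ) (s ℓ) :=
  Finset.prod_pos fun ℓ _ => tilt_pos _ _

theorem tilt_prod_sum {n : ℕ} (x : Fin n → ℝ) : ∑ s : Fin n → Bool, ∏ ℓ, tilt (x ℓ) (s ℓ) = 1 := by
  have h := Finset.prod_univ_sum (t := fun _ : Fin n => (Finset.univ : Finset Bool))
    (f := fun ℓ s => tilt (x ℓ) s)
  simp only [tilt_sum, Finset.prod_const_one] at h
  rw [h, Fintype.piFinset_univ]

theorem edgeTerm_pos {p : ℕ} (θ : Inter p) (x : Fin p → ℝ) : 0 < edgeTerm θ x :=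
  Finset.sum_pos (fun s _ => mul_pos (Real.exp_pos _) (tilt_prod_pos x s)) Finset.univ_nonempty

theorem log_edgeTerm_lipschitz {p : ℕ} (θ θ' : Inter p) (x : Fin p → ℝ) :
    |Real.log (edgeTerm θ x) - Real.log (edgeTerm θ' x)| ≤ supNorm (θ - θ') := by
  have := abs_log_sum_exp_le (ι := Fin p → Bool) (fun s => ∏ ℓ, tilt (x ℓ) (s ℓ))
    (fun s => tilt_prod_pos x s) θ θ' (supNorm (θ - θ'))
    (fun s => abs_le_supNorm (θ - θ') s)
  unfold edgeTerm
  simpa only [mul_comm] using this

theorem edgeTerm_zero {p : ℕ} (x : Fin p → ℝ) : edgeTerm (0 : Inter p) x = 1 := by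
  unfold edgeTerm
  simp only [Pi.zero_apply, Real.exp_zero, one_mul]
  exact tilt_prod_sum x

theorem abs_log_edgeTerm_le {p : ℕ} (θ : Inter p) (x : Fin p → ℝ) :
    |Real.log (edgeTerm θ x)| ≤ supNorm θ := by
  have := log_edgeTerm_lipschitz θ 0 x
  rwa [edgeTerm_zero, Real.log_one, sub_zero, sub_zero] at this

theorem siteMessage_lipschitz {p : ℕ} (θ θ' : Inter p) (x : Fin (p - 1) → ℝ) (ε : Bool) :
    |siteMessage θ x ε - siteMessage θ' x ε| ≤ supNorm (θ - θ') := by
  unfold siteMessage
  have := abs_log_sum_exp_le (ι := Fin (p - 1) → Bool) (fun s => ∏ ℓ, tilt (x ℓ) (s ℓ))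
    (fun s => tilt_prod_pos x s)
    (fun s' => θ (fun ℓ => if h : ℓ.val < p - 1 then s' ⟨ℓ.val, h⟩ else ε))
    (fun s' => θ' (fun ℓ => if h : ℓ.val < p - 1 then s' ⟨ℓ.val, h⟩ else ε)) (supNorm (θ - θ'))
    (fun s => abs_le_supNorm (θ - θ') _)
  simpa only [mul_comm] using this

theorem siteMessage_zero {p : ℕ} (x : Fin (p - 1) → ℝ) (ε : Bool) :
    siteMessage (0 : Inter p) x ε = 0 := by
  unfold siteMessage
  simp only [Pi.zero_apply, Real.exp_zero, one_mul, tilt_prod_sum, Real.log_one]

theorem abs_siteMessage_le {p : ℕ} (θ : Inter p) (x : Fin (p - 1) → ℝ) (ε : Bool) :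
    |siteMessage θ x ε| ≤ supNorm θ := by
  have := siteMessage_lipschitz θ 0 x ε
  rwa [siteMessage_zero, sub_zero, sub_zero] at this

theorem siteTerm_pos {p k : ℕ} (h : ℝ) (θs : Fin k → Inter p) (x : Fin k → Fin (p - 1) → ℝ) :
    0 < siteTerm h θs x :=
  mul_pos (by norm_num)
    (Finset.sum_pos (fun ε _ => Real.exp_pos _) Finset.univ_nonempty)

theorem log_siteTerm_lipschitz {p k : ℕ} (h h' : ℝ) (θs θs' : Fin k → Inter p)
    (x : Fin k → Fin (p - 1) → ℝ) :
    |Real.log (siteTerm h θs x) - Real.log (siteTerm h' θs' x)| ≤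
      |h - h'| + ∑ j, supNorm (θs j - θs' j) := by
  have := abs_log_sum_exp_le (ι := Bool) (fun _ => 1 / 2) (fun _ => by norm_num)
    (fun ε => h * spinVal ε + ∑ j : Fin k, siteMessage (θs j) (x j) ε)
    (fun ε => h' * spinVal ε + ∑ j : Fin k, siteMessage (θs' j) (x j) ε)
    (|h - h'| + ∑ j, supNorm (θs j - θs' j)) (fun ε => by
      have e : (h * spinVal ε + ∑ j : Fin k, siteMessage (θs j) (x j) ε) -
          (h' * spinVal ε + ∑ j : Fin k, siteMessage (θs' j) (x j) ε) =
          (h - h') * spinVal ε +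
            ∑ j : Fin k, (siteMessage (θs j) (x j) ε - siteMessage (θs' j) (x j) ε) := by
        rw [Finset.sum_sub_distrib]; ring
      rw [e]
      refine (abs_add_le _ _).trans (add_le_add ?_ ?_)
      · rw [abs_mul, abs_spinVal, mul_one]
      · exact (Finset.abs_sum_le_sum_abs _ _).trans
          (Finset.sum_le_sum fun j _ => siteMessage_lipschitz _ _ _ _))
  unfold siteTerm
  rw [Finset.mul_sum, Finset.mul_sum]
  exact this

theorem siteTerm_zero {p k : ℕ} (x : Fin k → Fin (p - 1) → ℝ) :
    siteTerm 0 (fun _ => (0 : Inter p)) x = 1 := by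
  unfold siteTerm
  simp [siteMessage_zero]

theorem abs_log_siteTerm_le {p k : ℕ} (h : ℝ) (θs : Fin k → Inter p)
    (x : Fin k → Fin (p - 1) → ℝ) :
    |Real.log (siteTerm h θs x)| ≤ |h| + ∑ j, supNorm (θs j) := by
  have := log_siteTerm_lipschitz h 0 θs (fun _ => (0 : Inter p)) x
  rw [siteTerm_zero, Real.log_one] at this
  simpa only [sub_zero] using this

/-! ### measurability in the messages -/

theorem continuous_tilt (s : Bool) : Continuous (fun x : ℝ => tilt x s) := by
  unfold tilt
  refine Continuous.div (by fun_prop) (by fun_prop) fun x => ?_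
  have := Real.cosh_pos x
  positivity

theorem continuous_edgeTerm {p : ℕ} (θ : Inter p) : Continuous (fun x : Fin p → ℝ => edgeTerm θ x) := by
  unfold edgeTerm
  refine continuous_finsetSum _ fun s _ => continuous_const.mul ?_
  exact continuous_finsetProd _ fun ℓ _ => (continuous_tilt (s ℓ)).comp (continuous_apply ℓ)

theorem continuous_siteMessage {p : ℕ} (θ : Inter p) (ε : Bool) :
    Continuous (fun x : Fin (p - 1) → ℝ => siteMessage θ x ε) := by
  unfold siteMessage
  refine Continuous.log ?_ fun x => ?_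
  · refine continuous_finsetSum _ fun s _ => continuous_const.mul ?_
    exact continuous_finsetProd _ fun ℓ _ => (continuous_tilt (s ℓ)).comp (continuous_apply ℓ)
  · exact (Finset.sum_pos (fun s _ => mul_pos (Real.exp_pos _) (tilt_prod_pos x s))
      Finset.univ_nonempty).ne'

theorem continuous_siteTerm {p k : ℕ} (h : ℝ) (θs : Fin k → Inter p) :
    Continuous (fun x : Fin k → Fin (p - 1) → ℝ => siteTerm h θs x) := by
  unfold siteTerm
  refine continuous_const.mul (continuous_finsetSum _ fun ε _ => Real.continuous_exp.comp ?_)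
  refine continuous_const.add (continuous_finsetSum _ fun j _ => ?_)
  exact (continuous_siteMessage (θs j) ε).comp (continuous_apply j)

end Crest.Agent.R141.Red
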