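import Mathlib
import Crest.Agent.R141.Red0
import Crest.Agent.R141.Red1
import Crest.Agent.R141.RedBasic

/-!
# Row 141: the trial functional is Lipschitz in the laws (helper494)
-/

set_option autoImplicit false
set_option linter.unusedSectionVars false

open MeasureTheory Crest.ProbabilityR.Diluted

namespace Crest.Agent.R141.RedT

open Red

/-! ### Poisson sums -/

theorem poissonWeight_nonneg {lam : ℝ} (h : 0 ≤ lam) (n : ℕ) : 0 ≤ poissonWeight lam n := by
  unfold poissonWeight; positivity

theorem hasSum_poissonWeight (lam : ℝ) : HasSum (fun n => poissonWeight lam n) 1 := by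
  have h1 : HasSum (fun n : ℕ => lam ^ n / (Nat.factorial n : ℝ)) (Real.exp lam) := by
    rw [Real.exp_eq_exp_ℝ]
    exact NormedSpace.expSeries_div_hasSum_exp lam
  have h2 := h1.mul_left (Real.exp (-lam))
  rw [← Real.exp_add, neg_add_cancel, Real.exp_zero] at h2
  have e : (fun n => poissonWeight lam n) =
      fun n => Real.exp (-lam) * (lam ^ n / (Nat.factorial n : ℝ)) := by
    funext n; unfold poissonWeight; ring
  rw [e]; exact h2

theorem hasSum_poissonWeight_mul (lam : ℝ) :
    HasSum (fun n : ℕ => poissonWeight lam n * n) lam := by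
  rw [← hasSum_nat_add_iff' 1]
  have h := (hasSum_poissonWeight lam).mul_left lam
  simp only [Finset.range_one, Finset.sum_singleton, Nat.cast_zero, mul_zero, sub_zero]
  rw [mul_one] at h
  have e : (fun n : ℕ => poissonWeight lam (n + 1) * ((n + 1 : ℕ) : ℝ)) =
      fun n => lam * poissonWeight lam n := by
    funext n
    unfold poissonWeight
    rw [Nat.factorial_succ, pow_succ]
    have h1 : (Nat.factorial n : ℝ) ≠ 0 := Nat.cast_ne_zero.mpr (Nat.factorial_ne_zero n)
    have h2 : ((n + 1 : ℕ) : ℝ) ≠ 0 := Nat.cast_ne_zero.mpr (Nat.succ_ne_zero n)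
    rw [Nat.cast_mul]
    field_simp
  rw [e]; exact h

/-! ### Lipschitz functions of `k` interactions and one field -/

variable {p : ℕ}

/-- 1-Lipschitz functions of `k` interactions and a field. -/
def LipG {k : ℕ} (G : (Fin k → Inter p) → ℝ → ℝ) : Prop :=
  ∀ θs θs' h h', |G θs h - G θs' h'| ≤ |h - h'| + ∑ j, supNorm (θs j - θs' j)

theorem LipG.continuous {k : ℕ} {G : (Fin k → Inter p) → ℝ → ℝ} (hG : LipG G) :
    Continuous (fun z : (Fin k → Inter p) × ℝ => G z.1 z.2) := by
  refine (LipschitzWith.of_dist_le_mul (K := ((k : NNReal) + 1)) fun z z' => ?_).continuous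
  rw [Real.dist_eq]
  refine (hG _ _ _ _).trans ?_
  have h1 : |z.2 - z'.2| ≤ dist z z' := by
    rw [← Real.dist_eq]; exact le_max_right _ _
  have h2 : ∑ j, supNorm (z.1 j - z'.1 j) ≤ k * dist z z' := by
    calc ∑ j, supNorm (z.1 j - z'.1 j) ≤ ∑ _j : Fin k, dist z z' := by
          refine Finset.sum_le_sum fun j _ => ?_
          rw [supNorm_eq_norm, ← dist_eq_norm]
          exact (dist_le_pi_dist z.1 z'.1 j).trans (le_max_left _ _)
      _ = k * dist z z' := by simp
  push_cast
  linarith

theorem LipG.abs_le {k : ℕ} {G : (Fin k → Inter p) → ℝ → ℝ} (hG : LipG G)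
    (θs : Fin k → Inter p) (h : ℝ) :
    |G θs h| ≤ |G (fun _ => 0) 0| + (|h| + ∑ j, supNorm (θs j)) := by
  have h1 := hG θs (fun _ => 0) h 0
  simp only [sub_zero] at h1
  have h2 := abs_add_le (G θs h - G (fun _ => 0) 0) (G (fun _ => 0) 0)
  rw [sub_add_cancel] at h2
  linarith

section Int

variable {k : ℕ} {G : (Fin k → Inter p) → ℝ → ℝ} {μ : Measure (Inter p)}
  [IsProbabilityMeasure μ] {ν : Measure ℝ} [IsProbabilityMeasure ν]

theorem integrable_sum_comp_eval {g : Inter p → ℝ} (hg : Integrable g μ) :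
    Integrable (fun θs : Fin k → Inter p => ∑ j, g (θs j)) (Measure.pi fun _ => μ) :=
  integrable_finsetSum _ fun j _ => integrable_comp_eval (i := j) hg

theorem integrable_sum_supNorm (hμ : Integrable (fun θ => supNorm θ) μ) :
    Integrable (fun θs : Fin k → Inter p => ∑ j, supNorm (θs j)) (Measure.pi fun _ => μ) :=
  integrable_finsetSum _ fun j _ => integrable_comp_eval (i := j) hμ

theorem integral_sum_comp_eval {g : Inter p → ℝ} (hg : Integrable g μ) :
    ∫ θs : Fin k → Inter p, ∑ j, g (θs j) ∂(Measure.pi fun _ => μ) = k * ∫ θ, g θ ∂μ := by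
  rw [integral_finsetSum _ fun j _ => integrable_comp_eval (i := j) hg]
  have : ∀ j : Fin k, ∫ θs : Fin k → Inter p, g (θs j) ∂(Measure.pi fun _ => μ) = ∫ θ, g θ ∂μ :=
    fun j => integral_comp_eval (μ := fun _ : Fin k => μ) (i := j) hg.aestronglyMeasurable
  simp [this]

theorem LipG.integrable_right (hG : LipG G) (hν : Integrable (fun x : ℝ => x) ν)
    (θs : Fin k → Inter p) : Integrable (fun h => G θs h) ν := by
  refine Integrable.mono' (g := fun h => |G (fun _ => 0) 0| + (|h| + ∑ j, supNorm (θs j))) ?_ ?_ ?_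
  · exact (integrable_const _).add (hν.abs.add (integrable_const _))
  · exact (hG.continuous.comp (Continuous.prodMk_right θs)).aestronglyMeasurable
  · exact Filter.Eventually.of_forall fun h => by
      rw [Real.norm_eq_abs]; exact hG.abs_le θs h

theorem LipG.abs_integral_le (hG : LipG G) (hν : Integrable (fun x : ℝ => x) ν)
    (θs : Fin k → Inter p) :
    |∫ h, G θs h ∂ν| ≤ |G (fun _ => 0) 0| + (∫ h, |h| ∂ν) + ∑ j, supNorm (θs j) := by
  have h1 : |∫ h, G θs h ∂ν| ≤ ∫ h, |G θs h| ∂ν := abs_integral_le_integral_abs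
  have h2 : ∫ h, |G θs h| ∂ν ≤ ∫ h, (|G (fun _ => 0) 0| + (|h| + ∑ j, supNorm (θs j))) ∂ν :=
    integral_mono (hG.integrable_right hν θs).abs
      ((integrable_const _).add (hν.abs.add (integrable_const _))) (hG.abs_le θs)
  have hi : Integrable (fun h : ℝ => |h| + ∑ j, supNorm (θs j)) ν :=
    hν.abs.add (integrable_const _)
  rw [integral_add (integrable_const _) hi, integral_add hν.abs (integrable_const _)] at h2
  simp only [integral_const, probReal_univ, smul_eq_mul, one_mul] at h2
  linarith

theorem LipG.continuous_integral (hG : LipG G) (hν : Integrable (fun x : ℝ => x) ν) :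
    Continuous (fun θs : Fin k → Inter p => ∫ h, G θs h ∂ν) := by
  refine (LipschitzWith.of_dist_le_mul (K := (k : NNReal)) fun θs θs' => ?_).continuous
  rw [Real.dist_eq, ← integral_sub (hG.integrable_right hν θs) (hG.integrable_right hν θs')]
  refine (abs_integral_le_integral_abs).trans ?_
  have hb : ∀ h, |G θs h - G θs' h| ≤ k * dist θs θs' := fun h => by
    refine (hG _ _ _ _).trans ?_
    rw [sub_self, abs_zero, zero_add]
    calc ∑ j, supNorm (θs j - θs' j) ≤ ∑ _j : Fin k, dist θs θs' := by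
          refine Finset.sum_le_sum fun j _ => ?_
          rw [supNorm_eq_norm, ← dist_eq_norm]
          exact dist_le_pi_dist θs θs' j
      _ = k * dist θs θs' := by simp
  calc ∫ h, |G θs h - G θs' h| ∂ν ≤ ∫ _h, (k * dist θs θs') ∂ν :=
        integral_mono ((hG.integrable_right hν θs).sub (hG.integrable_right hν θs')).abs
          (integrable_const _) hb
    _ = k * dist θs θs' := by simp

theorem LipG.integrable_integral (hG : LipG G) (hμ : Integrable (fun θ => supNorm θ) μ)
    (hν : Integrable (fun x : ℝ => x) ν) :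
    Integrable (fun θs : Fin k → Inter p => ∫ h, G θs h ∂ν) (Measure.pi fun _ => μ) := by
  refine Integrable.mono'
    (g := fun θs => |G (fun _ => 0) 0| + (∫ h, |h| ∂ν) + ∑ j, supNorm (θs j)) ?_ ?_ ?_
  · exact (integrable_const _).add (integrable_sum_supNorm hμ)
  · exact (hG.continuous_integral hν).aestronglyMeasurable
  · exact Filter.Eventually.of_forall fun θs => by
      rw [Real.norm_eq_abs]; exact hG.abs_integral_le hν θs

theorem LipG.abs_integral_integral_le (hG : LipG G) (hμ : Integrable (fun θ => supNorm θ) μ)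
    (hν : Integrable (fun x : ℝ => x) ν) :
    |∫ θs, ∫ h, G θs h ∂ν ∂(Measure.pi fun _ : Fin k => μ)| ≤
      |G (fun _ => 0) 0| + (∫ h, |h| ∂ν) + k * ∫ θ, supNorm θ ∂μ := by
  have h1 : |∫ θs, ∫ h, G θs h ∂ν ∂(Measure.pi fun _ : Fin k => μ)| ≤
      ∫ θs, |∫ h, G θs h ∂ν| ∂(Measure.pi fun _ : Fin k => μ) := abs_integral_le_integral_abs
  have h2 : ∫ θs, |∫ h, G θs h ∂ν| ∂(Measure.pi fun _ : Fin k => μ) ≤
      ∫ θs : Fin k → Inter p, (|G (fun _ => 0) 0| + (∫ h, |h| ∂ν) + ∑ j, supNorm (θs j))
        ∂(Measure.pi fun _ : Fin k => μ) :=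
    integral_mono (hG.integrable_integral hμ hν).abs
      ((integrable_const _).add (integrable_sum_supNorm hμ)) (hG.abs_integral_le hν)
  rw [integral_add (integrable_const _) (integrable_sum_supNorm hμ),
    integral_sum_comp_eval hμ] at h2
  simp only [integral_const, probReal_univ, smul_eq_mul, one_mul] at h2
  linarith

/-- change of laws -/
theorem LipG.integral_map_sub_le (hG : LipG G) (hμ : Integrable (fun θ => supNorm θ) μ)
    (hν : Integrable (fun x : ℝ => x) ν) {φ : Inter p → Inter p} (hφ : Measurable φ)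
    {ψ : ℝ → ℝ} (hψ : Measurable ψ) (hφi : Integrable (fun θ => supNorm (θ - φ θ)) μ)
    (hψi : Integrable (fun h => h - ψ h) ν) :
    |(∫ θs, ∫ h, G θs h ∂ν ∂(Measure.pi fun _ : Fin k => μ)) -
      ∫ θs, ∫ h, G θs h ∂(ν.map ψ) ∂(Measure.pi fun _ : Fin k => μ.map φ)| ≤
      (∫ h, |h - ψ h| ∂ν) + k * ∫ θ, supNorm (θ - φ θ) ∂μ := by
  have : IsProbabilityMeasure (μ.map φ) := Measure.isProbabilityMeasure_map hφ.aemeasurable
  have : IsProbabilityMeasure (ν.map ψ) := Measure.isProbabilityMeasure_map hψ.aemeasurable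
  have hψint : Integrable (fun h => ψ h) ν := by
    have := hν.sub hψi
    refine this.congr (Filter.Eventually.of_forall fun h => ?_)
    simp
  have hν' : Integrable (fun x : ℝ => x) (ν.map ψ) := by
    rw [integrable_map_measure (by fun_prop) hψ.aemeasurable]
    exact hψint
  have hμ' : Integrable (fun θ => supNorm θ) (μ.map φ) := by
    rw [integrable_map_measure (measurable_supNorm.aestronglyMeasurable) hφ.aemeasurable]
    refine Integrable.mono' (hμ.add hφi)
      ((measurable_supNorm.comp hφ).aestronglyMeasurable) (Filter.Eventually.of_forall fun θ => ?_)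
    simp only [Function.comp_apply, Real.norm_eq_abs, abs_of_nonneg (supNorm_nonneg _),
      Pi.add_apply]
    have e : φ θ = θ + (φ θ - θ) := by abel
    calc supNorm (φ θ) = supNorm (θ + (φ θ - θ)) := by rw [← e]
      _ ≤ supNorm θ + supNorm (φ θ - θ) := supNorm_add_le _ _
      _ = supNorm θ + supNorm (θ - φ θ) := by rw [supNorm_sub_comm]
  have epi : (Measure.pi fun _ : Fin k => μ.map φ) =
      (Measure.pi fun _ : Fin k => μ).map (fun θs j => φ (θs j)) := by
    rw [Measure.pi_map_pi (fun _ => hφ.aemeasurable)]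
  have hφm : Measurable (fun (θs : Fin k → Inter p) (j : Fin k) => φ (θs j)) :=
    measurable_pi_lambda _ fun j => hφ.comp (measurable_pi_apply j)
  have e1 : ∫ θs, ∫ h, G θs h ∂(ν.map ψ) ∂(Measure.pi fun _ : Fin k => μ.map φ) =
      ∫ θs, ∫ h, G (fun j => φ (θs j)) (ψ h) ∂ν ∂(Measure.pi fun _ : Fin k => μ) := by
    rw [epi, integral_map hφm.aemeasurable (hG.continuous_integral hν').aestronglyMeasurable]
    refine integral_congr_ae (Filter.Eventually.of_forall fun θs => ?_)
    exact integral_map hψ.aemeasurable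
      (hG.continuous.comp (Continuous.prodMk_right _)).aestronglyMeasurable
  rw [e1]
  -- integrability of the transported function
  have hi2 : Integrable (fun θs : Fin k → Inter p => ∫ h, G (fun j => φ (θs j)) (ψ h) ∂ν)
      (Measure.pi fun _ : Fin k => μ) := by
    have h0 := hG.integrable_integral (k := k) hμ' hν'
    rw [epi] at h0
    have h1 := h0.comp_measurable hφm
    refine h1.congr (Filter.Eventually.of_forall fun θs => ?_)
    exact integral_map hψ.aemeasurable
      (hG.continuous.comp (Continuous.prodMk_right _)).aestronglyMeasurable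
  have hi2' : ∀ θs : Fin k → Inter p, Integrable (fun h => G (fun j => φ (θs j)) (ψ h)) ν := by
    intro θs
    have h0 := hG.integrable_right hν' (fun j => φ (θs j))
    exact h0.comp_measurable hψ
  rw [← integral_sub (hG.integrable_integral hμ hν) hi2]
  refine abs_integral_le_integral_abs.trans ?_
  have hptw : ∀ θs : Fin k → Inter p,
      |(∫ h, G θs h ∂ν) - ∫ h, G (fun j => φ (θs j)) (ψ h) ∂ν| ≤
        (∫ h, |h - ψ h| ∂ν) + ∑ j, supNorm (θs j - φ (θs j)) := by
    intro θs
    rw [← integral_sub (hG.integrable_right hν θs) (hi2' θs)]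
    refine abs_integral_le_integral_abs.trans ?_
    calc ∫ h, |G θs h - G (fun j => φ (θs j)) (ψ h)| ∂ν
        ≤ ∫ h, (|h - ψ h| + ∑ j, supNorm (θs j - φ (θs j))) ∂ν :=
          integral_mono ((hG.integrable_right hν θs).sub (hi2' θs)).abs
            (hψi.abs.add (integrable_const _)) fun h => hG _ _ _ _
      _ = (∫ h, |h - ψ h| ∂ν) + ∑ j, supNorm (θs j - φ (θs j)) := by
          rw [integral_add hψi.abs (integrable_const _)]; simp
  calc ∫ θs : Fin k → Inter p, |(∫ h, G θs h ∂ν) - ∫ h, G (fun j => φ (θs j)) (ψ h) ∂ν|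
        ∂(Measure.pi fun _ : Fin k => μ)
      ≤ ∫ θs : Fin k → Inter p, ((∫ h, |h - ψ h| ∂ν) + ∑ j, supNorm (θs j - φ (θs j)))
        ∂(Measure.pi fun _ : Fin k => μ) :=
        integral_mono ((hG.integrable_integral hμ hν).sub hi2).abs
          ((integrable_const _).add (integrable_sum_comp_eval hφi)) hptw
    _ = (∫ h, |h - ψ h| ∂ν) + k * ∫ θ, supNorm (θ - φ θ) ∂μ := by
        rw [integral_add (integrable_const _) (integrable_sum_comp_eval hφi),
          integral_sum_comp_eval hφi]
        simp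

end Int

/-! ### the site and edge functionals -/

section Site

variable {r : ℕ} {m : Fin r → ℝ} {X : (Fin (r + 1) → unitInterval) → ℝ}

instance (L : Type*) [Fintype L] (r : ℕ) : IsProbabilityMeasure (uniformArrays L r) := by
  unfold uniformArrays; infer_instance

theorem measurable_siteTerm_X {k : ℕ} (hX : Measurable X) (h : ℝ) (θs : Fin k → Inter p) :
    Measurable (fun u' : (Fin k × Fin (p - 1)) → Fin (r + 1) → unitInterval =>
      siteTerm h θs (fun j ℓ => X (u' (j, ℓ)))) := by
  refine (continuous_siteTerm h θs).measurable.comp ?_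
  exact measurable_pi_lambda _ fun j => measurable_pi_lambda _ fun ℓ =>
    hX.comp (measurable_pi_apply _)

theorem measurable_edgeTerm_X (hX : Measurable X) (θ : Inter p) :
    Measurable (fun u' : Fin p → Fin (r + 1) → unitInterval => edgeTerm θ (fun ℓ => X (u' ℓ))) := by
  refine (continuous_edgeTerm θ).measurable.comp ?_
  exact measurable_pi_lambda _ fun ℓ => hX.comp (measurable_pi_apply _)

theorem siteTerm_bounds {k : ℕ} (h : ℝ) (θs : Fin k → Inter p) (x : Fin k → Fin (p - 1) → ℝ) :
    Real.exp (-(|h| + ∑ j, supNorm (θs j))) ≤ siteTerm h θs x ∧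
      siteTerm h θs x ≤ Real.exp (|h| + ∑ j, supNorm (θs j)) := by
  have h1 := abs_le.1 (abs_log_siteTerm_le h θs x)
  have hp := siteTerm_pos h θs x
  exact ⟨by rw [← Real.le_log_iff_exp_le hp]; exact h1.1, by
    rw [← Real.log_le_iff_le_exp hp]; exact h1.2⟩

theorem edgeTerm_bounds (θ : Inter p) (x : Fin p → ℝ) :
    Real.exp (-supNorm θ) ≤ edgeTerm θ x ∧ edgeTerm θ x ≤ Real.exp (supNorm θ) := by
  have h1 := abs_le.1 (abs_log_edgeTerm_le θ x)
  have hp := edgeTerm_pos θ x
  exact ⟨by rw [← Real.le_log_iff_exp_le hp]; exact h1.1, by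
    rw [← Real.log_le_iff_le_exp hp]; exact h1.2⟩

/-- the inner site integral -/
noncomputable def siteInner (p k r : ℕ) (m : Fin r → ℝ) (X : (Fin (r + 1) → unitInterval) → ℝ)
    (θs : Fin k → Inter p) (h : ℝ) : ℝ :=
  ∫ u, Real.log (powerMeans m
          (fun u' : (Fin k × Fin (p - 1)) → Fin (r + 1) → unitInterval =>
            siteTerm h θs (fun j ℓ => X (u' (j, ℓ)))) u)
        ∂(uniformArrays (Fin k × Fin (p - 1)) r)

/-- the inner edge integral -/
noncomputable def edgeInner (p r : ℕ) (m : Fin r → ℝ) (X : (Fin (r + 1) → unitInterval) → ℝ)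
    (θ : Inter p) : ℝ :=
  ∫ u, Real.log (powerMeans m
          (fun u' : Fin p → Fin (r + 1) → unitInterval => edgeTerm θ (fun ℓ => X (u' ℓ))) u)
        ∂(uniformArrays (Fin p) r)

theorem siteFun_eq (lam : ℝ) (μ : Measure (Inter p)) (ν : Measure ℝ) :
    siteFun p lam μ ν r m X = ∑' k : ℕ, poissonWeight lam k *
      ∫ θs, ∫ h, siteInner p k r m X θs h ∂ν ∂(Measure.pi fun _ : Fin k => μ) := rfl

theorem edgeFun_eq (μ : Measure (Inter p)) :
    edgeFun p μ r m X = ∫ θ, edgeInner p r m X θ ∂μ := rfl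

theorem integrable_log_powerMeans {L : Type*} [Fintype L] (hm : ∀ d, 0 < m d) {a b : ℝ}
    (ha : 0 < a) {W : (L → Fin (r + 1) → unitInterval) → ℝ} (hW : Measurable W)
    (hWa : ∀ u, a ≤ W u) (hWb : ∀ u, W u ≤ b) :
    Integrable (fun u => Real.log (powerMeans m W u)) (uniformArrays L r) := by
  refine Integrable.of_bound
    ((measurable_powerMeans' hW).log.aestronglyMeasurable)
    (max |Real.log a| |Real.log b|) (Filter.Eventually.of_forall fun u => ?_)
  have h1 := le_powerMeans hm ha hW hWa hWb u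
  have h2 := powerMeans_le hm ha hW hWa hWb u
  rw [Real.norm_eq_abs]
  exact abs_le_max_abs_abs (Real.log_le_log ha h1) (Real.log_le_log (ha.trans_le h1) h2)

theorem lipG_siteInner {k : ℕ} (hm : ∀ d, 0 < m d) (hX : Measurable X) :
    LipG (siteInner p k r m X) := by
  intro θs θs' h h'
  unfold siteInner
  have hb := fun u' : (Fin k × Fin (p - 1)) → Fin (r + 1) → unitInterval =>
    siteTerm_bounds h θs (fun j ℓ => X (u' (j, ℓ)))
  have hb' := fun u' : (Fin k × Fin (p - 1)) → Fin (r + 1) → unitInterval =>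
    siteTerm_bounds h' θs' (fun j ℓ => X (u' (j, ℓ)))
  rw [← integral_sub
    (integrable_log_powerMeans hm (Real.exp_pos _) (measurable_siteTerm_X hX h θs)
      (fun u => (hb u).1) (fun u => (hb u).2))
    (integrable_log_powerMeans hm (Real.exp_pos _) (measurable_siteTerm_X hX h' θs')
      (fun u => (hb' u).1) (fun u => (hb' u).2))]
  have hc : ∀ u, ‖Real.log (powerMeans m
          (fun u' : (Fin k × Fin (p - 1)) → Fin (r + 1) → unitInterval =>
            siteTerm h θs (fun j ℓ => X (u' (j, ℓ)))) u) -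
      Real.log (powerMeans m
          (fun u' : (Fin k × Fin (p - 1)) → Fin (r + 1) → unitInterval =>
            siteTerm h' θs' (fun j ℓ => X (u' (j, ℓ)))) u)‖ ≤
      |h - h'| + ∑ j, supNorm (θs j - θs' j) := fun u => by
    rw [Real.norm_eq_abs]
    exact abs_log_powerMeans_sub_le hm (Real.exp_pos _) (Real.exp_pos _)
      (measurable_siteTerm_X hX h θs) (measurable_siteTerm_X hX h' θs')
      (fun u => (hb u).1) (fun u => (hb u).2) (fun u => (hb' u).1) (fun u => (hb' u).2)
      (fun u => log_siteTerm_lipschitz h h' θs θs' _) u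
  have := norm_integral_le_of_norm_le_const (μ := uniformArrays (Fin k × Fin (p - 1)) r)
    (Filter.Eventually.of_forall hc)
  simpa using this

theorem powerMeans_one {L : Type*} [Fintype L] (hm : ∀ d, 0 < m d)
    (u : L → Fin (r + 1) → unitInterval) :
    powerMeans m (fun _ : L → Fin (r + 1) → unitInterval => (1 : ℝ)) u = 1 :=
  le_antisymm
    (powerMeans_le hm one_pos measurable_const (fun _ => le_rfl) (fun _ => le_rfl) u)
    (le_powerMeans hm one_pos measurable_const (fun _ => le_rfl) (fun _ => le_rfl) u)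

theorem siteInner_zero {k : ℕ} (hm : ∀ d, 0 < m d) :
    siteInner p k r m X (fun _ => 0) 0 = 0 := by
  unfold siteInner
  have : (fun u' : (Fin k × Fin (p - 1)) → Fin (r + 1) → unitInterval =>
            siteTerm 0 (fun _ => (0 : Inter p)) (fun j ℓ => X (u' (j, ℓ)))) = fun _ => 1 := by
    funext u'; exact siteTerm_zero _
  simp only [this, powerMeans_one hm, Real.log_one, integral_zero]

theorem lip_edgeInner (hm : ∀ d, 0 < m d) (hX : Measurable X) (θ θ' : Inter p) :
    |edgeInner p r m X θ - edgeInner p r m X θ'| ≤ supNorm (θ - θ') := by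
  unfold edgeInner
  have hb := fun u' : Fin p → Fin (r + 1) → unitInterval => edgeTerm_bounds θ (fun ℓ => X (u' ℓ))
  have hb' := fun u' : Fin p → Fin (r + 1) → unitInterval =>
    edgeTerm_bounds θ' (fun ℓ => X (u' ℓ))
  rw [← integral_sub
    (integrable_log_powerMeans hm (Real.exp_pos _) (measurable_edgeTerm_X hX θ)
      (fun u => (hb u).1) (fun u => (hb u).2))
    (integrable_log_powerMeans hm (Real.exp_pos _) (measurable_edgeTerm_X hX θ')
      (fun u => (hb' u).1) (fun u => (hb' u).2))]
  have hc : ∀ u, ‖Real.log (powerMeans m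
          (fun u' : Fin p → Fin (r + 1) → unitInterval => edgeTerm θ (fun ℓ => X (u' ℓ))) u) -
      Real.log (powerMeans m
          (fun u' : Fin p → Fin (r + 1) → unitInterval => edgeTerm θ' (fun ℓ => X (u' ℓ))) u)‖ ≤
      supNorm (θ - θ') := fun u => by
    rw [Real.norm_eq_abs]
    exact abs_log_powerMeans_sub_le hm (Real.exp_pos _) (Real.exp_pos _)
      (measurable_edgeTerm_X hX θ) (measurable_edgeTerm_X hX θ')
      (fun u => (hb u).1) (fun u => (hb u).2) (fun u => (hb' u).1) (fun u => (hb' u).2)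
      (fun u => log_edgeTerm_lipschitz θ θ' _) u
  have := norm_integral_le_of_norm_le_const (μ := uniformArrays (Fin p) r)
    (Filter.Eventually.of_forall hc)
  simpa using this

theorem edgeInner_zero (hm : ∀ d, 0 < m d) : edgeInner p r m X 0 = 0 := by
  unfold edgeInner
  have : (fun u' : Fin p → Fin (r + 1) → unitInterval =>
            edgeTerm (0 : Inter p) (fun ℓ => X (u' ℓ))) = fun _ => 1 := by
    funext u'; exact edgeTerm_zero _
  simp only [this, powerMeans_one hm, Real.log_one, integral_zero]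

theorem abs_edgeInner_le (hm : ∀ d, 0 < m d) (hX : Measurable X) (θ : Inter p) :
    |edgeInner p r m X θ| ≤ supNorm θ := by
  have := lip_edgeInner hm hX θ 0
  rwa [edgeInner_zero hm, sub_zero, sub_zero] at this

theorem continuous_edgeInner (hm : ∀ d, 0 < m d) (hX : Measurable X) :
    Continuous (edgeInner p r m X) := by
  refine (LipschitzWith.of_dist_le_mul (K := 1) fun θ θ' => ?_).continuous
  rw [Real.dist_eq, NNReal.coe_one, one_mul, dist_eq_norm, ← supNorm_eq_norm]
  exact lip_edgeInner hm hX θ θ'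

theorem integrable_edgeInner {μ : Measure (Inter p)} [IsProbabilityMeasure μ]
    (hm : ∀ d, 0 < m d) (hX : Measurable X) (hμ : Integrable (fun θ => supNorm θ) μ) :
    Integrable (edgeInner p r m X) μ :=
  Integrable.mono' hμ (continuous_edgeInner hm hX).aestronglyMeasurable
    (Filter.Eventually.of_forall fun θ => by
      rw [Real.norm_eq_abs]; exact abs_edgeInner_le hm hX θ)

theorem edgeFun_map_sub_le {μ : Measure (Inter p)} [IsProbabilityMeasure μ]
    (hm : ∀ d, 0 < m d) (hX : Measurable X) (hμ : Integrable (fun θ => supNorm θ) μ)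
    {φ : Inter p → Inter p} (hφ : Measurable φ)
    (hφi : Integrable (fun θ => supNorm (θ - φ θ)) μ) :
    |edgeFun p μ r m X - edgeFun p (μ.map φ) r m X| ≤ ∫ θ, supNorm (θ - φ θ) ∂μ := by
  rw [edgeFun_eq, edgeFun_eq,
    integral_map hφ.aemeasurable (continuous_edgeInner hm hX).aestronglyMeasurable]
  have hi : Integrable (fun θ => edgeInner p r m X (φ θ)) μ := by
    refine Integrable.mono' (hμ.add hφi)
      ((continuous_edgeInner hm hX).measurable.comp hφ).aestronglyMeasurable
      (Filter.Eventually.of_forall fun θ => ?_)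
    rw [Real.norm_eq_abs, Pi.add_apply]
    refine (abs_edgeInner_le hm hX _).trans ?_
    have e : φ θ = θ + (φ θ - θ) := by abel
    calc supNorm (φ θ) = supNorm (θ + (φ θ - θ)) := by rw [← e]
      _ ≤ supNorm θ + supNorm (φ θ - θ) := supNorm_add_le _ _
      _ = supNorm θ + supNorm (θ - φ θ) := by rw [supNorm_sub_comm]
  rw [← integral_sub (integrable_edgeInner hm hX hμ) hi]
  refine abs_integral_le_integral_abs.trans ?_
  exact integral_mono ((integrable_edgeInner hm hX hμ).sub hi).abs hφi
    fun θ => lip_edgeInner hm hX _ _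

theorem abs_siteTermFun_le {μ : Measure (Inter p)} [IsProbabilityMeasure μ] {ν : Measure ℝ}
    [IsProbabilityMeasure ν] (hm : ∀ d, 0 < m d) (hX : Measurable X)
    (hμ : Integrable (fun θ => supNorm θ) μ) (hν : Integrable (fun x : ℝ => x) ν) (k : ℕ) :
    |∫ θs, ∫ h, siteInner p k r m X θs h ∂ν ∂(Measure.pi fun _ : Fin k => μ)| ≤
      (∫ h, |h| ∂ν) + k * ∫ θ, supNorm θ ∂μ := by
  have := (lipG_siteInner (p := p) (k := k) hm hX).abs_integral_integral_le hμ hν
  rwa [siteInner_zero hm, abs_zero, zero_add] at this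

theorem hasSum_poisson_affine (lam a b : ℝ) :
    HasSum (fun k : ℕ => poissonWeight lam k * (a + k * b)) (a + lam * b) := by
  have h1 := (hasSum_poissonWeight lam).mul_right a
  have h2 := (hasSum_poissonWeight_mul lam).mul_right b
  have h3 := h1.add h2
  rw [one_mul] at h3
  have e : (fun k : ℕ => poissonWeight lam k * (a + k * b)) =
      fun k : ℕ => poissonWeight lam k * a + poissonWeight lam k * k * b := by
    funext k; ring
  rw [e]; exact h3

theorem summable_siteFun {μ : Measure (Inter p)} [IsProbabilityMeasure μ] {ν : Measure ℝ}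
    [IsProbabilityMeasure ν] (hm : ∀ d, 0 < m d) (hX : Measurable X)
    (hμ : Integrable (fun θ => supNorm θ) μ) (hν : Integrable (fun x : ℝ => x) ν)
    {lam : ℝ} (hlam : 0 ≤ lam) :
    Summable (fun k : ℕ => poissonWeight lam k *
      ∫ θs, ∫ h, siteInner p k r m X θs h ∂ν ∂(Measure.pi fun _ : Fin k => μ)) := by
  refine Summable.of_norm_bounded (hasSum_poisson_affine lam (∫ h, |h| ∂ν)
    (∫ θ, supNorm θ ∂μ)).summable fun k => ?_
  rw [Real.norm_eq_abs, abs_mul, abs_of_nonneg (poissonWeight_nonneg hlam k)]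
  exact mul_le_mul_of_nonneg_left (abs_siteTermFun_le hm hX hμ hν k)
    (poissonWeight_nonneg hlam k)

theorem siteFun_map_sub_le {μ : Measure (Inter p)} [IsProbabilityMeasure μ] {ν : Measure ℝ}
    [IsProbabilityMeasure ν] (hm : ∀ d, 0 < m d) (hX : Measurable X)
    (hμ : Integrable (fun θ => supNorm θ) μ) (hν : Integrable (fun x : ℝ => x) ν)
    {φ : Inter p → Inter p} (hφ : Measurable φ) {ψ : ℝ → ℝ} (hψ : Measurable ψ)
    (hφi : Integrable (fun θ => supNorm (θ - φ θ)) μ) (hψi : Integrable (fun h => h - ψ h) ν)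
    {lam : ℝ} (hlam : 0 ≤ lam) :
    |siteFun p lam μ ν r m X - siteFun p lam (μ.map φ) (ν.map ψ) r m X| ≤
      (∫ h, |h - ψ h| ∂ν) + lam * ∫ θ, supNorm (θ - φ θ) ∂μ := by
  have : IsProbabilityMeasure (μ.map φ) := Measure.isProbabilityMeasure_map hφ.aemeasurable
  have : IsProbabilityMeasure (ν.map ψ) := Measure.isProbabilityMeasure_map hψ.aemeasurable
  have hν' : Integrable (fun x : ℝ => x) (ν.map ψ) := by
    rw [integrable_map_measure (by fun_prop) hψ.aemeasurable]
    exact (hν.sub hψi).congr (Filter.Eventually.of_forall fun h => by simp)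
  have hμ' : Integrable (fun θ => supNorm θ) (μ.map φ) := by
    rw [integrable_map_measure (measurable_supNorm.aestronglyMeasurable) hφ.aemeasurable]
    refine Integrable.mono' (hμ.add hφi)
      ((measurable_supNorm.comp hφ).aestronglyMeasurable) (Filter.Eventually.of_forall fun θ => ?_)
    simp only [Function.comp_apply, Real.norm_eq_abs, abs_of_nonneg (supNorm_nonneg _),
      Pi.add_apply]
    have e : φ θ = θ + (φ θ - θ) := by abel
    calc supNorm (φ θ) = supNorm (θ + (φ θ - θ)) := by rw [← e]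
      _ ≤ supNorm θ + supNorm (φ θ - θ) := supNorm_add_le _ _
      _ = supNorm θ + supNorm (θ - φ θ) := by rw [supNorm_sub_comm]
  rw [siteFun_eq, siteFun_eq, ← Summable.tsum_sub (summable_siteFun hm hX hμ hν hlam)
    (summable_siteFun hm hX hμ' hν' hlam), ← Real.norm_eq_abs]
  refine tsum_of_norm_bounded (hasSum_poisson_affine lam (∫ h, |h - ψ h| ∂ν)
    (∫ θ, supNorm (θ - φ θ) ∂μ)) fun k => ?_
  rw [← mul_sub, Real.norm_eq_abs, abs_mul, abs_of_nonneg (poissonWeight_nonneg hlam k)]
  exact mul_le_mul_of_nonneg_left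
    ((lipG_siteInner hm hX).integral_map_sub_le hμ hν hφ hψ hφi hψi)
    (poissonWeight_nonneg hlam k)

end Site

end Crest.Agent.R141.RedT
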