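import Crest.Agent.R141.Cavity3
import Crest.Agent.R141.Bridge36b
import Crest.Agent.R141.Red3

/-!
Row 141, sub-lemmas for the PartL assembly: the cavity field as `siteW`, averaging out the unused
slot, the edge terms, and the trial in terms of `siteInner`/`edgeInner`.
-/

set_option autoImplicit false

open MeasureTheory

namespace Crest.Agent.R141.Asm

open Crest.ProbabilityR.Diluted

/-- The slot of `θ` which is used as `m`-th old spin when the new spin sits in the slot `l`. -/
def slotMap {p : ℕ} (l : Fin p) (m : Fin (p - 1)) : Fin p :=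
  Equiv.swap l (lastSlot l) ⟨m.1, by omega⟩

theorem slotMap_ne {p : ℕ} (l : Fin p) (m : Fin (p - 1)) : slotMap l m ≠ l := by
  unfold slotMap
  intro h
  have h1 := congrArg (Equiv.swap l (lastSlot l)) h
  rw [Equiv.swap_apply_self, Equiv.swap_apply_left] at h1
  have h2 := congrArg Fin.val h1
  simp only [lastSlot] at h2
  have := m.2
  omega

theorem slotMap_injective {p : ℕ} (l : Fin p) : Function.Injective (slotMap l) := by
  intro a b hab
  unfold slotMap at hab
  have h1 := (Equiv.swap l (lastSlot l)).injective hab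
  have h2 := congrArg Fin.val h1
  exact Fin.ext h2

theorem swap_apply_self' {p : ℕ} (l : Fin p) {i : Fin p} (hi : i ≠ l) :
    (Equiv.swap l (lastSlot l) i).val < p - 1 := by
  have h1 : Equiv.swap l (lastSlot l) i ≠ lastSlot l := by
    intro h
    have h2 := congrArg (Equiv.swap l (lastSlot l)) h
    rw [Equiv.swap_apply_self, Equiv.swap_apply_right] at h2
    exact hi h2
  have h3 := (Equiv.swap l (lastSlot l) i).2
  have h4 : (Equiv.swap l (lastSlot l) i).val ≠ p - 1 := fun h => h1 (Fin.ext h)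
  omega

theorem cavU_eq_siteW {p N k : ℕ} (x : ℝ) (θs : Fin k → Inter p) (ls : Fin k → Fin p)
    (Is : Fin k → Fin p → Fin N) (s : Fin N → Bool) :
    Cav.cavU x θs ls Is s = Real.log 2 +
      Real.log (Br.siteW x (fun j => swapInter (ls j) (θs j))
        (fun jm => s (Is jm.1 (slotMap (ls jm.1) jm.2)))) := by
  have hpos : 0 < ∑ e : Bool, Real.exp (x * spinVal e +
      ∑ j, θs j (fun m => if m = ls j then e else s (Is j m))) :=
    Finset.sum_pos (fun _ _ => Real.exp_pos _) Finset.univ_nonempty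
  have h1 : Br.siteW x (fun j => swapInter (ls j) (θs j))
        (fun jm => s (Is jm.1 (slotMap (ls jm.1) jm.2))) =
      (1 / 2) * ∑ e : Bool, Real.exp (x * spinVal e +
      ∑ j, θs j (fun m => if m = ls j then e else s (Is j m))) := by
    unfold Br.siteW
    congr 1
    refine Finset.sum_congr rfl fun e _ => ?_
    congr 2
    refine Finset.sum_congr rfl fun j _ => ?_
    simp only [swapInter]
    congr 1
    funext i
    by_cases hi : i = ls j
    · subst hi
      rw [if_pos rfl, dif_neg]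
      rw [Equiv.swap_apply_left]
      simp [lastSlot]
    · rw [if_neg hi, dif_pos (swap_apply_self' (ls j) hi)]
      congr 2
      simp only [slotMap]
      exact Equiv.swap_apply_self _ _ _
  unfold Cav.cavU
  rw [h1, Real.log_mul (by norm_num) hpos.ne', one_div, Real.log_inv]
  ring

/-- `Option (Fin (p-1)) ≃ Fin p`, `none ↦ l`. -/
noncomputable def slotEquiv {p : ℕ} (l : Fin p) : Option (Fin (p - 1)) ≃ Fin p :=
  Equiv.ofBijective (fun o => o.elim l (slotMap l)) (by
    rw [Fintype.bijective_iff_injective_and_card]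
    refine ⟨?_, ?_⟩
    · intro a b hab
      cases a with
      | none =>
        cases b with
        | none => rfl
        | some b => exact absurd hab.symm (slotMap_ne l b)
      | some a =>
        cases b with
        | none => exact absurd hab (slotMap_ne l a)
        | some b => exact congrArg some (slotMap_injective l hab)
    · have := Fin.pos l
      rw [Fintype.card_option, Fintype.card_fin, Fintype.card_fin]
      omega)

/-- Splitting the sites of one interaction: unused slot and used slots. -/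
noncomputable def siteSplit {p : ℕ} (N : ℕ) (l : Fin p) :
    (Fin p → Fin N) ≃ Fin N × (Fin (p - 1) → Fin N) :=
  (Equiv.arrowCongr (slotEquiv l).symm (Equiv.refl (Fin N))).trans
    (Equiv.piOptionEquivProd (β := fun _ => Fin N))

theorem siteSplit_snd {p : ℕ} (N : ℕ) (l : Fin p) (f : Fin p → Fin N) (m : Fin (p - 1)) :
    (siteSplit N l f).2 m = f (slotMap l m) := rfl

theorem avg_slots {p N k : ℕ} (hN : 0 < N) (ls : Fin k → Fin p)
    (F : (Fin k × Fin (p - 1) → Fin N) → ℝ) :
    ((((N : ℝ)⁻¹) ^ p) ^ k) * ∑ Is : Fin k → Fin p → Fin N,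
        F (fun jm => Is jm.1 (slotMap (ls jm.1) jm.2)) =
      (Fintype.card (Fin k × Fin (p - 1) → Fin N) : ℝ)⁻¹ *
        ∑ site : Fin k × Fin (p - 1) → Fin N, F site := by
  have hN' : (0 : ℝ) < N := by exact_mod_cast hN
  have hsum : ∑ Is : Fin k → Fin p → Fin N, F (fun jm => Is jm.1 (slotMap (ls jm.1) jm.2)) =
      (N : ℝ) ^ k * ∑ site : Fin k × Fin (p - 1) → Fin N, F site := by
    let e : (Fin k → Fin p → Fin N) ≃ (Fin k → Fin N) × (Fin k × Fin (p - 1) → Fin N) :=
      ((Equiv.piCongrRight fun j => siteSplit N (ls j)).trans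
        (Equiv.arrowProdEquivProdArrow (Fin k) (fun _ => Fin N)
          (fun _ => Fin (p - 1) → Fin N))).trans
        (Equiv.prodCongr (Equiv.refl _) (Equiv.curry (Fin k) (Fin (p - 1)) (Fin N)).symm)
    have h1 : ∑ Is : Fin k → Fin p → Fin N, F (fun jm => Is jm.1 (slotMap (ls jm.1) jm.2)) =
        ∑ q : (Fin k → Fin N) × (Fin k × Fin (p - 1) → Fin N), F q.2 := by
      refine Fintype.sum_equiv e _ _ fun Is => ?_
      rfl
    rw [h1, Fintype.sum_prod_type]
    simp only [Finset.sum_const, Finset.card_univ, Fintype.card_fun, Fintype.card_fin,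
      nsmul_eq_mul, Nat.cast_pow]
  rw [hsum, ← mul_assoc]
  congr 1
  rw [Fintype.card_fun, Fintype.card_prod, Fintype.card_fin, Fintype.card_fin, Fintype.card_fin]
  rcases Nat.eq_zero_or_pos k with hk | hk
  · subst hk
    simp
  · have hp : 0 < p := Fin.pos (ls ⟨0, hk⟩)
    obtain ⟨q, rfl⟩ : ∃ q, p = q + 1 := ⟨p - 1, by omega⟩
    have e1 : q + 1 - 1 = q := by omega
    rw [e1, Nat.cast_pow, pow_succ, mul_pow, mul_assoc, ← mul_pow, inv_mul_cancel₀ hN'.ne',
      one_pow, mul_one, ← pow_mul, mul_comm q k, inv_pow]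

theorem avg_slots_edge {p N k : ℕ} (F : (Fin k × Fin p → Fin N) → ℝ) :
    ((((N : ℝ)⁻¹) ^ p) ^ k) * ∑ Is : Fin k → Fin p → Fin N, F (fun jm => Is jm.1 jm.2) =
      (Fintype.card (Fin k × Fin p → Fin N) : ℝ)⁻¹ *
        ∑ site : Fin k × Fin p → Fin N, F site := by
  have h1 : ∑ Is : Fin k → Fin p → Fin N, F (fun jm => Is jm.1 jm.2) =
      ∑ site : Fin k × Fin p → Fin N, F site :=
    Fintype.sum_equiv (Equiv.curry (Fin k) (Fin p) (Fin N)).symm _ _ fun _ => rfl
  rw [h1]
  congr 1
  rw [Fintype.card_fun, Fintype.card_prod, Fintype.card_fin, Fintype.card_fin, Fintype.card_fin,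
    Nat.cast_pow, ← pow_mul, mul_comm p k, inv_pow]

/-- The average of a function of one coordinate. -/
theorem avg_coord {ι T : Type*} [Fintype ι] [DecidableEq ι] [Fintype T] [Nonempty T] (j : ι)
    (g : T → ℝ) :
    (Fintype.card (ι → T) : ℝ)⁻¹ * ∑ f : ι → T, g (f j) = (Fintype.card T : ℝ)⁻¹ * ∑ t, g t := by
  have h1 : ∑ f : ι → T, g (f j) = ∑ q : T × ({i // i ≠ j} → T), g q.1 :=
    Fintype.sum_equiv (Equiv.funSplitAt j T) _ _ fun _ => rfl
  have h2 : Fintype.card (ι → T) = Fintype.card T * Fintype.card ({i // i ≠ j} → T) := by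
    rw [← Fintype.card_prod]
    exact Fintype.card_congr (Equiv.funSplitAt j T)
  have h3 : (0 : ℝ) < Fintype.card ({i // i ≠ j} → T) := by exact_mod_cast Fintype.card_pos
  rw [h1, h2, Fintype.sum_prod_type]
  simp only [Finset.sum_const, Finset.card_univ, nsmul_eq_mul]
  rw [← Finset.mul_sum, Nat.cast_mul, mul_inv, mul_assoc, inv_mul_cancel_left₀ h3.ne']

theorem thInd_edges {Om I : Type*} [Fintype Om] [Fintype I] [Nonempty I] {p k : ℕ} (J : ℕ)
    (hJ : 1 ≤ J) (Kk : ℕ → Om → Om → ℝ)
    (hK0 : ∀ n w w', 0 ≤ Kk n w w') (hK1 : ∀ n w, ∑ w', Kk n w w' = 1) (sg : I → Om → Bool)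
    (hmag : ∀ i w, -1 < Br.magK Kk sg i w ∧ Br.magK Kk sg i w < 1) (mm : ℕ → ℝ)
    (θs : Fin k → Inter p) (w0 : Om) :
    (Fintype.card (Fin k × Fin p → I) : ℝ)⁻¹ * ∑ site : Fin k × Fin p → I,
        Br.thInd Kk sg (Br.fExp J mm)
          (fun σ => Real.exp (∑ j, θs j (fun m => σ (j, m)))) site (J + 1) (fun _ => w0) =
      ∑ j, (Fintype.card (Fin p → I) : ℝ)⁻¹ * ∑ site : Fin p → I,
        Br.thInd Kk sg (Br.fExp J mm) (fun σ => Real.exp (θs j σ)) site (J + 1)
          (fun _ => w0) := by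
  have h1 : ∀ site : Fin k × Fin p → I,
      Br.thInd Kk sg (Br.fExp J mm)
          (fun σ => Real.exp (∑ j, θs j (fun m => σ (j, m)))) site (J + 1) (fun _ => w0) =
      ∑ j, Br.thInd Kk sg (Br.fExp J mm) (fun σ => Real.exp (θs j σ)) (fun t => site (j, t))
        (J + 1) (fun _ => w0) := by
    intro site
    have := Br.thInd_prod J hJ Kk hK0 hK1 sg hmag mm
      (fun (j : Fin k) (σ : Fin p → Bool) => Real.exp (θs j σ)) (fun _ _ => Real.exp_pos _) site
      (fun _ => w0)
    rw [← this]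
    congr 1
    funext σ
    rw [Real.exp_sum]
  simp only [h1]
  rw [Finset.sum_comm, Finset.mul_sum]
  refine Finset.sum_congr rfl fun j _ => ?_
  have hc : Fintype.card (Fin k × Fin p → I) = Fintype.card (Fin k → Fin p → I) :=
    Fintype.card_congr (Equiv.curry (Fin k) (Fin p) I)
  rw [hc]
  rw [← avg_coord (ι := Fin k) (T := Fin p → I) j
    (fun site => Br.thInd Kk sg (Br.fExp J mm) (fun σ => Real.exp (θs j σ)) site
        (J + 1) (fun _ => w0))]
  congr 1
  exact Fintype.sum_equiv (Equiv.curry (Fin k) (Fin p) I) _ _ fun _ => rfl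

/-- One trial function for all cavity expressions, in terms of `siteInner` and `edgeInner`. -/
theorem exists_trial_inner {Om I : Type} [Fintype Om] [Fintype I] [Nonempty I] (J : ℕ)
    (hJ : 1 ≤ J) (Kk : ℕ → Om → Om → ℝ)
    (hK0 : ∀ n w w', 0 ≤ Kk n w w') (hK1 : ∀ n w, ∑ w', Kk n w w' = 1) (sg : I → Om → Bool)
    (hmag : ∀ i w, -1 < Br.magK Kk sg i w ∧ Br.magK Kk sg i w < 1) (mm : ℕ → ℝ) (w0 : Om) :
    ∃ X : (Fin (J + 1) → unitInterval) → ℝ, Measurable X ∧
      (∀ (p k : ℕ) (θs : Fin k → Inter p) (h : ℝ),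
        RedT.siteInner p k J (fun d : Fin J => mm d) X θs h =
          (Fintype.card (Fin k × Fin (p - 1) → I) : ℝ)⁻¹ *
            ∑ site : Fin k × Fin (p - 1) → I,
              Br.thInd Kk sg (Br.fExp J mm) (Br.siteW h θs) site (J + 1) (fun _ => w0)) ∧
      (∀ (p : ℕ) (θ : Inter p),
        RedT.edgeInner p J (fun d : Fin J => mm d) X θ =
          (Fintype.card (Fin p → I) : ℝ)⁻¹ * ∑ site : Fin p → I,
              Br.thInd Kk sg (Br.fExp J mm) (fun σ => Real.exp (θ σ)) site (J + 1)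
                (fun _ => w0)) := by
  obtain ⟨X, hX, hF⟩ := Br.exists_trial_of_context J hJ Kk hK0 hK1 sg hmag mm w0
  refine ⟨X, hX, fun p k θs h => ?_, fun p θ => ?_⟩
  · unfold RedT.siteInner
    simp only [Br.siteTerm_eq_multiAff]
    refine hF (Fin k × Fin (p - 1)) (Br.siteW h θs) fun s => ?_
    unfold Br.siteW
    have : 0 < ∑ ε : Bool, Real.exp (h * spinVal ε + ∑ j : Fin k,
        θs j (fun ℓ => if h : ℓ.val < p - 1 then s (j, ⟨ℓ.val, h⟩) else ε)) :=
      Finset.sum_pos (fun _ _ => Real.exp_pos _) Finset.univ_nonempty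
    positivity
  · unfold RedT.edgeInner
    simp only [Br.edgeTerm_eq_multiAff]
    exact hF (Fin p) (fun σ => Real.exp (θ σ)) fun s => Real.exp_pos _

theorem siteW_pos {p k : ℕ} (h : ℝ) (θs : Fin k → Inter p) (σ : Fin k × Fin (p - 1) → Bool) :
    0 < Br.siteW h θs σ := by
  unfold Br.siteW
  have : 0 < ∑ ε : Bool, Real.exp (h * spinVal ε + ∑ j : Fin k,
      θs j (fun ℓ => if h : ℓ.val < p - 1 then σ (j, ⟨ℓ.val, h⟩) else ε)) :=
    Finset.sum_pos (fun _ _ => Real.exp_pos _) Finset.univ_nonempty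
  positivity

theorem abs_log_siteW_le {p k : ℕ} (h : ℝ) (θs : Fin k → Inter p)
    (σ : Fin k × Fin (p - 1) → Bool) :
    |Real.log (Br.siteW h θs σ)| ≤ |h| + ∑ j, supNorm (θs j) := by
  have hb : ∀ ε : Bool, |h * spinVal ε + ∑ j : Fin k,
      θs j (fun ℓ => if h : ℓ.val < p - 1 then σ (j, ⟨ℓ.val, h⟩) else ε)| ≤
      |h| + ∑ j, supNorm (θs j) := fun ε => by
    refine (abs_add_le _ _).trans (add_le_add ?_ ?_)
    · rw [abs_mul, Red.abs_spinVal, mul_one]
    · exact (Finset.abs_sum_le_sum_abs _ _).trans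
        (Finset.sum_le_sum fun j _ => Red.abs_le_supNorm _ _)
  have hpos := siteW_pos h θs σ
  rw [abs_le]
  constructor
  · rw [Real.le_log_iff_exp_le hpos]
    unfold Br.siteW
    rw [Fintype.sum_bool]
    have h1 := Real.exp_le_exp.2 (abs_le.1 (hb true)).1
    have h2 := Real.exp_le_exp.2 (abs_le.1 (hb false)).1
    linarith
  · rw [Real.log_le_iff_le_exp hpos]
    unfold Br.siteW
    rw [Fintype.sum_bool]
    have h1 := Real.exp_le_exp.2 (abs_le.1 (hb true)).2
    have h2 := Real.exp_le_exp.2 (abs_le.1 (hb false)).2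
    linarith

end Crest.Agent.R141.Asm
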