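import Mathlib
import Crest.Agent.R141.Red3

/-!
# Row 141: symmetrization (helper494)

* `LipG.integral_map_map_sub_le`, `siteFun_map_map_sub_le`: Lipschitz bounds for two maps on a
  common base space.
* `symMeas μ` = law of `swapInter l θ`, `θ ~ μ`, `l` uniform; `symMeas (finMeasure w x) =
  symMeasure w x`.
* `siteFun_symMeas`: `HasFactorization p μ → siteFun (symMeas μ) = siteFun μ`.
-/

set_option autoImplicit false
set_option linter.unusedSectionVars false

open MeasureTheory Crest.ProbabilityR.Diluted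

namespace Crest.Agent.R141.RedT

open Red

variable {p : ℕ}

section Two

variable {k : ℕ} {G : (Fin k → Inter p) → ℝ → ℝ}
  {Ω : Type*} [MeasurableSpace Ω] {P : Measure Ω} [IsProbabilityMeasure P]
  {Ω' : Type*} [MeasurableSpace Ω'] {Q : Measure Ω'} [IsProbabilityMeasure Q]
  {a b : Ω → Inter p} {f g : Ω' → ℝ}

theorem integrable_supNorm_map (ha : Measurable a) (hai : Integrable (fun ω => supNorm (a ω)) P) :
    Integrable (fun θ => supNorm θ) (P.map a) := by
  rw [integrable_map_measure (measurable_supNorm.aestronglyMeasurable) ha.aemeasurable]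
  exact hai

theorem integrable_id_map (hf : Measurable f) (hfi : Integrable f Q) :
    Integrable (fun x : ℝ => x) (Q.map f) := by
  rw [integrable_map_measure (by fun_prop) hf.aemeasurable]
  exact hfi

theorem pi_map_eq (ha : Measurable a) :
    (Measure.pi fun _ : Fin k => P.map a) =
      (Measure.pi fun _ : Fin k => P).map (fun ωs j => a (ωs j)) := by
  have : IsProbabilityMeasure (P.map a) := Measure.isProbabilityMeasure_map ha.aemeasurable
  rw [Measure.pi_map_pi (fun _ => ha.aemeasurable)]

theorem measurable_pi_comp (ha : Measurable a) :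
    Measurable (fun (ωs : Fin k → Ω) (j : Fin k) => a (ωs j)) :=
  measurable_pi_lambda _ fun j => ha.comp (measurable_pi_apply j)

theorem LipG.integral_map_eq (hG : LipG G) (ha : Measurable a) (hf : Measurable f)
    (hfi : Integrable f Q) :
    ∫ θs, ∫ h, G θs h ∂(Q.map f) ∂(Measure.pi fun _ : Fin k => P.map a) =
      ∫ ωs, ∫ ω', G (fun j => a (ωs j)) (f ω') ∂Q ∂(Measure.pi fun _ : Fin k => P) := by
  have : IsProbabilityMeasure (Q.map f) := Measure.isProbabilityMeasure_map hf.aemeasurable
  rw [pi_map_eq ha, integral_map (measurable_pi_comp ha).aemeasurable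
    (hG.continuous_integral (integrable_id_map hf hfi)).aestronglyMeasurable]
  refine integral_congr_ae (Filter.Eventually.of_forall fun ωs => ?_)
  exact integral_map hf.aemeasurable
    (hG.continuous.comp (Continuous.prodMk_right _)).aestronglyMeasurable

theorem LipG.integrable_map (hG : LipG G) (ha : Measurable a) (hf : Measurable f)
    (hai : Integrable (fun ω => supNorm (a ω)) P) (hfi : Integrable f Q) :
    Integrable (fun ωs : Fin k → Ω => ∫ ω', G (fun j => a (ωs j)) (f ω') ∂Q)
      (Measure.pi fun _ : Fin k => P) := by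
  have : IsProbabilityMeasure (Q.map f) := Measure.isProbabilityMeasure_map hf.aemeasurable
  have : IsProbabilityMeasure (P.map a) := Measure.isProbabilityMeasure_map ha.aemeasurable
  have h0 := hG.integrable_integral (k := k) (integrable_supNorm_map ha hai)
    (integrable_id_map hf hfi)
  rw [pi_map_eq ha] at h0
  have h1 := h0.comp_measurable (measurable_pi_comp ha)
  refine h1.congr (Filter.Eventually.of_forall fun ωs => ?_)
  exact integral_map hf.aemeasurable
    (hG.continuous.comp (Continuous.prodMk_right _)).aestronglyMeasurable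

theorem LipG.integrable_map_right (hG : LipG G) (hf : Measurable f) (hfi : Integrable f Q)
    (θs : Fin k → Inter p) : Integrable (fun ω' => G θs (f ω')) Q := by
  have : IsProbabilityMeasure (Q.map f) := Measure.isProbabilityMeasure_map hf.aemeasurable
  exact (hG.integrable_right (integrable_id_map hf hfi) θs).comp_measurable hf

theorem integrable_sum_comp_eval' {q : Ω → ℝ} (hq : Integrable q P) :
    Integrable (fun ωs : Fin k → Ω => ∑ j, q (ωs j)) (Measure.pi fun _ => P) :=
  integrable_finsetSum _ fun j _ => integrable_comp_eval (i := j) hq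

theorem integral_sum_comp_eval' {q : Ω → ℝ} (hq : Integrable q P) :
    ∫ ωs : Fin k → Ω, ∑ j, q (ωs j) ∂(Measure.pi fun _ => P) = k * ∫ ω, q ω ∂P := by
  rw [integral_finsetSum _ fun j _ => integrable_comp_eval (i := j) hq]
  have : ∀ j : Fin k, ∫ ωs : Fin k → Ω, q (ωs j) ∂(Measure.pi fun _ => P) = ∫ ω, q ω ∂P :=
    fun j => integral_comp_eval (μ := fun _ : Fin k => P) (i := j) hq.aestronglyMeasurable
  simp [this]

theorem LipG.integral_map_map_sub_le (hG : LipG G) (ha : Measurable a) (hb : Measurable b)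
    (hf : Measurable f) (hg : Measurable g)
    (hai : Integrable (fun ω => supNorm (a ω)) P) (hbi : Integrable (fun ω => supNorm (b ω)) P)
    (hfi : Integrable f Q) (hgi : Integrable g Q) :
    |(∫ θs, ∫ h, G θs h ∂(Q.map f) ∂(Measure.pi fun _ : Fin k => P.map a)) -
      ∫ θs, ∫ h, G θs h ∂(Q.map g) ∂(Measure.pi fun _ : Fin k => P.map b)| ≤
      (∫ ω', |f ω' - g ω'| ∂Q) + k * ∫ ω, supNorm (a ω - b ω) ∂P := by
  have hab : Integrable (fun ω => supNorm (a ω - b ω)) P := by
    refine Integrable.mono' (hai.add hbi)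
      ((measurable_supNorm.comp (ha.sub hb)).aestronglyMeasurable)
      (Filter.Eventually.of_forall fun ω => ?_)
    rw [Real.norm_eq_abs, abs_of_nonneg (supNorm_nonneg _)]
    exact supNorm_sub_le _ _
  rw [hG.integral_map_eq ha hf hfi, hG.integral_map_eq hb hg hgi,
    ← integral_sub (hG.integrable_map ha hf hai hfi) (hG.integrable_map hb hg hbi hgi)]
  refine abs_integral_le_integral_abs.trans ?_
  have hfg : Integrable (fun ω' => |f ω' - g ω'|) Q := (hfi.sub hgi).abs
  have hptw : ∀ ωs : Fin k → Ω,
      |(∫ ω', G (fun j => a (ωs j)) (f ω') ∂Q) - ∫ ω', G (fun j => b (ωs j)) (g ω') ∂Q| ≤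
        (∫ ω', |f ω' - g ω'| ∂Q) + ∑ j, supNorm (a (ωs j) - b (ωs j)) := by
    intro ωs
    rw [← integral_sub (hG.integrable_map_right hf hfi _) (hG.integrable_map_right hg hgi _)]
    refine abs_integral_le_integral_abs.trans ?_
    calc ∫ ω', |G (fun j => a (ωs j)) (f ω') - G (fun j => b (ωs j)) (g ω')| ∂Q
        ≤ ∫ ω', (|f ω' - g ω'| + ∑ j, supNorm (a (ωs j) - b (ωs j))) ∂Q :=
          integral_mono
            ((hG.integrable_map_right hf hfi _).sub (hG.integrable_map_right hg hgi _)).abs
            (hfg.add (integrable_const _)) fun ω' => hG _ _ _ _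
      _ = (∫ ω', |f ω' - g ω'| ∂Q) + ∑ j, supNorm (a (ωs j) - b (ωs j)) := by
          rw [integral_add hfg (integrable_const _)]; simp
  calc ∫ ωs : Fin k → Ω,
        |(∫ ω', G (fun j => a (ωs j)) (f ω') ∂Q) - ∫ ω', G (fun j => b (ωs j)) (g ω') ∂Q|
        ∂(Measure.pi fun _ : Fin k => P)
      ≤ ∫ ωs : Fin k → Ω, ((∫ ω', |f ω' - g ω'| ∂Q) + ∑ j, supNorm (a (ωs j) - b (ωs j)))
        ∂(Measure.pi fun _ : Fin k => P) :=
        integral_mono ((hG.integrable_map ha hf hai hfi).sub (hG.integrable_map hb hg hbi hgi)).abs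
          ((integrable_const _).add (integrable_sum_comp_eval' hab)) hptw
    _ = (∫ ω', |f ω' - g ω'| ∂Q) + k * ∫ ω, supNorm (a ω - b ω) ∂P := by
        rw [integral_add (integrable_const _) (integrable_sum_comp_eval' hab),
          integral_sum_comp_eval' hab]
        simp

variable {r : ℕ} {m : Fin r → ℝ} {X : (Fin (r + 1) → unitInterval) → ℝ}

theorem siteFun_map_map_sub_le (hm : ∀ d, 0 < m d) (hX : Measurable X)
    (ha : Measurable a) (hb : Measurable b) (hf : Measurable f) (hg : Measurable g)
    (hai : Integrable (fun ω => supNorm (a ω)) P) (hbi : Integrable (fun ω => supNorm (b ω)) P)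
    (hfi : Integrable f Q) (hgi : Integrable g Q) {lam : ℝ} (hlam : 0 ≤ lam) :
    |siteFun p lam (P.map a) (Q.map f) r m X - siteFun p lam (P.map b) (Q.map g) r m X| ≤
      (∫ ω', |f ω' - g ω'| ∂Q) + lam * ∫ ω, supNorm (a ω - b ω) ∂P := by
  have : IsProbabilityMeasure (Q.map f) := Measure.isProbabilityMeasure_map hf.aemeasurable
  have : IsProbabilityMeasure (P.map a) := Measure.isProbabilityMeasure_map ha.aemeasurable
  have : IsProbabilityMeasure (Q.map g) := Measure.isProbabilityMeasure_map hg.aemeasurable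
  have : IsProbabilityMeasure (P.map b) := Measure.isProbabilityMeasure_map hb.aemeasurable
  rw [siteFun_eq, siteFun_eq, ← Summable.tsum_sub
    (summable_siteFun hm hX (integrable_supNorm_map ha hai) (integrable_id_map hf hfi) hlam)
    (summable_siteFun hm hX (integrable_supNorm_map hb hbi) (integrable_id_map hg hgi) hlam),
    ← Real.norm_eq_abs]
  refine tsum_of_norm_bounded (hasSum_poisson_affine lam (∫ ω', |f ω' - g ω'| ∂Q)
    (∫ ω, supNorm (a ω - b ω) ∂P)) fun k => ?_
  rw [← mul_sub, Real.norm_eq_abs, abs_mul, abs_of_nonneg (poissonWeight_nonneg hlam k)]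
  exact mul_le_mul_of_nonneg_left
    ((lipG_siteInner hm hX).integral_map_map_sub_le ha hb hf hg hai hbi hfi hgi)
    (poissonWeight_nonneg hlam k)

end Two

/-! ### the symmetrized law -/

/-- uniform law on `Fin p` -/
noncomputable def unifFin (p : ℕ) : Measure (Fin p) := finMeasure (fun _ : Fin p => 1 / (p : ℝ)) id

theorem finMeasure_isProb {K : Type} [Fintype K] {E : Type} [MeasurableSpace E]
    {w : K → ℝ} {x : K → E} (hw : ∀ k, 0 ≤ w k) (hs : ∑ k, w k = 1) :
    IsProbabilityMeasure (finMeasure w x) := by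
  constructor
  unfold finMeasure
  simp only [Measure.coe_finsetSum, Measure.coe_smul, Finset.sum_apply, Pi.smul_apply,
    measure_univ, smul_eq_mul, mul_one]
  rw [← ENNReal.ofReal_sum_of_nonneg fun k _ => hw k, hs, ENNReal.ofReal_one]

instance unifFin_isProb (p : ℕ) [NeZero p] : IsProbabilityMeasure (unifFin p) := by
  refine finMeasure_isProb (fun _ => by positivity) ?_
  have : (p : ℝ) ≠ 0 := Nat.cast_ne_zero.mpr (NeZero.ne p)
  simp [this]

instance unifFin_finite (p : ℕ) : IsFiniteMeasure (unifFin p) := by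
  constructor
  unfold unifFin finMeasure
  simp only [Measure.coe_finsetSum, Measure.coe_smul, Finset.sum_apply, Pi.smul_apply,
    measure_univ, smul_eq_mul, mul_one]
  exact ENNReal.sum_lt_top.2 fun _ _ => ENNReal.ofReal_lt_top

/-- law of `swapInter l θ`, `l` uniform -/
noncomputable def symMeas (μ : Measure (Inter p)) : Measure (Inter p) :=
  (μ.prod (unifFin p)).map (fun q : Inter p × Fin p => swapInter q.2 q.1)

theorem measurable_swapInter (l : Fin p) : Measurable (swapInter l : Inter p → Inter p) :=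
  measurable_pi_lambda _ fun _ => measurable_pi_apply _

theorem measurable_swapInter_uncurry :
    Measurable (fun q : Inter p × Fin p => swapInter q.2 q.1) :=
  measurable_from_prod_countable_left fun l => measurable_swapInter l

theorem supNorm_swapInter (l : Fin p) (θ : Inter p) : supNorm (swapInter l θ) = supNorm θ := by
  have key : ∀ θ : Inter p, supNorm (swapInter l θ) ≤ supNorm θ := fun θ =>
    supNorm_le fun s => abs_le_supNorm θ _
  refine le_antisymm (key θ) ?_
  have h2 : swapInter l (swapInter l θ) = θ := by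
    funext s
    simp only [swapInter]
    congr 1
    funext i
    rw [Equiv.swap_apply_self]
  calc supNorm θ = supNorm (swapInter l (swapInter l θ)) := by rw [h2]
    _ ≤ supNorm (swapInter l θ) := key _

theorem swapInter_sub (l : Fin p) (θ θ' : Inter p) :
    swapInter l (θ - θ') = swapInter l θ - swapInter l θ' := rfl

theorem symMeas_apply (μ : Measure (Inter p)) [IsProbabilityMeasure μ] {s : Set (Inter p)}
    (hs : MeasurableSet s) :
    symMeas μ s = ∑ l : Fin p, ENNReal.ofReal (1 / (p : ℝ)) * μ (swapInter l ⁻¹' s) := by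
  unfold symMeas
  rw [Measure.map_apply measurable_swapInter_uncurry hs,
    Measure.prod_apply_symm (measurable_swapInter_uncurry hs)]
  unfold unifFin finMeasure
  rw [lintegral_finsetSum_measure]
  refine Finset.sum_congr rfl fun l _ => ?_
  rw [lintegral_smul_measure, lintegral_dirac]
  rfl

theorem symMeas_finMeasure {K : Type} [Fintype K] (w : K → ℝ) (x : K → Inter p)
    (hw : ∀ k, 0 ≤ w k) (hs : ∑ k, w k = 1) :
    symMeas (finMeasure w x) = symMeasure w x := by
  have : IsProbabilityMeasure (finMeasure w x) := finMeasure_isProb hw hs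
  refine Measure.ext fun s hs => ?_
  rw [symMeas_apply _ hs]
  unfold symMeasure finMeasure
  simp only [Measure.coe_finsetSum, Measure.coe_smul, Finset.sum_apply, Pi.smul_apply,
    smul_eq_mul]
  rw [Fintype.sum_prod_type_right]
  refine Finset.sum_congr rfl fun l _ => ?_
  rw [Finset.mul_sum]
  refine Finset.sum_congr rfl fun k _ => ?_
  rw [Measure.dirac_apply' _ hs, Measure.dirac_apply' _ (measurable_swapInter l hs), ← mul_assoc,
    ← ENNReal.ofReal_mul (by positivity)]
  congr 1
  · congr 1
    ring

theorem symMeas_of_invariant (ρ : Measure (Inter p)) [IsProbabilityMeasure ρ] [NeZero p]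
    (h : ∀ l : Fin p, ρ.map (swapInter l) = ρ) : symMeas ρ = ρ := by
  refine Measure.ext fun s hs => ?_
  rw [symMeas_apply _ hs]
  have h1 : ∀ l : Fin p, ρ (swapInter l ⁻¹' s) = ρ s := fun l => by
    rw [← Measure.map_apply (measurable_swapInter l) hs, h l]
  simp only [h1]
  rw [← Finset.sum_mul, ← ENNReal.ofReal_sum_of_nonneg fun _ _ => by positivity]
  have hp : (p : ℝ) ≠ 0 := Nat.cast_ne_zero.mpr (NeZero.ne p)
  simp [hp]

/-! ### removing the constant -/

/-- subtract the value at the all-`true` configuration -/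
def hat (θ : Inter p) : Inter p := fun s => θ s - θ (fun _ => true)

theorem measurable_hat : Measurable (hat : Inter p → Inter p) :=
  measurable_pi_lambda _ fun _ => (measurable_pi_apply _).sub (measurable_pi_apply _)

theorem supNorm_hat_le (θ : Inter p) : supNorm (hat θ) ≤ 2 * supNorm θ :=
  supNorm_le fun s => (abs_sub _ _).trans (by
    have := abs_le_supNorm θ s
    have := abs_le_supNorm θ (fun _ => true)
    linarith)

theorem hat_swapInter (l : Fin p) (θ : Inter p) : hat (swapInter l θ) = swapInter l (hat θ) := rfl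

instance symMeas_isProb (μ : Measure (Inter p)) [IsProbabilityMeasure μ] [NeZero p] :
    IsProbabilityMeasure (symMeas μ) :=
  Measure.isProbabilityMeasure_map measurable_swapInter_uncurry.aemeasurable

theorem symMeas_map_hat (μ : Measure (Inter p)) [IsProbabilityMeasure μ] [NeZero p] :
    (symMeas μ).map hat = symMeas (μ.map hat) := by
  have : IsProbabilityMeasure (μ.map hat) :=
    Measure.isProbabilityMeasure_map measurable_hat.aemeasurable
  refine Measure.ext fun s hs => ?_
  rw [Measure.map_apply measurable_hat hs, symMeas_apply _ (measurable_hat hs),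
    symMeas_apply _ hs]
  refine Finset.sum_congr rfl fun l _ => ?_
  rw [Measure.map_apply measurable_hat (measurable_swapInter l hs)]
  rfl

theorem siteMessage_hat (θ : Inter p) (x : Fin (p - 1) → ℝ) (ε : Bool) :
    siteMessage θ x ε = θ (fun _ => true) + siteMessage (hat θ) x ε := by
  unfold siteMessage hat
  have h1 : ∀ s' : Fin (p - 1) → Bool,
      Real.exp (θ (fun ℓ => if h : ℓ.val < p - 1 then s' ⟨ℓ.val, h⟩ else ε)) *
        ∏ ℓ, tilt (x ℓ) (s' ℓ) =
      Real.exp (θ (fun _ => true)) *
        (Real.exp (θ (fun ℓ => if h : ℓ.val < p - 1 then s' ⟨ℓ.val, h⟩ else ε) -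
          θ (fun _ => true)) * ∏ ℓ, tilt (x ℓ) (s' ℓ)) := by
    intro s'
    rw [← mul_assoc, ← Real.exp_add]
    congr 2
    ring
  rw [Finset.sum_congr rfl fun s' _ => h1 s', ← Finset.mul_sum,
    Real.log_mul (Real.exp_pos _).ne', Real.log_exp]
  exact (Finset.sum_pos (fun s' _ => mul_pos (Real.exp_pos _) (tilt_prod_pos x s'))
    Finset.univ_nonempty).ne'

theorem siteTerm_hat {k : ℕ} (h : ℝ) (θs : Fin k → Inter p) (x : Fin k → Fin (p - 1) → ℝ) :
    siteTerm h θs x =
      Real.exp (∑ j, θs j (fun _ => true)) * siteTerm h (fun j => hat (θs j)) x := by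
  unfold siteTerm
  rw [mul_left_comm, Finset.mul_sum (s := (Finset.univ : Finset Bool))
    (a := Real.exp (∑ j, θs j (fun _ => true)))]
  congr 1
  refine Finset.sum_congr rfl fun ε _ => ?_
  rw [← Real.exp_add]
  congr 1
  have : ∑ j : Fin k, siteMessage (θs j) (x j) ε =
      ∑ j, θs j (fun _ => true) + ∑ j, siteMessage (hat (θs j)) (x j) ε := by
    rw [← Finset.sum_add_distrib]
    exact Finset.sum_congr rfl fun j _ => siteMessage_hat _ _ _
  rw [this]; ring

section Hat

variable {r : ℕ} {m : Fin r → ℝ} {X : (Fin (r + 1) → unitInterval) → ℝ}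

theorem siteInner_hat {k : ℕ} (hm : ∀ d, 0 < m d) (hX : Measurable X) (θs : Fin k → Inter p)
    (h : ℝ) :
    siteInner p k r m X θs h =
      ∑ j, θs j (fun _ => true) + siteInner p k r m X (fun j => hat (θs j)) h := by
  have hb := fun u' : (Fin k × Fin (p - 1)) → Fin (r + 1) → unitInterval =>
    siteTerm_bounds h (fun j => hat (θs j)) (fun j ℓ => X (u' (j, ℓ)))
  have hmeas := measurable_siteTerm_X (p := p) hX h (fun j => hat (θs j))
  unfold siteInner
  have e : ∀ u, Real.log (powerMeans m
          (fun u' : (Fin k × Fin (p - 1)) → Fin (r + 1) → unitInterval =>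
            siteTerm h θs (fun j ℓ => X (u' (j, ℓ)))) u) =
      ∑ j, θs j (fun _ => true) + Real.log (powerMeans m
          (fun u' : (Fin k × Fin (p - 1)) → Fin (r + 1) → unitInterval =>
            siteTerm h (fun j => hat (θs j)) (fun j ℓ => X (u' (j, ℓ)))) u) := by
    intro u
    have e1 : (fun u' : (Fin k × Fin (p - 1)) → Fin (r + 1) → unitInterval =>
            siteTerm h θs (fun j ℓ => X (u' (j, ℓ)))) =
        fun u' => Real.exp (∑ j, θs j (fun _ => true)) *
          siteTerm h (fun j => hat (θs j)) (fun j ℓ => X (u' (j, ℓ))) := by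
      funext u'; exact siteTerm_hat _ _ _
    rw [e1, powerMeans_const_mul hm (Real.exp_pos _) (Real.exp_pos _) hmeas
      (fun u => (hb u).1) (fun u => (hb u).2), Real.log_mul (Real.exp_pos _).ne', Real.log_exp]
    exact ((Real.exp_pos _).trans_le
      (le_powerMeans hm (Real.exp_pos _) hmeas (fun u => (hb u).1) (fun u => (hb u).2) u)).ne'
  simp only [e]
  rw [integral_add (integrable_const _) (integrable_log_powerMeans hm (Real.exp_pos _) hmeas
    (fun u => (hb u).1) (fun u => (hb u).2))]
  simp

theorem siteIntegral_hat {μ : Measure (Inter p)} [IsProbabilityMeasure μ] {ν : Measure ℝ}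
    [IsProbabilityMeasure ν] (hm : ∀ d, 0 < m d) (hX : Measurable X)
    (hμ : Integrable (fun θ => supNorm θ) μ) (hν : Integrable (fun x : ℝ => x) ν) (k : ℕ) :
    ∫ θs, ∫ h, siteInner p k r m X θs h ∂ν ∂(Measure.pi fun _ : Fin k => μ) =
      k * (∫ θ, θ (fun _ => true) ∂μ) +
      ∫ θs, ∫ h, siteInner p k r m X θs h ∂ν ∂(Measure.pi fun _ : Fin k => μ.map hat) := by
  have hG := lipG_siteInner (p := p) (k := k) hm hX
  have hhat : Integrable (fun θ => supNorm (hat θ)) μ :=
    Integrable.mono' (hμ.const_mul 2) ((measurable_supNorm.comp measurable_hat).aestronglyMeasurable)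
      (Filter.Eventually.of_forall fun θ => by
        rw [Real.norm_eq_abs, abs_of_nonneg (supNorm_nonneg _)]; exact supNorm_hat_le θ)
  have hev : Integrable (fun θ : Inter p => θ (fun _ => true)) μ :=
    Integrable.mono' hμ (measurable_pi_apply _).aestronglyMeasurable
      (Filter.Eventually.of_forall fun θ => by
        rw [Real.norm_eq_abs]; exact abs_le_supNorm θ _)
  have h1 := hG.integral_map_eq (P := μ) (Q := ν) (a := hat) (f := id) measurable_hat measurable_id
    hν
  rw [Measure.map_id] at h1
  rw [h1]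
  have hi := hG.integrable_map (P := μ) (Q := ν) (a := hat) (f := id) measurable_hat measurable_id
    hhat hν
  simp only [id] at hi ⊢
  rw [← integral_sum_comp_eval' (k := k) hev, ← integral_add (integrable_sum_comp_eval' hev) hi]
  refine integral_congr_ae (Filter.Eventually.of_forall fun θs => ?_)
  have hi2 := hG.integrable_right hν (fun j => hat (θs j))
  simp only [siteInner_hat hm hX θs]
  rw [integral_add (integrable_const _) hi2]
  simp

theorem integral_ev_symMeas (μ : Measure (Inter p)) [IsProbabilityMeasure μ] [NeZero p] :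
    ∫ θ, θ (fun _ => true) ∂(symMeas μ) = ∫ θ, θ (fun _ => true) ∂μ := by
  unfold symMeas
  rw [integral_map measurable_swapInter_uncurry.aemeasurable
    (measurable_pi_apply _).aestronglyMeasurable]
  have : (fun q : Inter p × Fin p => swapInter q.2 q.1 (fun _ => true)) =
      fun q => q.1 (fun _ => true) := rfl
  rw [this]
  have h2 := integral_fun_fst (μ := μ) (ν := unifFin p) (fun θ : Inter p => θ (fun _ => true))
  rw [h2]
  simp

theorem integrable_supNorm_symMeas {μ : Measure (Inter p)} [IsProbabilityMeasure μ] [NeZero p]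
    (hμ : Integrable (fun θ => supNorm θ) μ) : Integrable (fun θ => supNorm θ) (symMeas μ) := by
  unfold symMeas
  rw [integrable_map_measure measurable_supNorm.aestronglyMeasurable
    measurable_swapInter_uncurry.aemeasurable]
  have : ((fun θ : Inter p => supNorm θ) ∘ fun q : Inter p × Fin p => swapInter q.2 q.1) =
      fun q => supNorm q.1 := by
    funext q; exact supNorm_swapInter _ _
  rw [this]
  exact hμ.comp_fst _

theorem siteFun_symMeas {μ : Measure (Inter p)} [IsProbabilityMeasure μ] [NeZero p]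
    {ν : Measure ℝ} [IsProbabilityMeasure ν] (hm : ∀ d, 0 < m d) (hX : Measurable X)
    (hμ : Integrable (fun θ => supNorm θ) μ) (hν : Integrable (fun x : ℝ => x) ν)
    (hinv : ∀ l : Fin p, (μ.map hat).map (swapInter l) = μ.map hat) (lam : ℝ) :
    siteFun p lam (symMeas μ) ν r m X = siteFun p lam μ ν r m X := by
  have : IsProbabilityMeasure (μ.map hat) :=
    Measure.isProbabilityMeasure_map measurable_hat.aemeasurable
  rw [siteFun_eq, siteFun_eq]
  refine tsum_congr fun k => ?_
  rw [siteIntegral_hat hm hX (integrable_supNorm_symMeas hμ) hν k,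
    siteIntegral_hat hm hX hμ hν k, integral_ev_symMeas, symMeas_map_hat,
    symMeas_of_invariant _ hinv]

end Hat

/-! ### factorized laws are symmetric modulo constants -/

/-- `log (1 + b ∏ f_ℓ (s_ℓ)) - log (1 + b ∏ f_ℓ (true))` -/
noncomputable def Psi (q : ℝ × (Fin p → Bool → ℝ)) : Inter p :=
  fun s => Real.log (1 + q.1 * ∏ ℓ, q.2 ℓ (s ℓ)) - Real.log (1 + q.1 * ∏ ℓ, q.2 ℓ true)

theorem measurable_Psi : Measurable (Psi : ℝ × (Fin p → Bool → ℝ) → Inter p) := by
  refine measurable_pi_lambda _ fun s => ?_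
  have h : ∀ s : Fin p → Bool,
      Measurable (fun q : ℝ × (Fin p → Bool → ℝ) => Real.log (1 + q.1 * ∏ ℓ, q.2 ℓ (s ℓ))) := by
    intro s
    refine Real.measurable_log.comp ?_
    refine measurable_const.add (measurable_fst.mul ?_)
    exact Finset.measurable_prod _ fun ℓ _ =>
      (measurable_pi_apply (s ℓ)).comp ((measurable_pi_apply ℓ).comp measurable_snd)
  exact (h s).sub (h fun _ => true)

/-- permute the `p` factors -/
def permF (e : Equiv.Perm (Fin p)) (q : ℝ × (Fin p → Bool → ℝ)) : ℝ × (Fin p → Bool → ℝ) :=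
  (q.1, fun ℓ => q.2 (e ℓ))

theorem swapInter_Psi (l : Fin p) (q : ℝ × (Fin p → Bool → ℝ)) :
    swapInter l (Psi q) = Psi (permF (Equiv.swap l (lastSlot l)) q) := by
  funext s
  simp only [swapInter, Psi, permF]
  have h1 : ∏ ℓ, q.2 ℓ (s (Equiv.swap l (lastSlot l) ℓ)) =
      ∏ ℓ, q.2 (Equiv.swap l (lastSlot l) ℓ) (s ℓ) := by
    rw [← Equiv.prod_comp (Equiv.swap l (lastSlot l))
      (fun ℓ => q.2 ℓ (s (Equiv.swap l (lastSlot l) ℓ)))]
    simp only [Equiv.swap_apply_self]
  have h2 : ∏ ℓ, q.2 ℓ true = ∏ ℓ, q.2 (Equiv.swap l (lastSlot l) ℓ) true :=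
    (Equiv.prod_comp (Equiv.swap l (lastSlot l)) (fun ℓ => q.2 ℓ true)).symm
  rw [h1, h2]

theorem pi_map_perm {E : Type*} [MeasurableSpace E] (ρ : Measure E) [IsProbabilityMeasure ρ]
    (e : Equiv.Perm (Fin p)) :
    (Measure.pi fun _ : Fin p => ρ).map (fun (g : Fin p → E) ℓ => g (e ℓ)) =
      Measure.pi fun _ : Fin p => ρ := by
  have hmeas : Measurable (fun (g : Fin p → E) ℓ => g (e ℓ)) :=
    measurable_pi_lambda _ fun ℓ => measurable_pi_apply _
  refine (Measure.pi_eq fun s hs => ?_).symm
  rw [Measure.map_apply hmeas (MeasurableSet.univ_pi hs)]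
  have : (fun (g : Fin p → E) ℓ => g (e ℓ)) ⁻¹' (Set.univ.pi s) =
      Set.univ.pi (fun i => s (e.symm i)) := by
    ext g
    simp only [Set.mem_preimage, Set.mem_pi, Set.mem_univ, true_imp_iff]
    constructor
    · intro h i
      have := h (e.symm i)
      rwa [Equiv.apply_symm_apply] at this
    · intro h i
      have := h (e i)
      rwa [Equiv.symm_apply_apply] at this
  rw [this, Measure.pi_pi]
  exact Equiv.prod_comp e.symm (fun i => ρ (s i))

theorem prod_map_permF (β : Measure ℝ) [IsProbabilityMeasure β] (ρ : Measure (Bool → ℝ))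
    [IsProbabilityMeasure ρ] (e : Equiv.Perm (Fin p)) :
    (β.prod (Measure.pi fun _ : Fin p => ρ)).map (permF e) =
      β.prod (Measure.pi fun _ : Fin p => ρ) := by
  have hmeas : Measurable (fun (g : Fin p → Bool → ℝ) ℓ => g (e ℓ)) :=
    measurable_pi_lambda _ fun ℓ => measurable_pi_apply _
  have h := Measure.map_prod_map β (Measure.pi fun _ : Fin p => ρ) (measurable_id (α := ℝ)) hmeas
  rw [Measure.map_id, pi_map_perm] at h
  exact h.symm

theorem hat_map_swap_of_factorization (μ : Measure (Inter p)) (hfac : HasFactorization p μ)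
    (l : Fin p) : (μ.map hat).map (swapInter l) = μ.map hat := by
  obtain ⟨Ω, _, P, _, a, b, f, ha, hb, hf, hif, hid, hbf, hpos, _, hmap⟩ := hfac
  have hf0 : IsProbabilityMeasure (P.map (f ⟨0, Fin.pos l⟩)) :=
    Measure.isProbabilityMeasure_map (hf _).aemeasurable
  have hβ : IsProbabilityMeasure (P.map b) := Measure.isProbabilityMeasure_map hb.aemeasurable
  set Θ : Ω → Inter p := fun ω => fun s : Fin p → Bool =>
    Real.log (a ω * (1 + b ω * ∏ ℓ, f ℓ ω (s ℓ))) with hΘ
  have hΘm : Measurable Θ := by
    refine measurable_pi_lambda _ fun s => Real.measurable_log.comp (ha.mul ?_)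
    refine measurable_const.add (hb.mul ?_)
    exact Finset.measurable_prod _ fun ℓ _ => (measurable_pi_apply (s ℓ)).comp (hf ℓ)
  have hFm : Measurable (fun ω => fun ℓ => f ℓ ω) := measurable_pi_lambda _ fun ℓ => hf ℓ
  have hjm : Measurable (fun ω => (b ω, fun ℓ => f ℓ ω)) := hb.prodMk hFm
  -- joint law
  have hlawF : P.map (fun ω => fun ℓ => f ℓ ω) =
      Measure.pi fun _ : Fin p => P.map (f ⟨0, Fin.pos l⟩) := by
    have h1 := (ProbabilityTheory.iIndepFun_iff_map_fun_eq_pi_map
      (fun ℓ => (hf ℓ).aemeasurable)).1 hif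
    rw [h1]
    congr 1
    funext ℓ
    exact (hid ℓ).map_eq
  have hlaw : P.map (fun ω => (b ω, fun ℓ => f ℓ ω)) =
      (P.map b).prod (Measure.pi fun _ : Fin p => P.map (f ⟨0, Fin.pos l⟩)) := by
    rw [← hlawF]
    exact (ProbabilityTheory.indepFun_iff_map_prod_eq_prod_map_map hb.aemeasurable
      hFm.aemeasurable).1 hbf
  have hhat : ∀ᵐ ω ∂P, hat (Θ ω) = Psi (b ω, fun ℓ => f ℓ ω) := by
    filter_upwards [hpos] with ω hω
    funext s
    simp only [hat, hΘ, Psi]
    have hq : ∀ s : Fin p → Bool, 0 < 1 + b ω * ∏ ℓ, f ℓ ω (s ℓ) := fun s => by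
      have := (abs_lt.1 (hω.2 s)).1
      linarith
    rw [Real.log_mul hω.1.ne' (hq s).ne', Real.log_mul hω.1.ne' (hq fun _ => true).ne']
    ring
  have h2 : μ.map hat =
      ((P.map b).prod (Measure.pi fun _ : Fin p => P.map (f ⟨0, Fin.pos l⟩))).map Psi := by
    rw [← hlaw, Measure.map_map measurable_Psi hjm, ← hmap,
      Measure.map_map measurable_hat hΘm]
    exact Measure.map_congr hhat
  rw [h2, Measure.map_map (measurable_swapInter l) measurable_Psi]
  have h3 : swapInter l ∘ (Psi : ℝ × (Fin p → Bool → ℝ) → Inter p) =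
      Psi ∘ permF (Equiv.swap l (lastSlot l)) := by
    funext q; exact swapInter_Psi l q
  have hpm : Measurable (permF (Equiv.swap l (lastSlot l)) :
      ℝ × (Fin p → Bool → ℝ) → ℝ × (Fin p → Bool → ℝ)) :=
    measurable_fst.prodMk (measurable_pi_lambda _ fun ℓ =>
      (measurable_pi_apply _).comp measurable_snd)
  rw [h3, ← Measure.map_map measurable_Psi hpm, prod_map_permF]

end Crest.Agent.R141.RedT
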