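import Mathlib
import Crest.Agent.R141.Red4

/-!
# Row 141: pressure / siteFun / edgeFun of finitely supported laws as finite sums (helper494)
-/

set_option autoImplicit false
set_option linter.unusedSectionVars false

open MeasureTheory Crest.ProbabilityR.Diluted

namespace Crest.Agent.R141.RedF

open Crest.Agent.R141.RedT

section General

variable {K : Type} [Fintype K] {E : Type} [MeasurableSpace E] [MeasurableSingletonClass E]

theorem finMeasure_apply (w : K → ℝ) (x : K → E) {s : Set E} (hs : MeasurableSet s) :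
    finMeasure w x s = ∑ k, ENNReal.ofReal (w k) * s.indicator 1 (x k) := by
  unfold finMeasure
  simp only [Measure.coe_finsetSum, Measure.coe_smul, Finset.sum_apply, Pi.smul_apply,
    smul_eq_mul, Measure.dirac_apply' _ hs]

theorem integrable_finMeasure (w : K → ℝ) (x : K → E) (f : E → ℝ) :
    Integrable f (finMeasure w x) := by
  unfold finMeasure
  rw [integrable_finsetSum_measure]
  intro k _
  refine Integrable.smul_measure ?_ ENNReal.ofReal_ne_top
  exact (integrable_dirac (by simp))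

theorem integral_finMeasure (w : K → ℝ) (x : K → E) (hw : ∀ k, 0 ≤ w k) (f : E → ℝ) :
    ∫ y, f y ∂(finMeasure w x) = ∑ k, w k * f (x k) := by
  unfold finMeasure
  rw [integral_finsetSum_measure]
  · refine Finset.sum_congr rfl fun k _ => ?_
    rw [integral_smul_measure, integral_dirac, ENNReal.toReal_ofReal (hw k), smul_eq_mul]
  · intro k _
    refine Integrable.smul_measure ?_ ENNReal.ofReal_ne_top
    exact (integrable_dirac (by simp))

theorem pi_finMeasure {ι : Type} [Fintype ι] [DecidableEq ι] (w : K → ℝ) (x : K → E) (hw : ∀ k, 0 ≤ w k)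
    (hs1 : ∑ k, w k = 1) :
    (Measure.pi fun _ : ι => finMeasure w x) =
      finMeasure (fun κ : ι → K => ∏ i, w (κ i)) (fun κ i => x (κ i)) := by

  have : IsProbabilityMeasure (finMeasure w x) := finMeasure_isProb hw hs1
  refine Measure.pi_eq fun s hs => ?_
  have h1 : ∀ i, finMeasure w x (s i) = ∑ k, ENNReal.ofReal (w k) * (s i).indicator 1 (x k) :=
    fun i => finMeasure_apply w x (hs i)
  simp only [h1]
  rw [Finset.prod_univ_sum, Fintype.piFinset_univ]
  unfold finMeasure
  simp only [Measure.coe_finsetSum, Measure.coe_smul, Finset.sum_apply, Pi.smul_apply,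
    smul_eq_mul, Measure.dirac_apply' _ (MeasurableSet.univ_pi hs)]
  refine Finset.sum_congr rfl fun κ _ => ?_
  rw [Finset.prod_mul_distrib, ENNReal.ofReal_prod_of_nonneg fun i _ => hw _]
  congr 1
  by_cases h : (fun i => x (κ i)) ∈ Set.univ.pi s
  · rw [Set.indicator_of_mem h]
    refine (Finset.prod_eq_one fun i _ => ?_).symm
    rw [Set.indicator_of_mem (h i (Set.mem_univ i))]
    rfl
  · rw [Set.indicator_of_notMem h]
    simp only [Set.mem_pi, Set.mem_univ, true_imp_iff, not_forall] at h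
    obtain ⟨i, hi⟩ := h
    refine (Finset.prod_eq_zero (Finset.mem_univ i) ?_).symm
    rw [Set.indicator_of_notMem hi]

theorem integral_pi_finMeasure {ι : Type} [Fintype ι] [DecidableEq ι] (w : K → ℝ) (x : K → E)
    (hw : ∀ k, 0 ≤ w k) (hs1 : ∑ k, w k = 1) (f : (ι → E) → ℝ) :
    ∫ y, f y ∂(Measure.pi fun _ : ι => finMeasure w x) =
      ∑ κ : ι → K, (∏ i, w (κ i)) * f (fun i => x (κ i)) := by
  rw [pi_finMeasure w x hw hs1]
  exact integral_finMeasure _ _ (fun κ => Finset.prod_nonneg fun i _ => hw _) f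

end General

variable {p : ℕ} {K K' : Type} [Fintype K] [Fintype K'] (w : K → ℝ) (θ : K → Inter p)
  (w' : K' → ℝ) (h : K' → ℝ)

theorem pressure_finMeasure (hw : ∀ k, 0 ≤ w k) (hs : ∑ k, w k = 1) (hw' : ∀ k, 0 ≤ w' k)
    (hs' : ∑ k, w' k = 1) (α : ℝ) (N : ℕ) :
    pressure p α (finMeasure w θ) (finMeasure w' h) N =
      (1 / (N : ℝ)) * ∑' M : ℕ, poissonWeight (α * N) M *
        ∑ κ : Fin M → K, (∏ k, w (κ k)) * ∑ η : Fin N → K', (∏ i, w' (η i)) *
          ((Fintype.card (Fin M → Fin p → Fin N) : ℝ)⁻¹ *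
            ∑ idx : Fin M → Fin p → Fin N,
              logPartition N (fun k => θ (κ k)) idx (fun i => h (η i))) := by
  unfold pressure
  congr 1
  refine tsum_congr fun M => ?_
  congr 1
  rw [integral_pi_finMeasure w θ hw hs]
  refine Finset.sum_congr rfl fun κ _ => ?_
  rw [integral_pi_finMeasure w' h hw' hs']

theorem siteFun_finMeasure (hw : ∀ k, 0 ≤ w k) (hs : ∑ k, w k = 1) (hw' : ∀ k, 0 ≤ w' k)
    (lam : ℝ) (r : ℕ) (m : Fin r → ℝ) (X : (Fin (r + 1) → unitInterval) → ℝ) :
    siteFun p lam (finMeasure w θ) (finMeasure w' h) r m X =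
      ∑' k : ℕ, poissonWeight lam k *
        ∑ κ : Fin k → K, (∏ j, w (κ j)) * ∑ η : K', w' η *
          siteInner p k r m X (fun j => θ (κ j)) (h η) := by
  rw [siteFun_eq]
  refine tsum_congr fun k => ?_
  congr 1
  rw [integral_pi_finMeasure w θ hw hs]
  refine Finset.sum_congr rfl fun κ _ => ?_
  rw [integral_finMeasure w' h hw']

theorem siteFun_symMeasure (hw : ∀ k, 0 ≤ w k) (hs : ∑ k, w k = 1) (hw' : ∀ k, 0 ≤ w' k)
    (hp : 0 < p) (lam : ℝ) (r : ℕ) (m : Fin r → ℝ) (X : (Fin (r + 1) → unitInterval) → ℝ) :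
    siteFun p lam (symMeasure w θ) (finMeasure w' h) r m X =
      ∑' k : ℕ, poissonWeight lam k *
        ∑ κ : Fin k → K × Fin p, (∏ j, (w (κ j).1 / p)) * ∑ η : K', w' η *
          siteInner p k r m X (fun j => swapInter (κ j).2 (θ (κ j).1)) (h η) := by
  unfold symMeasure
  have hp' : (p : ℝ) ≠ 0 := by exact_mod_cast hp.ne'
  refine siteFun_finMeasure _ _ w' h (fun k => div_nonneg (hw _) (Nat.cast_nonneg _)) ?_ hw'
    lam r m X
  rw [Fintype.sum_prod_type]
  simp only [Finset.sum_const, Finset.card_univ, Fintype.card_fin, nsmul_eq_mul]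
  rw [← hs]
  refine Finset.sum_congr rfl fun k _ => ?_
  field_simp

theorem edgeFun_finMeasure (hw : ∀ k, 0 ≤ w k) (r : ℕ) (m : Fin r → ℝ)
    (X : (Fin (r + 1) → unitInterval) → ℝ) :
    edgeFun p (finMeasure w θ) r m X = ∑ k, w k * edgeInner p r m X (θ k) := by
  rw [edgeFun_eq, integral_finMeasure w θ hw]

end Crest.Agent.R141.RedF
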