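import Crest.Agent.R141.Cavity3
import Crest.Agent.R141.RedF

/-!
# Row 141, section 4: the cavity step for the pressure (helper552)
-/

set_option autoImplicit false
set_option linter.unusedSectionVars false

open Crest.ProbabilityR.Diluted Crest.Agent.R141.Pois Filter

namespace Crest.Agent.R141.Cav

variable {p : ℕ} {K K' : Type} [Fintype K] [Fintype K']
variable {w : K → ℝ} {θ : K → Inter p} {w' : K' → ℝ} {h : K' → ℝ}

theorem LL_logZ_pressure {α : ℝ} (hα : 0 ≤ α) (hw : ∀ k, 0 ≤ w k)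
    (hw1 : ∑ k, w k = 1) (hw' : ∀ k, 0 ≤ w' k) (hw1' : ∑ k, w' k = 1) {N : ℕ} (hN : 0 < N) :
    LL α N w θ w' h (logZ N) = N * pressure p α (finMeasure w θ) (finMeasure w' h) N := by
  have hN' : (N : ℝ) ≠ 0 := by positivity
  have hX := RedF.pressure_finMeasure w θ w' h hw hw1 hw' hw1' α N
  rw [LL_logZ_eq hα hw hw1 w' h hN, hX, ← mul_assoc,
    mul_one_div_cancel hN', one_mul]

/-- **The cavity step**, in terms of the pressure. -/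
theorem cavity_pressure {α : ℝ} (hα : 0 ≤ α) (hp : 0 < p) (hw : ∀ k, 0 ≤ w k)
    (hw1 : ∑ k, w k = 1) (hw' : ∀ k, 0 ≤ w' k) (hw1' : ∑ k, w' k = 1)
    (Ψ : (N : ℕ) → Ham N → ℝ) (Nst : ℕ) {c ε C : ℝ} (hε : 0 < ε) {r : ℕ → ℝ}
    (hr : Tendsto r atTop (nhds 0))
    (A1 : ∀ N, Nst ≤ N → ∀ H, Ψ N H ≤ logZ N H + (ε * N + C))
    (A2 : ∀ N, Nst ≤ N → ∀ H H' : Ham N, ∀ a : ℝ, (∀ s, |H s - H' s| ≤ a) →
      |Ψ N H - Ψ N H'| ≤ a)
    (A3 : ∀ N, Nst ≤ N → ∀ H : Ham (N + 1), Ψ N (red H) ≤ Ψ (N + 1) H + (ε + r N))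
    (hfreq : ∃ᶠ N in atTop, pressure p α (finMeasure w θ) (finMeasure w' h) N ≤ c) (N0 : ℕ) :
    ∃ N, N0 ≤ N ∧ ∃ H : Ham N,
      siteG α N w θ w' h (Ψ N) H - edgeG α N w θ (Ψ N) H ≤ c + 4 * ε := by
  refine cavity_abs hα hp hw hw1 hw' hw1' Ψ Nst hε hr A1
    (fun N hN => PLip.lipG (A2 N hN)) A3 ?_ N0
  refine (hfreq.and_eventually (eventually_gt_atTop 0)).mono fun N hN => ?_
  rw [LL_logZ_pressure hα hw hw1 hw' hw1' hN.2]
  exact mul_le_mul_of_nonneg_left hN.1 (Nat.cast_nonneg _)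

end Crest.Agent.R141.Cav
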