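import Crest.Agent.R141.F4

/-!
Row 141 (S0192), Part L, fact (F4): coupling of the outer randomness on `N + 1` and on `N` sites,
and the averaged comparison `EPhi_succ` (helper639).
-/

set_option autoImplicit false

namespace Crest.Agent.R141

open Finset

noncomputable section

namespace F4

variable (p : Par) (N : ℕ)

/-- coupling kernel: a coordinate of the last site is replaced by a uniform coordinate -/
def ker : Option (Crd p (N + 1)) → Option (Crd p N) → ℝ
  | none, none => 1
  | none, some _ => 0
  | some _, none => 0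
  | some c, some c' => if c.1 = Fin.last N then ((N : ℝ) * ((p.nb : ℝ) + 1))⁻¹
      else if c = (c'.1.castSucc, c'.2) then 1 else 0

/-- indicator that the coordinate belongs to the last site -/
def isl : Option (Crd p (N + 1)) → ℝ
  | none => 0
  | some c => if c.1 = Fin.last N then 1 else 0

theorem isl_nonneg (o : Option (Crd p (N + 1))) : 0 ≤ isl p N o := by
  rcases o with _ | c
  · exact le_rfl
  · unfold isl; dsimp only; split_ifs <;> norm_num

theorem ker_nonneg (o : Option (Crd p (N + 1))) (o' : Option (Crd p N)) : 0 ≤ ker p N o o' := by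
  rcases o with _ | c <;> rcases o' with _ | c'
  · exact zero_le_one
  · exact le_rfl
  · exact le_rfl
  · unfold ker
    dsimp only
    split_ifs
    · positivity
    · norm_num
    · norm_num

theorem sum_ker {N : ℕ} (hN : 0 < N) (o : Option (Crd p (N + 1))) : ∑ o', ker p N o o' = 1 := by
  have hN' : (0 : ℝ) < N := by exact_mod_cast hN
  rw [Fintype.sum_option]
  rcases o with _ | ⟨i, b⟩
  · simp [ker]
  · refine Fin.lastCases ?_ (fun j => ?_) i
    · simp only [ker, if_true, Finset.sum_const, Finset.card_univ, Fintype.card_prod,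
        Fintype.card_fin, Fintype.card_option, nsmul_eq_mul, zero_add]
      push_cast
      field_simp
    · have h1 : ∀ c' : Crd p N, ker p N (some (j.castSucc, b)) (some c') =
          if c' = (j, b) then 1 else 0 := by
        intro c'
        unfold ker
        dsimp only
        rw [if_neg (Fin.castSucc_lt_last j).ne]
        by_cases h : c' = (j, b)
        · rw [if_pos h, h, if_pos rfl]
        · rw [if_neg h, if_neg]
          intro h2
          apply h
          have h3 := Prod.ext_iff.1 h2
          simp only [Fin.castSucc_inj] at h3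
          exact Prod.ext h3.1.symm h3.2.symm
      rw [Finset.sum_congr rfl fun c' _ => h1 c']
      simp [ker]

theorem sum_dw1_ker {N : ℕ} (hN : 0 < N) (o' : Option (Crd p N)) :
    ∑ o, dw1 p (N + 1) o * ker p N o o' = dw1 p N o' := by
  have hN' : (0 : ℝ) < N := by exact_mod_cast hN
  rw [Fintype.sum_option]
  rcases o' with _ | ⟨j, b⟩
  · simp [ker, dw1]
  · rw [Fintype.sum_prod_type, Fin.sum_univ_castSucc]
    have h1 : ∀ (i : Fin N) (c : Option (Fin p.nb)),
        dw1 p (N + 1) (some (i.castSucc, c)) * ker p N (some (i.castSucc, c)) (some (j, b)) =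
        if c = b then (if i = j then 1 / (2 * (((N + 1 : ℕ) : ℝ) * ((p.nb : ℝ) + 1))) else 0)
          else 0 := by
      intro i c
      unfold ker dw1
      dsimp only
      rw [if_neg (Fin.castSucc_lt_last i).ne]
      by_cases hc : c = b
      · by_cases hi : i = j
        · rw [if_pos hc, if_pos hi, hc, hi, if_pos rfl, mul_one]
        · rw [if_pos hc, if_neg hi, if_neg, mul_zero]
          intro h2
          have h3 := Prod.ext_iff.1 h2
          simp only [Fin.castSucc_inj] at h3
          exact hi h3.1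
      · rw [if_neg hc, if_neg, mul_zero]
        intro h2
        exact hc (Prod.ext_iff.1 h2).2
    have h2 : ∀ c : Option (Fin p.nb),
        dw1 p (N + 1) (some (Fin.last N, c)) * ker p N (some (Fin.last N, c)) (some (j, b)) =
        1 / (2 * (((N + 1 : ℕ) : ℝ) * ((p.nb : ℝ) + 1))) * ((N : ℝ) * ((p.nb : ℝ) + 1))⁻¹ := by
      intro c
      unfold ker dw1
      dsimp only
      rw [if_pos rfl]
    rw [Finset.sum_congr rfl fun c _ => h2 c,
      Finset.sum_congr rfl fun i _ => Finset.sum_congr rfl fun c _ => h1 i c]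
    simp only [Finset.sum_ite_eq', Finset.mem_univ, if_true, Finset.sum_const, Finset.card_univ,
      Fintype.card_option, Fintype.card_fin, nsmul_eq_mul]
    unfold ker dw1
    dsimp only
    push_cast
    field_simp
    ring

theorem sum_dw1_isl (N : ℕ) : ∑ o, dw1 p (N + 1) o * isl p N o = 1 / (2 * ((N : ℝ) + 1)) := by
  rw [Fintype.sum_option, Fintype.sum_prod_type, Fin.sum_univ_castSucc]
  have h1 : ∀ (i : Fin N) (c : Option (Fin p.nb)),
      dw1 p (N + 1) (some (i.castSucc, c)) * isl p N (some (i.castSucc, c)) = 0 := by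
    intro i c
    unfold isl
    dsimp only
    rw [if_neg (Fin.castSucc_lt_last i).ne, mul_zero]
  have h2 : ∀ c : Option (Fin p.nb),
      dw1 p (N + 1) (some (Fin.last N, c)) * isl p N (some (Fin.last N, c)) =
      1 / (2 * (((N + 1 : ℕ) : ℝ) * ((p.nb : ℝ) + 1))) := by
    intro c
    unfold isl dw1
    dsimp only
    rw [if_pos rfl, mul_one]
  rw [Finset.sum_congr rfl fun c _ => h2 c,
    Finset.sum_congr rfl fun i _ => Finset.sum_congr rfl fun c _ => h1 i c]
  simp only [Finset.sum_const, Finset.card_univ,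
      Fintype.card_option, Fintype.card_fin, nsmul_eq_mul]
  unfold isl
  push_cast
  field_simp
  ring

/-- under the kernel, a mismatch only occurs for coordinates of the last site -/
theorem ker_mismatch (o : Option (Crd p (N + 1))) (o' : Option (Crd p N))
    (h : ker p N o o' ≠ 0) (h' : o ≠ liftO p N o') : isl p N o = 1 := by
  rcases o with _ | c <;> rcases o' with _ | c'
  · exact absurd rfl h'
  · exact absurd rfl h
  · exact absurd rfl h
  · unfold ker at h
    dsimp only at h
    unfold isl
    dsimp only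
    by_cases hc : c.1 = Fin.last N
    · rw [if_pos hc]
    · rw [if_neg hc] at h
      by_cases h2 : c = (c'.1.castSucc, c'.2)
      · exfalso; apply h'; rw [h2]; rfl
      · rw [if_neg h2] at h; exact absurd rfl h

/-- one coin costs at most `τ` -/
theorem cfac_mem (M : ℕ) (o : Option (Crd p M)) (k : Stp p) (w : Om p M) :
    0 ≤ cfac p M o k w ∧ cfac p M o k w ≤ p.τ := by
  rcases o with _ | c
  · exact ⟨le_rfl, p.hτ0.le⟩
  · unfold cfac
    dsimp only
    have h0 := cv_nonneg p M c w
    have h1 := cv_le_one p M c w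
    have hτ := p.hτ0
    split_ifs
    · rw [one_mul]
      exact ⟨mul_nonneg hτ.le h0, mul_le_of_le_one_right hτ.le h1⟩
    · rw [zero_mul, mul_zero]; exact ⟨le_rfl, hτ.le⟩

/-- dependence of the enriched free energy on the outer randomness -/
theorem Phi_outer (M : ℕ) (H : (Fin M → Bool) → ℝ) (d e : DD p M) (m : Stp p → ℝ)
    (hm0 : ∀ k, 0 ≤ m k) (hm : ∀ k, d k ≠ e k → m k = 1) :
    |Phi p M H d - Phi p M H e| ≤ p.τ * ∑ k, m k := by
  have hP := prior_isProb p M
  have hτ := p.hτ0
  have h1 : ∀ w, |UU p M H d w - UU p M H e w| ≤ p.τ * ∑ k, m k := by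
    intro w
    have e1 : UU p M H d w - UU p M H e w =
        ∑ k, (cfac p M (d k) k w - cfac p M (e k) k w) := by
      unfold UU WW
      rw [Finset.sum_sub_distrib]; ring
    rw [e1, Finset.mul_sum]
    refine (Finset.abs_sum_le_sum_abs _ _).trans (Finset.sum_le_sum fun k _ => ?_)
    by_cases hk : d k = e k
    · rw [hk, sub_self, abs_zero]; exact mul_nonneg hτ.le (hm0 k)
    · rw [hm k hk, mul_one, abs_le]
      have a1 := cfac_mem p M (d k) k w
      have a2 := cfac_mem p M (e k) k w
      constructor <;> linarith [a1.1, a1.2, a2.1, a2.2]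
  unfold Phi
  have e2 : (M : ℝ) * Real.log 2 + eE (prior p M) (A (prior p M) (fil p M) p.xs (UU p M H d) 0) -
      ((M : ℝ) * Real.log 2 + eE (prior p M) (A (prior p M) (fil p M) p.xs (UU p M H e) 0)) =
      eE (prior p M) (fun w => A (prior p M) (fil p M) p.xs (UU p M H d) 0 w -
        A (prior p M) (fil p M) p.xs (UU p M H e) 0 w) := by
    rw [eE_sub]; ring
  rw [e2]
  exact (eE_abs_le hP _).trans (eE_le_of_le hP fun w =>
    A_sub_abs_le (𝓕 := fil p M) hP p.xs_expo.pos h1 0 w)

/-- product kernel -/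
def Ker (d : DD p (N + 1)) (d' : DD p N) : ℝ := ∏ k, ker p N (d k) (d' k)

theorem Ker_nonneg (d : DD p (N + 1)) (d' : DD p N) : 0 ≤ Ker p N d d' :=
  Finset.prod_nonneg fun k _ => ker_nonneg p N (d k) (d' k)

theorem sum_Ker {N : ℕ} (hN : 0 < N) (d : DD p (N + 1)) : ∑ d', Ker p N d d' = 1 := by
  unfold Ker
  rw [← Fintype.prod_sum (fun (k : Stp p) (o' : Option (Crd p N)) => ker p N (d k) o')]
  simp [sum_ker p hN]

theorem sum_dw_Ker {N : ℕ} (hN : 0 < N) (d' : DD p N) :
    ∑ d, dw p (N + 1) d * Ker p N d d' = dw p N d' := by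
  unfold dw Ker
  simp only [← Finset.prod_mul_distrib]
  rw [← Fintype.prod_sum (fun (k : Stp p) (o : Option (Crd p (N + 1))) =>
    dw1 p (N + 1) o * ker p N o (d' k))]
  exact Finset.prod_congr rfl fun k _ => sum_dw1_ker p hN (d' k)

/-- marginal of the outer randomness -/
theorem Ed_coord {M : ℕ} (hM : 0 < M) (g : Option (Crd p M) → ℝ) (k : Stp p) :
    Ed p M (fun d => g (d k)) = ∑ o, dw1 p M o * g o := by
  classical
  unfold Ed dw
  have h1 : ∀ d : DD p M, (∏ j, dw1 p M (d j)) * g (d k) =
      ∏ j, (dw1 p M (d j) * if j = k then g (d j) else 1) := by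
    intro d
    rw [Finset.prod_mul_distrib]
    congr 1
    rw [Finset.prod_ite_eq' univ k (fun j => g (d j))]
    simp
  rw [Finset.sum_congr rfl fun d _ => h1 d,
    ← Fintype.prod_sum (fun (j : Stp p) (o : Option (Crd p M)) =>
      (dw1 p M o * if j = k then g o else 1))]
  rw [Finset.prod_eq_single k]
  · simp
  · intro j _ hj
    simp only [if_neg hj, mul_one]
    exact dw1_sum p hM
  · intro h; exact absurd (Finset.mem_univ k) h

/-- (F4): averaged comparison of the systems on `N + 1` and on `N` sites; this is input (A3) of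
the cavity step. -/
theorem EPhi_succ {N : ℕ} (hN : 0 < N) (H : (Fin (N + 1) → Bool) → ℝ) :
    |EPhi p (N + 1) H - EPhi p N (Hred N H)| ≤
      (p.nb : ℝ) / p.Q + (p.nc * p.T : ℝ) / ((N : ℝ) + 1) := by
  set M : DD p (N + 1) → DD p N → ℝ := fun d d' => dw p (N + 1) d * Ker p N d d' with hMdef
  have hM0 : ∀ d d', 0 ≤ M d d' := fun d d' =>
    mul_nonneg (dw_nonneg p (N + 1) d) (Ker_nonneg p N d d')
  have e1 : EPhi p (N + 1) H = ∑ d, ∑ d', M d d' * Phi p (N + 1) H d := by
    unfold EPhi Ed
    refine Finset.sum_congr rfl fun d _ => ?_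
    rw [← Finset.sum_mul, hMdef]
    simp only
    rw [← Finset.mul_sum, sum_Ker p hN, mul_one]
  have e2 : EPhi p N (Hred N H) = ∑ d, ∑ d', M d d' * Phi p N (Hred N H) d' := by
    unfold EPhi Ed
    rw [Finset.sum_comm]
    refine Finset.sum_congr rfl fun d' _ => ?_
    rw [← Finset.sum_mul, hMdef]
    simp only
    rw [sum_dw_Ker p hN]
  have e3 : EPhi p (N + 1) H - EPhi p N (Hred N H) =
      ∑ d, ∑ d', M d d' * (Phi p (N + 1) H d - Phi p N (Hred N H) d') := by
    rw [e1, e2, ← Finset.sum_sub_distrib]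
    refine Finset.sum_congr rfl fun d _ => ?_
    rw [← Finset.sum_sub_distrib]
    exact Finset.sum_congr rfl fun d' _ => by ring
  have e4 : ∀ d d', |M d d' * (Phi p (N + 1) H d - Phi p N (Hred N H) d')| ≤
      M d d' * (p.τ * (∑ k, isl p N (d k)) + (p.nb : ℝ) / p.Q) := by
    intro d d'
    rw [abs_mul, abs_of_nonneg (hM0 d d')]
    by_cases hK : Ker p N d d' = 0
    · rw [hMdef]; simp only [hK, mul_zero, zero_mul]; exact le_rfl
    · refine mul_le_mul_of_nonneg_left ?_ (hM0 d d')
      have h1 : |Phi p (N + 1) H d - Phi p (N + 1) H (liftD p N d')| ≤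
          p.τ * ∑ k, isl p N (d k) := by
        refine Phi_outer p (N + 1) H d (liftD p N d') (fun k => isl p N (d k))
          (fun k => isl_nonneg p N (d k)) fun k hk => ?_
        refine ker_mismatch p N (d k) (d' k) ?_ hk
        intro h0
        exact hK (Finset.prod_eq_zero (Finset.mem_univ k) h0)
      have h2 := Phi_lift p N H d'
      calc |Phi p (N + 1) H d - Phi p N (Hred N H) d'|
          = |(Phi p (N + 1) H d - Phi p (N + 1) H (liftD p N d')) +
              (Phi p (N + 1) H (liftD p N d') - Phi p N (Hred N H) d')| := by congr 1; ring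
        _ ≤ _ := (abs_add_le _ _).trans (add_le_add h1 h2)
  rw [e3]
  refine (Finset.abs_sum_le_sum_abs _ _).trans ?_
  refine (Finset.sum_le_sum fun d _ => (Finset.abs_sum_le_sum_abs _ _).trans
    (Finset.sum_le_sum fun d' _ => e4 d d')).trans ?_
  have e5 : ∑ d, ∑ d', M d d' * (p.τ * (∑ k, isl p N (d k)) + (p.nb : ℝ) / p.Q) =
      Ed p (N + 1) (fun d => p.τ * (∑ k, isl p N (d k)) + (p.nb : ℝ) / p.Q) := by
    unfold Ed
    refine Finset.sum_congr rfl fun d _ => ?_
    rw [← Finset.sum_mul, hMdef]
    simp only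
    rw [← Finset.mul_sum, sum_Ker p hN, mul_one]
  rw [e5, Ed_add, Ed_smul, Ed_const p (Nat.succ_pos N), Ed_sum]
  rw [Finset.sum_congr rfl fun k _ => (Ed_coord p (Nat.succ_pos N) (isl p N) k).trans
    (sum_dw1_isl p N)]
  rw [Finset.sum_const, Finset.card_univ, Fintype.card_prod, Fintype.card_fin, Fintype.card_fin,
    nsmul_eq_mul, add_comm]
  refine add_le_add le_rfl ?_
  push_cast
  have hT : (0 : ℝ) ≤ (p.nc : ℝ) * p.T := by positivity
  have hN1 : (0 : ℝ) < (N : ℝ) + 1 := by positivity
  have e6 : p.τ * ((p.nc : ℝ) * p.T * (1 / (2 * ((N : ℝ) + 1)))) =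
      (p.τ / 2) * ((p.nc : ℝ) * p.T / ((N : ℝ) + 1)) := by field_simp
  rw [e6]
  have hτ := p.hτ1
  exact mul_le_of_le_one_left (by positivity) (by linarith)

end F4

end

end Crest.Agent.R141
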