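import Crest.Agent.R141.SysEmb

/-!
Row 141, Part L, (F3) and the averaging step of (F4)/(A3) (helper585).

* `abs_Phi_sub_outer_le` : changing the outer randomness changes `Phi` by at most `τ * card Stp`.
* `abs_Phi_sub_le`, `abs_EPhi_sub_le` : (F3), Lipschitz in the Hamiltonian.
* `Ed_compare` : comparison of the averages over the outer randomness of sizes `N + 1` and `N`.
* `EPhi_compare` : from the fixed-`d` comparison to `EPhi`.
-/

set_option autoImplicit false

namespace Crest.Agent.R141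

open Finset

variable (p : Par)

theorem cfac_nonneg (N : ℕ) (o : Option (Crd p N)) (k : Stp p) (ω : Om p N) :
    0 ≤ cfac p N o k ω := by
  unfold cfac
  split
  · exact le_rfl
  · refine mul_nonneg p.hτ0.le (mul_nonneg ?_ (cv_nonneg _ _ _ _))
    split_ifs <;> norm_num

theorem cfac_le (N : ℕ) (o : Option (Crd p N)) (k : Stp p) (ω : Om p N) :
    cfac p N o k ω ≤ p.τ := by
  unfold cfac
  split
  · exact p.hτ0.le
  · rename_i c
    have h1 : (if ω.2.2 k.1 k.2 = true then (1 : ℝ) else 0) ≤ 1 := by split_ifs <;> norm_num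
    have h0 : 0 ≤ (if ω.2.2 k.1 k.2 = true then (1 : ℝ) else 0) := by split_ifs <;> norm_num
    have h2 := cv_le_one p N c ω
    have h3 := cv_nonneg p N c ω
    have h4 : (if ω.2.2 k.1 k.2 = true then (1 : ℝ) else 0) * cv p N c ω ≤ 1 :=
      mul_le_one₀ h1 h3 h2
    calc p.τ * ((if ω.2.2 k.1 k.2 = true then (1 : ℝ) else 0) * cv p N c ω) ≤ p.τ * 1 :=
          mul_le_mul_of_nonneg_left h4 p.hτ0.le
      _ = p.τ := mul_one _

theorem abs_WW_sub_le (N : ℕ) (d d' : DD p N) (ω : Om p N) :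
    |WW p N d ω - WW p N d' ω| ≤ p.τ * (Fintype.card (Stp p) : ℝ) := by
  have h : WW p N d ω - WW p N d' ω = ∑ k, (cfac p N (d k) k ω - cfac p N (d' k) k ω) := by
    unfold WW
    rw [Finset.sum_sub_distrib]
    ring
  rw [h]
  refine (Finset.abs_sum_le_sum_abs _ _).trans ?_
  refine (Finset.sum_le_sum (g := fun _ => p.τ) fun k _ => ?_).trans (le_of_eq ?_)
  · rw [abs_le]
    constructor <;>
    linarith [cfac_nonneg p N (d k) k ω, cfac_le p N (d k) k ω, cfac_nonneg p N (d' k) k ω,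
      cfac_le p N (d' k) k ω]
  · rw [Finset.sum_const, Finset.card_univ, nsmul_eq_mul, mul_comm]

/-- comparison of `Phi` from a uniform comparison of the log-weights. -/
theorem abs_Phi_sub_le_of_UU (N : ℕ) (H H' : (Fin N → Bool) → ℝ) (d d' : DD p N) {a : ℝ}
    (h : ∀ ω, |UU p N H d ω - UU p N H' d' ω| ≤ a) : |Phi p N H d - Phi p N H' d'| ≤ a := by
  unfold Phi
  have h1 : (N : ℝ) * Real.log 2 + eE (prior p N) (A (prior p N) (fil p N) p.xs (UU p N H d) 0) -
      ((N : ℝ) * Real.log 2 + eE (prior p N) (A (prior p N) (fil p N) p.xs (UU p N H' d') 0)) =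
      eE (prior p N) (fun ω => A (prior p N) (fil p N) p.xs (UU p N H d) 0 ω -
        A (prior p N) (fil p N) p.xs (UU p N H' d') 0 ω) := by
    rw [eE_sub]; ring
  rw [h1]
  refine (eE_abs_le (prior_isProb p N) _).trans ?_
  refine eE_le_of_le (prior_isProb p N) fun ω => ?_
  exact A_sub_abs_le (prior_isProb p N) p.xs_expo.pos h 0 ω

/-- changing the outer randomness. -/
theorem abs_Phi_sub_outer_le (N : ℕ) (H : (Fin N → Bool) → ℝ) (d d' : DD p N) :
    |Phi p N H d - Phi p N H d'| ≤ p.τ * (Fintype.card (Stp p) : ℝ) := by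
  refine abs_Phi_sub_le_of_UU p N H H d d' fun ω => ?_
  have h : UU p N H d ω - UU p N H d' ω = WW p N d ω - WW p N d' ω := by
    unfold UU; ring
  rw [h]
  exact abs_WW_sub_le p N d d' ω

/-- (F3). -/
theorem abs_Phi_sub_le (N : ℕ) (H H' : (Fin N → Bool) → ℝ) (d : DD p N) {a : ℝ}
    (h : ∀ s, |H s - H' s| ≤ a) : |Phi p N H d - Phi p N H' d| ≤ a := by
  refine abs_Phi_sub_le_of_UU p N H H' d d fun ω => ?_
  have h2 : UU p N H d ω - UU p N H' d ω = H ω.1 - H' ω.1 := by
    unfold UU; ring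
  rw [h2]
  exact h ω.1

theorem Ed_sub (N : ℕ) (f g : DD p N → ℝ) :
    Ed p N (fun d => f d - g d) = Ed p N f - Ed p N g := by
  simp [Ed, mul_sub, sum_sub_distrib]

theorem abs_Ed_le {N : ℕ} (hN : 0 < N) {f : DD p N → ℝ} {c : ℝ} (h : ∀ d, |f d| ≤ c) :
    |Ed p N f| ≤ c := by
  unfold Ed
  refine (Finset.abs_sum_le_sum_abs _ _).trans ?_
  have h1 : ∑ d, dw p N d * c = c := by rw [← Finset.sum_mul, dw_sum p hN, one_mul]
  refine (Finset.sum_le_sum fun d _ => ?_).trans h1.le
  rw [abs_mul, abs_of_nonneg (dw_nonneg p N d)]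
  exact mul_le_mul_of_nonneg_left (h d) (dw_nonneg p N d)

/-- (F3) for the averaged free energy (assumption (A2) of the cavity step). -/
theorem abs_EPhi_sub_le {N : ℕ} (hN : 0 < N) (H H' : (Fin N → Bool) → ℝ) {a : ℝ}
    (h : ∀ s, |H s - H' s| ≤ a) : |EPhi p N H - EPhi p N H'| ≤ a := by
  unfold EPhi
  rw [← Ed_sub]
  exact abs_Ed_le p hN fun d => abs_Phi_sub_le p N H H' d h

/-! ### the embedding of the outer randomness -/

theorem embD_injective (N : ℕ) : Function.Injective (embD p N) := by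
  intro d d' h
  funext k
  have hk := congrFun h k
  unfold embD at hk
  refine Option.map_injective ?_ hk
  intro c c' hc
  have hc' : ((Fin.castSucc c.1, c.2) : Crd p (N + 1)) = (Fin.castSucc c'.1, c'.2) := hc
  have h1 : Fin.castSucc c.1 = Fin.castSucc c'.1 := (Prod.ext_iff.1 hc').1
  have h2 : c.2 = c'.2 := (Prod.ext_iff.1 hc').2
  exact Prod.ext (Fin.castSucc_injective _ h1) h2

theorem embD_none (N : ℕ) : embD p N (fun _ => none) = fun _ => none := rfl

theorem dw1_map_le {N : ℕ} (hN : 0 < N) (o : Option (Crd p N)) :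
    dw1 p (N + 1) (o.map (fun c => (Fin.castSucc c.1, c.2))) ≤ dw1 p N o := by
  cases o with
  | none => exact le_rfl
  | some c =>
    simp only [Option.map_some, dw1]
    have h0 : (0 : ℝ) < N := by exact_mod_cast hN
    apply one_div_le_one_div_of_le (by positivity)
    push_cast
    have : (0 : ℝ) ≤ (p.nb : ℝ) + 1 := by positivity
    nlinarith

theorem dw1_nonneg (N : ℕ) (o : Option (Crd p N)) : 0 ≤ dw1 p N o := by
  unfold dw1
  split <;> positivity

theorem dw_embD_le {N : ℕ} (hN : 0 < N) (d : DD p N) :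
    dw p (N + 1) (embD p N d) ≤ dw p N d := by
  unfold dw
  exact Finset.prod_le_prod (fun k _ => dw1_nonneg p _ _) fun k _ => dw1_map_le p hN (d k)

theorem sum_dw_embD {N : ℕ} (hN : 0 < N) :
    ∑ d, dw p (N + 1) (embD p N d) =
      (1 + -(1 / (2 * ((N : ℝ) + 1)))) ^ Fintype.card (Stp p) := by
  have h1 : ∀ d : DD p N, dw p (N + 1) (embD p N d) =
      ∏ k, dw1 p (N + 1) ((d k).map (fun c => (Fin.castSucc c.1, c.2))) := fun d => rfl
  simp only [h1]
  rw [← Fintype.prod_sum (fun (_ : Stp p) (o : Option (Crd p N)) =>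
    dw1 p (N + 1) (o.map (fun c => (Fin.castSucc c.1, c.2))))]
  rw [Finset.prod_const, Finset.card_univ]
  congr 1
  rw [Fintype.sum_option]
  simp only [Option.map_none, Option.map_some, dw1, Finset.sum_const, Finset.card_univ,
    Fintype.card_prod, Fintype.card_fin, Fintype.card_option, nsmul_eq_mul]
  push_cast
  field_simp
  ring

/-- the mass of the outer randomness of size `N + 1` which touches the last site. -/
theorem one_sub_sum_dw_embD_le {N : ℕ} (hN : 0 < N) :
    1 - ∑ d, dw p (N + 1) (embD p N d) ≤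
      (Fintype.card (Stp p) : ℝ) / (2 * ((N : ℝ) + 1)) := by
  rw [sum_dw_embD p hN]
  have h0 : (0 : ℝ) < (N : ℝ) + 1 := by positivity
  have h1 : (-2 : ℝ) ≤ -(1 / (2 * ((N : ℝ) + 1))) := by
    rw [neg_le_neg_iff, div_le_iff₀ (by positivity)]
    nlinarith [(Nat.cast_nonneg N : (0 : ℝ) ≤ N)]
  have h2 := one_add_mul_le_pow h1 (Fintype.card (Stp p))
  have h3 : (Fintype.card (Stp p) : ℝ) / (2 * ((N : ℝ) + 1)) =
      (Fintype.card (Stp p) : ℝ) * (1 / (2 * ((N : ℝ) + 1))) := by ring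
  rw [h3]
  linarith

/-- Comparison of the averages over the outer randomness of the sizes `N + 1` and `N`. -/
theorem Ed_compare {N : ℕ} (hN : 0 < N) (F : DD p (N + 1) → ℝ) (G : DD p N → ℝ) {b c : ℝ}
    (h1 : ∀ d, |F (embD p N d) - G d| ≤ c)
    (h2 : ∀ d, |F d - F (fun _ => none)| ≤ b) (h3 : ∀ d, |G d - G (fun _ => none)| ≤ b) :
    |Ed p (N + 1) F - Ed p N G| ≤ c + b * (Fintype.card (Stp p) : ℝ) / ((N : ℝ) + 1) := by
  classical
  have hb : 0 ≤ b := (abs_nonneg _).trans (h2 (fun _ => none))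
  have hc : 0 ≤ c := (abs_nonneg _).trans (h1 (fun _ => none))
  set G0 := G (fun _ => none) with hG0
  set w : DD p N → ℝ := fun d => dw p (N + 1) (embD p N d) with hw
  set v : DD p N → ℝ := fun d => dw p N d with hv
  set δ : ℝ := 1 - ∑ d, w d with hδ
  have hw0 : ∀ d, 0 ≤ w d := fun d => dw_nonneg p _ _
  have hwv : ∀ d, w d ≤ v d := fun d => dw_embD_le p hN d
  have hv1 : ∑ d, v d = 1 := dw_sum p hN
  have hδv : ∑ d, (v d - w d) = δ := by rw [Finset.sum_sub_distrib, hv1]
  have hδ0 : 0 ≤ δ := by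
    rw [← hδv]; exact Finset.sum_nonneg fun d _ => sub_nonneg.2 (hwv d)
  -- splitting
  set s : Finset (DD p (N + 1)) := Finset.univ.image (embD p N) with hs
  have hsplit : ∀ f : DD p (N + 1) → ℝ, ∑ d, dw p (N + 1) d * f d =
      ∑ d, w d * f (embD p N d) + ∑ d ∈ sᶜ, dw p (N + 1) d * f d := by
    intro f
    rw [← Finset.sum_add_sum_compl s, hs,
      Finset.sum_image fun a _ b _ hab => embD_injective p N hab]
  have hR1 : ∑ d ∈ sᶜ, dw p (N + 1) d = δ := by
    have h := hsplit (fun _ => 1)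
    simp only [mul_one] at h
    rw [dw_sum p (Nat.succ_pos N)] at h
    linarith
  have hF : Ed p (N + 1) F = ∑ d, w d * F (embD p N d) + ∑ d ∈ sᶜ, dw p (N + 1) d * F d :=
    hsplit F
  have hR : ∑ d ∈ sᶜ, dw p (N + 1) d * F d =
      δ * G0 + ∑ d ∈ sᶜ, dw p (N + 1) d * (F d - G0) := by
    rw [← hR1, Finset.sum_mul, ← Finset.sum_add_distrib]
    exact Finset.sum_congr rfl fun d _ => by ring
  have hG : Ed p N G = ∑ d, w d * G d + (δ * G0 + ∑ d, (v d - w d) * (G d - G0)) := by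
    rw [← hδv, Finset.sum_mul, ← Finset.sum_add_distrib, ← Finset.sum_add_distrib]
    unfold Ed
    exact Finset.sum_congr rfl fun d _ => by
      simp only [hv]; ring
  have hdiff : Ed p (N + 1) F - Ed p N G = ∑ d, w d * (F (embD p N d) - G d) +
      ∑ d ∈ sᶜ, dw p (N + 1) d * (F d - G0) - ∑ d, (v d - w d) * (G d - G0) := by
    rw [hF, hR, hG]
    simp only [mul_sub, Finset.sum_sub_distrib]
    ring
  have e1 : |∑ d, w d * (F (embD p N d) - G d)| ≤ (1 - δ) * c := by
    have hsum : ∑ d, w d * c = (1 - δ) * c := by rw [← Finset.sum_mul, hδ]; ring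
    rw [← hsum]
    refine (Finset.abs_sum_le_sum_abs _ _).trans (Finset.sum_le_sum fun d _ => ?_)
    rw [abs_mul, abs_of_nonneg (hw0 d)]
    exact mul_le_mul_of_nonneg_left (h1 d) (hw0 d)
  have e2 : |∑ d ∈ sᶜ, dw p (N + 1) d * (F d - G0)| ≤ δ * (b + c) := by
    rw [← hR1, Finset.sum_mul]
    refine (Finset.abs_sum_le_sum_abs _ _).trans (Finset.sum_le_sum fun d _ => ?_)
    rw [abs_mul, abs_of_nonneg (dw_nonneg p _ d)]
    refine mul_le_mul_of_nonneg_left ?_ (dw_nonneg p _ d)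
    have h4 := h1 (fun _ => none)
    rw [embD_none] at h4
    have h5 : F d - G0 = (F d - F (fun _ => none)) + (F (fun _ => none) - G0) := by ring
    rw [h5]
    exact (abs_add_le _ _).trans (add_le_add (h2 d) h4)
  have e3 : |∑ d, (v d - w d) * (G d - G0)| ≤ δ * b := by
    rw [← hδv, Finset.sum_mul]
    refine (Finset.abs_sum_le_sum_abs _ _).trans (Finset.sum_le_sum fun d _ => ?_)
    rw [abs_mul, abs_of_nonneg (sub_nonneg.2 (hwv d))]
    exact mul_le_mul_of_nonneg_left (h3 d) (sub_nonneg.2 (hwv d))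
  have e4 : 2 * b * δ ≤ b * (Fintype.card (Stp p) : ℝ) / ((N : ℝ) + 1) := by
    have h6 := one_sub_sum_dw_embD_le p hN
    have h7 : 2 * b * δ ≤ 2 * b * ((Fintype.card (Stp p) : ℝ) / (2 * ((N : ℝ) + 1))) :=
      mul_le_mul_of_nonneg_left h6 (by positivity)
    refine h7.trans (le_of_eq ?_)
    field_simp
  rw [hdiff]
  have f1 := abs_le.1 e1
  have f2 := abs_le.1 e2
  have f3 := abs_le.1 e3
  rw [abs_le]
  constructor <;> nlinarith [f1.1, f1.2, f2.1, f2.2, f3.1, f3.2]

/-- from the fixed-`d` comparison to the averaged free energies (assumption (A3) of the cavity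
step). -/
theorem EPhi_compare {N : ℕ} (hN : 0 < N) (H : (Fin (N + 1) → Bool) → ℝ) {c : ℝ}
    (h : ∀ d, |Phi p (N + 1) H (embD p N d) - Phi p N (redH H) d| ≤ c) :
    |EPhi p (N + 1) H - EPhi p N (redH H)| ≤
      c + p.τ * (Fintype.card (Stp p) : ℝ) * (Fintype.card (Stp p) : ℝ) / ((N : ℝ) + 1) :=
  Ed_compare p hN (Phi p (N + 1) H) (Phi p N (redH H)) h
    (fun d => abs_Phi_sub_outer_le p (N + 1) H d _)
    (fun d => abs_Phi_sub_outer_le p N (redH H) d _)

end Crest.Agent.R141
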