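import Crest.Agent.R141.Cavity3
import Crest.Agent.R141.RedF

/-!
Row 141, Part L, section 4.3: truncation of the Poisson sums (helper585).

`site_side`, `edge_side` : to compare `siteG`, `edgeG` of a 1-Lipschitz functional `Ψ` with averages
of `siteFun`, `edgeFun` over finitely many trials, it is enough to compare the terms with fewer than
`k0` interactions up to `δ`; `k0, δ` depend only on `α, p, ε` and bounds of the interactions and
fields.
-/

set_option autoImplicit false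
set_option linter.unusedSectionVars false

open MeasureTheory Filter Crest.ProbabilityR.Diluted

namespace Crest.Agent.R141.Trunc

open Crest.Agent.R141.Pois Crest.Agent.R141.Cav Crest.Agent.R141.RedT Crest.Agent.R141.RedF
open Crest.Agent.R141.Red (poissonWeight_nonneg hasSum_poissonWeight summable_poisson_of_le)

/-! ### weighted averages -/

theorem wavg_const {ι : Type*} [Fintype ι] {a : ι → ℝ} (h1 : ∑ i, a i = 1) (c : ℝ) :
    ∑ i, a i * c = c := by rw [← Finset.sum_mul, h1, one_mul]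

theorem abs_wavg_le {ι : Type*} [Fintype ι] {a : ι → ℝ} (h0 : ∀ i, 0 ≤ a i)
    (h1 : ∑ i, a i = 1) {f : ι → ℝ} {c : ℝ} (h : ∀ i, |f i| ≤ c) : |∑ i, a i * f i| ≤ c := by
  calc |∑ i, a i * f i| ≤ ∑ i, |a i * f i| := Finset.abs_sum_le_sum_abs _ _
    _ ≤ ∑ i, a i * c := Finset.sum_le_sum fun i _ => by
        rw [abs_mul, abs_of_nonneg (h0 i)]
        exact mul_le_mul_of_nonneg_left (h i) (h0 i)
    _ = c := wavg_const h1 c

theorem wavg_sub {ι : Type*} [Fintype ι] (a f g : ι → ℝ) :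
    ∑ i, a i * f i - ∑ i, a i * g i = ∑ i, a i * (f i - g i) := by
  rw [← Finset.sum_sub_distrib]
  exact Finset.sum_congr rfl fun i _ => by ring

theorem prod_weights_nonneg {ι κ : Type*} [Fintype ι] {a : κ → ℝ} (h0 : ∀ k, 0 ≤ a k)
    (f : ι → κ) : 0 ≤ ∏ j, a (f j) := Finset.prod_nonneg fun _ _ => h0 _

theorem sum_prod_weights {κ : Type*} [Fintype κ] {a : κ → ℝ} (h1 : ∑ k, a k = 1) (M : ℕ) :
    ∑ f : Fin M → κ, ∏ j, a (f j) = 1 := by
  classical
  have := Finset.prod_univ_sum (fun _ : Fin M => (Finset.univ : Finset κ)) (fun _ k => a k)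
  rw [Fintype.piFinset_univ] at this
  rw [← this]
  simp [h1]

/-- the average over `Is`. -/
theorem avg_const {M N p : ℕ} (hN : 0 < N) (c : ℝ) :
    (((N : ℝ)⁻¹) ^ p) ^ M * ∑ _Is : Fin M → Fin p → Fin N, c = c := by
  have h : (0 : ℝ) < N := by exact_mod_cast hN
  rw [Finset.sum_const, Finset.card_univ, Fintype.card_fun, Fintype.card_fun, Fintype.card_fin,
    Fintype.card_fin, Fintype.card_fin, nsmul_eq_mul, ← mul_assoc]
  push_cast
  rw [← mul_pow, ← mul_pow, inv_mul_cancel₀ h.ne', one_pow, one_pow, one_mul]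

theorem abs_avg_le {M N p : ℕ} (hN : 0 < N) {f : (Fin M → Fin p → Fin N) → ℝ} {c : ℝ}
    (h : ∀ Is, |f Is| ≤ c) :
    |(((N : ℝ)⁻¹) ^ p) ^ M * ∑ Is : Fin M → Fin p → Fin N, f Is| ≤ c := by
  have h0 : (0 : ℝ) ≤ (((N : ℝ)⁻¹) ^ p) ^ M := by positivity
  calc |(((N : ℝ)⁻¹) ^ p) ^ M * ∑ Is : Fin M → Fin p → Fin N, f Is|
      = (((N : ℝ)⁻¹) ^ p) ^ M * |∑ Is : Fin M → Fin p → Fin N, f Is| := by
        rw [abs_mul, abs_of_nonneg h0]
    _ ≤ (((N : ℝ)⁻¹) ^ p) ^ M * ∑ _Is : Fin M → Fin p → Fin N, c :=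
        mul_le_mul_of_nonneg_left ((Finset.abs_sum_le_sum_abs _ _).trans
          (Finset.sum_le_sum fun Is _ => h Is)) h0
    _ = c := avg_const hN c

variable {p : ℕ} {K K' : Type} [Fintype K] [Fintype K']

/-! ### the general comparison -/

/-- Abstract form: Poisson sums of weighted averages. -/
theorem poisson_side {lam : ℝ} (hlam : 0 ≤ lam) (a b : ℝ) {ε : ℝ} (hε : 0 < ε) :
    ∃ k0 : ℕ, ∃ δ : ℝ, 0 < δ ∧ ∀ (G : ℕ → ℝ) (Q : Type) [Fintype Q] (μ : Q → ℝ)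
      (_ : ∀ q, 0 ≤ μ q) (_ : ∑ q, μ q = 1) (G' : Q → ℕ → ℝ),
      (∀ k : ℕ, |G k| ≤ a * k + b) → (∀ q, ∀ k : ℕ, |G' q k| ≤ a * k + b) →
      (∀ k < k0, |G k - ∑ q, μ q * G' q k| ≤ δ) →
      |∑' k, poissonWeight lam k * G k - ∑ q, μ q * ∑' k, poissonWeight lam k * G' q k| ≤ ε := by
  obtain ⟨k0, δ, hδ, H⟩ := Num.poisson_compare hlam a b hε
  refine ⟨k0, δ, hδ, fun G Q _ μ hμ0 hμ1 G' hG hG' h => ?_⟩
  have h1 := H G (fun k => ∑ q, μ q * G' q k) hG
    (fun k => abs_wavg_le hμ0 hμ1 fun q => hG' q k) h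
  rwa [Num.poisson_tsum_finset_sum hlam Finset.univ μ G' (fun _ => a) (fun _ => b)
    (fun q _ k => hG' q k)] at h1

/-! ### bounds -/

theorem abs_cavU_sub_le {N M : ℕ} {B Bh : ℝ} (x : ℝ) (hx : |x| ≤ Bh) (θs : Fin M → Inter p)
    (hθ : ∀ j s, |θs j s| ≤ B) (ls : Fin M → Fin p) (Is : Fin M → Fin p → Fin N)
    (s : Fin N → Bool) : |cavU x θs ls Is s - Real.log 2| ≤ B * M + Bh := by
  have h2 : Real.log 2 = Real.log (∑ _e : Bool, Real.exp 0) := by simp
  unfold cavU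
  rw [h2]
  refine abs_log_sum_exp_sub_le fun e => ?_
  rw [sub_zero]
  have h3 : |x * spinVal e| ≤ Bh := by
    rw [abs_mul, Red.abs_spinVal, mul_one]; exact hx
  have h4 : |∑ j, θs j (fun m => if m = ls j then e else s (Is j m))| ≤ B * M := by
    calc |∑ j, θs j (fun m => if m = ls j then e else s (Is j m))|
        ≤ ∑ j, |θs j (fun m => if m = ls j then e else s (Is j m))| :=
          Finset.abs_sum_le_sum_abs _ _
      _ ≤ ∑ _j : Fin M, B := Finset.sum_le_sum fun j _ => hθ j _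
      _ = B * M := by simp [mul_comm]
  calc |x * spinVal e + ∑ j, θs j (fun m => if m = ls j then e else s (Is j m))|
      ≤ |x * spinVal e| + |∑ j, θs j (fun m => if m = ls j then e else s (Is j m))| :=
        abs_add_le _ _
    _ ≤ B * M + Bh := by linarith

theorem abs_edgeU_le {N M : ℕ} {B : ℝ} (θs : Fin M → Inter p)
    (hθ : ∀ j s, |θs j s| ≤ B) (Is : Fin M → Fin p → Fin N)
    (s : Fin N → Bool) : |edgeU θs Is s| ≤ B * M := by
  unfold edgeU
  calc |∑ j, θs j (fun m => s (Is j m))| ≤ ∑ j, |θs j (fun m => s (Is j m))| :=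
        Finset.abs_sum_le_sum_abs _ _
    _ ≤ ∑ _j : Fin M, B := Finset.sum_le_sum fun j _ => hθ j _
    _ = B * M := by simp [mul_comm]

theorem nonneg_of_bound {θ : K → Inter p} [Nonempty K] {B : ℝ} (hθ : ∀ k s, |θ k s| ≤ B) :
    0 ≤ B :=
  (abs_nonneg _).trans (hθ (Classical.arbitrary K) (fun _ => true))

theorem nonempty_of_sum_eq_one {w : K → ℝ} (hw1 : ∑ k, w k = 1) : Nonempty K := by
  by_contra h
  rw [not_nonempty_iff] at h
  simp at hw1

/-- a `1`-Lipschitz functional: constant shift of at most the sup distance. -/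
theorem abs_psi_sub_le {N : ℕ} {Ψ : Ham N → ℝ} (hΨ : LipG 1 Ψ) (H V : Ham N) {a : ℝ}
    (ha : 0 ≤ a) (h : ∀ s, |V s| ≤ a) : |Ψ (H + V) - Ψ H| ≤ a := by
  have h1 := hΨ (H + V) H
  rw [add_sub_cancel_left, one_mul] at h1
  exact h1.trans (norm_le_of_forall ha h)

theorem abs_siteInner_le {k r : ℕ} {m : Fin r → ℝ} {X : (Fin (r + 1) → unitInterval) → ℝ}
    (hm : ∀ d, 0 < m d) (hX : Measurable X) {B Bh : ℝ} (θs : Fin k → Inter p)
    (hθ : ∀ j s, |θs j s| ≤ B) {x : ℝ} (hx : |x| ≤ Bh) :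
    |siteInner p k r m X θs x| ≤ B * k + Bh := by
  have h := (lipG_siteInner (p := p) (k := k) hm hX).abs_le θs x
  rw [siteInner_zero hm, abs_zero, zero_add] at h
  have h2 : ∑ j, supNorm (θs j) ≤ B * k := by
    calc ∑ j, supNorm (θs j) ≤ ∑ _j : Fin k, B :=
          Finset.sum_le_sum fun j _ => Red.supNorm_le (hθ j)
      _ = B * k := by simp [mul_comm]
  linarith

/-! ### the site side -/

/-- The site weights: `w k / p` on `K × Fin p`. -/
theorem sum_siteWeights {w : K → ℝ} (hw1 : ∑ k, w k = 1) (hp : 0 < p) :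
    ∑ a : K × Fin p, w a.1 / p = 1 := by
  have hp' : (p : ℝ) ≠ 0 := by exact_mod_cast hp.ne'
  rw [Fintype.sum_prod_type]
  simp only [Finset.sum_const, Finset.card_univ, Fintype.card_fin, nsmul_eq_mul]
  rw [← hw1]
  refine Finset.sum_congr rfl fun k _ => ?_
  field_simp

/-- reorganisation of the index type of `siteG`. -/
theorem sum_site_index {M : ℕ} {X : Type} [Fintype X] (w : K → ℝ) (c : ℝ)
    (f : (Fin M → K × Fin p) → (Fin M → X) → ℝ) :
    ∑ i : Fin M → K × Fin p × X, (∏ j, (w (i j).1 * (p : ℝ)⁻¹ * c)) *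
        f (fun j => ((i j).1, (i j).2.1)) (fun j => (i j).2.2) =
      ∑ κ : Fin M → K × Fin p, (∏ j, (w (κ j).1 / p)) *
        (c ^ M * ∑ xs : Fin M → X, f κ xs) := by
  rw [← sum_pair (K := K × Fin p) (X := X) (fun a => w a.1 / p) c f]
  refine Fintype.sum_equiv (Equiv.arrowCongr (Equiv.refl (Fin M))
    (Equiv.prodAssoc K (Fin p) X).symm) _ _ fun i => ?_
  rfl

theorem siteG_sub_eq {α : ℝ} {N : ℕ} (hN : 0 < N) (hp : 0 < p) (w : K → ℝ)
    (hw0 : ∀ k, 0 ≤ w k) (hw1 : ∑ k, w k = 1) (θ : K → Inter p)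
    (w' : K' → ℝ) (hw0' : ∀ k, 0 ≤ w' k) (hw1' : ∑ k, w' k = 1) (h : K' → ℝ)
    (Ψ : Ham N → ℝ) (hΨ : LipG 1 Ψ) (H : Ham N) (hα : 0 ≤ α) {B Bh : ℝ}
    (hθ : ∀ k s, |θ k s| ≤ B) (hh : ∀ k, |h k| ≤ Bh) :
    siteG α N w θ w' h Ψ H - Ψ H - Real.log 2 =
      ∑' M : ℕ, poissonWeight (α * p) M * ∑ κ : Fin M → K × Fin p, (∏ j, (w (κ j).1 / p)) *
        ∑ η, w' η * ((((N : ℝ)⁻¹) ^ p) ^ M * ∑ Is : Fin M → Fin p → Fin N,
          (Ψ (H + cavU (h η) (fun j => θ (κ j).1) (fun j => (κ j).2) Is) - Ψ H - Real.log 2)) := by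
  have hlam : 0 ≤ α * p := mul_nonneg hα (Nat.cast_nonneg p)
  have : Nonempty K := nonempty_of_sum_eq_one hw1
  have : Nonempty K' := nonempty_of_sum_eq_one hw1'
  have hB0 : 0 ≤ B := nonneg_of_bound hθ
  have hBh0 : 0 ≤ Bh := (abs_nonneg _).trans (hh (Classical.arbitrary K'))
  -- the inner averages, for a fixed field
  set g : K' → ℕ → ℝ := fun η M => ∑ κ : Fin M → K × Fin p, (∏ j, (w (κ j).1 / p)) *
    ((((N : ℝ)⁻¹) ^ p) ^ M * ∑ Is : Fin M → Fin p → Fin N,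
      (Ψ (H + cavU (h η) (fun j => θ (κ j).1) (fun j => (κ j).2) Is) - Ψ H - Real.log 2)) with hg
  have hwp0 : ∀ a : K × Fin p, 0 ≤ w a.1 / p := fun a => div_nonneg (hw0 _) (Nat.cast_nonneg _)
  have hwp1 := sum_siteWeights (p := p) hw1 hp
  have hκ0 : ∀ M (κ : Fin M → K × Fin p), 0 ≤ ∏ j, (w (κ j).1 / p) := fun M κ =>
    Finset.prod_nonneg fun j _ => hwp0 _
  have hκ1 : ∀ M, ∑ κ : Fin M → K × Fin p, ∏ j, (w (κ j).1 / p) = 1 := fun M =>
    sum_prod_weights hwp1 M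
  have hterm : ∀ η M (κ : Fin M → K × Fin p) (Is : Fin M → Fin p → Fin N),
      |Ψ (H + cavU (h η) (fun j => θ (κ j).1) (fun j => (κ j).2) Is) - Ψ H - Real.log 2| ≤
        B * M + (Bh + 2 * Real.log 2) := by
    intro η M κ Is
    have l2 : 0 ≤ Real.log 2 := Real.log_nonneg one_le_two
    have h1 : |Ψ (H + cavU (h η) (fun j => θ (κ j).1) (fun j => (κ j).2) Is) - Ψ H| ≤
        B * M + Bh + Real.log 2 := by
      refine abs_psi_sub_le hΨ H _ (by positivity) fun s => ?_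
      have h2 := abs_cavU_sub_le (h η) (hh η) (fun j => θ (κ j).1) (fun j s => hθ _ s)
        (fun j => (κ j).2) Is s
      have h3 := abs_add_le (cavU (h η) (fun j => θ (κ j).1) (fun j => (κ j).2) Is s -
        Real.log 2) (Real.log 2)
      rw [sub_add_cancel, abs_of_nonneg l2] at h3
      linarith
    have h3 := abs_sub (Ψ (H + cavU (h η) (fun j => θ (κ j).1) (fun j => (κ j).2) Is) - Ψ H)
      (Real.log 2)
    rw [abs_of_nonneg l2] at h3
    linarith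
  have hgb : ∀ η, ∀ M : ℕ, |g η M| ≤ B * M + (Bh + 2 * Real.log 2) := fun η M =>
    abs_wavg_le (hκ0 M) (hκ1 M) fun κ => abs_avg_le hN fun Is => hterm η M κ Is
  -- the explicit formula
  have h1 : siteG α N w θ w' h Ψ H = ∑ η, w' η * (∑' M : ℕ, poissonWeight (α * p) M * g η M +
      (Ψ H + Real.log 2)) := by
    rw [siteG_eq]
    refine Finset.sum_congr rfl fun η _ => ?_
    congr 1
    have h2 : ∀ M : ℕ, ∑ i : Fin M → K × Fin p × (Fin p → Fin N),
        (∏ j, (w (i j).1 * (p : ℝ)⁻¹ * ((N : ℝ)⁻¹) ^ p)) *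
          Ψ (H + cavU (h η) (fun j => θ (i j).1) (fun j => (i j).2.1) (fun j => (i j).2.2)) =
        g η M + (Ψ H + Real.log 2) := by
      intro M
      have h3 := sum_site_index (p := p) (M := M) (X := Fin p → Fin N) w (((N : ℝ)⁻¹) ^ p)
        (fun κ Is => Ψ (H + cavU (h η) (fun j => θ (κ j).1) (fun j => (κ j).2) Is))
      rw [h3, hg]
      have h4 : Ψ H + Real.log 2 = ∑ κ : Fin M → K × Fin p, (∏ j, (w (κ j).1 / p)) *
          ((((N : ℝ)⁻¹) ^ p) ^ M * ∑ _Is : Fin M → Fin p → Fin N, (Ψ H + Real.log 2)) := by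
        rw [avg_const hN, wavg_const (hκ1 M)]
      rw [h4]
      simp only
      rw [← Finset.sum_add_distrib]
      refine Finset.sum_congr rfl fun κ _ => ?_
      rw [← mul_add, ← mul_add, ← Finset.sum_add_distrib]
      congr 2
      refine Finset.sum_congr rfl fun Is _ => ?_
      ring
    simp only [h2, mul_add]
    have hs1 := summable_poisson_of_le hlam (hgb η)
    have hs2 : Summable fun M : ℕ => poissonWeight (α * p) M * Ψ H :=
      (Red.hasSum_poissonWeight _).summable.mul_right _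
    have hs3 : Summable fun M : ℕ => poissonWeight (α * p) M * Real.log 2 :=
      (Red.hasSum_poissonWeight _).summable.mul_right _
    rw [hs1.tsum_add (hs2.add hs3), hs2.tsum_add hs3, Num.poisson_tsum_const,
      Num.poisson_tsum_const]
  rw [h1]
  simp only [mul_add, Finset.sum_add_distrib]
  rw [wavg_const hw1', wavg_const hw1']
  rw [← Num.poisson_tsum_finset_sum hlam Finset.univ w' g (fun _ => B)
    (fun _ => Bh + 2 * Real.log 2) (fun η _ M => hgb η M)]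
  have h5 : ∀ M : ℕ, ∑ η, w' η * g η M = ∑ κ : Fin M → K × Fin p, (∏ j, (w (κ j).1 / p)) *
        ∑ η, w' η * ((((N : ℝ)⁻¹) ^ p) ^ M * ∑ Is : Fin M → Fin p → Fin N,
          (Ψ (H + cavU (h η) (fun j => θ (κ j).1) (fun j => (κ j).2) Is) - Ψ H - Real.log 2)) := by
    intro M
    simp only [hg, Finset.mul_sum]
    rw [Finset.sum_comm]
    refine Finset.sum_congr rfl fun κ _ => Finset.sum_congr rfl fun η _ =>
      Finset.sum_congr rfl fun Is _ => ?_
    ring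
  simp only [h5]
  ring

/-- **The site side.** -/
theorem site_side {α : ℝ} (hα : 0 ≤ α) (hp : 0 < p) {B Bh : ℝ} (hB : 0 ≤ B) (hBh : 0 ≤ Bh)
    {ε : ℝ} (hε : 0 < ε) :
    ∃ k0 : ℕ, ∃ δ : ℝ, 0 < δ ∧
      ∀ (K K' : Type) [Fintype K] [Fintype K'] (w : K → ℝ) (θ : K → Inter p) (w' : K' → ℝ)
        (h : K' → ℝ), (∀ k, 0 ≤ w k) → ∑ k, w k = 1 → (∀ k, 0 ≤ w' k) → ∑ k, w' k = 1 →
        (∀ k s, |θ k s| ≤ B) → (∀ k, |h k| ≤ Bh) →
      ∀ (N : ℕ), 0 < N → ∀ (Ψ : Ham N → ℝ), LipG 1 Ψ → ∀ (H : Ham N)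
        (Q : Type) [Fintype Q] (μ : Q → ℝ), (∀ q, 0 ≤ μ q) → ∑ q, μ q = 1 →
      ∀ (r : ℕ) (m : Fin r → ℝ), (∀ d, 0 < m d) →
        ∀ (X : Q → (Fin (r + 1) → unitInterval) → ℝ), (∀ q, Measurable (X q)) →
      (∀ k < k0, ∀ (κ : Fin k → K × Fin p) (η : K'),
        |(((N : ℝ)⁻¹) ^ p) ^ k * ∑ Is : Fin k → Fin p → Fin N,
          (Ψ (H + cavU (h η) (fun j => θ (κ j).1) (fun j => (κ j).2) Is) - Ψ H - Real.log 2) -
          ∑ q, μ q * siteInner p k r m (X q) (fun j => swapInter (κ j).2 (θ (κ j).1)) (h η)| ≤ δ) →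
      |siteG α N w θ w' h Ψ H - Ψ H - Real.log 2 -
        ∑ q, μ q * siteFun p (α * p) (symMeasure w θ) (finMeasure w' h) r m (X q)| ≤ ε := by
  have hlam : 0 ≤ α * p := mul_nonneg hα (Nat.cast_nonneg p)
  have l2 : 0 ≤ Real.log 2 := Real.log_nonneg one_le_two
  obtain ⟨k0, δ, hδ, HH⟩ := poisson_side hlam B (Bh + 2 * Real.log 2) hε
  refine ⟨k0, δ, hδ, ?_⟩
  intro K K' _ _ w θ w' h hw0 hw1 hw0' hw1' hθ hh N hN Ψ hΨ H Q _ μ hμ0 hμ1 r m hm X hX happ
  have : Nonempty K := nonempty_of_sum_eq_one hw1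
  have : Nonempty K' := nonempty_of_sum_eq_one hw1'
  have hwp0 : ∀ a : K × Fin p, 0 ≤ w a.1 / p := fun a => div_nonneg (hw0 _) (Nat.cast_nonneg _)
  have hκ0 : ∀ M (κ : Fin M → K × Fin p), 0 ≤ ∏ j, (w (κ j).1 / p) := fun M κ =>
    Finset.prod_nonneg fun j _ => hwp0 _
  have hκ1 : ∀ M, ∑ κ : Fin M → K × Fin p, ∏ j, (w (κ j).1 / p) = 1 := fun M =>
    sum_prod_weights (sum_siteWeights (p := p) hw1 hp) M
  set G : ℕ → ℝ := fun M => ∑ κ : Fin M → K × Fin p, (∏ j, (w (κ j).1 / p)) *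
        ∑ η, w' η * ((((N : ℝ)⁻¹) ^ p) ^ M * ∑ Is : Fin M → Fin p → Fin N,
          (Ψ (H + cavU (h η) (fun j => θ (κ j).1) (fun j => (κ j).2) Is) - Ψ H - Real.log 2))
    with hG
  set G' : Q → ℕ → ℝ := fun q M => ∑ κ : Fin M → K × Fin p, (∏ j, (w (κ j).1 / p)) *
        ∑ η, w' η * siteInner p M r m (X q) (fun j => swapInter (κ j).2 (θ (κ j).1)) (h η)
    with hG'
  have hterm : ∀ η M (κ : Fin M → K × Fin p) (Is : Fin M → Fin p → Fin N),
      |Ψ (H + cavU (h η) (fun j => θ (κ j).1) (fun j => (κ j).2) Is) - Ψ H - Real.log 2| ≤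
        B * M + (Bh + 2 * Real.log 2) := by
    intro η M κ Is
    have h1 : |Ψ (H + cavU (h η) (fun j => θ (κ j).1) (fun j => (κ j).2) Is) - Ψ H| ≤
        B * M + Bh + Real.log 2 := by
      refine abs_psi_sub_le hΨ H _ (by positivity) fun s => ?_
      have h2 := abs_cavU_sub_le (h η) (hh η) (fun j => θ (κ j).1) (fun j s => hθ _ s)
        (fun j => (κ j).2) Is s
      have h3 := abs_add_le (cavU (h η) (fun j => θ (κ j).1) (fun j => (κ j).2) Is s -
        Real.log 2) (Real.log 2)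
      rw [sub_add_cancel, abs_of_nonneg l2] at h3
      linarith
    have h3 := abs_sub (Ψ (H + cavU (h η) (fun j => θ (κ j).1) (fun j => (κ j).2) Is) - Ψ H)
      (Real.log 2)
    rw [abs_of_nonneg l2] at h3
    linarith
  have hGb : ∀ M : ℕ, |G M| ≤ B * M + (Bh + 2 * Real.log 2) := fun M =>
    abs_wavg_le (hκ0 M) (hκ1 M) fun κ => abs_wavg_le hw0' hw1' fun η =>
      abs_avg_le hN fun Is => hterm η M κ Is
  have hGb' : ∀ q, ∀ M : ℕ, |G' q M| ≤ B * M + (Bh + 2 * Real.log 2) := by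
    intro q M
    refine abs_wavg_le (hκ0 M) (hκ1 M) fun κ => abs_wavg_le hw0' hw1' fun η => ?_
    have := abs_siteInner_le (p := p) hm (hX q) (fun j => swapInter (κ j).2 (θ (κ j).1))
      (fun j s => hθ _ _) (hh η)
    linarith
  have hGG : ∀ k < k0, |G k - ∑ q, μ q * G' q k| ≤ δ := by
    intro k hk
    have h1 : G k - ∑ q, μ q * G' q k = ∑ κ : Fin k → K × Fin p, (∏ j, (w (κ j).1 / p)) *
        ∑ η, w' η * ((((N : ℝ)⁻¹) ^ p) ^ k * ∑ Is : Fin k → Fin p → Fin N,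
          (Ψ (H + cavU (h η) (fun j => θ (κ j).1) (fun j => (κ j).2) Is) - Ψ H - Real.log 2) -
          ∑ q, μ q * siteInner p k r m (X q) (fun j => swapInter (κ j).2 (θ (κ j).1)) (h η)) := by
      have h2 : ∑ q, μ q * G' q k = ∑ κ : Fin k → K × Fin p, (∏ j, (w (κ j).1 / p)) *
          ∑ η, w' η * ∑ q, μ q *
            siteInner p k r m (X q) (fun j => swapInter (κ j).2 (θ (κ j).1)) (h η) := by
        simp only [hG', Finset.mul_sum]
        rw [Finset.sum_comm]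
        refine Finset.sum_congr rfl fun κ _ => ?_
        rw [Finset.sum_comm]
        refine Finset.sum_congr rfl fun η _ => Finset.sum_congr rfl fun q _ => ?_
        ring
      rw [h2, hG]
      simp only
      rw [wavg_sub]
      refine Finset.sum_congr rfl fun κ _ => ?_
      rw [wavg_sub]
    rw [h1]
    exact abs_wavg_le (hκ0 k) (hκ1 k) fun κ => abs_wavg_le hw0' hw1' fun η => happ k hk κ η
  have h3 := HH G Q μ hμ0 hμ1 G' hGb hGb' hGG
  have h4 : ∀ q, siteFun p (α * p) (symMeasure w θ) (finMeasure w' h) r m (X q) =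
      ∑' k, poissonWeight (α * p) k * G' q k := fun q =>
    siteFun_symMeasure w θ w' h hw0 hw1 hw0' hp (α * p) r m (X q)
  simp only [h4]
  rw [siteG_sub_eq hN hp w hw0 hw1 θ w' hw0' hw1' h Ψ hΨ H hα hθ hh]
  exact h3

/-! ### the edge side -/

theorem edgeG_sub_eq {α : ℝ} {N : ℕ} (hN : 0 < N) (hp : 0 < p) (w : K → ℝ)
    (hw0 : ∀ k, 0 ≤ w k) (hw1 : ∑ k, w k = 1) (θ : K → Inter p)
    (Ψ : Ham N → ℝ) (hΨ : LipG 1 Ψ) (H : Ham N) (hα : 0 ≤ α) {B : ℝ}
    (hθ : ∀ k s, |θ k s| ≤ B) :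
    edgeG α N w θ Ψ H - Ψ H =
      ∑' M : ℕ, poissonWeight (α * (p - 1)) M * ∑ κ : Fin M → K, (∏ j, w (κ j)) *
        ((((N : ℝ)⁻¹) ^ p) ^ M * ∑ Is : Fin M → Fin p → Fin N,
          (Ψ (H + edgeU (fun j => θ (κ j)) Is) - Ψ H)) := by
  have hp1 : (0 : ℝ) ≤ (p : ℝ) - 1 := by
    have : (1 : ℝ) ≤ p := by exact_mod_cast hp
    linarith
  have hlam : 0 ≤ α * ((p : ℝ) - 1) := mul_nonneg hα hp1
  have : Nonempty K := nonempty_of_sum_eq_one hw1
  have hB0 : 0 ≤ B := nonneg_of_bound hθ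
  set g : ℕ → ℝ := fun M => ∑ κ : Fin M → K, (∏ j, w (κ j)) *
        ((((N : ℝ)⁻¹) ^ p) ^ M * ∑ Is : Fin M → Fin p → Fin N,
          (Ψ (H + edgeU (fun j => θ (κ j)) Is) - Ψ H)) with hg
  have hκ0 : ∀ M (κ : Fin M → K), 0 ≤ ∏ j, w (κ j) := fun M κ =>
    Finset.prod_nonneg fun j _ => hw0 _
  have hκ1 : ∀ M, ∑ κ : Fin M → K, ∏ j, w (κ j) = 1 := fun M => sum_prod_weights hw1 M
  have hgb : ∀ M : ℕ, |g M| ≤ B * M + 0 := fun M =>
    abs_wavg_le (hκ0 M) (hκ1 M) fun κ => abs_avg_le hN fun Is => by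
      rw [add_zero]
      exact abs_psi_sub_le hΨ H _ (by positivity) fun s =>
        abs_edgeU_le (fun j => θ (κ j)) (fun j s => hθ _ s) Is s
  have h2 : ∀ M : ℕ, ∑ i : Fin M → K × (Fin p → Fin N), (∏ j, (w (i j).1 * ((N : ℝ)⁻¹) ^ p)) *
        Ψ (H + edgeU (fun j => θ (i j).1) (fun j => (i j).2)) = g M + Ψ H := by
    intro M
    have h3 := sum_pair (K := K) (X := Fin p → Fin N) w (((N : ℝ)⁻¹) ^ p)
      (fun κ Is => Ψ (H + edgeU (M := M) (fun j => θ (κ j)) Is))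
    rw [h3, hg]
    have h4 : Ψ H = ∑ κ : Fin M → K, (∏ j, w (κ j)) *
        ((((N : ℝ)⁻¹) ^ p) ^ M * ∑ _Is : Fin M → Fin p → Fin N, Ψ H) := by
      rw [avg_const hN, wavg_const (hκ1 M)]
    conv_rhs => rw [h4]
    simp only
    rw [← Finset.sum_add_distrib]
    refine Finset.sum_congr rfl fun κ _ => ?_
    rw [← mul_add, ← mul_add, ← Finset.sum_add_distrib]
    congr 2
    refine Finset.sum_congr rfl fun Is _ => ?_
    rw [avg_const hN, wavg_const (hκ1 M)]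
    ring
  rw [edgeG_eq]
  simp only [h2, mul_add]
  have hs1 := summable_poisson_of_le hlam hgb
  have hs2 : Summable fun M : ℕ => poissonWeight (α * ((p : ℝ) - 1)) M * Ψ H :=
    (Red.hasSum_poissonWeight _).summable.mul_right _
  rw [hs1.tsum_add hs2, Num.poisson_tsum_const]
  ring

/-- **The edge side.** -/
theorem edge_side {α : ℝ} (hα : 0 ≤ α) (hp : 0 < p) {B : ℝ} (hB : 0 ≤ B)
    {ε : ℝ} (hε : 0 < ε) :
    ∃ k0 : ℕ, ∃ δ : ℝ, 0 < δ ∧
      ∀ (K : Type) [Fintype K] (w : K → ℝ) (θ : K → Inter p),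
        (∀ k, 0 ≤ w k) → ∑ k, w k = 1 → (∀ k s, |θ k s| ≤ B) →
      ∀ (N : ℕ), 0 < N → ∀ (Ψ : Ham N → ℝ), LipG 1 Ψ → ∀ (H : Ham N)
        (Q : Type) [Fintype Q] (μ : Q → ℝ), (∀ q, 0 ≤ μ q) → ∑ q, μ q = 1 →
      ∀ (r : ℕ) (m : Fin r → ℝ), (∀ d, 0 < m d) →
        ∀ (X : Q → (Fin (r + 1) → unitInterval) → ℝ), (∀ q, Measurable (X q)) →
      (∀ k < k0, ∀ (κ : Fin k → K),
        |(((N : ℝ)⁻¹) ^ p) ^ k * ∑ Is : Fin k → Fin p → Fin N,
          (Ψ (H + edgeU (fun j => θ (κ j)) Is) - Ψ H) -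
          ∑ q, μ q * ∑ j, edgeInner p r m (X q) (θ (κ j))| ≤ δ) →
      |edgeG α N w θ Ψ H - Ψ H -
        α * ((p : ℝ) - 1) * ∑ q, μ q * edgeFun p (finMeasure w θ) r m (X q)| ≤ ε := by
  have hp1 : (0 : ℝ) ≤ (p : ℝ) - 1 := by
    have : (1 : ℝ) ≤ p := by exact_mod_cast hp
    linarith
  have hlam : 0 ≤ α * ((p : ℝ) - 1) := mul_nonneg hα hp1
  obtain ⟨k0, δ, hδ, HH⟩ := poisson_side hlam B 0 hε
  refine ⟨k0, δ, hδ, ?_⟩
  intro K _ w θ hw0 hw1 hθ N hN Ψ hΨ H Q _ μ hμ0 hμ1 r m hm X hX happ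
  have : Nonempty K := nonempty_of_sum_eq_one hw1
  have hκ0 : ∀ M (κ : Fin M → K), 0 ≤ ∏ j, w (κ j) := fun M κ =>
    Finset.prod_nonneg fun j _ => hw0 _
  have hκ1 : ∀ M, ∑ κ : Fin M → K, ∏ j, w (κ j) = 1 := fun M => sum_prod_weights hw1 M
  set G : ℕ → ℝ := fun M => ∑ κ : Fin M → K, (∏ j, w (κ j)) *
        ((((N : ℝ)⁻¹) ^ p) ^ M * ∑ Is : Fin M → Fin p → Fin N,
          (Ψ (H + edgeU (fun j => θ (κ j)) Is) - Ψ H)) with hG
  set G' : Q → ℕ → ℝ := fun q M => ∑ κ : Fin M → K, (∏ j, w (κ j)) *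
        ∑ j, edgeInner p r m (X q) (θ (κ j)) with hG'
  have hGb : ∀ M : ℕ, |G M| ≤ B * M + 0 := fun M =>
    abs_wavg_le (hκ0 M) (hκ1 M) fun κ => abs_avg_le hN fun Is => by
      rw [add_zero]
      exact abs_psi_sub_le hΨ H _ (by positivity) fun s =>
        abs_edgeU_le (fun j => θ (κ j)) (fun j s => hθ _ s) Is s
  have hE : ∀ q k, |edgeInner p r m (X q) (θ k)| ≤ B := fun q k =>
    (abs_edgeInner_le hm (hX q) (θ k)).trans (Red.supNorm_le (hθ k))
  have hGb' : ∀ q, ∀ M : ℕ, |G' q M| ≤ B * M + 0 := by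
    intro q M
    refine abs_wavg_le (hκ0 M) (hκ1 M) fun κ => ?_
    rw [add_zero]
    calc |∑ j, edgeInner p r m (X q) (θ (κ j))| ≤ ∑ j, |edgeInner p r m (X q) (θ (κ j))| :=
          Finset.abs_sum_le_sum_abs _ _
      _ ≤ ∑ _j : Fin M, B := Finset.sum_le_sum fun j _ => hE q _
      _ = B * M := by simp [mul_comm]
  have hGG : ∀ k < k0, |G k - ∑ q, μ q * G' q k| ≤ δ := by
    intro k hk
    have h1 : G k - ∑ q, μ q * G' q k = ∑ κ : Fin k → K, (∏ j, w (κ j)) *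
        ((((N : ℝ)⁻¹) ^ p) ^ k * ∑ Is : Fin k → Fin p → Fin N,
          (Ψ (H + edgeU (fun j => θ (κ j)) Is) - Ψ H) -
          ∑ q, μ q * ∑ j, edgeInner p r m (X q) (θ (κ j))) := by
      have h2 : ∑ q, μ q * G' q k = ∑ κ : Fin k → K, (∏ j, w (κ j)) *
          ∑ q, μ q * ∑ j, edgeInner p r m (X q) (θ (κ j)) := by
        simp only [hG']
        simp only [Finset.mul_sum]
        rw [Finset.sum_comm]
        refine Finset.sum_congr rfl fun κ _ => Finset.sum_congr rfl fun q _ =>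
          Finset.sum_congr rfl fun j _ => ?_
        ring
      rw [h2, hG]
      simp only
      rw [wavg_sub]
    rw [h1]
    exact abs_wavg_le (hκ0 k) (hκ1 k) fun κ => happ k hk κ
  have h3 := HH G Q μ hμ0 hμ1 G' hGb hGb' hGG
  -- the Poisson average of `G'`
  have h4 : ∀ q, ∑' k, poissonWeight (α * ((p : ℝ) - 1)) k * G' q k =
      α * ((p : ℝ) - 1) * edgeFun p (finMeasure w θ) r m (X q) := by
    intro q
    rw [edgeFun_finMeasure w θ hw0]
    have h5 : ∀ M : ℕ, G' q M = (M : ℝ) * ∑ k, w k * edgeInner p r m (X q) (θ k) := by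
      intro M
      simp only [hG', Finset.mul_sum]
      rw [Finset.sum_comm]
      have h6 : ∀ j : Fin M, ∑ κ : Fin M → K, (∏ i, w (κ i)) * edgeInner p r m (X q) (θ (κ j)) =
          ∑ k, w k * edgeInner p r m (X q) (θ k) := by
        intro j
        classical
        have h7 := Finset.prod_univ_sum (fun _ : Fin M => (Finset.univ : Finset K))
          (fun i k => w k * (if i = j then edgeInner p r m (X q) (θ k) else 1))
        rw [Fintype.piFinset_univ] at h7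
        have h8 : ∀ κ : Fin M → K, ∏ i, (w (κ i) *
            (if i = j then edgeInner p r m (X q) (θ (κ i)) else 1)) =
            (∏ i, w (κ i)) * edgeInner p r m (X q) (θ (κ j)) := by
          intro κ
          rw [Finset.prod_mul_distrib, Finset.prod_ite_eq' Finset.univ j]
          simp
        simp only [h8] at h7
        rw [← h7, ← Finset.mul_prod_erase Finset.univ _ (Finset.mem_univ j)]
        have h9 : ∏ i ∈ Finset.univ.erase j, ∑ k, (w k *
            (if i = j then edgeInner p r m (X q) (θ k) else 1)) = 1 := by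
          refine Finset.prod_eq_one fun i hi => ?_
          have : i ≠ j := Finset.ne_of_mem_erase hi
          simp [this, hw1]
        rw [h9, mul_one]
        simp
      rw [Finset.sum_congr rfl fun j _ => h6 j, Finset.sum_const, Finset.card_univ,
        Fintype.card_fin, nsmul_eq_mul, Finset.mul_sum]
    simp only [h5]
    exact Num.poisson_tsum_mul_const _ _
  rw [edgeG_sub_eq hN hp w hw0 hw1 θ Ψ hΨ H hα hθ]
  have h10 : α * ((p : ℝ) - 1) * ∑ q, μ q * edgeFun p (finMeasure w θ) r m (X q) =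
      ∑ q, μ q * ∑' k, poissonWeight (α * ((p : ℝ) - 1)) k * G' q k := by
    simp only [h4]
    rw [Finset.mul_sum]
    exact Finset.sum_congr rfl fun q _ => by ring
  rw [h10]
  exact h3

end Crest.Agent.R141.Trunc
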