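import Crest.Agent.R141.Asm1
import Crest.Agent.R141.Cavity4
import Crest.Agent.R141.Bridge36b
import Crest.Agent.R141.SysA3
import Crest.Agent.R141.F4c
import Crest.Agent.R141.AsmMag
import Crest.Agent.R141.AsmSite
import Crest.Agent.R141.Trunc

/-!
# Row 141, Part L, final assembly: `PartL` from `Sec23` (helper552)
-/

set_option autoImplicit false

open MeasureTheory Crest.ProbabilityR.Diluted Crest.Agent.R141.Pois Filter

namespace Crest.Agent.R141.Asm

open Crest.Agent.R141.Fact Crest.Agent.R141.KerS Crest.Agent.R141.RedT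

theorem EPhi_add_const (p : Par) {N : ℕ} (hN : 0 < N) (H : (Fin N → Bool) → ℝ) (c : ℝ) :
    EPhi p N (fun s => H s + c) = EPhi p N H + c := by
  have h1 := EPhi_add p N H (fun _ => c)
  have h2 : ∀ d, eE (prior p N) (A (PP p N H d) (fil p N) p.xs (fun _ => c) 0) = c := by
    intro d
    have h3 : A (PP p N H d) (fil p N) p.xs (fun _ => c) 0 = fun _ => c :=
      funext fun ω => A_const (PP_isProb p N H d) p.xs_expo.pos c 0 ω
    rw [h3]
    exact eE_const (prior_isProb p N) c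
  simp only [h2, Ed_const p hN] at h1
  linarith

/-- the pattern types -/
abbrev Pat (K K' : Type) (p k1 k2 : ℕ) : Type :=
  (Σ k : Fin k1, (Fin (k : ℕ) → K × Fin p) × K') ⊕ (Σ k : Fin k2, (Fin (k : ℕ) → K))

/-- the slots of a pattern -/
abbrev Slot {K K' : Type} {p k1 k2 : ℕ} : Pat K K' p k1 k2 → Type
  | Sum.inl a => Fin (a.1 : ℕ) × Fin (p - 1)
  | Sum.inr a => Fin (a.1 : ℕ) × Fin p

instance {K K' : Type} {p k1 k2 : ℕ} (a : Pat K K' p k1 k2) : Fintype (Slot a) := by
  cases a <;> (dsimp only [Slot]; infer_instance)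

instance {K K' : Type} {p k1 k2 : ℕ} (a : Pat K K' p k1 k2) : DecidableEq (Slot a) := by
  cases a <;> (dsimp only [Slot]; infer_instance)

/-- the function of a pattern -/
noncomputable def patW {K K' : Type} {p k1 k2 : ℕ} (θ : K → Inter p) (h : K' → ℝ) :
    (a : Pat K K' p k1 k2) → (Slot a → Bool) → ℝ
  | Sum.inl a => Br.siteW (h a.2.2) (fun j => swapInter (a.2.1 j).2 (θ (a.2.1 j).1))
  | Sum.inr a => fun σ => Real.exp (∑ j, θ (a.2 j) (fun m => σ (j, m)))

theorem patW_pos {K K' : Type} {p k1 k2 : ℕ} (θ : K → Inter p) (h : K' → ℝ)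
    (a : Pat K K' p k1 k2) (σ : Slot a → Bool) : 0 < patW θ h a σ := by
  cases a with
  | inl a =>
    simp only [patW, Br.siteW]
    have := Finset.sum_pos (s := (Finset.univ : Finset Bool)) (f := fun ε : Bool =>
      Real.exp (h a.2.2 * spinVal ε + ∑ j : Fin (a.1 : ℕ),
        swapInter (a.2.1 j).2 (θ (a.2.1 j).1)
          (fun ℓ => if h : ℓ.val < p - 1 then σ (j, ⟨ℓ.val, h⟩) else ε)))
      (fun _ _ => Real.exp_pos _) Finset.univ_nonempty
    linarith
  | inr a => exact Real.exp_pos _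

set_option maxHeartbeats 1600000 in
/-- **PART L** from the output of sections 2-3. -/
theorem partL_of_sec23 (h23 : Sec23) {p : ℕ} (hp : 0 < p) {α : ℝ} (hα : 0 ≤ α) : PartL p α := by
  classical
  intro K K' _ _ w θ w' h hw0 hw1 hw0' hw1' c hfreq ε hε
  have hw : ∀ k, 0 ≤ w k := fun k => (hw0 k).le
  have hw' : ∀ k, 0 ≤ w' k := fun k => (hw0' k).le
  obtain ⟨B, hB0, hθ⟩ : ∃ B : ℝ, 0 ≤ B ∧ ∀ k s, |θ k s| ≤ B := by
    refine ⟨∑ k, ‖θ k‖, Finset.sum_nonneg fun k _ => norm_nonneg _, fun k s => ?_⟩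
    have h1 : ‖θ k s‖ ≤ ‖θ k‖ := norm_le_pi_norm (θ k) s
    rw [Real.norm_eq_abs] at h1
    exact h1.trans (Finset.single_le_sum (f := fun k => ‖θ k‖) (fun k _ => norm_nonneg _)
      (Finset.mem_univ k))
  obtain ⟨Bh, hBh0, hhb⟩ : ∃ Bh : ℝ, 0 ≤ Bh ∧ ∀ k, |h k| ≤ Bh := by
    refine ⟨∑ k, |h k|, Finset.sum_nonneg fun k _ => abs_nonneg _, fun k => ?_⟩
    exact Finset.single_le_sum (f := fun k => |h k|) (fun k _ => abs_nonneg _)
      (Finset.mem_univ k)
  obtain ⟨k1, δ1, hδ1, hsite0⟩ := Trunc.site_side (p := p) hα hp hB0 hBh0 (ε := ε / 8)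
    (by positivity)
  have hsite := hsite0 K K' w θ w' h hw hw1 hw' hw1' hθ hhb
  obtain ⟨k2, δ2, hδ2, hedge0⟩ := Trunc.edge_side (p := p) hα hp hB0 (ε := ε / 8) (by positivity)
  have hedge := hedge0 K w θ hw hw1 hθ
  -- patterns
  set c0 : ℝ := ∑ a : Pat K K' p k1 k2, ∑ σ : Slot a → Bool, |Real.log (patW θ h a σ)| with hc0
  have hc : ∀ (a : Pat K K' p k1 k2) (σ : Slot a → Bool), |Real.log (patW θ h a σ)| ≤ c0 := by
    intro a σ
    have h1 : |Real.log (patW θ h a σ)| ≤ ∑ σ : Slot a → Bool, |Real.log (patW θ h a σ)| :=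
      Finset.single_le_sum (f := fun σ : Slot a → Bool => |Real.log (patW θ h a σ)|)
        (fun _ _ => abs_nonneg _) (Finset.mem_univ σ)
    refine h1.trans ?_
    exact Finset.single_le_sum
      (f := fun a : Pat K K' p k1 k2 => ∑ σ : Slot a → Bool, |Real.log (patW θ h a σ)|)
      (fun _ _ => Finset.sum_nonneg fun _ _ => abs_nonneg _) (Finset.mem_univ a)
  set δ0 : ℝ := min δ1 δ2 / 2 with hδ0
  have hδ0pos : 0 < δ0 := by
    have := lt_min hδ1 hδ2
    positivity
  obtain ⟨J, hJ, hJc⟩ : ∃ J : ℕ, 1 ≤ J ∧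
      15 * c0 ^ 2 * Real.exp (4 * c0) * (2 / ((J : ℝ) + 1)) ≤ δ0 := by
    obtain ⟨J, hJ⟩ := exists_nat_gt (15 * c0 ^ 2 * Real.exp (4 * c0) * 2 / δ0)
    refine ⟨max J 1, le_max_right _ _, ?_⟩
    rw [div_lt_iff₀ hδ0pos] at hJ
    have h1 : (J : ℝ) ≤ ((max J 1 : ℕ) : ℝ) := by exact_mod_cast le_max_left J 1
    have h2 : (0 : ℝ) < ((max J 1 : ℕ) : ℝ) + 1 := by positivity
    rw [← mul_div_assoc, div_le_iff₀ h2]
    nlinarith
  obtain ⟨q, hq, N0, hN0⟩ := sys_compare h23 (A₀ := Pat K K' p k1 k2) Slot (patW θ h)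
    (patW_pos θ h) c0 hc J hJ (ε := δ0) (ε' := ε / 16) hδ0pos (by positivity) hJc
  -- cavity
  have hr : Tendsto (fun N : ℕ => (q.nc * q.T : ℝ) / ((N : ℝ) + 1)) atTop (nhds 0) :=
    tendsto_const_nhds.div_atTop (tendsto_natCast_atTop_atTop.atTop_add tendsto_const_nhds)
  have A1 : ∀ N : ℕ, 1 ≤ N → ∀ H : (Fin N → Bool) → ℝ,
      EPhi q N H ≤ Cav.logZ N H + (ε / 16 * N + q.τ * Fintype.card (Stp q)) := by
    intro N hN H
    have hpt : ∀ d, Phi q N H d ≤ Cav.logZ N H + (ε / 16 * N + q.τ * Fintype.card (Stp q)) := by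
      intro d
      have h1 := (abs_le.1 (SysF.Phi_F2 q N H d)).2
      have h2 : (N : ℝ) * (q.nb * (q.Q : ℝ)⁻¹) ≤ ε / 16 * N := by
        rw [← div_eq_mul_inv, mul_comm]
        exact mul_le_mul_of_nonneg_right hq (Nat.cast_nonneg _)
      have h3 : Cav.logZ N H = Real.log (∑ s, Real.exp (H s)) := rfl
      rw [h3]
      linarith
    calc EPhi q N H ≤ Ed q N (fun _ => Cav.logZ N H + (ε / 16 * N + q.τ * Fintype.card (Stp q))) :=
          Ed_mono q N hpt
      _ = _ := Ed_const q hN _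
  have A2 : ∀ N : ℕ, 1 ≤ N → ∀ H H' : (Fin N → Bool) → ℝ, ∀ a : ℝ, (∀ s, |H s - H' s| ≤ a) →
      |EPhi q N H - EPhi q N H'| ≤ a := by
    intro N hN H H' a ha
    exact abs_EPhi_sub_le q hN H H' ha
  have A3 : ∀ N : ℕ, 1 ≤ N → ∀ H : (Fin (N + 1) → Bool) → ℝ, EPhi q N (Cav.red H) ≤
      EPhi q (N + 1) H + (ε / 16 + (q.nc * q.T : ℝ) / ((N : ℝ) + 1)) := by
    intro N hN H
    have h1 := (abs_le.1 (F4.EPhi_succ q (N := N) hN H)).1
    have h2 : F4.Hred N H = Cav.red H := rfl
    rw [h2] at h1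
    linarith
  obtain ⟨N, hN, H, hNH⟩ := Cav.cavity_pressure hα hp hw hw1 hw' hw1'
    (fun N => EPhi q N) 1 (by positivity) hr A1 A2 A3 hfreq (max N0 1)
  have hNpos : 0 < N := lt_of_lt_of_le Nat.one_pos ((le_max_right _ _).trans hN)
  have hNe : Nonempty (Fin N) := ⟨⟨0, hNpos⟩⟩
  obtain ⟨t, htW, hcmp⟩ := hN0 N ((le_max_left _ _).trans hN) H
  -- the trials
  set Kk : DD q N → ℕ → Om q N → Om q N → ℝ := fun d m =>
    kerS (PP q N H d) ((fil q N).F (t d (J - m))) with hKk
  have hMk : ∀ d m, IsMarkov (Kk d m) := fun d m => isMarkov_kerS (PP_isProb q N H d) _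
  have hmag : ∀ d, ∀ i w, -1 < Br.magK (Kk d) (sgN q N) i w ∧ Br.magK (Kk d) (sgN q N) i w < 1 := by
    intro d i w
    exact hmag_sys q N (PP q N H d) (PP_isProb q N H d) (fun m => (fil q N).F (t d (J - m)))
      (htW d).lt_L rfl i w
  have htrial : ∀ z : DD q N × Om q N, ∃ X : (Fin (J + 1) → unitInterval) → ℝ, Measurable X ∧
      (∀ (p k : ℕ) (θs : Fin k → Inter p) (h : ℝ),
        siteInner p k J (fun d : Fin J => Br.mSk J d) X θs h =
          (Fintype.card (Fin k × Fin (p - 1) → Fin N) : ℝ)⁻¹ *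
            ∑ site : Fin k × Fin (p - 1) → Fin N,
            Br.thInd (Kk z.1) (sgN q N) (Br.fExp J (Br.mSk J)) (Br.siteW h θs) site (J + 1)
              (fun _ => z.2)) ∧
      (∀ (p : ℕ) (θ : Inter p),
        edgeInner p J (fun d : Fin J => Br.mSk J d) X θ =
          (Fintype.card (Fin p → Fin N) : ℝ)⁻¹ * ∑ site : Fin p → Fin N,
            Br.thInd (Kk z.1) (sgN q N) (Br.fExp J (Br.mSk J)) (fun σ => Real.exp (θ σ)) site
              (J + 1) (fun _ => z.2)) :=
    fun z => exists_trial_inner J hJ (Kk z.1) (fun n => (hMk z.1 n).nonneg)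
      (fun n => (hMk z.1 n).sum_one) (sgN q N) (hmag z.1) (Br.mSk J) z.2
  choose X hXm hXs hXe using htrial
  set mu : DD q N × Om q N → ℝ := fun z => dw q N z.1 * PP q N H z.1 z.2 with hmu
  have hmu0 : ∀ z, 0 ≤ mu z := fun z =>
    mul_nonneg (dw_nonneg q N z.1) ((PP_isProb q N H z.1).pos z.2).le
  have hmu1 : ∑ z, mu z = 1 := by
    rw [Fintype.sum_prod_type]
    simp only [hmu, ← Finset.mul_sum, (PP_isProb q N H _).sum, mul_one]
    exact dw_sum q hNpos
  have hΨL : LipG 1 (EPhi q N) :=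
    Cav.PLip.lipG fun H H' a ha => abs_EPhi_sub_le q hNpos H H' ha
  have hm0 : ∀ d : Fin J, 0 < Br.mSk J d := fun d => Br.mSk_pos J d
  have hEd : ∀ f : DD q N → Om q N → ℝ, ∑ z, mu z * f z.1 z.2 =
      Ed q N (fun d => ∑ ω, PP q N H d ω * f d ω) := by
    intro f
    rw [Fintype.sum_prod_type]
    unfold Ed
    refine Finset.sum_congr rfl fun d _ => ?_
    rw [Finset.mul_sum]
    refine Finset.sum_congr rfl fun ω _ => ?_
    simp only [hmu]
    ring
  have hle1 : 2 * δ0 ≤ δ1 := by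
    have := min_le_left δ1 δ2
    rw [hδ0]; linarith
  have hle2 : 2 * δ0 ≤ δ2 := by
    have := min_le_right δ1 δ2
    rw [hδ0]; linarith
  -- site side
  have hS := hsite N hNpos (EPhi q N) hΨL H (DD q N × Om q N) mu hmu0 hmu1 J
    (fun d : Fin J => Br.mSk J d) hm0 X hXm (by
      intro k hk κ η
      set a : Pat K K' p k1 k2 := Sum.inl ⟨⟨k, hk⟩, κ, η⟩ with ha
      have h1 := hcmp a
      have e1 : (((N : ℝ)⁻¹) ^ p) ^ k * ∑ Is : Fin k → Fin p → Fin N,
              (EPhi q N (H + Cav.cavU (h η) (fun j => θ (κ j).1) (fun j => (κ j).2) Is) -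
                EPhi q N H - Real.log 2) =
          avg (fun i : Slot a → Fin N =>
            EPhi q N (fun s => H s + Real.log (patW θ h a (fun l => s (i l)))) - EPhi q N H) := by
        have h2 := avg_slots hNpos (fun j => (κ j).2) (fun site : Fin k × Fin (p - 1) → Fin N =>
          EPhi q N (fun s => H s + Real.log (Br.siteW (h η)
            (fun j => swapInter (κ j).2 (θ (κ j).1)) (fun l => s (site l)))) - EPhi q N H)
        unfold avg
        refine Eq.trans ?_ h2
        congr 1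
        refine Finset.sum_congr rfl fun Is _ => ?_
        have h3 : (H + Cav.cavU (h η) (fun j => θ (κ j).1) (fun j => (κ j).2) Is :
            (Fin N → Bool) → ℝ) = fun s => (H s + Real.log (Br.siteW (h η)
            (fun j => swapInter (κ j).2 (θ (κ j).1))
            (fun l => s (Is l.1 (slotMap (κ l.1).2 l.2))))) + Real.log 2 := by
          funext s
          rw [Pi.add_apply, cavU_eq_siteW]
          ring
        rw [h3, EPhi_add_const q hNpos (fun s => H s + Real.log (Br.siteW (h η)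
            (fun j => swapInter (κ j).2 (θ (κ j).1))
            (fun l => s (Is l.1 (slotMap (κ l.1).2 l.2)))))]
        ring
      have e2 : ∑ z, mu z * siteInner p k J (fun d : Fin J => Br.mSk J d) (X z)
              (fun j => swapInter (κ j).2 (θ (κ j).1)) (h η) =
          Ed q N (fun d => ∑ ω, PP q N H d ω * avg (fun i : Slot a → Fin N =>
            Br.thInd (fun m => kerS (PP q N H d) ((fil q N).F (t d (J - m)))) (sgN q N)
              (Br.fExp J (Br.mSk J)) (patW θ h a) i (J + 1) (fun _ => ω))) := by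
        rw [← hEd]
        refine Finset.sum_congr rfl fun z _ => ?_
        rw [hXs z]
        rfl
      rw [e1, e2]
      exact h1.trans hle1)
  -- edge side
  have hE := hedge N hNpos (EPhi q N) hΨL H (DD q N × Om q N) mu hmu0 hmu1 J
    (fun d : Fin J => Br.mSk J d) hm0 X hXm (by
      intro k hk κ
      set a : Pat K K' p k1 k2 := Sum.inr ⟨⟨k, hk⟩, κ⟩ with ha
      have h1 := hcmp a
      have e1 : (((N : ℝ)⁻¹) ^ p) ^ k * ∑ Is : Fin k → Fin p → Fin N,
              (EPhi q N (H + Cav.edgeU (fun j => θ (κ j)) Is) - EPhi q N H) =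
          avg (fun i : Slot a → Fin N =>
            EPhi q N (fun s => H s + Real.log (patW θ h a (fun l => s (i l)))) - EPhi q N H) := by
        have h2 := avg_slots_edge (fun site : Fin k × Fin p → Fin N =>
          EPhi q N (fun s => H s + Real.log (Real.exp (∑ j, θ (κ j) (fun m => s (site (j, m)))))) -
            EPhi q N H)
        unfold avg
        refine Eq.trans ?_ h2
        congr 1
        refine Finset.sum_congr rfl fun Is _ => ?_
        have h3 : (H + Cav.edgeU (fun j => θ (κ j)) Is :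
            (Fin N → Bool) → ℝ) = fun s => H s +
              Real.log (Real.exp (∑ j, θ (κ j) (fun m => s (Is j m)))) := by
          funext s
          rw [Pi.add_apply, Real.log_exp]
          rfl
        rw [h3]
      have e2 : ∑ z, mu z * ∑ j, edgeInner p J (fun d : Fin J => Br.mSk J d) (X z) (θ (κ j)) =
          Ed q N (fun d => ∑ ω, PP q N H d ω * avg (fun i : Slot a → Fin N =>
            Br.thInd (fun m => kerS (PP q N H d) ((fil q N).F (t d (J - m)))) (sgN q N)
              (Br.fExp J (Br.mSk J)) (patW θ h a) i (J + 1) (fun _ => ω))) := by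
        rw [← hEd]
        refine Finset.sum_congr rfl fun z _ => ?_
        congr 1
        have h4 := thInd_edges (I := Fin N) J hJ (Kk z.1) (fun n => (hMk z.1 n).nonneg)
          (fun n => (hMk z.1 n).sum_one) (sgN q N) (hmag z.1) (Br.mSk J)
          (fun j => θ (κ j)) z.2
        refine Eq.trans ?_ h4.symm
        exact Finset.sum_congr rfl fun j _ => hXe z p (θ (κ j))
      rw [e1, e2]
      exact h1.trans hle2)
  -- conclusion
  set T : DD q N × Om q N → ℝ := fun z => Real.log 2 +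
    siteFun p (α * p) (symMeasure w θ) (finMeasure w' h) J (fun d : Fin J => Br.mSk J d) (X z) -
    α * ((p : ℝ) - 1) * edgeFun p (finMeasure w θ) J (fun d : Fin J => Br.mSk J d) (X z) with hT
  have hTsum : ∑ z, mu z * T z ≤ c + ε := by
    have h1 : ∑ z, mu z * T z = Real.log 2 +
        ∑ z, mu z * siteFun p (α * p) (symMeasure w θ) (finMeasure w' h) J
          (fun d : Fin J => Br.mSk J d) (X z) -
        α * ((p : ℝ) - 1) * ∑ z, mu z * edgeFun p (finMeasure w θ) J
          (fun d : Fin J => Br.mSk J d) (X z) := by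
      have h2 : Real.log 2 = ∑ z, mu z * Real.log 2 := by rw [← Finset.sum_mul, hmu1, one_mul]
      conv_rhs => rw [h2]
      rw [Finset.mul_sum, ← Finset.sum_add_distrib, ← Finset.sum_sub_distrib]
      refine Finset.sum_congr rfl fun z _ => ?_
      simp only [hT]
      ring
    rw [h1]
    have h3 := abs_le.1 hS
    have h4 := abs_le.1 hE
    linarith [h3.1, h3.2, h4.1, h4.2]
  obtain ⟨z, hz⟩ := Num.exists_le_of_weighted_sum_le mu T hmu0 hmu1 hTsum
  exact ⟨J, fun d : Fin J => Br.mSk J d, X z, Br.admissible_mSk J, hXm z, hz⟩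

end Crest.Agent.R141.Asm
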