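import Crest.Agent.R141.Pois
import Crest.Agent.R141.Red0

/-!
# Row 141, section 4: the abstract cavity step, part 0 (helper552)

Hamiltonians, reduction of the last spin, combinatorics of the index tuples.
-/

set_option autoImplicit false

open Crest.ProbabilityR.Diluted Crest.Agent.R141.Pois

namespace Crest.Agent.R141.Cav

/-- Hamiltonians on `N` spins. -/
abbrev Ham (N : ℕ) : Type := (Fin N → Bool) → ℝ

/-- `log Σ_s exp (H s)`. -/
noncomputable def logZ (N : ℕ) (H : Ham N) : ℝ := Real.log (∑ s, Real.exp (H s))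

/-- Sum out the last spin. -/
noncomputable def red {N : ℕ} (H : Ham (N + 1)) : Ham N :=
  fun s => Real.log (∑ e : Bool, Real.exp (H (Fin.snoc s e)))

/-- The field Hamiltonian. -/
noncomputable def fieldH {N : ℕ} (hs : Fin N → ℝ) : Ham N := fun s => ∑ i, hs i * spinVal (s i)

/-- The Hamiltonian of one edge. -/
def edgeH {p N : ℕ} (θ : Inter p) (I : Fin p → Fin N) : Ham N := fun s => θ (fun l => s (I l))

/-- The field on the last site. -/
noncomputable def siteF (N : ℕ) (x : ℝ) : Ham (N + 1) := fun s => x * spinVal (s (Fin.last N))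

/-- Hamiltonians on `N` spins as Hamiltonians on `N+1` spins. -/
def lift (N : ℕ) : Ham N →+ Ham (N + 1) where
  toFun H := fun s => H (fun i => s i.castSucc)
  map_zero' := rfl
  map_add' _ _ := rfl

theorem lift_apply {N : ℕ} (H : Ham N) (s : Fin (N + 1) → Bool) :
    lift N H s = H (fun i => s i.castSucc) := rfl

/-- The edge on `N+1` spins with the slots in `A` at the last site and the others at the sites
`I m < N`. -/
def cavA {p N : ℕ} (θ : Inter p) (A : Finset (Fin p)) (I : Fin p → Fin N) : Ham (N + 1) :=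
  fun s => θ (fun m => if m ∈ A then s (Fin.last N) else s (I m).castSucc)

theorem norm_le_of_forall {N : ℕ} {H : Ham N} {a : ℝ} (ha : 0 ≤ a) (h : ∀ s, |H s| ≤ a) :
    ‖H‖ ≤ a := by
  rw [pi_norm_le_iff_of_nonneg ha]
  intro s
  rw [Real.norm_eq_abs]
  exact h s

theorem abs_le_norm {N : ℕ} (H : Ham N) (s : Fin N → Bool) : |H s| ≤ ‖H‖ := by
  rw [← Real.norm_eq_abs]
  exact norm_le_pi_norm H s

theorem log_sum_exp_le {ι : Type} [Fintype ι] [Nonempty ι] {f g : ι → ℝ} {a : ℝ}
    (h : ∀ i, f i ≤ g i + a) :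
    Real.log (∑ i, Real.exp (f i)) ≤ Real.log (∑ i, Real.exp (g i)) + a := by
  have h1 : 0 < ∑ i, Real.exp (f i) := Finset.sum_pos (fun i _ => Real.exp_pos _)
    Finset.univ_nonempty
  have h2 : 0 < ∑ i, Real.exp (g i) := Finset.sum_pos (fun i _ => Real.exp_pos _)
    Finset.univ_nonempty
  have h3 : ∑ i, Real.exp (f i) ≤ (∑ i, Real.exp (g i)) * Real.exp a := by
    rw [Finset.sum_mul]
    refine Finset.sum_le_sum fun i _ => ?_
    rw [← Real.exp_add]
    exact Real.exp_le_exp.2 (h i)
  calc Real.log (∑ i, Real.exp (f i)) ≤ Real.log ((∑ i, Real.exp (g i)) * Real.exp a) :=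
        Real.log_le_log h1 h3
    _ = Real.log (∑ i, Real.exp (g i)) + a := by
        rw [Real.log_mul h2.ne' (Real.exp_pos a).ne', Real.log_exp]

theorem abs_log_sum_exp_sub_le {ι : Type} [Fintype ι] [Nonempty ι] {f g : ι → ℝ} {a : ℝ}
    (h : ∀ i, |f i - g i| ≤ a) :
    |Real.log (∑ i, Real.exp (f i)) - Real.log (∑ i, Real.exp (g i))| ≤ a := by
  rw [abs_le]
  constructor
  · have := log_sum_exp_le (f := g) (g := f) (a := a) fun i => by
      have := abs_le.1 (h i); linarith [this.1, this.2]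
    linarith
  · have := log_sum_exp_le (f := f) (g := g) (a := a) fun i => by
      have := abs_le.1 (h i); linarith [this.1, this.2]
    linarith

theorem logZ_lip (N : ℕ) : LipG 1 (logZ N) := by
  intro H H'
  rw [one_mul]
  exact abs_log_sum_exp_sub_le fun s => abs_le_norm (H - H') s

theorem norm_red_sub_le {N : ℕ} (H H' : Ham (N + 1)) : ‖red H - red H'‖ ≤ ‖H - H'‖ := by
  refine norm_le_of_forall (norm_nonneg _) fun s => ?_
  exact abs_log_sum_exp_sub_le fun e => abs_le_norm (H - H') _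

/-- The Lipschitz hypothesis in pointwise form. -/
def PLip {N : ℕ} (Ψ : Ham N → ℝ) : Prop :=
  ∀ H H' : Ham N, ∀ a : ℝ, (∀ s, |H s - H' s| ≤ a) → |Ψ H - Ψ H'| ≤ a

theorem PLip.lipG {N : ℕ} {Ψ : Ham N → ℝ} (h : PLip Ψ) : LipG 1 Ψ := by
  intro H H'
  rw [one_mul]
  exact h H H' _ fun s => abs_le_norm (H - H') s

theorem lip_comp_red {N : ℕ} {Ψ : Ham N → ℝ} (h : LipG 1 Ψ) :
    LipG 1 (fun H : Ham (N + 1) => Ψ (red H)) := by
  intro H H'
  refine (h _ _).trans ?_
  rw [one_mul, one_mul]
  exact norm_red_sub_le H H'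

theorem norm_lift_sub {N : ℕ} (H H' : Ham N) : ‖lift N H - lift N H'‖ ≤ ‖H - H'‖ := by
  refine norm_le_of_forall (norm_nonneg _) fun s => ?_
  exact abs_le_norm (H - H') _

/-! ### Index tuples -/

theorem sum_tuple_prod {p N : ℕ} (hN : 0 < N) (g : Fin p → Fin (N + 1) → ℝ) :
    ∑ I : Fin p → Fin (N + 1), ∏ l, g l (I l) =
      ∑ A : Finset (Fin p), ((N : ℝ)⁻¹) ^ A.card *
        ∑ I : Fin p → Fin N, ∏ l, g l (if l ∈ A then Fin.last N else (I l).castSucc) := by
  have hN' : (N : ℝ) ≠ 0 := by positivity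
  have h1 : ∑ I : Fin p → Fin (N + 1), ∏ l, g l (I l) = ∏ l, ∑ i, g l i := by
    rw [Finset.prod_univ_sum]
    simp [Fintype.piFinset_univ]
  have h2 : ∀ A : Finset (Fin p), ∑ I : Fin p → Fin N,
      ∏ l, g l (if l ∈ A then Fin.last N else (I l).castSucc) =
      ∏ l, ∑ i : Fin N, g l (if l ∈ A then Fin.last N else i.castSucc) := by
    intro A
    rw [Finset.prod_univ_sum]
    simp [Fintype.piFinset_univ]
  rw [h1]
  simp only [h2]
  have h3 : ∀ l, ∑ i : Fin (N + 1), g l i = g l (Fin.last N) + ∑ i : Fin N, g l i.castSucc := by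
    intro l
    rw [Fin.sum_univ_castSucc, add_comm]
  simp only [h3]
  rw [Finset.prod_add, ← Finset.powerset_univ]
  refine Finset.sum_congr rfl fun A _ => ?_
  have h4 : ∏ l, ∑ i : Fin N, g l (if l ∈ A then Fin.last N else i.castSucc) =
      (∏ l ∈ A, ∑ i : Fin N, g l (if l ∈ A then Fin.last N else i.castSucc)) *
      ∏ l ∈ Finset.univ \ A, ∑ i : Fin N, g l (if l ∈ A then Fin.last N else i.castSucc) := by
    rw [mul_comm, Finset.prod_sdiff (Finset.subset_univ A)]
  rw [h4]
  have h5 : ∏ l ∈ A, ∑ i : Fin N, g l (if l ∈ A then Fin.last N else i.castSucc) =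
      (N : ℝ) ^ A.card * ∏ l ∈ A, g l (Fin.last N) := by
    rw [← Finset.prod_const, ← Finset.prod_mul_distrib]
    refine Finset.prod_congr rfl fun l hl => ?_
    simp [hl]
  have h6 : ∏ l ∈ Finset.univ \ A, ∑ i : Fin N, g l (if l ∈ A then Fin.last N else i.castSucc) =
      ∏ l ∈ Finset.univ \ A, ∑ i : Fin N, g l i.castSucc := by
    refine Finset.prod_congr rfl fun l hl => ?_
    have : l ∉ A := (Finset.mem_sdiff.1 hl).2
    simp [this]
  rw [h5, h6, ← mul_assoc, ← mul_assoc, ← mul_pow, inv_mul_cancel₀ hN', one_pow, one_mul]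

/-- Sum over tuples in `[N+1]^p` in redundant coordinates. -/
theorem sum_tuple {p N : ℕ} (hN : 0 < N) (f : (Fin p → Fin (N + 1)) → ℝ) :
    ∑ I : Fin p → Fin (N + 1), f I =
      ∑ A : Finset (Fin p), ((N : ℝ)⁻¹) ^ A.card *
        ∑ I : Fin p → Fin N, f (fun l => if l ∈ A then Fin.last N else (I l).castSucc) := by
  have key : ∀ I : Fin p → Fin (N + 1), f I =
      ∑ J : Fin p → Fin (N + 1), f J * ∏ l, (if I l = J l then (1 : ℝ) else 0) := by
    intro I
    rw [Finset.sum_eq_single I]
    · simp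
    · intro J _ hJ
      have : ∃ l, ¬ (I l = J l) := by
        by_contra hcon
        push Not at hcon
        exact hJ (funext fun l => (hcon l).symm)
      obtain ⟨l, hl⟩ := this
      rw [Finset.prod_eq_zero (Finset.mem_univ l) (by simp [hl]), mul_zero]
    · intro h
      exact absurd (Finset.mem_univ I) h
  calc ∑ I : Fin p → Fin (N + 1), f I
      = ∑ I : Fin p → Fin (N + 1), ∑ J : Fin p → Fin (N + 1),
          f J * ∏ l, (if I l = J l then (1 : ℝ) else 0) :=
        Finset.sum_congr rfl fun I _ => key I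
    _ = ∑ J : Fin p → Fin (N + 1), f J * ∑ I : Fin p → Fin (N + 1),
          ∏ l, (if I l = J l then (1 : ℝ) else 0) := by
        rw [Finset.sum_comm]
        simp only [Finset.mul_sum]
    _ = ∑ J : Fin p → Fin (N + 1), f J * ∑ A : Finset (Fin p), ((N : ℝ)⁻¹) ^ A.card *
          ∑ I : Fin p → Fin N,
            ∏ l, (if (if l ∈ A then Fin.last N else (I l).castSucc) = J l then (1 : ℝ) else 0) := by
        refine Finset.sum_congr rfl fun J _ => ?_
        rw [sum_tuple_prod hN fun l i => if i = J l then (1 : ℝ) else 0]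
    _ = ∑ A : Finset (Fin p), ((N : ℝ)⁻¹) ^ A.card * ∑ I : Fin p → Fin N,
          ∑ J : Fin p → Fin (N + 1), f J *
            ∏ l, (if (if l ∈ A then Fin.last N else (I l).castSucc) = J l
              then (1 : ℝ) else 0) := by
        simp only [Finset.mul_sum]
        rw [Finset.sum_comm]
        refine Finset.sum_congr rfl fun A _ => ?_
        rw [Finset.sum_comm]
        refine Finset.sum_congr rfl fun I _ => Finset.sum_congr rfl fun J _ => ?_
        ring
    _ = _ := by
        refine Finset.sum_congr rfl fun A _ => ?_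
        congr 1
        refine Finset.sum_congr rfl fun I _ => ?_
        exact (key fun l => if l ∈ A then Fin.last N else (I l).castSucc).symm

end Crest.Agent.R141.Cav
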