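import Crest.Agent.R141.Cavity0

/-!
# Row 141, section 4: the abstract cavity step, part 1 (helper552)

Edge operators, their splitting, and the one-step inequality.
-/

set_option autoImplicit false

open Crest.ProbabilityR.Diluted Crest.Agent.R141.Pois

namespace Crest.Agent.R141.Cav

variable {p : ℕ} {K K' : Type} [Fintype K] [Fintype K']

/-- weights of the edges on `N` spins -/
noncomputable def ve (p N : ℕ) (w : K → ℝ) : K × (Fin p → Fin N) → ℝ :=
  fun q => w q.1 * ((N : ℝ)⁻¹) ^ p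

/-- The operator "add one random edge" on `N` spins. -/
noncomputable def KE (N : ℕ) (w : K → ℝ) (θ : K → Inter p) : Module.End ℝ (Ham N → ℝ) :=
  Kop (ve p N w) (fun q => edgeH (θ q.1) q.2)

/-- The operator "add one random edge with exactly the slots of `A` at the last site". -/
noncomputable def KA (N : ℕ) (w : K → ℝ) (θ : K → Inter p) (A : Finset (Fin p)) :
    Module.End ℝ (Ham (N + 1) → ℝ) :=
  Kop (ve p N w) (fun q => cavA (θ q.1) A q.2)

/-- The operator "add one random edge with one uniformly chosen slot at the last site". -/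
noncomputable def KO (N : ℕ) (w : K → ℝ) (θ : K → Inter p) :
    Module.End ℝ (Ham (N + 1) → ℝ) :=
  Kop (fun q : K × Fin p × (Fin p → Fin N) => w q.1 * (p : ℝ)⁻¹ * ((N : ℝ)⁻¹) ^ p)
    (fun q => cavA (θ q.1) {q.2.1} q.2.2)

/-- The coefficient of the slot set of cardinality `j`. -/
noncomputable def cA (p N j : ℕ) : ℝ := (N : ℝ) ^ p * ((N : ℝ)⁻¹) ^ j * ((N + 1 : ℝ)⁻¹) ^ p

theorem KE_succ {N : ℕ} (hN : 0 < N) (w : K → ℝ) (θ : K → Inter p) :
    KE (N + 1) w θ = ∑ A : Finset (Fin p), cA p N A.card • KA N w θ A := by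
  have hN' : (N : ℝ) ≠ 0 := by positivity
  refine LinearMap.ext fun G => ?_
  funext e
  rw [LinearMap.sum_apply, Finset.sum_apply]
  simp only [LinearMap.smul_apply, Pi.smul_apply, smul_eq_mul, KE, KA, Kop_apply, ve]
  rw [Fintype.sum_prod_type]
  simp only [Fintype.sum_prod_type]
  have h1 : ∀ k : K, ∑ I : Fin p → Fin (N + 1), w k * (((N + 1 : ℕ) : ℝ)⁻¹) ^ p *
      G (e + edgeH (θ k) I) = ∑ A : Finset (Fin p), cA p N A.card *
        ∑ I : Fin p → Fin N, w k * ((N : ℝ)⁻¹) ^ p * G (e + cavA (θ k) A I) := by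
    intro k
    rw [← Finset.mul_sum, sum_tuple hN, Finset.mul_sum]
    refine Finset.sum_congr rfl fun A _ => ?_
    rw [← Finset.mul_sum]
    have h2 : ∀ I : Fin p → Fin N,
        edgeH (θ k) (fun l => if l ∈ A then Fin.last N else (I l).castSucc) =
          cavA (θ k) A I := by
      intro I
      funext s
      simp only [edgeH, cavA, apply_ite s]
    simp only [h2, cA]
    have h3 : (N : ℝ) ^ p * ((N : ℝ)⁻¹) ^ p = 1 := by
      rw [← mul_pow, mul_inv_cancel₀ hN', one_pow]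
    push_cast
    calc w k * ((N + 1 : ℝ)⁻¹) ^ p * (((N : ℝ)⁻¹) ^ A.card *
          ∑ I : Fin p → Fin N, G (e + cavA (θ k) A I))
        = ((N : ℝ) ^ p * ((N : ℝ)⁻¹) ^ p) * (w k * ((N + 1 : ℝ)⁻¹) ^ p * (((N : ℝ)⁻¹) ^ A.card *
          ∑ I : Fin p → Fin N, G (e + cavA (θ k) A I))) := by rw [h3, one_mul]
      _ = _ := by ring
  rw [Finset.sum_congr rfl fun k _ => h1 k, Finset.sum_comm]
  exact Finset.sum_congr rfl fun A _ => by rw [Finset.mul_sum]

theorem KO_eq {N : ℕ} (hp : 0 < p) (w : K → ℝ) (θ : K → Inter p) :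
    (p : ℝ) • KO N w θ = ∑ l : Fin p, KA N w θ {l} := by
  have hp' : (p : ℝ) ≠ 0 := by positivity
  refine LinearMap.ext fun G => ?_
  funext e
  rw [LinearMap.sum_apply, Finset.sum_apply]
  simp only [LinearMap.smul_apply, Pi.smul_apply, smul_eq_mul, KO, KA, Kop_apply, ve]
  simp only [Fintype.sum_prod_type]
  rw [Finset.mul_sum]
  rw [Finset.sum_comm]
  refine Finset.sum_congr rfl fun k _ => ?_
  rw [Finset.mul_sum]
  refine Finset.sum_congr rfl fun l _ => ?_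
  rw [Finset.mul_sum]
  refine Finset.sum_congr rfl fun I _ => ?_
  field_simp

theorem sum_ve {N : ℕ} (hN : 0 < N) {w : K → ℝ} (hw1 : ∑ k, w k = 1) :
    ∑ q : K × (Fin p → Fin N), ve p N w q = 1 := by
  have hN' : (N : ℝ) ≠ 0 := by positivity
  rw [Fintype.sum_prod_type]
  simp only [ve, Finset.sum_const, Finset.card_univ, Fintype.card_fun, Fintype.card_fin,
    nsmul_eq_mul]
  push_cast
  have : ∀ k, (N : ℝ) ^ p * (w k * ((N : ℝ)⁻¹) ^ p) = w k := by
    intro k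
    rw [mul_left_comm, ← mul_pow, mul_inv_cancel₀ hN', one_pow, mul_one]
  simp only [this, hw1]

theorem ve_nonneg {N : ℕ} {w : K → ℝ} (hw : ∀ k, 0 ≤ w k) (q : K × (Fin p → Fin N)) :
    0 ≤ ve p N w q := mul_nonneg (hw _) (by positivity)

theorem sum_mul_norm_le {ι : Type} [Fintype ι] {E : Type} [SeminormedAddCommGroup E]
    {v : ι → ℝ} {x : ι → E} (hv : ∀ i, 0 ≤ v i) (hv1 : ∑ i, v i = 1) {B : ℝ}
    (hx : ∀ i, ‖x i‖ ≤ B) : ∑ i, v i * ‖x i‖ ≤ B := by
  calc ∑ i, v i * ‖x i‖ ≤ ∑ i, v i * B :=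
        Finset.sum_le_sum fun i _ => mul_le_mul_of_nonneg_left (hx i) (hv i)
    _ = B := by rw [← Finset.sum_mul, hv1, one_mul]

variable {w : K → ℝ} {θ : K → Inter p} {B : ℝ}

theorem isShift_KE {N : ℕ} (hN : 0 < N) (hw : ∀ k, 0 ≤ w k) (hw1 : ∑ k, w k = 1)
    (hB0 : 0 ≤ B) (hθ : ∀ k s, |θ k s| ≤ B) : IsShift 1 B (KE N w θ) :=
  isShift_Kop (ve_nonneg hw) (sum_ve hN hw1) (sum_mul_norm_le (ve_nonneg hw) (sum_ve hN hw1)
    fun _ => norm_le_of_forall hB0 fun _ => hθ _ _)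

theorem isShift_KA {N : ℕ} (hN : 0 < N) (hw : ∀ k, 0 ≤ w k) (hw1 : ∑ k, w k = 1)
    (hB0 : 0 ≤ B) (hθ : ∀ k s, |θ k s| ≤ B) (A : Finset (Fin p)) :
    IsShift 1 B (KA N w θ A) :=
  isShift_Kop (ve_nonneg hw) (sum_ve hN hw1) (sum_mul_norm_le (ve_nonneg hw) (sum_ve hN hw1)
    fun _ => norm_le_of_forall hB0 fun _ => hθ _ _)

theorem isShift_KO {N : ℕ} (hp : 0 < p) (hN : 0 < N) (hw : ∀ k, 0 ≤ w k) (hw1 : ∑ k, w k = 1)
    (hB0 : 0 ≤ B) (hθ : ∀ k s, |θ k s| ≤ B) : IsShift 1 B (KO N w θ) := by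
  have hp' : (p : ℝ) ≠ 0 := by positivity
  have h1 : IsShift (∑ _l : Fin p, (1 : ℝ)) (∑ _l : Fin p, B) (∑ l : Fin p, KA N w θ {l}) :=
    IsShift.sum Finset.univ fun l _ => isShift_KA hN hw hw1 hB0 hθ {l}
  rw [← KO_eq hp] at h1
  have h2 := h1.smul (c := (p : ℝ)⁻¹) (by positivity)
  rw [smul_smul, inv_mul_cancel₀ hp', one_smul] at h2
  have e1 : (p : ℝ)⁻¹ * ∑ _l : Fin p, (1 : ℝ) = 1 := by
    simp [inv_mul_cancel₀ hp']
  have e2 : (p : ℝ)⁻¹ * ∑ _l : Fin p, B = B := by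
    simp only [Finset.sum_const, Finset.card_univ, Fintype.card_fin, nsmul_eq_mul]
    rw [← mul_assoc, inv_mul_cancel₀ hp', one_mul]
  rwa [e1, e2] at h2

theorem IsShift.mass_unique {E : Type} [SeminormedAddCommGroup E] {m B m' B' : ℝ}
    {K : Module.End ℝ (E → ℝ)} (h : IsShift m B K) (h' : IsShift m' B' K) : m = m' := by
  have h1 := h.const 1 0
  have h2 := h'.const 1 0
  rw [h1] at h2
  simpa using h2

/-- The ratio `(N/(N+1))^(p-1)`. -/
noncomputable def rho (p N : ℕ) : ℝ := ((N : ℝ) * (N + 1 : ℝ)⁻¹) ^ (p - 1)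

theorem rho_nonneg (p N : ℕ) : 0 ≤ rho p N := by unfold rho; positivity

theorem q_le_one (N : ℕ) : (N : ℝ) * (N + 1 : ℝ)⁻¹ ≤ 1 := by
  rw [mul_inv_le_iff₀ (by positivity)]
  linarith

theorem rho_le_one (p N : ℕ) : rho p N ≤ 1 :=
  pow_le_one₀ (by positivity) (q_le_one N)

theorem cA_zero (hp : 0 < p) (N : ℕ) : (N + 1 : ℝ) * cA p N 0 = N * rho p N := by
  obtain ⟨n, rfl⟩ : ∃ n, p = n + 1 := ⟨p - 1, by omega⟩
  have h : (N + 1 : ℝ) ≠ 0 := by positivity
  simp only [cA, rho, pow_zero, mul_one, Nat.add_sub_cancel, mul_pow, pow_succ]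
  field_simp

theorem cA_one (hp : 0 < p) {N : ℕ} (hN : 0 < N) : (N + 1 : ℝ) * cA p N 1 = rho p N := by
  obtain ⟨n, rfl⟩ : ∃ n, p = n + 1 := ⟨p - 1, by omega⟩
  have h : (N + 1 : ℝ) ≠ 0 := by positivity
  have hN' : (N : ℝ) ≠ 0 := by positivity
  simp only [cA, rho, Nat.add_sub_cancel, mul_pow, pow_succ]
  field_simp

theorem cA_nonneg (p N j : ℕ) : 0 ≤ cA p N j := by unfold cA; positivity

theorem cA_le {N : ℕ} (hN : 0 < N) {j : ℕ} (hj : 2 ≤ j) (hjp : j ≤ p) :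
    (N + 1 : ℝ) * cA p N j ≤ (N + 1 : ℝ)⁻¹ := by
  obtain ⟨n, rfl⟩ : ∃ n, p = n + j := ⟨p - j, by omega⟩
  have h : (N + 1 : ℝ) ≠ 0 := by positivity
  have hN' : (N : ℝ) ≠ 0 := by positivity
  have h1 : cA (n + j) N j = ((N : ℝ) * (N + 1 : ℝ)⁻¹) ^ n * ((N + 1 : ℝ)⁻¹) ^ j := by
    have : (N : ℝ) ^ j * ((N : ℝ)⁻¹) ^ j = 1 := by
      rw [← mul_pow, mul_inv_cancel₀ hN', one_pow]
    rw [cA, pow_add, mul_assoc ((N : ℝ) ^ n), this, mul_one, mul_pow, pow_add]
    ring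
  have h2 : ((N : ℝ) * (N + 1 : ℝ)⁻¹) ^ n ≤ 1 := pow_le_one₀ (by positivity) (q_le_one N)
  have h3 : ((N + 1 : ℝ)⁻¹) ^ j ≤ ((N + 1 : ℝ)⁻¹) ^ 2 := by
    refine pow_le_pow_of_le_one (by positivity) ?_ hj
    rw [inv_le_one_iff₀]; right; linarith [Nat.cast_nonneg (α := ℝ) N]
  calc (N + 1 : ℝ) * cA (n + j) N j ≤ (N + 1 : ℝ) * (1 * ((N + 1 : ℝ)⁻¹) ^ 2) := by
        rw [h1]; gcongr
    _ = (N + 1 : ℝ)⁻¹ := by field_simp

/-- The rest operator: edges with at least two slots at the last site. -/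
noncomputable def KR (α : ℝ) (N : ℕ) (w : K → ℝ) (θ : K → Inter p) :
    Module.End ℝ (Ham (N + 1) → ℝ) :=
  ∑ A ∈ Finset.univ.filter (fun A : Finset (Fin p) => 2 ≤ A.card),
    (α * (N + 1) * cA p N A.card) • KA N w θ A

theorem KE_split {α : ℝ} (hp : 0 < p) {N : ℕ} (hN : 0 < N) :
    (α * (N + 1)) • KE (N + 1) w θ =
      KR α N w θ + ((α * N * rho p N) • KA N w θ ∅ + (α * p * rho p N) • KO N w θ) := by
  have h1 : (α * (N + 1)) • KE (N + 1) w θ =
      ∑ A : Finset (Fin p), (α * (N + 1) * cA p N A.card) • KA N w θ A := by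
    rw [KE_succ hN, Finset.smul_sum]
    simp only [smul_smul]
  rw [h1, ← Finset.sum_filter_add_sum_filter_not Finset.univ
    (fun A : Finset (Fin p) => 2 ≤ A.card)]
  congr 1
  rw [← Finset.sum_filter_add_sum_filter_not
    (Finset.univ.filter (fun A : Finset (Fin p) => ¬ 2 ≤ A.card)) (fun A => A.card = 0)]
  congr 1
  · have : (Finset.univ.filter (fun A : Finset (Fin p) => ¬ 2 ≤ A.card)).filter
        (fun A => A.card = 0) = {∅} := by
      ext A
      simp only [Finset.mem_filter, Finset.mem_univ, true_and, Finset.mem_singleton,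
        Finset.card_eq_zero]
      constructor
      · exact fun h => h.2
      · rintro rfl
        simp
    rw [this, Finset.sum_singleton, Finset.card_empty, mul_assoc α, cA_zero hp, mul_assoc]
  · have : ∀ A ∈ (Finset.univ.filter (fun A : Finset (Fin p) => ¬ 2 ≤ A.card)).filter
        (fun A => ¬ A.card = 0), A.card = 1 := by
      intro A hA
      simp only [Finset.mem_filter, Finset.mem_univ, true_and] at hA
      omega
    have h2 : ∑ A ∈ (Finset.univ.filter (fun A : Finset (Fin p) => ¬ 2 ≤ A.card)).filter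
        (fun A => ¬ A.card = 0), (α * (N + 1) * cA p N A.card) • KA N w θ A =
        ∑ l : Fin p, (α * rho p N) • KA N w θ {l} := by
      symm
      refine Finset.sum_bij (fun l _ => ({l} : Finset (Fin p))) ?_ ?_ ?_ ?_
      · intro l _
        simp
      · intro l _ l' _ h
        exact Finset.singleton_injective h
      · intro A hA
        obtain ⟨l, hl⟩ := Finset.card_eq_one.1 (this A hA)
        exact ⟨l, Finset.mem_univ l, hl.symm⟩
      · intro l _
        rw [Finset.card_singleton, mul_assoc α, cA_one hp hN]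
    rw [h2, ← Finset.smul_sum, ← KO_eq hp, smul_smul]
    congr 1
    ring

theorem isShift_KR {α : ℝ} (hα : 0 ≤ α) {N : ℕ} (hN : 0 < N) (hw : ∀ k, 0 ≤ w k)
    (hw1 : ∑ k, w k = 1) (hB0 : 0 ≤ B) (hθ : ∀ k s, |θ k s| ≤ B) :
    ∃ m, IsShift m (2 ^ p * α * (N + 1 : ℝ)⁻¹ * B) (KR α N w θ) := by
  have h1 := IsShift.sum (Finset.univ.filter (fun A : Finset (Fin p) => 2 ≤ A.card))
    (m := fun A => α * (N + 1) * cA p N A.card * 1)
    (B := fun A => α * (N + 1) * cA p N A.card * B)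
    (K := fun A => (α * (N + 1) * cA p N A.card) • KA N w θ A)
    (fun A _ => (isShift_KA hN hw hw1 hB0 hθ A).smul
      (mul_nonneg (by positivity) (cA_nonneg _ _ _)))
  refine ⟨_, h1.mono_B ?_⟩
  calc ∑ A ∈ Finset.univ.filter (fun A : Finset (Fin p) => 2 ≤ A.card),
        α * (N + 1) * cA p N A.card * B
      ≤ ∑ A ∈ Finset.univ.filter (fun A : Finset (Fin p) => 2 ≤ A.card),
        α * (N + 1 : ℝ)⁻¹ * B := by
        refine Finset.sum_le_sum fun A hA => ?_
        rw [mul_assoc α]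
        refine mul_le_mul_of_nonneg_right (mul_le_mul_of_nonneg_left ?_ hα) hB0
        refine cA_le hN (Finset.mem_filter.1 hA).2 ?_
        simpa using Finset.card_le_univ A
    _ ≤ ∑ A : Finset (Fin p), α * (N + 1 : ℝ)⁻¹ * B :=
        Finset.sum_le_sum_of_subset_of_nonneg (Finset.filter_subset _ _)
          fun _ _ _ => by positivity
    _ = 2 ^ p * α * (N + 1 : ℝ)⁻¹ * B := by
        rw [Finset.sum_const, Finset.card_univ, Fintype.card_finset, Fintype.card_fin,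
          nsmul_eq_mul]
        push_cast
        ring

end Crest.Agent.R141.Cav
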