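import Crest.Agent.R141.Cavity1

/-!
# Row 141, section 4: the abstract cavity step, part 2 (helper552)

The one-step inequality `LL (N+1) - LL N ≥ inf g_N - errors`.
-/

set_option autoImplicit false
set_option linter.unusedSectionVars false

open Crest.ProbabilityR.Diluted Crest.Agent.R141.Pois

namespace Crest.Agent.R141.Cav

section general
variable {E : Type} [SeminormedAddCommGroup E]

theorem LipG.sum {ι : Type} (s : Finset ι) {L : ℝ} {v : ι → ℝ} (hv : ∀ i, 0 ≤ v i)
    {G : ι → E → ℝ} (hG : ∀ i, LipG L (G i)) :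
    LipG (∑ i ∈ s, v i * L) (fun e => ∑ i ∈ s, v i * G i e) := by
  intro a b
  rw [← Finset.sum_sub_distrib, Finset.sum_mul]
  refine (Finset.abs_sum_le_sum_abs _ _).trans (Finset.sum_le_sum fun i _ => ?_)
  rw [← mul_sub, abs_mul, abs_of_nonneg (hv i), mul_assoc]
  exact mul_le_mul_of_nonneg_left (hG i a b) (hv i)

theorem LipG.wsum {ι : Type} [Fintype ι] {L : ℝ} {v : ι → ℝ} (hv : ∀ i, 0 ≤ v i)
    (hv1 : ∑ i, v i = 1) {G : ι → E → ℝ} (hG : ∀ i, LipG L (G i)) :
    LipG L (fun e => ∑ i, v i * G i e) := by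
  have := LipG.sum Finset.univ hv hG
  rwa [← Finset.sum_mul, hv1, one_mul] at this

theorem LipG.smul {L : ℝ} {G : E → ℝ} (hG : LipG L G) {c : ℝ} (hc : 0 ≤ c) :
    LipG (c * L) (fun e => c * G e) := by
  intro a b
  rw [← mul_sub, abs_mul, abs_of_nonneg hc, mul_assoc]
  exact mul_le_mul_of_nonneg_left (hG a b) hc

theorem Top_sum {ι : Type} (s : Finset ι) {m B : ℝ} {K : Module.End ℝ (E → ℝ)}
    (h : IsShift m B K) {L : ℝ} (hL : 0 ≤ L) {v : ι → ℝ} (hv : ∀ i, 0 ≤ v i)
    {G : ι → E → ℝ} (hG : ∀ i, LipG L (G i)) (e : E) :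
    Top m K (fun e => ∑ i ∈ s, v i * G i e) e = ∑ i ∈ s, v i * Top m K (G i) e := by
  classical
  induction s using Finset.induction_on with
  | empty =>
    simp only [Finset.sum_empty]
    exact Top_const h 0 e
  | insert a s ha ih =>
    simp only [Finset.sum_insert ha]
    rw [← ih, ← Top_smul]
    exact Top_add h (mul_nonneg (hv a) hL) (LipG.smul (hG a) (hv a))
      (Finset.sum_nonneg fun i _ => mul_nonneg (hv i) hL) (LipG.sum s hv hG) e

theorem Top_add_const {m B : ℝ} {K : Module.End ℝ (E → ℝ)}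
    (h : IsShift m B K) {L : ℝ} (hL : 0 ≤ L) {G : E → ℝ} (hG : LipG L G) (c : ℝ) (e : E) :
    Top m K (fun e => G e + c) e = Top m K G e + c := by
  have := Top_add h hL hG le_rfl (LipG.const c) e
  rw [Top_const h c e] at this
  exact this

/-- monotonicity with an additive error -/
theorem Top_le_add {m B : ℝ} {K : Module.End ℝ (E → ℝ)}
    (h : IsShift m B K) {L : ℝ} (hL : 0 ≤ L) {G : E → ℝ} (hG : LipG L G) {L' : ℝ} (hL' : 0 ≤ L')
    {G' : E → ℝ} (hG' : LipG L' G') (c : ℝ) (hle : ∀ e, G e ≤ G' e + c) (e : E) :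
    Top m K G e ≤ Top m K G' e + c := by
  rw [← Top_add_const h hL' hG' c e]
  exact Top_mono h hL hG hL' (hG'.add_const c) hle e

end general

variable {p : ℕ} {K K' : Type} [Fintype K] [Fintype K']

/-- Average over the fields of the compound Poisson average of `Ψ`. -/
noncomputable def LL (α : ℝ) (N : ℕ) (w : K → ℝ) (θ : K → Inter p) (w' : K' → ℝ) (h : K' → ℝ)
    (Ψ : Ham N → ℝ) : ℝ :=
  ∑ is : Fin N → K', (∏ i, w' (is i)) *
    Top (α * N) ((α * N) • KE N w θ) Ψ (fieldH fun i => h (is i))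

/-- site part of the cavity functional -/
noncomputable def siteG (α : ℝ) (N : ℕ) (w : K → ℝ) (θ : K → Inter p) (w' : K' → ℝ) (h : K' → ℝ)
    (Ψ : Ham N → ℝ) (H : Ham N) : ℝ :=
  ∑ k, w' k * Top (α * p) ((α * p) • KO N w θ) (fun H' => Ψ (red H'))
    (lift N H + siteF N (h k))

/-- edge part of the cavity functional -/
noncomputable def edgeG (α : ℝ) (N : ℕ) (w : K → ℝ) (θ : K → Inter p)
    (Ψ : Ham N → ℝ) (H : Ham N) : ℝ :=
  Top (α * (p - 1)) ((α * (p - 1)) • KE N w θ) Ψ H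

/-- the error of the one-step inequality -/
noncomputable def errN (p : ℕ) (α B : ℝ) (N : ℕ) : ℝ :=
  2 ^ p * α * (N + 1 : ℝ)⁻¹ * B + (α * p - α * p * rho p N) * B +
    (α * (p - 1) - (α * N - α * N * rho p N)) * B

theorem geom_rho (p N : ℕ) :
    (N : ℝ) - N * rho p N = ∑ i ∈ Finset.range (p - 1), ((N : ℝ) * (N + 1 : ℝ)⁻¹) ^ (i + 1) := by
  set q : ℝ := (N : ℝ) * (N + 1 : ℝ)⁻¹ with hq
  have h : (N + 1 : ℝ) ≠ 0 := by positivity
  have h1 : (N : ℝ) * (1 - q) = q := by
    rw [hq]; field_simp; ring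
  have h2 : (∑ i ∈ Finset.range (p - 1), q ^ i) * (1 - q) = 1 - q ^ (p - 1) := by
    have := geom_sum_mul_neg q (p - 1)
    exact this
  calc (N : ℝ) - N * rho p N = N * (1 - q ^ (p - 1)) := by rw [rho]; ring
    _ = (N * (1 - q)) * ∑ i ∈ Finset.range (p - 1), q ^ i := by rw [← h2]; ring
    _ = ∑ i ∈ Finset.range (p - 1), q ^ (i + 1) := by
        rw [h1, Finset.mul_sum]
        exact Finset.sum_congr rfl fun i _ => by rw [pow_succ]; ring

theorem sub_rho_nonneg (p N : ℕ) : 0 ≤ (N : ℝ) - N * rho p N := by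
  rw [geom_rho]
  exact Finset.sum_nonneg fun i _ => by positivity

theorem sub_rho_le {p : ℕ} (hp : 0 < p) (N : ℕ) : (N : ℝ) - N * rho p N ≤ p - 1 := by
  rw [geom_rho]
  calc ∑ i ∈ Finset.range (p - 1), ((N : ℝ) * (N + 1 : ℝ)⁻¹) ^ (i + 1)
      ≤ ∑ i ∈ Finset.range (p - 1), (1 : ℝ) :=
        Finset.sum_le_sum fun i _ => pow_le_one₀ (by positivity) (q_le_one N)
    _ = p - 1 := by
        rw [Finset.sum_const, Finset.card_range, nsmul_eq_mul, mul_one, Nat.cast_sub hp]
        simp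

theorem tendsto_q : Filter.Tendsto (fun N : ℕ => (N : ℝ) * (N + 1 : ℝ)⁻¹) Filter.atTop
    (nhds 1) := by
  have := tendsto_natCast_div_add_atTop (1 : ℝ)
  simpa [div_eq_mul_inv] using this

theorem tendsto_errN {p : ℕ} (hp : 0 < p) (α B : ℝ) :
    Filter.Tendsto (errN p α B) Filter.atTop (nhds 0) := by
  have h1 : Filter.Tendsto (fun N : ℕ => (N + 1 : ℝ)⁻¹) Filter.atTop (nhds 0) :=
    tendsto_inv_atTop_zero.comp (tendsto_natCast_atTop_atTop.atTop_add tendsto_const_nhds)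
  have h2 : Filter.Tendsto (rho p) Filter.atTop (nhds 1) := by
    have := tendsto_q.pow (p - 1)
    rw [one_pow] at this
    exact this
  have h3 : Filter.Tendsto (fun N : ℕ => (N : ℝ) - N * rho p N) Filter.atTop
      (nhds ((p : ℝ) - 1)) := by
    simp only [geom_rho]
    have : Filter.Tendsto (fun N : ℕ => ∑ i ∈ Finset.range (p - 1),
        ((N : ℝ) * (N + 1 : ℝ)⁻¹) ^ (i + 1)) Filter.atTop
        (nhds (∑ i ∈ Finset.range (p - 1), (1 : ℝ) ^ (i + 1))) :=
      tendsto_finsetSum _ fun i _ => tendsto_q.pow (i + 1)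
    simpa [Nat.cast_sub hp] using this
  have h4 : Filter.Tendsto (fun N : ℕ => 2 ^ p * α * (N + 1 : ℝ)⁻¹ * B +
      (α * p - α * p * rho p N) * B +
      (α * (p - 1) - α * ((N : ℝ) - N * rho p N)) * B) Filter.atTop
      (nhds (2 ^ p * α * 0 * B + (α * p - α * p * 1) * B +
        (α * (p - 1) - α * ((p : ℝ) - 1)) * B)) :=
    (((h1.const_mul (2 ^ p * α)).mul_const B).add
      ((tendsto_const_nhds.sub (h2.const_mul (α * p))).mul_const B)).add
      ((tendsto_const_nhds.sub (h3.const_mul α)).mul_const B)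
  have h5 : 2 ^ p * α * 0 * B + (α * p - α * p * 1) * B +
        (α * (p - 1) - α * ((p : ℝ) - 1)) * B = 0 := by ring
  rw [h5] at h4
  refine h4.congr fun N => ?_
  rw [errN]
  ring

theorem fieldH_snoc {N : ℕ} (hs : Fin N → ℝ) (x : ℝ) :
    fieldH (Fin.snoc hs x : Fin (N + 1) → ℝ) = lift N (fieldH hs) + siteF N x := by
  funext s
  simp only [fieldH, Pi.add_apply, lift_apply, siteF, Fin.sum_univ_castSucc, Fin.snoc_castSucc,
    Fin.snoc_last]

theorem cavA_empty {N : ℕ} (θ : Inter p) (I : Fin p → Fin N) :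
    cavA θ ∅ I = lift N (edgeH θ I) := by
  funext s
  simp [cavA, lift_apply, edgeH]

theorem KA_empty (N : ℕ) (w : K → ℝ) (θ : K → Inter p) :
    KA N w θ ∅ = Kop (ve p N w) (fun q => lift N (edgeH (θ q.1) q.2)) := by
  unfold KA
  simp only [cavA_empty]

variable {w : K → ℝ} {θ : K → Inter p} {w' : K' → ℝ} {h : K' → ℝ} {B : ℝ}

/-- one-step inequality, for a fixed configuration of the first `N` fields -/
theorem step_aux {α : ℝ} (hα : 0 ≤ α) (hp : 0 < p) {N : ℕ} (hN : 0 < N) (hw : ∀ k, 0 ≤ w k)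
    (hw1 : ∑ k, w k = 1) (hw' : ∀ k, 0 ≤ w' k) (hw1' : ∑ k, w' k = 1)
    (hB0 : 0 ≤ B) (hθ : ∀ k s, |θ k s| ≤ B)
    {Ψ : Ham N → ℝ} {Ψ' : Ham (N + 1) → ℝ} (hΨ : LipG 1 Ψ) (hΨ' : LipG 1 Ψ') {e₁ : ℝ}
    (hA3 : ∀ H, Ψ (red H) ≤ Ψ' H + e₁) {c' : ℝ}
    (hc : ∀ H, c' ≤ siteG α N w θ w' h Ψ H - edgeG α N w θ Ψ H) (H : Ham N) :
    Top (α * N) ((α * N) • KE N w θ) Ψ H + c' - e₁ - errN p α B N ≤
      ∑ k, w' k * Top (α * (N + 1)) ((α * (N + 1)) • KE (N + 1) w θ) Ψ'
        (lift N H + siteF N (h k)) := by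
  set r := rho p N with hr
  have hr0 : 0 ≤ r := rho_nonneg p N
  have hr1 : r ≤ 1 := rho_le_one p N
  set G : Ham (N + 1) → ℝ := fun H' => Ψ (red H') with hG
  have hGl : LipG 1 G := lip_comp_red hΨ
  have h01 : (0 : ℝ) ≤ 1 := zero_le_one
  -- shift facts
  have sE := isShift_KE (p := p) hN hw hw1 hB0 hθ
  have sE' := isShift_KE (p := p) (N := N + 1) (Nat.succ_pos N) hw hw1 hB0 hθ
  have sO := isShift_KO hp hN hw hw1 hB0 hθ
  have sA := isShift_KA hN hw hw1 hB0 hθ (∅ : Finset (Fin p))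
  obtain ⟨mR, sR⟩ := isShift_KR (p := p) hα hN hw hw1 hB0 hθ
  have hαN : 0 ≤ α * N := by positivity
  have hl0 : 0 ≤ α * N * r := by positivity
  have hl1 : 0 ≤ α * p * r := by positivity
  have sTot : IsShift (α * (N + 1) * 1) (α * (N + 1) * B) ((α * (N + 1)) • KE (N + 1) w θ) :=
    sE'.smul (by positivity)
  have sAl : IsShift (α * N * r) (α * N * r * B) ((α * N * r) • KA N w θ ∅) := by
    simpa using sA.smul hl0
  have sOl : IsShift (α * p * r) (α * p * r * B) ((α * p * r) • KO N w θ) := by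
    simpa using sO.smul hl1
  have sOi : IsShift (α * p) (α * p * B) ((α * p) • KO N w θ) := by
    simpa using sO.smul (c := α * p) (by positivity)
  have sEl : IsShift (α * N * r) (α * N * r * B) ((α * N * r) • KE N w θ) := by
    simpa using sE.smul hl0
  have hsplit := KE_split (p := p) (α := α) (w := w) (θ := θ) hp hN
  rw [← hr] at hsplit
  have hmass : α * (N + 1) = mR + (α * N * r + α * p * r) := by
    have h2 := sR.add (sAl.add sOl)
    rw [← hsplit] at h2
    have := IsShift.mass_unique sTot h2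
    linarith
  -- lower bound of the total operator
  have hlow : ∀ (x : Ham (N + 1)), Top (α * N * r) ((α * N * r) • KA N w θ ∅)
      (Top (α * p * r) ((α * p * r) • KO N w θ) G) x - e₁ - 2 ^ p * α * (N + 1 : ℝ)⁻¹ * B ≤
      Top (α * (N + 1)) ((α * (N + 1)) • KE (N + 1) w θ) Ψ' x := by
    intro x
    have h1 : Top (α * (N + 1)) ((α * (N + 1)) • KE (N + 1) w θ) G x ≤
        Top (α * (N + 1)) ((α * (N + 1)) • KE (N + 1) w θ) Ψ' x + e₁ := by
      refine Top_le_add (m := α * (N + 1)) (B := α * (N + 1) * B) ?_ h01 hGl h01 hΨ' e₁ hA3 x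
      simpa using sTot
    rw [hsplit, hmass] at h1
    rw [hsplit, hmass]
    rw [Top_comp sR (sAl.add sOl) h01 hGl x] at h1
    have h2 := Top_abs_sub_le sR h01 (Top_lip (sAl.add sOl) h01 hGl) x
    rw [Top_comp sAl sOl h01 hGl x] at h2
    have h3 := (abs_le.1 h2).1
    linarith
  -- the cavity functions
  set U : K' → Ham N → ℝ := fun k e' => Top (α * p) ((α * p) • KO N w θ) G
    (lift N e' + siteF N (h k)) with hU
  have liftLip : ∀ (F : Ham (N + 1) → ℝ), LipG 1 F → ∀ c, LipG 1 (fun e' : Ham N =>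
      F (lift N e' + c)) := by
    intro F hF c a b
    refine (hF _ _).trans ?_
    rw [one_mul, one_mul, add_sub_add_right_eq_sub]
    exact norm_lift_sub a b
  have hUl : ∀ k, LipG 1 (U k) := fun k => liftLip _ (Top_lip sOi h01 hGl) _
  have hsite : ∀ k, Top (α * N * r) ((α * N * r) • KE N w θ) (U k) H -
      (α * p - α * p * r) * B ≤
      Top (α * N * r) ((α * N * r) • KA N w θ ∅) (Top (α * p * r) ((α * p * r) • KO N w θ) G)
        (lift N H + siteF N (h k)) := by
    intro k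
    rw [KA_empty, Top_map]
    have hX : Top (α * N * r) ((α * N * r) • Kop (ve p N w) fun i => edgeH (θ i.1) i.2) (U k) H ≤
        Top (α * N * r) ((α * N * r) • Kop (ve p N w) fun i => edgeH (θ i.1) i.2)
          (fun e' => Top (α * p * r) ((α * p * r) • KO N w θ) G
            (lift N e' + siteF N (h k))) H + (α * p - α * p * r) * B := by
      refine Top_le_add sEl h01 (hUl k) h01 (liftLip _ (Top_lip sOl h01 hGl) _) _ ?_ H
      intro e'
      have hle : α * p * r ≤ α * p := by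
        calc α * p * r ≤ α * p * 1 := mul_le_mul_of_nonneg_left hr1 (by positivity)
          _ = α * p := mul_one _
      have := Top_rate sO hl1 hle h01 hGl (lift N e' + siteF N (h k))
      have := (abs_le.1 this).2
      linarith
    have hKE : KE N w θ = Kop (ve p N w) fun i => edgeH (θ i.1) i.2 := rfl
    rw [hKE]
    linarith
  -- sum over the last field
  have hsum : Top (α * N * r) ((α * N * r) • KE N w θ) (fun e' => ∑ k, w' k * U k e') H -
      (α * p - α * p * r) * B - e₁ - 2 ^ p * α * (N + 1 : ℝ)⁻¹ * B ≤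
      ∑ k, w' k * Top (α * (N + 1)) ((α * (N + 1)) • KE (N + 1) w θ) Ψ'
        (lift N H + siteF N (h k)) := by
    rw [Top_sum Finset.univ sEl h01 hw' hUl H]
    have hc2 : ∀ d : ℝ, d = ∑ k, w' k * d := fun d => by rw [← Finset.sum_mul, hw1', one_mul]
    calc ∑ k, w' k * Top (α * N * r) ((α * N * r) • KE N w θ) (U k) H -
          (α * p - α * p * r) * B - e₁ - 2 ^ p * α * (N + 1 : ℝ)⁻¹ * B
        = ∑ k, w' k * Top (α * N * r) ((α * N * r) • KE N w θ) (U k) H -
          ∑ k, w' k * ((α * p - α * p * r) * B + e₁ + 2 ^ p * α * (N + 1 : ℝ)⁻¹ * B) := by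
          rw [← hc2]; ring
      _ = ∑ k, w' k * (Top (α * N * r) ((α * N * r) • KE N w θ) (U k) H -
          ((α * p - α * p * r) * B + e₁ + 2 ^ p * α * (N + 1 : ℝ)⁻¹ * B)) := by
          rw [← Finset.sum_sub_distrib]
          exact Finset.sum_congr rfl fun k _ => by ring
      _ ≤ _ := by
          refine Finset.sum_le_sum fun k _ => mul_le_mul_of_nonneg_left ?_ (hw' k)
          have h1 := hsite k
          have h2 := hlow (lift N H + siteF N (h k))
          linarith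
  -- the edge part
  have hsub : 0 ≤ α * N - α * N * r := by
    have := mul_nonneg hα (sub_rho_nonneg p N)
    rw [← hr] at this
    linarith
  have hsubl : α * N - α * N * r ≤ α * (p - 1) := by
    have := mul_le_mul_of_nonneg_left (sub_rho_le hp N) hα
    rw [← hr] at this
    linarith
  have sE2 : IsShift (α * N - α * N * r) ((α * N - α * N * r) * B)
      ((α * N - α * N * r) • KE N w θ) := by simpa using sE.smul hsub
  have sE3 : IsShift (α * (p - 1)) (α * (p - 1) * B)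
      ((α * (p - 1)) • KE N w θ) := by
    simpa using sE.smul (c := α * ((p : ℝ) - 1)) (hsub.trans hsubl)
  have hedge : Top (α * N) ((α * N) • KE N w θ) Ψ H ≤
      Top (α * N * r) ((α * N * r) • KE N w θ) (edgeG α N w θ Ψ) H +
        (α * (p - 1) - (α * N - α * N * r)) * B := by
    have h1 := Top_comp sEl sE2 h01 hΨ H
    rw [← add_smul, add_sub_cancel] at h1
    rw [h1]
    refine Top_le_add sEl h01 (Top_lip sE2 h01 hΨ) h01 (Top_lip sE3 h01 hΨ) _ ?_ H
    intro e
    have := Top_rate sE hsub hsubl h01 hΨ e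
    have := (abs_le.1 this).1
    have hee : edgeG α N w θ Ψ e = Top (α * (p - 1)) ((α * (p - 1)) • KE N w θ) Ψ e := rfl
    linarith
  have hfin : Top (α * N * r) ((α * N * r) • KE N w θ) (edgeG α N w θ Ψ) H + c' ≤
      Top (α * N * r) ((α * N * r) • KE N w θ) (fun e' => ∑ k, w' k * U k e') H := by
    have hedgeL : LipG 1 (edgeG α N w θ Ψ) := Top_lip sE3 h01 hΨ
    rw [← Top_add_const sEl h01 hedgeL c' H]
    refine Top_mono sEl h01 (hedgeL.add_const c') h01
      (LipG.wsum hw' hw1' hUl) ?_ H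
    intro e
    have h1 := hc e
    have h2 : siteG α N w θ w' h Ψ e = ∑ k, w' k * U k e := rfl
    rw [h2] at h1
    show edgeG α N w θ Ψ e + c' ≤ ∑ k, w' k * U k e
    linarith
  unfold errN
  rw [← hr]
  linarith

theorem LL_step {α : ℝ} (hα : 0 ≤ α) (hp : 0 < p) {N : ℕ} (hN : 0 < N) (hw : ∀ k, 0 ≤ w k)
    (hw1 : ∑ k, w k = 1) (hw' : ∀ k, 0 ≤ w' k) (hw1' : ∑ k, w' k = 1)
    (hB0 : 0 ≤ B) (hθ : ∀ k s, |θ k s| ≤ B)
    {Ψ : Ham N → ℝ} {Ψ' : Ham (N + 1) → ℝ} (hΨ : LipG 1 Ψ) (hΨ' : LipG 1 Ψ') {e₁ : ℝ}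
    (hA3 : ∀ H, Ψ (red H) ≤ Ψ' H + e₁) {c' : ℝ}
    (hc : ∀ H, c' ≤ siteG α N w θ w' h Ψ H - edgeG α N w θ Ψ H) :
    LL α N w θ w' h Ψ + c' - e₁ - errN p α B N ≤ LL α (N + 1) w θ w' h Ψ' := by
  have hprod : ∑ is : Fin N → K', ∏ i, w' (is i) = 1 := by
    have := Finset.prod_univ_sum (fun _ : Fin N => (Finset.univ : Finset K')) (fun _ k => w' k)
    rw [Fintype.piFinset_univ] at this
    rw [← this]
    simp [hw1']
  have h1 : LL α (N + 1) w θ w' h Ψ' = ∑ is : Fin N → K', (∏ i, w' (is i)) *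
      ∑ k, w' k * Top (α * (N + 1)) ((α * (N + 1)) • KE (N + 1) w θ) Ψ'
        (lift N (fieldH fun i => h (is i)) + siteF N (h k)) := by
    unfold LL
    rw [← (Fin.snocEquiv (fun _ : Fin (N + 1) => K')).sum_comp, Fintype.sum_prod_type,
      Finset.sum_comm]
    refine Finset.sum_congr rfl fun is _ => ?_
    rw [Finset.mul_sum]
    refine Finset.sum_congr rfl fun k _ => ?_
    have h2 : (fun i => h ((Fin.snocEquiv (fun _ : Fin (N + 1) => K')) (k, is) i)) =
        (Fin.snoc (fun i => h (is i)) (h k) : Fin (N + 1) → ℝ) := by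
      funext i
      refine Fin.lastCases ?_ (fun i => ?_) i
      · simp [Fin.snocEquiv]
      · simp [Fin.snocEquiv]
    rw [h2, fieldH_snoc, Fin.prod_univ_castSucc]
    simp only [Fin.snocEquiv, Equiv.coe_fn_mk, Fin.snoc_castSucc, Fin.snoc_last]
    push_cast
    rw [mul_assoc]
  rw [h1]
  have hc2 : ∀ d : ℝ, d = ∑ is : Fin N → K', (∏ i, w' (is i)) * d :=
    fun d => by rw [← Finset.sum_mul, hprod, one_mul]
  calc LL α N w θ w' h Ψ + c' - e₁ - errN p α B N
      = LL α N w θ w' h Ψ + ∑ is : Fin N → K', (∏ i, w' (is i)) *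
          (c' - e₁ - errN p α B N) := by rw [← hc2]; ring
    _ = ∑ is : Fin N → K', (∏ i, w' (is i)) *
          (Top (α * N) ((α * N) • KE N w θ) Ψ (fieldH fun i => h (is i)) + c' - e₁ -
            errN p α B N) := by
        unfold LL
        rw [← Finset.sum_add_distrib]
        exact Finset.sum_congr rfl fun is _ => by ring
    _ ≤ _ := Finset.sum_le_sum fun is _ => mul_le_mul_of_nonneg_left
        (step_aux hα hp hN hw hw1 hw' hw1' hB0 hθ hΨ hΨ' hA3 hc _)
        (Finset.prod_nonneg fun i _ => hw' _)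

end Crest.Agent.R141.Cav
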