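import Crest.Agent.R141.RedP

/-!
R141, Part L: numeric lemmas for sections 4.1 and 4.3 of the blueprint (helper585).

* `exists_increment_le` : from `LL N ≈ N * F N` and `F N ≤ c` frequently, infinitely many small
  increments `LL (N+1) - LL N ≤ c + 3 ε`.
* `poisson_compare_le`, `poisson_compare` : Poisson averages of functions of linear growth depend
  only on finitely many values (truncation), uniformly.
* `poisson_tsum_finset_sum` : exchange with finite sums.
-/

set_option autoImplicit false

namespace Crest.Agent.R141.Num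

open Filter Crest.ProbabilityR.Diluted Crest.Agent.R141.Red

/-! ### small increments -/

/-- Section 4.1: infinitely many small increments. -/
theorem exists_increment_le {LL F : ℕ → ℝ} {c ε B : ℝ} (hε : 0 < ε)
    (h1 : ∀ N : ℕ, LL N ≤ N * F N + (ε * N + B)) (h2 : ∃ᶠ N in atTop, F N ≤ c) (N0 : ℕ) :
    ∃ N : ℕ, N0 ≤ N ∧ LL (N + 1) - LL N ≤ c + 2 * ε := by
  by_contra hcon
  push Not at hcon
  -- linear growth
  have hgrow : ∀ n : ℕ, LL N0 + n * (c + 2 * ε) ≤ LL (N0 + n) := by
    intro n
    induction n with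
    | zero => simp
    | succ n ih =>
      have := hcon (N0 + n) (Nat.le_add_right _ _)
      have e : N0 + (n + 1) = N0 + n + 1 := by ring
      rw [e]
      push_cast
      nlinarith
  obtain ⟨M, hM⟩ := exists_nat_gt ((B - LL N0 + N0 * (c + 2 * ε)) / ε)
  obtain ⟨N, hN, hc⟩ := (Filter.frequently_atTop.1 h2) (max N0 M)
  have hN0 : N0 ≤ N := (le_max_left _ _).trans hN
  have hNM : M ≤ N := (le_max_right _ _).trans hN
  have h3 := hgrow (N - N0)
  rw [Nat.add_sub_cancel' hN0, Nat.cast_sub hN0] at h3
  have h4 := h1 N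
  have h5 : (N : ℝ) * F N ≤ N * c := mul_le_mul_of_nonneg_left hc (Nat.cast_nonneg _)
  have h6 : (M : ℝ) ≤ N := by exact_mod_cast hNM
  rw [div_lt_iff₀ hε] at hM
  have h7 : (M : ℝ) * ε ≤ N * ε := mul_le_mul_of_nonneg_right h6 hε.le
  nlinarith

/-! ### Poisson truncation -/

/-- tail of the Poisson law against an affine function. -/
theorem exists_tail {lam : ℝ} (hlam : 0 ≤ lam) (a b : ℝ) {ε : ℝ} (hε : 0 < ε) :
    ∃ k0 : ℕ, |(∑' k, poissonWeight lam k * (a * k + b)) -
      ∑ k ∈ Finset.range k0, poissonWeight lam k * (a * k + b)| ≤ ε := by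
  have hs : Summable (fun k : ℕ => poissonWeight lam k * (a * k + b)) := by
    refine summable_poisson_of_le hlam (a := |a|) (b := |b|) fun n => ?_
    calc |a * n + b| ≤ |a * n| + |b| := abs_add_le _ _
      _ = |a| * n + |b| := by rw [abs_mul, abs_of_nonneg (Nat.cast_nonneg n : (0 : ℝ) ≤ n)]
  have h := hs.hasSum.tendsto_sum_nat
  rw [Metric.tendsto_atTop] at h
  obtain ⟨k0, hk0⟩ := h ε hε
  refine ⟨k0, ?_⟩
  have := (hk0 k0 le_rfl).le
  rwa [Real.dist_eq, abs_sub_comm] at this

/-- One-sided comparison of Poisson averages: up to `ε`, only the values at `k < k0` matter. -/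
theorem poisson_compare_le {lam : ℝ} (hlam : 0 ≤ lam) (a b : ℝ) {ε : ℝ} (hε : 0 < ε) :
    ∃ k0 : ℕ, ∃ δ : ℝ, 0 < δ ∧ ∀ G G' : ℕ → ℝ, (∀ k : ℕ, |G k| ≤ a * k + b) →
      (∀ k : ℕ, |G' k| ≤ a * k + b) → (∀ k < k0, G k ≤ G' k + δ) →
      ∑' k, poissonWeight lam k * G k ≤ ∑' k, poissonWeight lam k * G' k + ε := by
  obtain ⟨k0, hk0⟩ := exists_tail hlam (2 * a) (2 * b) (half_pos hε)
  refine ⟨k0, ε / 2, half_pos hε, fun G G' hG hG' h => ?_⟩
  have hsG := summable_poisson_of_le hlam hG
  have hsG' := summable_poisson_of_le hlam hG'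
  -- the bounding sequence
  set g : ℕ → ℝ := fun k => poissonWeight lam k * (2 * a * k + 2 * b) with hg
  have hg0 : ∀ k : ℕ, 0 ≤ a * k + b := fun k => (abs_nonneg _).trans (hG k)
  have hsg : Summable g := by
    refine summable_poisson_of_le hlam (a := 2 * a) (b := 2 * b) fun n => ?_
    have := hg0 n
    rw [abs_of_nonneg (by linarith)]
  have hterm : ∀ k : ℕ, poissonWeight lam k * G k - poissonWeight lam k * G' k ≤
      ε / 2 * poissonWeight lam k + (if k < k0 then 0 else g k) := by
    intro k
    have hw := poissonWeight_nonneg hlam k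
    rw [← mul_sub]
    by_cases hk : k < k0
    · simp only [hk, if_true, add_zero]
      have := h k hk
      nlinarith
    · simp only [hk, if_false]
      have h1 := abs_le.1 (hG k)
      have h2 := abs_le.1 (hG' k)
      have h3 : G k - G' k ≤ 2 * a * k + 2 * b := by linarith [h1.2, h2.1]
      have h4 : poissonWeight lam k * (G k - G' k) ≤ g k := mul_le_mul_of_nonneg_left h3 hw
      have h5 : 0 ≤ ε / 2 * poissonWeight lam k := by positivity
      linarith
  have hs1 : Summable (fun k => ε / 2 * poissonWeight lam k) :=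
    (hasSum_poissonWeight lam).summable.mul_left _
  have hs2 : Summable (fun k => if k < k0 then 0 else g k) := by
    have hfin : Summable (fun k => if k < k0 then g k else 0) := by
      refine summable_of_ne_finset_zero (s := Finset.range k0) fun k hk => ?_
      rw [Finset.mem_range] at hk
      simp [hk]
    refine (hsg.sub hfin).congr fun k => ?_
    by_cases hk : k < k0 <;> simp [hk]
  have htail : ∑' k, (if k < k0 then 0 else g k) ≤ ε / 2 := by
    have hfin : HasSum (fun k => if k < k0 then g k else 0) (∑ k ∈ Finset.range k0, g k) := by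
      have : ∑ k ∈ Finset.range k0, g k =
          ∑ k ∈ Finset.range k0, (if k < k0 then g k else 0) := by
        refine Finset.sum_congr rfl fun k hk => ?_
        rw [Finset.mem_range] at hk
        simp [hk]
      rw [this]
      refine hasSum_sum_of_ne_finset_zero fun k hk => ?_
      rw [Finset.mem_range] at hk
      simp [hk]
    have hsub := hsg.hasSum.sub hfin
    have e : (fun k => g k - if k < k0 then g k else 0) = fun k => if k < k0 then 0 else g k := by
      funext k
      by_cases hk : k < k0 <;> simp [hk]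
    rw [e] at hsub
    rw [hsub.tsum_eq]
    exact (le_abs_self _).trans hk0
  have hmain : ∑' k, (poissonWeight lam k * G k - poissonWeight lam k * G' k) ≤
      ∑' k, (ε / 2 * poissonWeight lam k + (if k < k0 then 0 else g k)) :=
    Summable.tsum_le_tsum hterm (hsG.sub hsG') (hs1.add hs2)
  rw [hsG.tsum_sub hsG', hs1.tsum_add hs2, tsum_mul_left, (hasSum_poissonWeight lam).tsum_eq] at hmain
  linarith

/-- Two-sided comparison of Poisson averages. -/
theorem poisson_compare {lam : ℝ} (hlam : 0 ≤ lam) (a b : ℝ) {ε : ℝ} (hε : 0 < ε) :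
    ∃ k0 : ℕ, ∃ δ : ℝ, 0 < δ ∧ ∀ G G' : ℕ → ℝ, (∀ k : ℕ, |G k| ≤ a * k + b) →
      (∀ k : ℕ, |G' k| ≤ a * k + b) → (∀ k < k0, |G k - G' k| ≤ δ) →
      |∑' k, poissonWeight lam k * G k - ∑' k, poissonWeight lam k * G' k| ≤ ε := by
  obtain ⟨k0, δ, hδ, H⟩ := poisson_compare_le hlam a b hε
  refine ⟨k0, δ, hδ, fun G G' hG hG' h => ?_⟩
  rw [abs_le]
  constructor
  · have := H G' G hG' hG fun k hk => by
      have := (abs_le.1 (h k hk)).1
      linarith
    linarith
  · have := H G G' hG hG' fun k hk => by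
      have := (abs_le.1 (h k hk)).2
      linarith
    linarith

/-- Exchange of a Poisson average with a finite weighted sum. -/
theorem poisson_tsum_finset_sum {lam : ℝ} (hlam : 0 ≤ lam) {ι : Type*} (s : Finset ι)
    (P : ι → ℝ) (G : ι → ℕ → ℝ) (a b : ι → ℝ) (hG : ∀ i ∈ s, ∀ k : ℕ, |G i k| ≤ a i * k + b i) :
    ∑' k, poissonWeight lam k * ∑ i ∈ s, P i * G i k =
      ∑ i ∈ s, P i * ∑' k, poissonWeight lam k * G i k := by
  have h : ∀ i ∈ s, Summable fun k => P i * (poissonWeight lam k * G i k) := fun i hi =>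
    (summable_poisson_of_le hlam (hG i hi)).mul_left _
  have e : (fun k => poissonWeight lam k * ∑ i ∈ s, P i * G i k) =
      fun k => ∑ i ∈ s, P i * (poissonWeight lam k * G i k) := by
    funext k
    rw [Finset.mul_sum]
    exact Finset.sum_congr rfl fun i _ => by ring
  rw [e, Summable.tsum_finsetSum h]
  exact Finset.sum_congr rfl fun i _ => tsum_mul_left

/-- Poisson average of `k * c`. -/
theorem poisson_tsum_mul_const (lam c : ℝ) :
    ∑' k : ℕ, poissonWeight lam k * ((k : ℝ) * c) = lam * c := by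
  have h := (hasSum_poissonWeight_mul lam).mul_right c
  rw [← h.tsum_eq]
  exact tsum_congr fun k => by ring

/-- Poisson average of a constant. -/
theorem poisson_tsum_const (lam c : ℝ) : ∑' k : ℕ, poissonWeight lam k * c = c := by
  rw [tsum_mul_right, (hasSum_poissonWeight lam).tsum_eq, one_mul]

/-- An average at most `c` has an element at most `c`. -/
theorem exists_le_of_weighted_sum_le {ι : Type*} [Fintype ι] (P Q : ι → ℝ) (hP : ∀ i, 0 ≤ P i)
    (hP1 : ∑ i, P i = 1) {c : ℝ} (h : ∑ i, P i * Q i ≤ c) : ∃ i, Q i ≤ c := by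
  by_contra hcon
  push Not at hcon
  have h1 : c < ∑ i, P i * Q i := by
    have h2 : ∑ i, P i * c = c := by rw [← Finset.sum_mul, hP1, one_mul]
    have hex : ∃ i, 0 < P i := by
      by_contra hn
      push Not at hn
      have : ∑ i, P i ≤ 0 := Finset.sum_nonpos fun i _ => hn i
      linarith
    obtain ⟨i, hi⟩ := hex
    calc c = ∑ i, P i * c := h2.symm
      _ < ∑ i, P i * Q i := Finset.sum_lt_sum
        (fun j _ => mul_le_mul_of_nonneg_left (hcon j).le (hP j))
        ⟨i, Finset.mem_univ _, mul_lt_mul_of_pos_left (hcon i) hi⟩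
  linarith

end Crest.Agent.R141.Num
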