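import Crest.Agent.R141.Cavity2
import Crest.Agent.R141.Num

/-!
# Row 141, section 4: the abstract cavity step, part 3 (helper552)

The cavity step `cavity_abs` and the explicit formulas for `siteG`, `edgeG`.
-/

set_option autoImplicit false
set_option linter.unusedSectionVars false

open Crest.ProbabilityR.Diluted Crest.Agent.R141.Pois Filter

namespace Crest.Agent.R141.Cav

variable {p : ℕ} {K K' : Type} [Fintype K] [Fintype K']
variable {w : K → ℝ} {θ : K → Inter p} {w' : K' → ℝ} {h : K' → ℝ} {B : ℝ}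

/-- **The abstract cavity step.** -/
theorem cavity_abs {α : ℝ} (hα : 0 ≤ α) (hp : 0 < p) (hw : ∀ k, 0 ≤ w k)
    (hw1 : ∑ k, w k = 1) (hw' : ∀ k, 0 ≤ w' k) (hw1' : ∑ k, w' k = 1)
    (Ψ : (N : ℕ) → Ham N → ℝ) (Nst : ℕ) {c ε C : ℝ} (hε : 0 < ε) {r : ℕ → ℝ}
    (hr : Tendsto r atTop (nhds 0))
    (A1 : ∀ N, Nst ≤ N → ∀ H, Ψ N H ≤ logZ N H + (ε * N + C))
    (A2 : ∀ N, Nst ≤ N → LipG 1 (Ψ N))
    (A3 : ∀ N, Nst ≤ N → ∀ H : Ham (N + 1), Ψ N (red H) ≤ Ψ (N + 1) H + (ε + r N))
    (hfreq : ∃ᶠ N in atTop, LL α N w θ w' h (logZ N) ≤ N * c) (N0 : ℕ) :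
    ∃ N, N0 ≤ N ∧ ∃ H : Ham N,
      siteG α N w θ w' h (Ψ N) H - edgeG α N w θ (Ψ N) H ≤ c + 4 * ε := by
  classical
  -- a bound for the interactions
  obtain ⟨B, hB0, hθ⟩ : ∃ B : ℝ, 0 ≤ B ∧ ∀ k s, |θ k s| ≤ B := by
    refine ⟨∑ k, ‖θ k‖, Finset.sum_nonneg fun k _ => norm_nonneg _, fun k s => ?_⟩
    have h1 : ‖θ k s‖ ≤ ‖θ k‖ := norm_le_pi_norm (θ k) s
    rw [Real.norm_eq_abs] at h1
    exact h1.trans (Finset.single_le_sum (f := fun k => ‖θ k‖) (fun k _ => norm_nonneg _)
      (Finset.mem_univ k))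
  have hprod : ∀ N : ℕ, ∑ is : Fin N → K', ∏ i, w' (is i) = 1 := by
    intro N
    have := Finset.prod_univ_sum (fun _ : Fin N => (Finset.univ : Finset K')) (fun _ k => w' k)
    rw [Fintype.piFinset_univ] at this
    rw [← this]
    simp [hw1']
  -- comparison of `LL Ψ` and `LL log Z`
  have hcmp : ∀ N, Nst ≤ N → 0 < N →
      LL α N w θ w' h (Ψ N) ≤ LL α N w θ w' h (logZ N) + (ε * N + C) := by
    intro N hN hN0
    have sE : IsShift (α * N) (α * N * B) ((α * N) • KE N w θ) := by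
      simpa using (isShift_KE (p := p) hN0 hw hw1 hB0 hθ).smul (c := α * N) (by positivity)
    have hc2 : ∀ d : ℝ, d = ∑ is : Fin N → K', (∏ i, w' (is i)) * d :=
      fun d => by rw [← Finset.sum_mul, hprod, one_mul]
    rw [hc2 (ε * N + C)]
    unfold LL
    rw [← Finset.sum_add_distrib]
    refine Finset.sum_le_sum fun is _ => ?_
    rw [← mul_add]
    refine mul_le_mul_of_nonneg_left ?_ (Finset.prod_nonneg fun i _ => hw' _)
    exact Top_le_add sE zero_le_one (A2 N hN) zero_le_one (logZ_lip N) _ (A1 N hN) _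
  -- threshold
  set Nst' := max Nst 1 with hNst'
  set LLf : ℕ → ℝ := fun N => LL α N w θ w' h (Ψ N) with hLLf
  set Ff : ℕ → ℝ := fun N => LL α N w θ w' h (logZ N) / N with hFf
  set C' : ℝ := |C| + ∑ N ∈ Finset.range Nst', |LLf N - N * Ff N - ε * N| with hC'
  have hS0 : 0 ≤ ∑ N ∈ Finset.range Nst', |LLf N - N * Ff N - ε * N| :=
    Finset.sum_nonneg fun _ _ => abs_nonneg _
  have h1 : ∀ N : ℕ, LLf N ≤ N * Ff N + (ε * N + C') := by
    intro N
    by_cases hN : Nst' ≤ N
    · have hN1 : Nst ≤ N := (le_max_left _ _).trans hN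
      have hN2 : 0 < N := (le_max_right _ _).trans hN
      have hN3 : (N : ℝ) ≠ 0 := by positivity
      have h2 := hcmp N hN1 hN2
      have h3 : (N : ℝ) * Ff N = LL α N w θ w' h (logZ N) := by
        rw [hFf]; field_simp
      rw [h3]
      have := le_abs_self C
      simp only [hLLf, hC']
      linarith
    · have hmem : N ∈ Finset.range Nst' := Finset.mem_range.2 (not_le.1 hN)
      have h2 : |LLf N - N * Ff N - ε * N| ≤
          ∑ N ∈ Finset.range Nst', |LLf N - N * Ff N - ε * N| :=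
        Finset.single_le_sum (f := fun N => |LLf N - N * Ff N - ε * N|)
          (fun _ _ => abs_nonneg _) hmem
      have h3 := le_abs_self (LLf N - N * Ff N - ε * N)
      have h4 := abs_nonneg C
      rw [hC']
      linarith
  have h2 : ∃ᶠ N in atTop, Ff N ≤ c := by
    have hpos : ∀ᶠ N : ℕ in atTop, 0 < N := eventually_gt_atTop 0
    refine (hfreq.and_eventually hpos).mono fun N hN => ?_
    have hN3 : (0 : ℝ) < N := by exact_mod_cast hN.2
    rw [hFf]
    show LL α N w θ w' h (logZ N) / N ≤ c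
    rw [div_le_iff₀ hN3, mul_comm]
    exact hN.1
  -- small errors
  have herr : Tendsto (fun N => r N + errN p α B N) atTop (nhds 0) := by
    have := hr.add (tendsto_errN hp α B)
    rwa [add_zero] at this
  obtain ⟨N1, hN1⟩ := (Metric.tendsto_atTop.1 herr) ε hε
  obtain ⟨N, hN, hinc⟩ := Num.exists_increment_le hε h1 h2 (max (max N0 Nst') N1)
  have hN0' : N0 ≤ N := ((le_max_left _ _).trans (le_max_left _ _)).trans hN
  have hNst1 : Nst' ≤ N := ((le_max_right _ _).trans (le_max_left _ _)).trans hN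
  have hNst2 : Nst ≤ N := (le_max_left _ _).trans hNst1
  have hNpos : 0 < N := (le_max_right _ _).trans hNst1
  have hN1' : N1 ≤ N := (le_max_right _ _).trans hN
  refine ⟨N, hN0', ?_⟩
  by_contra hcon
  push Not at hcon
  have hstep := LL_step (h := h) hα hp hNpos hw hw1 hw' hw1' hB0 hθ (A2 N hNst2)
    (A2 (N + 1) (hNst2.trans (Nat.le_succ N))) (A3 N hNst2) (c' := c + 4 * ε)
    fun H => (hcon H).le
  have h3 := hN1 N hN1'
  rw [Real.dist_eq, sub_zero] at h3
  have h4 := (abs_lt.1 h3).2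
  simp only [hLLf] at hinc
  linarith

/-! ### Explicit formulas -/

/-- Logarithm of the cavity factor: `log Σ_e exp (x e + Σ_j θ_j (spins of I_j, slot l_j = e))`. -/
noncomputable def cavU {N M : ℕ} (x : ℝ) (θs : Fin M → Inter p) (ls : Fin M → Fin p)
    (Is : Fin M → Fin p → Fin N) : Ham N := fun s =>
  Real.log (∑ e : Bool, Real.exp (x * spinVal e +
    ∑ j, θs j (fun m => if m = ls j then e else s (Is j m))))

/-- Sum of the edge Hamiltonians. -/
noncomputable def edgeU {N M : ℕ} (θs : Fin M → Inter p) (Is : Fin M → Fin p → Fin N) : Ham N :=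
  fun s => ∑ j, θs j (fun m => s (Is j m))

theorem red_lift {N M : ℕ} (H : Ham N) (x : ℝ) (θs : Fin M → Inter p) (ls : Fin M → Fin p)
    (Is : Fin M → Fin p → Fin N) :
    red (lift N H + siteF N x + ∑ j, cavA (θs j) {ls j} (Is j)) =
      H + cavU x θs ls Is := by
  funext s
  simp only [red, Pi.add_apply, Finset.sum_apply, cavU, lift_apply, siteF, cavA,
    Finset.mem_singleton, Fin.snoc_castSucc, Fin.snoc_last]
  have h1 : ∀ e : Bool, Real.exp (H (fun i => s i) + x * spinVal e +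
      ∑ j, θs j (fun m => if m = ls j then e else s (Is j m))) =
      Real.exp (H s) * Real.exp (x * spinVal e +
      ∑ j, θs j (fun m => if m = ls j then e else s (Is j m))) := by
    intro e
    rw [← Real.exp_add, add_assoc]
  rw [Finset.sum_congr rfl fun e _ => h1 e, ← Finset.mul_sum, Real.log_mul (Real.exp_pos _).ne',
    Real.log_exp]
  exact (Finset.sum_pos (fun e _ => Real.exp_pos _) Finset.univ_nonempty).ne'

theorem siteG_eq (α : ℝ) (N : ℕ) (w : K → ℝ) (θ : K → Inter p) (w' : K' → ℝ) (h : K' → ℝ)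
    (Ψ : Ham N → ℝ) (H : Ham N) :
    siteG α N w θ w' h Ψ H = ∑ k, w' k * ∑' M : ℕ, poissonWeight (α * p) M *
      ∑ i : Fin M → K × Fin p × (Fin p → Fin N),
        (∏ j, (w (i j).1 * (p : ℝ)⁻¹ * ((N : ℝ)⁻¹) ^ p)) *
          Ψ (H + cavU (h k) (fun j => θ (i j).1) (fun j => (i j).2.1) (fun j => (i j).2.2)) := by
  unfold siteG KO
  refine Finset.sum_congr rfl fun k _ => ?_
  rw [Top_smul_Kop]
  congr 1
  refine tsum_congr fun M => ?_
  congr 1
  refine Finset.sum_congr rfl fun i _ => ?_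
  rw [red_lift H (h k) (fun j => θ (i j).1) (fun j => (i j).2.1) (fun j => (i j).2.2)]

theorem edgeG_eq (α : ℝ) (N : ℕ) (w : K → ℝ) (θ : K → Inter p) (Ψ : Ham N → ℝ) (H : Ham N) :
    edgeG α N w θ Ψ H = ∑' M : ℕ, poissonWeight (α * (p - 1)) M *
      ∑ i : Fin M → K × (Fin p → Fin N), (∏ j, (w (i j).1 * ((N : ℝ)⁻¹) ^ p)) *
        Ψ (H + edgeU (fun j => θ (i j).1) (fun j => (i j).2)) := by
  unfold edgeG KE
  rw [Top_smul_Kop]
  refine tsum_congr fun M => ?_
  congr 1
  refine Finset.sum_congr rfl fun i _ => ?_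
  have : (∑ j, edgeH (θ (i j).1) (i j).2 : Ham N) =
      edgeU (fun j => θ (i j).1) (fun j => (i j).2) := by
    funext s
    rw [Finset.sum_apply]
    rfl
  rw [this]
  rfl

/-- Splitting a sum over `Fin M → K × X` with product weights. -/
theorem sum_pair {M : ℕ} {X : Type} [Fintype X] (v : K → ℝ) (c : ℝ)
    (f : (Fin M → K) → (Fin M → X) → ℝ) :
    ∑ i : Fin M → K × X, (∏ j, (v (i j).1 * c)) * f (fun j => (i j).1) (fun j => (i j).2) =
      ∑ ks : Fin M → K, (∏ j, v (ks j)) * (c ^ M * ∑ xs : Fin M → X, f ks xs) := by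
  rw [← (Equiv.arrowProdEquivProdArrow (Fin M) (fun _ => K) (fun _ => X)).symm.sum_comp,
    Fintype.sum_prod_type]
  refine Finset.sum_congr rfl fun ks _ => ?_
  rw [Finset.mul_sum, Finset.mul_sum]
  refine Finset.sum_congr rfl fun xs _ => ?_
  simp only [Equiv.arrowProdEquivProdArrow, Equiv.coe_fn_symm_mk, Finset.prod_mul_distrib,
    Finset.prod_const, Finset.card_univ, Fintype.card_fin]
  ring

theorem LL_logZ_eq {α : ℝ} (hα : 0 ≤ α) {N : ℕ} (hw : ∀ k, 0 ≤ w k)
    (hw1 : ∑ k, w k = 1) (w' : K' → ℝ) (h : K' → ℝ) (hN : 0 < N) :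
    LL α N w θ w' h (logZ N) = ∑' M : ℕ, poissonWeight (α * N) M *
      ∑ ks : Fin M → K, (∏ j, w (ks j)) * ∑ is : Fin N → K', (∏ i, w' (is i)) *
        ((Fintype.card (Fin M → Fin p → Fin N) : ℝ)⁻¹ * ∑ idx : Fin M → Fin p → Fin N,
          logPartition N (fun j => θ (ks j)) idx (fun i => h (is i))) := by
  classical
  obtain ⟨B, hB0, hθ⟩ : ∃ B : ℝ, 0 ≤ B ∧ ∀ k s, |θ k s| ≤ B := by
    refine ⟨∑ k, ‖θ k‖, Finset.sum_nonneg fun k _ => norm_nonneg _, fun k s => ?_⟩
    have h1 : ‖θ k s‖ ≤ ‖θ k‖ := norm_le_pi_norm (θ k) s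
    rw [Real.norm_eq_abs] at h1
    exact h1.trans (Finset.single_le_sum (f := fun k => ‖θ k‖) (fun k _ => norm_nonneg _)
      (Finset.mem_univ k))
  have sE : IsShift (α * N) (α * N * B) ((α * N) • KE N w θ) := by
    simpa using (isShift_KE (p := p) hN hw hw1 hB0 hθ).smul (c := α * N) (by positivity)
  unfold LL Pois.Top
  simp only [← tsum_mul_left]
  rw [← Summable.tsum_finsetSum
    (fun is _ => (Top_summable sE zero_le_one (logZ_lip N) _).mul_left _)]
  refine tsum_congr fun M => ?_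
  -- the term of index `M`
  have hterm : ∀ is : Fin N → K', Real.exp (-(α * N)) / (M.factorial : ℝ) *
      (((α * N) • KE N w θ) ^ M) (logZ N) (fieldH fun i => h (is i)) =
      poissonWeight (α * N) M * ∑ ks : Fin M → K, (∏ j, w (ks j)) *
        ((Fintype.card (Fin M → Fin p → Fin N) : ℝ)⁻¹ * ∑ idx : Fin M → Fin p → Fin N,
          logPartition N (fun j => θ (ks j)) idx (fun i => h (is i))) := by
    intro is
    rw [smul_pow, LinearMap.smul_apply, Pi.smul_apply, KE, Kop_pow, smul_eq_mul, poissonWeight]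
    have h1 := sum_pair (M := M) (X := Fin p → Fin N) w (((N : ℝ)⁻¹) ^ p)
      (fun ks idx => logPartition N (fun j => θ (ks j)) idx (fun i => h (is i)))
    have h2 : (((N : ℝ)⁻¹) ^ p) ^ M = (Fintype.card (Fin M → Fin p → Fin N) : ℝ)⁻¹ := by
      rw [Fintype.card_fun, Fintype.card_fun, Fintype.card_fin, Fintype.card_fin,
        Fintype.card_fin]
      push_cast
      rw [inv_pow, inv_pow]
    rw [h2] at h1
    rw [← h1]
    have h3 : ∀ i : Fin M → K × (Fin p → Fin N),
        logZ N ((fieldH fun i => h (is i)) + ∑ j, edgeH (θ (i j).1) (i j).2) =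
        logPartition N (fun j => θ (i j).1) (fun j => (i j).2) (fun i => h (is i)) := by
      intro i
      unfold logZ logPartition
      congr 1
      refine Finset.sum_congr rfl fun s _ => ?_
      congr 1
      rw [Pi.add_apply, Finset.sum_apply, add_comm]
      rfl
    simp only [h3, ve]
    ring
  simp only [hterm]
  rw [Finset.mul_sum]
  simp only [Finset.mul_sum]
  rw [Finset.sum_comm]
  refine Finset.sum_congr rfl fun ks _ => Finset.sum_congr rfl fun is _ =>
    Finset.sum_congr rfl fun idx _ => ?_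
  ring

end Crest.Agent.R141.Cav
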