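import Crest.Agent.R141.Noise
import Crest.Agent.R141.Sys

/-!
Row 141 (S0192), Part L, section 2.3: the coins of the enriched system and the noise lemma for them.
-/

set_option autoImplicit false

namespace Crest.Agent.R141

open Finset

noncomputable section

section general

variable {Ω : Type*} [Fintype Ω] {P : Ω → ℝ} {𝓕 : Filt Ω} {x : ℕ → ℝ} {s : Ω → ℝ} {ι : Ω → Ω}
  {k : ℕ}

theorem Coin.A_inv_all (C : Coin P 𝓕 k s ι) (hP : IsProb P) (hx : ∀ k, 0 < x k) {U : Ω → ℝ}
    (hU : ∀ ω, U (ι ω) = U ω) (l : ℕ) (ω : Ω) : A P 𝓕 x U l (ι ω) = A P 𝓕 x U l ω := by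
  by_cases hl : k ≤ l
  · exact C.A_inv hU hl ω
  · have h := C.rel_flip ω
    exact ((A_meas hP hx U l).mono (𝓕.anti' (by omega : l ≤ k - 1)) ω (ι ω) h).symm

/-- tilting by a flip-invariant function keeps the coin. -/
theorem Coin.tilt (C : Coin P 𝓕 k s ι) (hP : IsProb P) (hx : ∀ k, 0 < x k) {U : Ω → ℝ}
    (hU : ∀ ω, U (ι ω) = U ω) : Coin (tl P 𝓕 x U) 𝓕 k s ι where
  invol := C.invol
  P_flip ω := by
    unfold tl S
    rw [C.P_flip]
    congr 2
    apply Finset.sum_congr rfl
    intro l _
    rw [C.A_inv_all hP hx hU, C.A_inv_all hP hx hU]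
  s01 := C.s01
  s_flip := C.s_flip
  s_meas := C.s_meas
  flip_rel := C.flip_rel
  rel_flip := C.rel_flip

end general

variable (p : Par) (N : ℕ)

/-- the flip of the coin `k`. -/
def cflip (k : Stp p) (ω : Om p N) : Om p N :=
  (ω.1, ω.2.1, fun g t => if (g, t) = k then !(ω.2.2 g t) else ω.2.2 g t)

/-- the value of the coin `k`. -/
def csv (k : Stp p) (ω : Om p N) : ℝ := if ω.2.2 k.1 k.2 = true then 1 else 0

theorem coin_prior (k : Stp p) :
    Coin (prior p N) (fil p N) (p.ct k.1 k.2) (csv p N k) (cflip p N k) where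
  invol ω := by
    unfold cflip
    refine Prod.ext rfl (Prod.ext rfl ?_)
    funext g t
    by_cases h : (g, t) = k
    · simp [h]
    · simp [h]
  P_flip ω := rfl
  s01 ω := by unfold csv; split_ifs <;> simp
  s_flip ω := by
    unfold csv cflip
    cases h : ω.2.2 k.1 k.2 <;> simp [h]
  s_meas := by
    intro ω ω' h
    have h : frel p N _ ω ω' := h
    unfold csv
    rw [h.2.1 k.1 k.2 le_rfl]
  flip_rel l _ a b h := by
    have h : frel p N l a b := h
    show frel p N l _ _
    refine ⟨h.1, fun g t hg => ?_, h.2.2⟩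
    simp only [cflip]
    rw [h.2.1 g t hg]
  rel_flip ω := by
    show frel p N _ _ _
    refine ⟨fun _ _ _ _ => rfl, fun g t hg => ?_, fun _ => rfl⟩
    simp only [cflip]
    rw [if_neg]
    intro hk
    have h0 := p.ct_pos k.1 k.2
    have h1 : p.ct g t = p.ct k.1 k.2 := by rw [← hk]
    omega

theorem cv_flip (c : Crd p N) (k : Stp p) (ω : Om p N) :
    cv p N c (cflip p N k ω) = cv p N c ω := by
  rcases c with ⟨i, _ | b⟩ <;> rfl

theorem UU_flip (H : (Fin N → Bool) → ℝ) (d : DD p N) (k : Stp p) (hk : d k = none) (ω : Om p N) :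
    UU p N H d (cflip p N k ω) = UU p N H d ω := by
  unfold UU WW
  have h1 : (cflip p N k ω).1 = ω.1 := rfl
  have h2 : ∀ i b, gfac p N i b (cflip p N k ω) = gfac p N i b ω := fun i b => rfl
  have h3 : ∀ k', cfac p N (d k') k' (cflip p N k ω) = cfac p N (d k') k' ω := by
    intro k'
    by_cases hkk : k' = k
    · rw [hkk, hk]; rfl
    · cases hd : d k' with
      | none => rfl
      | some c =>
        unfold cfac
        simp only
        rw [cv_flip]
        have : (cflip p N k ω).2.2 k'.1 k'.2 = ω.2.2 k'.1 k'.2 := by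
          simp only [cflip]
          rw [if_neg]
          intro h; exact hkk h
        rw [this]
  rw [h1]
  simp only [h2, h3]

/-- the coin of a null step under the tilted law. -/
theorem coin_sys (H : (Fin N → Bool) → ℝ) (d : DD p N) (k : Stp p) (hk : d k = none) :
    Coin (PP p N H d) (fil p N) (p.ct k.1 k.2) (csv p N k) (cflip p N k) :=
  (coin_prior p N k).tilt (prior_isProb p N) p.xs_expo.pos (UU_flip p N H d k hk)

theorem UU_update (H : (Fin N → Bool) → ℝ) (d : DD p N) (k : Stp p) (hk : d k = none)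
    (c : Crd p N) :
    UU p N H (Function.update d k (some c)) =
      fun ω => UU p N H d ω + csv p N k ω * (p.τ * cv p N c ω) := by
  classical
  funext ω
  unfold UU WW
  have h1 : ∑ k', cfac p N (Function.update d k (some c) k') k' ω =
      ∑ k', cfac p N (d k') k' ω + csv p N k ω * (p.τ * cv p N c ω) := by
    rw [← Finset.add_sum_erase _ _ (Finset.mem_univ k), ← Finset.add_sum_erase _ (fun k' =>
      cfac p N (d k') k' ω) (Finset.mem_univ k)]
    have h2 : ∑ k' ∈ univ.erase k, cfac p N (Function.update d k (some c) k') k' ω =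
        ∑ k' ∈ univ.erase k, cfac p N (d k') k' ω := by
      apply Finset.sum_congr rfl
      intro k' hk'
      rw [Function.update_of_ne (Finset.ne_of_mem_erase hk')]
    rw [h2, Function.update_self, hk]
    unfold cfac csv
    simp only
    ring
  rw [h1]; ring

/-- the law with the null step `k` replaced by the coordinate `c` is the noisy law. -/
theorem PP_update (H : (Fin N → Bool) → ℝ) (d : DD p N) (k : Stp p) (hk : d k = none)
    (c : Crd p N) :
    PP p N H (Function.update d k (some c)) =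
      tl (PP p N H d) (fil p N) p.xs (fun ω => csv p N k ω * (p.τ * cv p N c ω)) := by
  unfold PP
  rw [UU_update p N H d k hk c]
  exact tl_add (prior_isProb p N) p.xs_expo.pos _ _

/-- NOISE LEMMA for the enriched system: at a null step `k` of `d`. -/
theorem noise_sys (hτ : p.τ ≤ 1 / 3) (H : (Fin N → Bool) → ℝ) (d : DD p N) (k : Stp p)
    (hk : d k = none) (c c' : Crd p N) {m : ℕ} (hm : RMeas ((fil p N).F m) (cv p N c'))
    {κc κd : ℝ} (hκc : 0 ≤ κc) (hκd : 0 ≤ κd) (hκd1 : κd ≤ 1)
    (h1 : ∀ l, p.ct k.1 k.2 ≤ l → l < m → ∀ ω,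
      cE (PP p N H d) ((fil p N).F l) (cv p N c') ω ≤ κd)
    (h2 : ∀ ω, cE (PP p N H d) ((fil p N).F (p.ct k.1 k.2))
      (fun w => cv p N c w * cv p N c' w) ω ≤ κc * κd)
    (h3 : ∀ ω, cE (PP p N H d) ((fil p N).F (p.ct k.1 k.2)) (cv p N c) ω ≤ κc) :
    ∑ ω, PP p N H d ω * (Yf (PP p N H d) (fil p N).F p.xs p.L (p.ct k.1 k.2)
        (cv p N c) (cv p N c') ω) ^ 2 ≤
      16 / p.τ ^ 2 * (∑ ω, PP p N H (Function.update d k (some c')) ω *
        (cE (PP p N H (Function.update d k (some c'))) ((fil p N).F (p.ct k.1 k.2))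
            (cv p N c) ω -
          cE (PP p N H (Function.update d k (some c'))) ((fil p N).F (p.ct k.1 k.2 - 1))
            (cv p N c) ω) ^ 2) +
      242 * p.τ ^ 2 * (κc * κd) ^ 2 := by
  have h := noise_lemma (x := p.xs) (coin_sys p N H d k hk) (PP_isProb p N H d) p.xs_expo p.hτ0 hτ
    (vc := cv p N c) (vd := cv p N c') (cv_nonneg p N c) (cv_nonneg p N c') (cv_le_one p N c')
    (cv_flip p N c k) (cv_flip p N c' k) hm hκc hκd hκd1 h1 h2 h3
  rw [PP_update p N H d k hk c']
  exact h

end

end Crest.Agent.R141
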