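import Crest.Agent.R141.Psd

/-!
# Row 141, Part L, 2.4: from coordinates to linear combinations (helper318)

If `φ_i = ∑_b c_b v_{i,b}` then the off-diagonal responses `Y_k(v_{i,b}, v_{j,b'})` control all
conditional covariances of the `E_m φ_i`.
-/

set_option autoImplicit false

namespace Crest.Agent.R141.Comb

open Finset Crest.Agent.R141

noncomputable section

/-- weighted Cauchy–Schwarz: `(∑ c_b c_b' y_bb')² ≤ (∑|c|)² ∑ |c_b||c_b'| y_bb'²`. -/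
theorem sq_sum_sum_le {β : Type*} (B : Finset β) (c : β → ℝ) (y : β → β → ℝ) :
    (∑ b ∈ B, ∑ b' ∈ B, c b * c b' * y b b') ^ 2 ≤
      (∑ b ∈ B, |c b|) ^ 2 * ∑ b ∈ B, ∑ b' ∈ B, |c b| * |c b'| * (y b b') ^ 2 := by
  have h1 : (∑ b ∈ B, ∑ b' ∈ B, c b * c b' * y b b') ^ 2 =
      (∑ q ∈ B ×ˢ B, c q.1 * c q.2 * y q.1 q.2) ^ 2 := by
    rw [Finset.sum_product]
  have h2 : (∑ b ∈ B, |c b|) ^ 2 = ∑ q ∈ B ×ˢ B, |c q.1| * |c q.2| := by
    rw [sq, Finset.sum_mul_sum, Finset.sum_product]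
  have h3 : ∑ b ∈ B, ∑ b' ∈ B, |c b| * |c b'| * (y b b') ^ 2 =
      ∑ q ∈ B ×ˢ B, |c q.1| * |c q.2| * (y q.1 q.2) ^ 2 := by
    rw [Finset.sum_product]
  rw [h1, h2, h3]
  refine Finset.sum_sq_le_sum_mul_sum_of_sq_le_mul _ (fun q _ => by positivity)
    (fun q _ => by positivity) (fun q _ => ?_)
  have : (c q.1 * c q.2 * y q.1 q.2) ^ 2 = |c q.1| ^ 2 * |c q.2| ^ 2 * y q.1 q.2 ^ 2 := by
    rw [sq_abs, sq_abs]; ring
  rw [this]
  exact le_of_eq (by ring)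

variable {Ω : Type*} [Fintype Ω] {P : Ω → ℝ} {F : ℕ → Setoid Ω}

/-- 2.4 at one node. -/
theorem comb_compare (hP : IsProb P) (hF : Antitone F) {x : ℕ → ℝ} {L k m : ℕ}
    (hkm : k ≤ m) (hmL : m ≤ L) {y : ℝ} (hy : 0 ≤ y) (hx : ∀ l ∈ Finset.Ioc k L, y ≤ x l)
    (hx1 : ∀ l ∈ Finset.Ioc k L, x l ≤ 1)
    {ι β : Type*} [DecidableEq ι] (I : Finset ι) (B : Finset β) (c : β → ℝ) (v : ι → β → Ω → ℝ)
    {κ : ℝ} (ω : Ω) (hκ : ∀ i ∈ I, ∀ b ∈ B, cE P (F k) (fun a => v i b a ^ 2) ω ≤ κ) :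
    y ^ 2 * ∑ i ∈ I, ∑ j ∈ I, (covR P (F k) (cE P (F m) (fun a => ∑ b ∈ B, c b * v i b a))
        (cE P (F m) (fun a => ∑ b ∈ B, c b * v j b a)) ω) ^ 2 ≤
      (∑ b ∈ B, |c b|) ^ 2 * ∑ b ∈ B, ∑ b' ∈ B, |c b| * |c b'| *
        (∑ i ∈ I, ∑ j ∈ I, if i = j then 0 else (Yf P F x L k (v i b) (v j b') ω) ^ 2) +
      (∑ b ∈ B, |c b|) ^ 4 * (I.card * κ ^ 2) := by
  have hx0 : ∀ l ∈ Finset.Ioc k L, 0 ≤ x l := fun l hl => hy.trans (hx l hl)
  refine (psd_compare hP hF hkm hmL hy hx I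
    (fun i a => ∑ b ∈ B, c b * v i b a) ω).trans ?_
  -- per pair bound
  have hpair : ∀ i j, (Yf P F x L k (fun a => ∑ b ∈ B, c b * v i b a)
      (fun a => ∑ b ∈ B, c b * v j b a) ω) ^ 2 ≤
      (∑ b ∈ B, |c b|) ^ 2 * ∑ b ∈ B, ∑ b' ∈ B, |c b| * |c b'| *
        (Yf P F x L k (v i b) (v j b') ω) ^ 2 := by
    intro i j
    rw [Yf_sum_sum]
    exact sq_sum_sum_le B c (fun b b' => Yf P F x L k (v i b) (v j b') ω)
  have hsplit : ∀ i ∈ I, ∀ j ∈ I, ∀ b ∈ B, ∀ b' ∈ B,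
      |c b| * |c b'| * (Yf P F x L k (v i b) (v j b') ω) ^ 2 ≤
      |c b| * |c b'| * (if i = j then 0 else (Yf P F x L k (v i b) (v j b') ω) ^ 2) +
      |c b| * |c b'| * (if i = j then κ ^ 2 else 0) := by
    intro i hi j hj b hb b' hb'
    by_cases hij : i = j
    · subst hij
      simp only [if_true, mul_zero, zero_add]
      refine mul_le_mul_of_nonneg_left ?_ (by positivity)
      have := Yf_abs_le hP hF hx0 hx1 (hκ i hi b hb) (hκ i hi b' hb')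
      exact sq_le_sq' (by linarith [neg_abs_le (Yf P F x L k (v i b) (v i b') ω)])
        ((le_abs_self _).trans this)
    · simp [hij]
  calc ∑ i ∈ I, ∑ j ∈ I, (Yf P F x L k (fun a => ∑ b ∈ B, c b * v i b a)
      (fun a => ∑ b ∈ B, c b * v j b a) ω) ^ 2
      ≤ ∑ i ∈ I, ∑ j ∈ I, (∑ b ∈ B, |c b|) ^ 2 * ∑ b ∈ B, ∑ b' ∈ B,
        (|c b| * |c b'| * (if i = j then 0 else (Yf P F x L k (v i b) (v j b') ω) ^ 2) +
        |c b| * |c b'| * (if i = j then κ ^ 2 else 0)) := by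
        refine Finset.sum_le_sum fun i hi => Finset.sum_le_sum fun j hj => (hpair i j).trans ?_
        refine mul_le_mul_of_nonneg_left ?_ (by positivity)
        exact Finset.sum_le_sum fun b hb => Finset.sum_le_sum fun b' hb' =>
          hsplit i hi j hj b hb b' hb'
    _ = (∑ b ∈ B, |c b|) ^ 2 * ∑ b ∈ B, ∑ b' ∈ B, |c b| * |c b'| *
        (∑ i ∈ I, ∑ j ∈ I, if i = j then 0 else (Yf P F x L k (v i b) (v j b') ω) ^ 2) +
        (∑ b ∈ B, |c b|) ^ 2 * ∑ b ∈ B, ∑ b' ∈ B, |c b| * |c b'| *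
        (∑ i ∈ I, ∑ j ∈ I, if i = j then κ ^ 2 else 0) := by
        have e : ∀ g : ι → ι → β → β → ℝ, ∑ i ∈ I, ∑ j ∈ I, ∑ b ∈ B, ∑ b' ∈ B, g i j b b' =
            ∑ b ∈ B, ∑ b' ∈ B, ∑ i ∈ I, ∑ j ∈ I, g i j b b' := by
          intro g
          calc ∑ i ∈ I, ∑ j ∈ I, ∑ b ∈ B, ∑ b' ∈ B, g i j b b'
              = ∑ i ∈ I, ∑ b ∈ B, ∑ j ∈ I, ∑ b' ∈ B, g i j b b' :=
                Finset.sum_congr rfl fun i _ => Finset.sum_comm
            _ = ∑ i ∈ I, ∑ b ∈ B, ∑ b' ∈ B, ∑ j ∈ I, g i j b b' :=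
                Finset.sum_congr rfl fun i _ => Finset.sum_congr rfl fun b _ => Finset.sum_comm
            _ = ∑ b ∈ B, ∑ i ∈ I, ∑ b' ∈ B, ∑ j ∈ I, g i j b b' := Finset.sum_comm
            _ = ∑ b ∈ B, ∑ b' ∈ B, ∑ i ∈ I, ∑ j ∈ I, g i j b b' :=
                Finset.sum_congr rfl fun b _ => Finset.sum_comm
        rw [← mul_add]
        simp only [← Finset.mul_sum]
        congr 1
        rw [e, ← Finset.sum_add_distrib]
        refine Finset.sum_congr rfl fun b _ => ?_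
        rw [← Finset.sum_add_distrib]
        refine Finset.sum_congr rfl fun b' _ => ?_
        simp only [Finset.sum_add_distrib, Finset.mul_sum]
    _ ≤ _ := by
        have h1 : ∀ i ∈ I, ∑ j ∈ I, (if i = j then κ ^ 2 else 0) = κ ^ 2 := by
          intro i hi
          rw [Finset.sum_ite_eq, if_pos hi]
        have h2 : ∑ i ∈ I, ∑ j ∈ I, (if i = j then κ ^ 2 else 0) = I.card * κ ^ 2 := by
          rw [Finset.sum_congr rfl h1, Finset.sum_const, nsmul_eq_mul]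
        have h3 : ∑ b ∈ B, ∑ b' ∈ B, |c b| * |c b'| * (I.card * κ ^ 2) =
            (∑ b ∈ B, |c b|) ^ 2 * (I.card * κ ^ 2) := by
          have h4 : (∑ b ∈ B, |c b|) ^ 2 = ∑ b ∈ B, ∑ b' ∈ B, |c b| * |c b'| := by
            rw [sq, Finset.sum_mul_sum]
          rw [h4, Finset.sum_mul]
          refine Finset.sum_congr rfl fun b _ => ?_
          rw [Finset.sum_mul]
        rw [h2, h3]
        exact le_of_eq (by ring)

/-- 2.4 in the mean. -/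
theorem comb_compare_mean (hP : IsProb P) (hF : Antitone F) {x : ℕ → ℝ} {L k m : ℕ}
    (hkm : k ≤ m) (hmL : m ≤ L) {y : ℝ} (hy : 0 < y) (hx : ∀ l ∈ Finset.Ioc k L, y ≤ x l)
    (hx1 : ∀ l ∈ Finset.Ioc k L, x l ≤ 1)
    {ι β : Type*} [DecidableEq ι] (I : Finset ι) (B : Finset β) (c : β → ℝ) (v : ι → β → Ω → ℝ)
    {κ : ℝ} (hκ : ∀ ω, ∀ i ∈ I, ∀ b ∈ B, cE P (F k) (fun a => v i b a ^ 2) ω ≤ κ)
    (Bad : β → β → ℝ)
    (hBad : ∀ b ∈ B, ∀ b' ∈ B, ∑ i ∈ I, ∑ j ∈ I, (if i = j then 0 else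
      eE P (fun ω => (Yf P F x L k (v i b) (v j b') ω) ^ 2)) ≤ Bad b b') :
    ∑ i ∈ I, ∑ j ∈ I, eE P (fun ω => (covR P (F k) (cE P (F m) (fun a => ∑ b ∈ B, c b * v i b a))
        (cE P (F m) (fun a => ∑ b ∈ B, c b * v j b a)) ω) ^ 2) ≤
      (y ^ 2)⁻¹ * ((∑ b ∈ B, |c b|) ^ 2 * ∑ b ∈ B, ∑ b' ∈ B, |c b| * |c b'| * Bad b b' +
      (∑ b ∈ B, |c b|) ^ 4 * (I.card * κ ^ 2)) := by
  rw [← div_eq_inv_mul, le_div_iff₀ (by positivity), mul_comm]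
  have h := eE_mono hP (fun ω => comb_compare hP hF hkm hmL hy.le hx hx1 I B c v ω (hκ ω))
  have e1 : eE P (fun ω => y ^ 2 * ∑ i ∈ I, ∑ j ∈ I,
      (covR P (F k) (cE P (F m) (fun a => ∑ b ∈ B, c b * v i b a))
        (cE P (F m) (fun a => ∑ b ∈ B, c b * v j b a)) ω) ^ 2) =
      y ^ 2 * ∑ i ∈ I, ∑ j ∈ I, eE P (fun ω =>
      (covR P (F k) (cE P (F m) (fun a => ∑ b ∈ B, c b * v i b a))
        (cE P (F m) (fun a => ∑ b ∈ B, c b * v j b a)) ω) ^ 2) := by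
    rw [eE_smul, eE_sum]
    congr 1
    refine Finset.sum_congr rfl fun i _ => ?_
    rw [eE_sum]
  rw [e1] at h
  refine h.trans ?_
  rw [eE_add, eE_const hP, eE_smul, eE_sum]
  refine add_le_add_left (mul_le_mul_of_nonneg_left ?_ (by positivity)) _
  refine Finset.sum_le_sum fun b hb => ?_
  rw [eE_sum]
  refine Finset.sum_le_sum fun b' hb' => ?_
  rw [eE_smul]
  refine mul_le_mul_of_nonneg_left ?_ (by positivity)
  refine le_trans (le_of_eq ?_) (hBad b hb b' hb')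
  rw [eE_sum]
  refine Finset.sum_congr rfl fun i _ => ?_
  rw [eE_sum]
  refine Finset.sum_congr rfl fun j _ => ?_
  by_cases hij : i = j
  · simp [hij, eE]
  · simp [hij]

end

end Crest.Agent.R141.Comb
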