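import Crest.Agent.R141.Comb
import Crest.Agent.R141.Sys

/-!
# Row 141, Part L, 2.4 for the enriched system (helper318)
-/

set_option autoImplicit false

namespace Crest.Agent.R141.Comb

open Finset Crest.Agent.R141

noncomputable section

theorem xs_ge (p : Par) (k : ℕ) : 1 / ((p.nc : ℝ) + 1) ≤ p.xs k := by
  unfold Par.xs
  refine le_min ?_ ?_
  · rw [div_le_one (by positivity)]
    have : (0 : ℝ) ≤ p.nc := Nat.cast_nonneg _
    linarith
  · apply div_le_div_of_nonneg_right _ (by positivity)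
    have : (0 : ℝ) ≤ (((k - 1) / (p.T + 1) : ℕ) : ℝ) := Nat.cast_nonneg _
    linarith

theorem cv_sq (p : Par) (N : ℕ) (c : Crd p N) (ω : Om p N) : cv p N c ω ^ 2 = cv p N c ω := by
  rcases cv_mem p N c ω with h | h <;> rw [h] <;> norm_num

/-- the combination `φ_i = ∑_b c_b Q v_{i,b}`. -/
def phi (p : Par) (N : ℕ) (B : Finset (Fin p.nb)) (c : Fin p.nb → ℝ) (i : Fin N) (ω : Om p N) : ℝ :=
  ∑ b ∈ B, (c b * p.Q) * cv p N (i, some b) ω

/-- 2.4: for a set `I` of sites whose gadget coordinates have conditional density `≤ κ = 4/Q`. -/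
theorem comb_sys (p : Par) (N : ℕ) {P : Om p N → ℝ} (hP : IsProb P) (I : Finset (Fin N))
    (B : Finset (Fin p.nb)) (c : Fin p.nb → ℝ) {k m : ℕ} (hkm : k ≤ m) (hmL : m ≤ p.L)
    (hκ : ∀ ω, ∀ i ∈ I, ∀ b ∈ B, cE P ((fil p N).F k) (cv p N (i, some b)) ω ≤ 4 / p.Q)
    (Bad : Fin p.nb → Fin p.nb → ℝ)
    (hBad : ∀ b ∈ B, ∀ b' ∈ B, ∑ i ∈ I, ∑ j ∈ I, (if i = j then 0 else
      eE P (fun ω => (Yf P (fil p N).F p.xs p.L k (cv p N (i, some b))
        (cv p N (j, some b')) ω) ^ 2)) ≤ (4 / p.Q) ^ 4 * Bad b b') :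
    ∑ i ∈ I, ∑ j ∈ I, eE P (fun ω => (covR P ((fil p N).F k)
        (cE P ((fil p N).F m) (phi p N B c i)) (cE P ((fil p N).F m) (phi p N B c j)) ω) ^ 2) ≤
      ((p.nc : ℝ) + 1) ^ 2 *
        (256 * ((∑ b ∈ B, |c b|) ^ 2 * ∑ b ∈ B, ∑ b' ∈ B, |c b| * |c b'| * Bad b b') +
          16 * p.Q ^ 2 * ((∑ b ∈ B, |c b|) ^ 4 * I.card)) := by
  have hQ : (0 : ℝ) < p.Q := by
    have := p.hQ
    exact_mod_cast (by omega : 0 < p.Q)
  have hmain := comb_compare_mean (P := P) (F := (fil p N).F) hP (fil p N).antitone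
    (x := p.xs) (L := p.L) hkm hmL
    (y := 1 / ((p.nc : ℝ) + 1)) (by positivity) (fun l _ => xs_ge p l)
    (fun l _ => p.xs_expo.le_one l) I B (fun b => c b * p.Q)
    (fun i b => cv p N (i, some b)) (κ := 4 / p.Q)
    (fun ω i hi b hb => by
      have e : (fun a => cv p N (i, some b) a ^ 2) = cv p N (i, some b) := by
        funext a; exact cv_sq p N _ a
      rw [e]; exact hκ ω i hi b hb) _ hBad
  refine le_trans hmain (le_of_eq ?_)
  have e1 : ∑ b ∈ B, |c b * p.Q| = (∑ b ∈ B, |c b|) * p.Q := by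
    rw [Finset.sum_mul]
    refine Finset.sum_congr rfl fun b _ => ?_
    rw [abs_mul, abs_of_pos hQ]
  have e2 : ∑ b ∈ B, ∑ b' ∈ B, |c b * p.Q| * |c b' * p.Q| * ((4 / p.Q) ^ 4 * Bad b b') =
      (p.Q ^ 2 * (4 / p.Q) ^ 4) * ∑ b ∈ B, ∑ b' ∈ B, |c b| * |c b'| * Bad b b' := by
    rw [Finset.mul_sum]
    refine Finset.sum_congr rfl fun b _ => ?_
    rw [Finset.mul_sum]
    refine Finset.sum_congr rfl fun b' _ => ?_
    rw [abs_mul, abs_mul, abs_of_pos hQ]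
    ring
  rw [e1, e2]
  field_simp
  ring

end

end Crest.Agent.R141.Comb
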