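import Crest.Prelude.Def_DilutedSpinGlass

/-!
Row 141, section 3.6: finite Markov-chain trials.
A finite alphabet `A`, an initial law `κ0 : A → ℝ`, transition weights `κ : ℕ → A → A → ℝ`
(`κ (j+1)` is used from level `j` to level `j+1`) and a value `x : A → ℝ` define a measurable
`X : (Fin (r+1) → unitInterval) → ℝ`; the nested power means of any function of the messages are
finite nested sums `nestPM`.
-/

set_option autoImplicit false

open MeasureTheory unitInterval

namespace Crest.Agent.R141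

open Crest.ProbabilityR.Diluted

/-- Finite nested power means along a Markov chain: `n` steps left, current level `j`. -/
noncomputable def nestPM {L A : Type*} [Fintype L] [DecidableEq L] [Fintype A]
    (κ : ℕ → A → A → ℝ) (m : ℕ → ℝ) (W : (L → A) → ℝ) : ℕ → ℕ → (L → A) → ℝ
  | 0, _, s => W s
  | n + 1, j, s => (∑ s' : L → A, (∏ ω, κ (j + 1) (s ω) (s' ω)) *
      (nestPM κ m W n (j + 1) s') ^ (m j)) ^ (1 / m j)

section quantile

variable {A : Type*} [Fintype A]

theorem exists_quantile (w : A → ℝ) (h0 : ∀ a, 0 ≤ w a) (h1 : ∑ a, w a = 1) :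
    ∃ q : unitInterval → A, (∀ a, MeasurableSet (q ⁻¹' {a})) ∧
      ∀ a, (volume (q ⁻¹' {a})).toReal = w a := by
  classical
  let _ : MeasurableSpace A := ⊤
  have _ : MeasurableSingletonClass A := ⟨fun _ => trivial⟩
  have _ : DiscreteMeasurableSpace A := inferInstance
  have _ : Nonempty A := by
    by_contra hA
    rw [not_nonempty_iff] at hA
    simp at h1
  let p : PMF A := PMF.ofFintype (fun a => ENNReal.ofReal (w a)) (by
    rw [← ENNReal.ofReal_sum_of_nonneg (fun a _ => h0 a), h1, ENNReal.ofReal_one])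
  obtain ⟨q, hq, hmap⟩ := MeasureTheory.Measure.exists_measurable_map_eq (p.toMeasure)
  refine ⟨q, fun a => hq (measurableSet_singleton a), fun a => ?_⟩
  have := congrArg (fun μ => μ {a}) hmap
  simp only [Measure.map_apply hq (measurableSet_singleton a)] at this
  rw [this, PMF.toMeasure_apply_singleton _ _ (measurableSet_singleton a)]
  simp [p, h0 a]

theorem integral_quantile {X : Type*} [MeasurableSpace X] {L : Type*} [Fintype L] [DecidableEq L]
    (μ : Measure X) [IsProbabilityMeasure μ]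
    (q : L → X → A) (hq : ∀ ω a, MeasurableSet (q ω ⁻¹' {a}))
    (w : L → A → ℝ) (hw : ∀ ω a, (μ (q ω ⁻¹' {a})).toReal = w ω a) (G : (L → A) → ℝ) :
    ∫ v : L → X, G (fun ω => q ω (v ω)) ∂(Measure.pi fun _ : L => μ) =
      ∑ s : L → A, (∏ ω, w ω (s ω)) * G s := by
  classical
  have hset : ∀ s : L → A, MeasurableSet (Set.univ.pi fun ω => q ω ⁻¹' {s ω}) :=
    fun s => MeasurableSet.univ_pi fun ω => hq ω (s ω)
  have hG : (fun v : L → X => G (fun ω => q ω (v ω))) =
      fun v => ∑ s : L → A, (Set.univ.pi fun ω => q ω ⁻¹' {s ω}).indicator (fun _ => G s) v := by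
    funext v
    rw [Finset.sum_eq_single (fun ω => q ω (v ω))]
    · rw [Set.indicator_of_mem]
      simp
    · intro s _ hs
      rw [Set.indicator_of_notMem]
      intro hmem
      apply hs
      funext ω
      have := hmem ω (Set.mem_univ ω)
      simpa using this.symm
    · intro h
      exact absurd (Finset.mem_univ _) h
  rw [hG, integral_finsetSum]
  · refine Finset.sum_congr rfl fun s _ => ?_
    rw [integral_indicator (hset s), setIntegral_const, Measure.real, Measure.pi_pi,
      ENNReal.toReal_prod]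
    simp only [hw, smul_eq_mul]
  · intro s _
    exact (integrable_const _).indicator (hset s)

end quantile

/-! ### The chain of states -/

section chain

variable {A : Type*} [Fintype A]

/-- State after level `j` (levels beyond `r` are frozen). -/
noncomputable def chainState {r : ℕ} (q0 : unitInterval → A) (q : ℕ → A → unitInterval → A)
    (u : Fin (r + 1) → unitInterval) : ℕ → A
  | 0 => q0 (u 0)
  | j + 1 => if h : j + 1 < r + 1 then q (j + 1) (chainState q0 q u j) (u ⟨j + 1, h⟩)
      else chainState q0 q u j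

omit [Fintype A] in
theorem chainState_congr {r : ℕ} (q0 : unitInterval → A) (q : ℕ → A → unitInterval → A)
    (u u' : Fin (r + 1) → unitInterval) (j : ℕ) (h : ∀ i : Fin (r + 1), i.val ≤ j → u i = u' i) :
    chainState q0 q u j = chainState q0 q u' j := by
  induction j with
  | zero => simp only [chainState]; rw [h 0 (by simp)]
  | succ j ih =>
    simp only [chainState]
    have ih' := ih (fun i hi => h i (by omega))
    by_cases hj : j + 1 < r + 1
    · rw [dif_pos hj, dif_pos hj, ih', h ⟨j + 1, hj⟩ (by simp)]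
    · rw [dif_neg hj, dif_neg hj, ih']

theorem measurable_chainState {r : ℕ} (q0 : unitInterval → A) (q : ℕ → A → unitInterval → A)
    (hq0 : ∀ a, MeasurableSet (q0 ⁻¹' {a})) (hq : ∀ j a b, MeasurableSet (q j a ⁻¹' {b})) (j : ℕ)
    (a : A) : MeasurableSet {u : Fin (r + 1) → unitInterval | chainState q0 q u j = a} := by
  classical
  induction j generalizing a with
  | zero =>
    simp only [chainState]
    exact (measurable_pi_apply (0 : Fin (r + 1)) : Measurable fun u : Fin (r + 1) → unitInterval => u 0) (hq0 a)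
  | succ j ih =>
    simp only [chainState]
    by_cases hj : j + 1 < r + 1
    · simp only [dif_pos hj]
      have : {u : Fin (r + 1) → unitInterval |
          q (j + 1) (chainState q0 q u j) (u ⟨j + 1, hj⟩) = a} =
          ⋃ b : A, ({u | chainState q0 q u j = b} ∩
            (fun u : Fin (r + 1) → unitInterval => u ⟨j + 1, hj⟩) ⁻¹' (q (j + 1) b ⁻¹' {a})) := by
        ext u
        simp
      rw [this]
      exact MeasurableSet.iUnion fun b => (ih b).inter ((measurable_pi_apply _) (hq (j + 1) b a))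
    · simp only [dif_neg hj]
      exact ih a

theorem powerMeans_chain {L : Type*} [Fintype L] [DecidableEq L] {r : ℕ}
    (q0 : unitInterval → A) (q : ℕ → A → unitInterval → A)
    (hq : ∀ j a b, MeasurableSet (q j a ⁻¹' {b}))
    (κ : ℕ → A → A → ℝ) (hκ : ∀ j a b, (volume (q j a ⁻¹' {b})).toReal = κ j a b)
    (m : ℕ → ℝ) (W : (L → A) → ℝ) (u : L → Fin (r + 1) → unitInterval) :
    powerMeans (fun d : Fin r => m d) (fun u' => W (fun ω => chainState q0 q (u' ω) r)) u =
      nestPM κ m W r 0 (fun ω => q0 (u ω 0)) := by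
  have key : ∀ n j : ℕ, j + n = r → ∀ u : L → Fin (r + 1) → unitInterval,
      ((List.finRange r).drop j).foldr (fun (d : Fin r) acc => pmStep (m d) d.succ acc)
        (fun u' : L → Fin (r + 1) → unitInterval => W (fun ω => chainState q0 q (u' ω) r)) u =
      nestPM κ m W n j (fun ω => chainState q0 q (u ω) j) := by
    intro n
    induction n with
    | zero =>
      intro j hj u
      have hj' : j = r := by omega
      subst hj'
      rw [List.drop_of_length_le (by simp)]
      simp [nestPM]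
    | succ n ih =>
      intro j hj u
      have hjr : j < (List.finRange r).length := by simp; omega
      rw [List.drop_eq_getElem_cons hjr, List.foldr_cons]
      have hjr' : j < r := by omega
      have hget : (List.finRange r)[j] = ⟨j, hjr'⟩ := by simp
      rw [hget]
      simp only [pmStep, nestPM]
      congr 1
      have hint : ∀ v : L → unitInterval,
          ((List.finRange r).drop (j + 1)).foldr (fun (d : Fin r) acc => pmStep (m d) d.succ acc)
            (fun u' : L → Fin (r + 1) → unitInterval => W (fun ω => chainState q0 q (u' ω) r))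
            (fun ω i => if i = (⟨j, hjr'⟩ : Fin r).succ then v ω else u ω i) =
          nestPM κ m W n (j + 1) (fun ω => q (j + 1) (chainState q0 q (u ω) j) (v ω)) := by
        intro v
        rw [ih (j + 1) (by omega)]
        congr 1
        funext ω
        simp only [chainState]
        rw [dif_pos (by omega)]
        rw [chainState_congr q0 q _ (u ω) j]
        · simp
        · intro i hi
          rw [if_neg]
          intro h
          rw [h] at hi
          simp at hi
      simp only [hint]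
      exact integral_quantile volume (fun ω => q (j + 1) (chainState q0 q (u ω) j))
        (fun ω a => hq _ _ a) (fun ω a => κ (j + 1) (chainState q0 q (u ω) j) a)
        (fun ω a => hκ _ _ _) (fun s => (nestPM κ m W n (j + 1) s) ^ m j)
  have := key r 0 (by omega) u
  simpa [powerMeans, chainState] using this

theorem integral_powerMeans_chain {L : Type*} [Fintype L] [DecidableEq L] {r : ℕ}
    (q0 : unitInterval → A) (q : ℕ → A → unitInterval → A)
    (hq0 : ∀ a, MeasurableSet (q0 ⁻¹' {a}))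
    (hq : ∀ j a b, MeasurableSet (q j a ⁻¹' {b}))
    (κ0 : A → ℝ) (κ : ℕ → A → A → ℝ)
    (hκ0 : ∀ a, (volume (q0 ⁻¹' {a})).toReal = κ0 a)
    (hκ : ∀ j a b, (volume (q j a ⁻¹' {b})).toReal = κ j a b)
    (m : ℕ → ℝ) (W : (L → A) → ℝ) (F : ℝ → ℝ) :
    ∫ u, F (powerMeans (fun d : Fin r => m d) (fun u' => W (fun ω => chainState q0 q (u' ω) r)) u)
      ∂(uniformArrays L r) =
      ∑ s : L → A, (∏ ω, κ0 (s ω)) * F (nestPM κ m W r 0 s) := by
  simp only [powerMeans_chain q0 q hq κ hκ]
  unfold uniformArrays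
  have hev : MeasurePreserving (fun u : Fin (r + 1) → unitInterval => u 0)
      (Measure.pi fun _ : Fin (r + 1) => (volume : Measure unitInterval)) volume :=
    measurePreserving_eval _ 0
  refine integral_quantile (Measure.pi fun _ : Fin (r + 1) => (volume : Measure unitInterval))
    (fun _ u => q0 (u 0)) (fun ω a => hev.measurable (hq0 a)) (fun _ a => κ0 a) (fun ω a => ?_)
    (fun s => F (nestPM κ m W r 0 s))
  rw [← hκ0 a, ← hev.measure_preimage (hq0 a).nullMeasurableSet]
  rfl

/-- **Finite trials.** For every finite Markov chain (initial law `κ0`, transition weights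
`κ (j+1)` from level `j` to level `j+1`) and every value `x : A → ℝ` of the final state there is a
measurable trial `X` all of whose nested power means are the finite ones. -/
theorem exists_finTrial (r : ℕ) (κ0 : A → ℝ) (κ : ℕ → A → A → ℝ)
    (h0 : ∀ a, 0 ≤ κ0 a) (h1 : ∑ a, κ0 a = 1)
    (hκ0 : ∀ j a b, 0 ≤ κ j a b) (hκ1 : ∀ j a, ∑ b, κ j a b = 1) (x : A → ℝ) :
    ∃ X : (Fin (r + 1) → unitInterval) → ℝ, Measurable X ∧
      ∀ (L : Type) [Fintype L] [DecidableEq L] (m : ℕ → ℝ) (W : (L → ℝ) → ℝ) (F : ℝ → ℝ),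
        ∫ u, F (powerMeans (fun d : Fin r => m d) (fun u' => W (fun ω => X (u' ω))) u)
          ∂(uniformArrays L r) =
        ∑ s : L → A, (∏ ω, κ0 (s ω)) * F (nestPM κ m (fun s => W (fun ω => x (s ω))) r 0 s) := by
  obtain ⟨q0, hq0m, hq0v⟩ := exists_quantile κ0 h0 h1
  choose q hqm hqv using fun j a => exists_quantile (κ j a) (hκ0 j a) (hκ1 j a)
  refine ⟨fun u => x (chainState q0 q u r), ?_, fun L _ _ m W F => ?_⟩
  · intro S _
    have : (fun u : Fin (r + 1) → unitInterval => x (chainState q0 q u r)) ⁻¹' S =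
        ⋃ a : A, {u | chainState q0 q u r = a ∧ x a ∈ S} := by
      ext u
      simp
    rw [this]
    refine MeasurableSet.iUnion fun a => ?_
    by_cases hxa : x a ∈ S
    · simpa [hxa] using measurable_chainState q0 q hq0m hqm r a
    · simp [hxa]
  · exact integral_powerMeans_chain q0 q hq0m hqm κ0 κ hq0v hqv m
      (fun s => W (fun ω => x (s ω))) F

/-- **Finite trials, the cavity functional.** The trial functional of a finite Markov chain
trial, for all `p, α, μ, ν` and all exponents, is given by finite nested power means. -/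
theorem exists_finTrial_functional (r : ℕ) (κ0 : A → ℝ) (κ : ℕ → A → A → ℝ)
    (h0 : ∀ a, 0 ≤ κ0 a) (h1 : ∑ a, κ0 a = 1)
    (hκ0 : ∀ j a b, 0 ≤ κ j a b) (hκ1 : ∀ j a, ∑ b, κ j a b = 1) (x : A → ℝ) :
    ∃ X : (Fin (r + 1) → unitInterval) → ℝ, Measurable X ∧
      ∀ (p : ℕ) (α : ℝ) (μ : Measure (Inter p)) (ν : Measure ℝ) (m : ℕ → ℝ),
        trialFunctional p α μ ν r (fun d : Fin r => m d) X =
          Real.log 2 +
          (∑' k : ℕ, poissonWeight (α * p) k *
            ∫ θs, ∫ h, ∑ s : Fin k × Fin (p - 1) → A, (∏ ω, κ0 (s ω)) *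
              Real.log (nestPM κ m
                (fun s => siteTerm h θs (fun j ℓ => x (s (j, ℓ)))) r 0 s)
              ∂ν ∂(Measure.pi fun _ : Fin k => μ)) -
          α * (p - 1 : ℝ) *
            ∫ θ, ∑ s : Fin p → A, (∏ ω, κ0 (s ω)) *
              Real.log (nestPM κ m (fun s => edgeTerm θ (fun ℓ => x (s ℓ))) r 0 s) ∂μ := by
  obtain ⟨X, hX, hF⟩ := exists_finTrial r κ0 κ h0 h1 hκ0 hκ1 x
  refine ⟨X, hX, fun p α μ ν m => ?_⟩
  unfold trialFunctional
  have e1 : ∀ (k : ℕ) (h : ℝ) (θs : Fin k → Inter p),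
      ∫ u, Real.log (powerMeans (fun d : Fin r => m d)
          (fun u' : (Fin k × Fin (p - 1)) → Fin (r + 1) → unitInterval =>
            siteTerm h θs (fun j ℓ => X (u' (j, ℓ)))) u)
        ∂(uniformArrays (Fin k × Fin (p - 1)) r) =
      ∑ s : Fin k × Fin (p - 1) → A, (∏ ω, κ0 (s ω)) *
              Real.log (nestPM κ m
                (fun s => siteTerm h θs (fun j ℓ => x (s (j, ℓ)))) r 0 s) := fun k h θs =>
    hF (Fin k × Fin (p - 1)) m (fun y => siteTerm h θs (fun j ℓ => y (j, ℓ))) Real.log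
  have e2 : ∀ θ : Inter p,
      ∫ u, Real.log (powerMeans (fun d : Fin r => m d)
          (fun u' : Fin p → Fin (r + 1) → unitInterval => edgeTerm θ (fun ℓ => X (u' ℓ))) u)
        ∂(uniformArrays (Fin p) r) =
      ∑ s : Fin p → A, (∏ ω, κ0 (s ω)) *
              Real.log (nestPM κ m (fun s => edgeTerm θ (fun ℓ => x (s ℓ))) r 0 s) := fun θ =>
    hF (Fin p) m (fun y => edgeTerm θ y) Real.log
  simp only [e1, e2]

end chain

/-! ### Algebra of `nestPM` -/

section algebra

variable {A : Type*} [Fintype A] {L : Type*} [Fintype L] [DecidableEq L]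

omit [Fintype A] [DecidableEq L] in
theorem prod_kernel_nonneg {κ : ℕ → A → A → ℝ} (hκ0 : ∀ j a b, 0 ≤ κ j a b) (j : ℕ)
    (s s' : L → A) : 0 ≤ ∏ ω, κ j (s ω) (s' ω) :=
  Finset.prod_nonneg fun _ _ => hκ0 _ _ _

theorem sum_prod_kernel {κ : ℕ → A → A → ℝ} (hκ1 : ∀ j a, ∑ b, κ j a b = 1) (j : ℕ)
    (s : L → A) : ∑ s' : L → A, ∏ ω, κ j (s ω) (s' ω) = 1 := by
  classical
  rw [← Fintype.piFinset_univ, ← Finset.prod_univ_sum (fun _ => Finset.univ)
    (fun ω a => κ j (s ω) a)]
  simp [hκ1]

theorem nestPM_nonneg (κ : ℕ → A → A → ℝ) (hκ0 : ∀ j a b, 0 ≤ κ j a b) (m : ℕ → ℝ)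
    (W : (L → A) → ℝ) (hW : ∀ s, 0 ≤ W s) (n j : ℕ) (s : L → A) : 0 ≤ nestPM κ m W n j s := by
  induction n generalizing j s with
  | zero => exact hW s
  | succ n ih =>
    simp only [nestPM]
    exact Real.rpow_nonneg (Finset.sum_nonneg fun s' _ =>
      mul_nonneg (prod_kernel_nonneg hκ0 _ _ _) (Real.rpow_nonneg (ih _ _) _)) _

theorem nestPM_mono (κ : ℕ → A → A → ℝ) (hκ0 : ∀ j a b, 0 ≤ κ j a b) (m : ℕ → ℝ)
    (hm : ∀ j, 0 ≤ m j) (W W' : (L → A) → ℝ) (hW : ∀ s, 0 ≤ W s) (hWW : ∀ s, W s ≤ W' s)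
    (n j : ℕ) (s : L → A) : nestPM κ m W n j s ≤ nestPM κ m W' n j s := by
  induction n generalizing j s with
  | zero => exact hWW s
  | succ n ih =>
    simp only [nestPM]
    refine Real.rpow_le_rpow (Finset.sum_nonneg fun s' _ =>
      mul_nonneg (prod_kernel_nonneg hκ0 _ _ _)
        (Real.rpow_nonneg (nestPM_nonneg κ hκ0 m W hW _ _ _) _)) ?_ (by
          have := hm j; positivity)
    refine Finset.sum_le_sum fun s' _ => ?_
    exact mul_le_mul_of_nonneg_left (Real.rpow_le_rpow (nestPM_nonneg κ hκ0 m W hW _ _ _)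
      (ih _ _) (hm j)) (prod_kernel_nonneg hκ0 _ _ _)

theorem nestPM_const (κ : ℕ → A → A → ℝ) (hκ1 : ∀ j a, ∑ b, κ j a b = 1) (m : ℕ → ℝ)
    (hm : ∀ j, m j ≠ 0) (c : ℝ) (hc : 0 ≤ c) (n j : ℕ) (s : L → A) :
    nestPM κ m (fun _ : L → A => c) n j s = c := by
  induction n generalizing j s with
  | zero => rfl
  | succ n ih =>
    simp only [nestPM, ih]
    rw [← Finset.sum_mul, sum_prod_kernel hκ1, one_mul, one_div, Real.rpow_rpow_inv hc (hm j)]

theorem nestPM_le (κ : ℕ → A → A → ℝ) (hκ0 : ∀ j a b, 0 ≤ κ j a b)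
    (hκ1 : ∀ j a, ∑ b, κ j a b = 1) (m : ℕ → ℝ) (hm : ∀ j, 0 < m j) (W : (L → A) → ℝ) (C : ℝ)
    (hW : ∀ s, 0 ≤ W s) (hC : ∀ s, W s ≤ C) (n j : ℕ) (s : L → A) :
    nestPM κ m W n j s ≤ C := by
  have h := nestPM_mono κ hκ0 m (fun j => (hm j).le) W (fun _ => C) hW hC n j s
  rwa [nestPM_const κ hκ1 m (fun j => (hm j).ne') C ((hW s).trans (hC s))] at h

theorem le_nestPM (κ : ℕ → A → A → ℝ) (hκ0 : ∀ j a b, 0 ≤ κ j a b)
    (hκ1 : ∀ j a, ∑ b, κ j a b = 1) (m : ℕ → ℝ) (hm : ∀ j, 0 < m j) (W : (L → A) → ℝ) (c : ℝ)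
    (hc0 : 0 ≤ c) (hc : ∀ s, c ≤ W s) (n j : ℕ) (s : L → A) :
    c ≤ nestPM κ m W n j s := by
  have h := nestPM_mono κ hκ0 m (fun j => (hm j).le) (fun _ => c) W (fun _ => hc0) hc n j s
  rwa [nestPM_const κ hκ1 m (fun j => (hm j).ne') c hc0] at h

theorem nestPM_mul_const (κ : ℕ → A → A → ℝ) (hκ0 : ∀ j a b, 0 ≤ κ j a b) (m : ℕ → ℝ)
    (hm : ∀ j, m j ≠ 0) (c : ℝ) (hc : 0 ≤ c) (W : (L → A) → ℝ) (hW : ∀ s, 0 ≤ W s)
    (n j : ℕ) (s : L → A) :
    nestPM κ m (fun s => c * W s) n j s = c * nestPM κ m W n j s := by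
  induction n generalizing j s with
  | zero => rfl
  | succ n ih =>
    simp only [nestPM, ih]
    have h1 : ∀ s' : L → A, (∏ ω, κ (j + 1) (s ω) (s' ω)) *
        (c * nestPM κ m W n (j + 1) s') ^ m j =
        c ^ m j * ((∏ ω, κ (j + 1) (s ω) (s' ω)) * (nestPM κ m W n (j + 1) s') ^ m j) := by
      intro s'
      rw [Real.mul_rpow hc (nestPM_nonneg κ hκ0 m W hW _ _ _)]
      ring
    simp only [h1]
    rw [← Finset.mul_sum, Real.mul_rpow (Real.rpow_nonneg hc _), one_div,
      Real.rpow_rpow_inv hc (hm j)]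
    exact Finset.sum_nonneg fun s' _ => mul_nonneg (prod_kernel_nonneg hκ0 _ _ _)
      (Real.rpow_nonneg (nestPM_nonneg κ hκ0 m W hW _ _ _) _)

/-- Reindexing the labels. -/
theorem nestPM_reindex {L' : Type*} [Fintype L'] [DecidableEq L'] (e : L ≃ L')
    (κ : ℕ → A → A → ℝ) (m : ℕ → ℝ) (W : (L → A) → ℝ) (n j : ℕ) (s : L' → A) :
    nestPM κ m (fun s' : L' → A => W (fun ω => s' (e ω))) n j s =
      nestPM κ m W n j (fun ω => s (e ω)) := by
  induction n generalizing j s with
  | zero => rfl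
  | succ n ih =>
    simp only [nestPM, ih]
    congr 1
    refine Fintype.sum_equiv (Equiv.arrowCongr e (Equiv.refl A)).symm _ _ fun s' => ?_
    congr 1
    rw [← Equiv.prod_comp e]
    rfl

/-- Nested power means of a product over disjoint sets of labels factorize. -/
theorem nestPM_mul {L' : Type*} [Fintype L'] [DecidableEq L']
    (κ : ℕ → A → A → ℝ) (hκ0 : ∀ j a b, 0 ≤ κ j a b) (m : ℕ → ℝ)
    (W : (L → A) → ℝ) (W' : (L' → A) → ℝ) (hW : ∀ s, 0 ≤ W s) (hW' : ∀ s, 0 ≤ W' s)
    (n j : ℕ) (s : L ⊕ L' → A) :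
    nestPM κ m (fun s : L ⊕ L' → A => W (fun ω => s (.inl ω)) * W' (fun ω => s (.inr ω))) n j s =
      nestPM κ m W n j (fun ω => s (.inl ω)) * nestPM κ m W' n j (fun ω => s (.inr ω)) := by
  induction n generalizing j s with
  | zero => rfl
  | succ n ih =>
    simp only [nestPM, ih]
    have hnn : ∀ t : L → A, 0 ≤ nestPM κ m W n (j + 1) t := fun t =>
      nestPM_nonneg κ hκ0 m W hW _ _ _
    have hnn' : ∀ t : L' → A, 0 ≤ nestPM κ m W' n (j + 1) t := fun t =>
      nestPM_nonneg κ hκ0 m W' hW' _ _ _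
    rw [← Real.mul_rpow]
    · congr 1
      rw [Finset.sum_mul_sum, ← Finset.sum_product', Finset.univ_product_univ]
      refine Fintype.sum_equiv (Equiv.sumArrowEquivProdArrow L L' A) _ _ fun s' => ?_
      rw [Fintype.prod_sum_type, Real.mul_rpow (hnn _) (hnn' _)]
      simp only [Equiv.sumArrowEquivProdArrow, Equiv.coe_fn_mk, Function.comp_def]
      ring
    · exact Finset.sum_nonneg fun s' _ => mul_nonneg (prod_kernel_nonneg hκ0 _ _ _)
        (Real.rpow_nonneg (hnn _) _)
    · exact Finset.sum_nonneg fun s' _ => mul_nonneg (prod_kernel_nonneg hκ0 _ _ _)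
        (Real.rpow_nonneg (hnn' _) _)

end algebra

end Crest.Agent.R141
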