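import Crest.Agent.R141.FinTrial

/-!
Row 141: `powerMeans` of products over disjoint label sets and reindexing (general measurable
trials; no measurability is needed in these identities).
-/

set_option autoImplicit false

open MeasureTheory unitInterval

namespace Crest.Agent.R141

open Crest.ProbabilityR.Diluted

/-! ### Nonnegativity -/

theorem pmStep_nonneg {L : Type*} [Fintype L] {r : ℕ} (m : ℝ) (lvl : Fin (r + 1))
    (W : (L → Fin (r + 1) → unitInterval) → ℝ) (hW : ∀ u, 0 ≤ W u)
    (u : L → Fin (r + 1) → unitInterval) : 0 ≤ pmStep m lvl W u :=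
  Real.rpow_nonneg (integral_nonneg fun _ => Real.rpow_nonneg (hW _) _) _

theorem foldr_pmStep_nonneg {L : Type*} [Fintype L] {r : ℕ} (m : Fin r → ℝ) (l : List (Fin r))
    (W : (L → Fin (r + 1) → unitInterval) → ℝ) (hW : ∀ u, 0 ≤ W u)
    (u : L → Fin (r + 1) → unitInterval) :
    0 ≤ l.foldr (fun d acc => pmStep (m d) d.succ acc) W u := by
  induction l generalizing u with
  | nil => exact hW u
  | cons d l ih => exact pmStep_nonneg _ _ _ ih _

theorem powerMeans_nonneg {L : Type*} [Fintype L] {r : ℕ} (m : Fin r → ℝ)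
    (W : (L → Fin (r + 1) → unitInterval) → ℝ) (hW : ∀ u, 0 ≤ W u)
    (u : L → Fin (r + 1) → unitInterval) : 0 ≤ powerMeans m W u :=
  foldr_pmStep_nonneg m _ W hW u

/-! ### Products over a disjoint union of two label sets -/

theorem pmStep_mul {L L' : Type*} [Fintype L] [Fintype L'] {r : ℕ} (m : ℝ) (lvl : Fin (r + 1))
    (W : (L → Fin (r + 1) → unitInterval) → ℝ) (W' : (L' → Fin (r + 1) → unitInterval) → ℝ)
    (hW : ∀ u, 0 ≤ W u) (hW' : ∀ u, 0 ≤ W' u)
    (u : L ⊕ L' → Fin (r + 1) → unitInterval) :
    pmStep m lvl (fun u => W (fun ω => u (.inl ω)) * W' (fun ω => u (.inr ω))) u =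
      pmStep m lvl W (fun ω => u (.inl ω)) * pmStep m lvl W' (fun ω => u (.inr ω)) := by
  unfold pmStep
  rw [← Real.mul_rpow (integral_nonneg fun _ => Real.rpow_nonneg (hW _) _)
    (integral_nonneg fun _ => Real.rpow_nonneg (hW' _) _), ← integral_prod_mul]
  congr 1
  have hmp := measurePreserving_sumPiEquivProdPi
    (fun _ : L ⊕ L' => (volume : Measure unitInterval))
  rw [← hmp.integral_comp']
  refine integral_congr_ae (Filter.Eventually.of_forall fun v => ?_)
  simp only [Real.mul_rpow (hW _) (hW' _)]
  rfl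

theorem powerMeans_mul {L L' : Type*} [Fintype L] [Fintype L'] {r : ℕ} (m : Fin r → ℝ)
    (W : (L → Fin (r + 1) → unitInterval) → ℝ) (W' : (L' → Fin (r + 1) → unitInterval) → ℝ)
    (hW : ∀ u, 0 ≤ W u) (hW' : ∀ u, 0 ≤ W' u)
    (u : L ⊕ L' → Fin (r + 1) → unitInterval) :
    powerMeans m (fun u => W (fun ω => u (.inl ω)) * W' (fun ω => u (.inr ω))) u =
      powerMeans m W (fun ω => u (.inl ω)) * powerMeans m W' (fun ω => u (.inr ω)) := by
  unfold powerMeans
  generalize List.finRange r = l
  induction l generalizing u with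
  | nil => rfl
  | cons d l ih =>
    simp only [List.foldr_cons]
    have : (List.foldr (fun d acc => pmStep (m d) d.succ acc)
        (fun u : L ⊕ L' → Fin (r + 1) → unitInterval =>
          W (fun ω => u (.inl ω)) * W' (fun ω => u (.inr ω))) l) =
        fun u => (List.foldr (fun d acc => pmStep (m d) d.succ acc) W l) (fun ω => u (.inl ω)) *
          (List.foldr (fun d acc => pmStep (m d) d.succ acc) W' l) (fun ω => u (.inr ω)) := by
      funext u
      exact ih u
    rw [this]
    exact pmStep_mul _ _ _ _ (foldr_pmStep_nonneg m l W hW) (foldr_pmStep_nonneg m l W' hW') u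

/-! ### Reindexing -/

theorem pmStep_reindex {L L' : Type*} [Fintype L] [Fintype L'] (e : L ≃ L') {r : ℕ} (m : ℝ)
    (lvl : Fin (r + 1)) (W : (L → Fin (r + 1) → unitInterval) → ℝ)
    (u : L' → Fin (r + 1) → unitInterval) :
    pmStep m lvl (fun u => W (fun ω => u (e ω))) u = pmStep m lvl W (fun ω => u (e ω)) := by
  unfold pmStep
  congr 1
  have hmp := measurePreserving_piCongrLeft
    (fun _ : L' => (volume : Measure unitInterval)) e
  rw [← hmp.integral_comp']
  refine integral_congr_ae (Filter.Eventually.of_forall fun v => ?_)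
  simp only []
  congr 2
  funext ω j
  by_cases hj : j = lvl
  · simp only [hj, if_true]
    exact MeasurableEquiv.piCongrLeft_apply_apply (β := fun _ : L' => unitInterval) e v ω
  · simp only [hj, if_false]

theorem powerMeans_reindex {L L' : Type*} [Fintype L] [Fintype L'] (e : L ≃ L') {r : ℕ}
    (m : Fin r → ℝ) (W : (L → Fin (r + 1) → unitInterval) → ℝ)
    (u : L' → Fin (r + 1) → unitInterval) :
    powerMeans m (fun u => W (fun ω => u (e ω))) u = powerMeans m W (fun ω => u (e ω)) := by
  unfold powerMeans
  generalize List.finRange r = l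
  induction l generalizing u with
  | nil => rfl
  | cons d l ih =>
    simp only [List.foldr_cons]
    have : (List.foldr (fun d acc => pmStep (m d) d.succ acc)
        (fun u : L' → Fin (r + 1) → unitInterval => W (fun ω => u (e ω))) l) =
        fun u => (List.foldr (fun d acc => pmStep (m d) d.succ acc) W l) (fun ω => u (e ω)) := by
      funext u
      exact ih u
    rw [this]
    exact pmStep_reindex e _ _ _ u

/-! ### Products over a finite family of label sets -/

theorem integral_sigma_prod {ι : Type*} [Fintype ι] {κ : ι → Type*} [∀ i, Fintype (κ i)]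
    (μ : Measure unitInterval) [IsProbabilityMeasure μ]
    (f : (i : ι) → (κ i → unitInterval) → ℝ) :
    ∫ v : ((i : ι) × κ i) → unitInterval, ∏ i, f i (fun j => v ⟨i, j⟩)
      ∂(Measure.pi fun _ => μ) = ∏ i, ∫ v : κ i → unitInterval, f i v ∂(Measure.pi fun _ => μ) := by
  classical
  have h := Measure.infinitePi_map_piCurry (κ := κ) (X := fun _ _ => unitInterval)
    (fun (_ : ι) (_ : κ _) => μ)
  simp only [Measure.infinitePi_eq_pi] at h
  rw [← integral_fintype_prod_eq_prod, ← h, integral_map_equiv]
  rfl

theorem pmStep_sigma_prod {ι : Type*} [Fintype ι] {κ : ι → Type*} [∀ i, Fintype (κ i)] {r : ℕ}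
    (m : ℝ) (lvl : Fin (r + 1)) (W : (i : ι) → (κ i → Fin (r + 1) → unitInterval) → ℝ)
    (hW : ∀ i u, 0 ≤ W i u) (u : ((i : ι) × κ i) → Fin (r + 1) → unitInterval) :
    pmStep m lvl (fun u => ∏ i, W i (fun j => u ⟨i, j⟩)) u =
      ∏ i, pmStep m lvl (W i) (fun j => u ⟨i, j⟩) := by
  unfold pmStep
  rw [Real.finsetProd_rpow _ _ (fun i _ => integral_nonneg fun _ => Real.rpow_nonneg (hW i _) _)]
  congr 1
  rw [← integral_sigma_prod]
  refine integral_congr_ae (Filter.Eventually.of_forall fun v => ?_)
  simp only []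
  rw [← Real.finsetProd_rpow _ _ (fun i _ => hW i _)]

theorem powerMeans_sigma_prod {ι : Type*} [Fintype ι] {κ : ι → Type*} [∀ i, Fintype (κ i)]
    {r : ℕ} (m : Fin r → ℝ) (W : (i : ι) → (κ i → Fin (r + 1) → unitInterval) → ℝ)
    (hW : ∀ i u, 0 ≤ W i u) (u : ((i : ι) × κ i) → Fin (r + 1) → unitInterval) :
    powerMeans m (fun u => ∏ i, W i (fun j => u ⟨i, j⟩)) u =
      ∏ i, powerMeans m (W i) (fun j => u ⟨i, j⟩) := by
  unfold powerMeans
  generalize List.finRange r = l
  induction l generalizing u with
  | nil => rfl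
  | cons d l ih =>
    simp only [List.foldr_cons]
    have : (List.foldr (fun d acc => pmStep (m d) d.succ acc)
        (fun u : ((i : ι) × κ i) → Fin (r + 1) → unitInterval => ∏ i, W i (fun j => u ⟨i, j⟩)) l) =
        fun u => ∏ i, (List.foldr (fun d acc => pmStep (m d) d.succ acc) (W i) l)
          (fun j => u ⟨i, j⟩) := by
      funext u
      exact ih u
    rw [this]
    exact pmStep_sigma_prod _ _ _ (fun i => foldr_pmStep_nonneg m l (W i) (hW i)) u

/-- Marginal of the uniforms of one group of labels. -/
theorem measurePreserving_sigma_eval {ι : Type*} [Fintype ι] {κ : ι → Type*}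
    [∀ i, Fintype (κ i)] (r : ℕ) (i : ι) :
    MeasurePreserving (fun (u : ((i : ι) × κ i) → Fin (r + 1) → unitInterval) (j : κ i) => u ⟨i, j⟩)
      (uniformArrays ((i : ι) × κ i) r) (uniformArrays (κ i) r) := by
  classical
  unfold uniformArrays
  have h := Measure.infinitePi_map_piCurry (κ := κ) (X := fun _ _ => Fin (r + 1) → unitInterval)
    (fun (_ : ι) (_ : κ _) => Measure.pi fun _ : Fin (r + 1) => (volume : Measure unitInterval))
  simp only [Measure.infinitePi_eq_pi] at h
  have h1 : MeasurePreserving (MeasurableEquiv.piCurry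
      (fun (i : ι) (_ : κ i) => Fin (r + 1) → unitInterval))
      (Measure.pi fun _ : ((i : ι) × κ i) => Measure.pi fun _ : Fin (r + 1) =>
        (volume : Measure unitInterval))
      (Measure.pi fun i : ι => Measure.pi fun _ : κ i => Measure.pi fun _ : Fin (r + 1) =>
        (volume : Measure unitInterval)) := ⟨MeasurableEquiv.measurable _, h⟩
  exact (measurePreserving_eval (fun i : ι => Measure.pi fun _ : κ i =>
    Measure.pi fun _ : Fin (r + 1) => (volume : Measure unitInterval)) i).comp h1

/-- The integrated logarithm of the nested power means of a product over a finite family of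
disjoint label sets is the sum of the individual ones. -/
theorem integral_log_powerMeans_sigma_prod {ι : Type*} [Fintype ι] {κ : ι → Type*}
    [∀ i, Fintype (κ i)] {r : ℕ} (m : Fin r → ℝ)
    (W : (i : ι) → (κ i → Fin (r + 1) → unitInterval) → ℝ)
    (hW : ∀ i u, 0 ≤ W i u) (hpos : ∀ i u, 0 < powerMeans m (W i) u)
    (hint : ∀ i, Integrable (fun u => Real.log (powerMeans m (W i) u)) (uniformArrays (κ i) r)) :
    ∫ u, Real.log (powerMeans m (fun u => ∏ i, W i (fun j => u ⟨i, j⟩)) u)
      ∂(uniformArrays ((i : ι) × κ i) r) =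
      ∑ i, ∫ u, Real.log (powerMeans m (W i) u) ∂(uniformArrays (κ i) r) := by
  classical
  simp only [powerMeans_sigma_prod m W hW]
  have h1 : ∀ u : ((i : ι) × κ i) → Fin (r + 1) → unitInterval,
      Real.log (∏ i, powerMeans m (W i) (fun j => u ⟨i, j⟩)) =
        ∑ i, Real.log (powerMeans m (W i) (fun j => u ⟨i, j⟩)) := fun u =>
    Real.log_prod (fun i _ => (hpos i _).ne')
  simp only [h1]
  rw [integral_finsetSum]
  · refine Finset.sum_congr rfl fun i _ => ?_
    have hmp := measurePreserving_sigma_eval (κ := κ) r i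
    have haes : AEStronglyMeasurable (fun u => Real.log (powerMeans m (W i) u))
      (Measure.map (fun (u : ((i : ι) × κ i) → Fin (r + 1) → unitInterval) (j : κ i) => u ⟨i, j⟩)
        (uniformArrays ((i : ι) × κ i) r)) := by
      rw [hmp.map_eq]; exact (hint i).aestronglyMeasurable
    rw [← hmp.map_eq, integral_map hmp.measurable.aemeasurable haes]
  · intro i _
    have hmp := measurePreserving_sigma_eval (κ := κ) r i
    exact hmp.integrable_comp_of_integrable (hint i)

end Crest.Agent.R141
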