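import Mathlib
import Crest.Agent.R141.Red4
import Crest.Agent.R141.RedP

/-!
# Row 141: final assembly (helper494)

`main_of_parts : PartU p α μ ν → PartL p α → (statement of S0192)`.
-/

set_option autoImplicit false
set_option linter.unusedSectionVars false

open MeasureTheory Crest.ProbabilityR.Diluted

namespace Crest.Agent.R141.RedT

variable {p : ℕ}

theorem symMeas_map (μ : Measure (Inter p)) [IsProbabilityMeasure μ] {φ : Inter p → Inter p}
    (hφ : Measurable φ) :
    symMeas (μ.map φ) =
      (μ.prod (unifFin p)).map (fun q : Inter p × Fin p => swapInter q.2 (φ q.1)) := by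
  have : IsProbabilityMeasure (μ.map φ) := Measure.isProbabilityMeasure_map hφ.aemeasurable
  have h := Measure.map_prod_map μ (unifFin p) hφ (measurable_id (α := Fin p))
  rw [Measure.map_id] at h
  unfold symMeas
  rw [h, Measure.map_map measurable_swapInter_uncurry (hφ.prodMap measurable_id)]
  rfl

theorem integral_supNorm_swap (μ : Measure (Inter p)) [IsProbabilityMeasure μ] [NeZero p]
    (φ : Inter p → Inter p) :
    ∫ q, supNorm (swapInter q.2 q.1 - swapInter q.2 (φ q.1)) ∂(μ.prod (unifFin p)) =
      ∫ θ, supNorm (θ - φ θ) ∂μ := by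
  have e : (fun q : Inter p × Fin p => supNorm (swapInter q.2 q.1 - swapInter q.2 (φ q.1))) =
      fun q => supNorm (q.1 - φ q.1) := by
    funext q
    rw [← swapInter_sub, supNorm_swapInter]
  rw [e]
  have h2 := integral_fun_fst (μ := μ) (ν := unifFin p)
    (fun θ : Inter p => supNorm (θ - φ θ))
  rw [h2]
  simp

theorem main_of_parts (p : ℕ) (hp2 : 2 ≤ p) (α : ℝ) (hα : 0 < α) (μ : Measure (Inter p))
    [IsProbabilityMeasure μ] (ν : Measure ℝ) [IsProbabilityMeasure ν]
    (hμ : Integrable (fun θ => supNorm θ) μ) (hν : Integrable (fun x : ℝ => x) ν)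
    (hfac : HasFactorization p μ) (hU : PartU p α μ ν) (hL : PartL p α) :
    ∃ F : ℝ, Filter.Tendsto (pressure p α μ ν) Filter.atTop (nhds F) ∧
      IsGLB {B : ℝ | ∃ (r : ℕ) (m : Fin r → ℝ) (X : (Fin (r + 1) → unitInterval) → ℝ),
        AdmissibleExponents m ∧ Measurable X ∧
        B = trialFunctional p α μ ν r m X} F := by
  have hNZ : NeZero p := ⟨by omega⟩
  set S : Set ℝ := {B : ℝ | ∃ (r : ℕ) (m : Fin r → ℝ) (X : (Fin (r + 1) → unitInterval) → ℝ),
        AdmissibleExponents m ∧ Measurable X ∧
        B = trialFunctional p α μ ν r m X} with hS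
  have hne : S.Nonempty :=
    ⟨_, 0, fun i => i.elim0, fun _ => 0, ⟨fun i => i.elim0, fun i => i.elim0⟩,
      measurable_const, rfl⟩
  have hup : ∀ N : ℕ, 1 ≤ N → ∀ B ∈ S, pressure p α μ ν N ≤ B := by
    rintro N hN B ⟨r, m, X, hm, hX, rfl⟩
    exact hU N hN r m X hm hX
  have hbd : BddBelow S := ⟨pressure p α μ ν 1, fun B hB => hup 1 le_rfl B hB⟩
  have hglb : IsGLB S (sInf S) := isGLB_csInf hne hbd
  refine ⟨sInf S, ?_, hglb⟩
  set F := sInf S with hF
  have hupF : ∀ N : ℕ, 1 ≤ N → pressure p α μ ν N ≤ F := fun N hN =>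
    le_csInf hne (hup N hN)
  have hlow : ∀ ε : ℝ, 0 < ε → ∀ᶠ N in Filter.atTop, F - ε < pressure p α μ ν N := by
    intro ε hε
    by_contra hcon
    rw [Filter.not_eventually] at hcon
    -- choice of δ
    have hp0 : (0 : ℝ) < p := by
      have : 0 < p := by omega
      exact_mod_cast this
    set δ : ℝ := ε / (2 * (3 + 2 * (α * p))) with hδ
    have hden : 0 < 2 * (3 + 2 * (α * p)) := by positivity
    have hδ0 : 0 < δ := div_pos hε hden
    have hδ1 : δ * (3 + 2 * (α * p)) = ε / 2 := by
      rw [hδ]; field_simp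
    obtain ⟨φ, hφm, hφi, hφle, K, _, w, x, hw, hws, hφeq⟩ :=
      Red.exists_finMeasure_approx_inter μ hμ hδ0
    obtain ⟨ψ, hψm, hψi, hψle, K', _, w', x', hw', hws', hψeq⟩ :=
      Red.exists_finMeasure_approx_real ν hν hδ0
    have hψi' : Integrable (fun x => x - ψ x) ν := by
      rw [← integrable_norm_iff]
      · exact hψi
      · exact (measurable_id.sub hψm).aestronglyMeasurable
    have hψint : Integrable ψ ν :=
      (hν.sub hψi').congr (Filter.Eventually.of_forall fun h => by simp)
    set c : ℝ := F - ε + (α * δ + δ) with hc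
    have hfreq : ∃ᶠ N in Filter.atTop,
        pressure p α (finMeasure w x) (finMeasure w' x') N ≤ c := by
      refine (hcon.and_eventually (Filter.eventually_ge_atTop 1)).mono ?_
      rintro N ⟨h1, h2⟩
      have h3 := Red.pressure_sub_le μ ν hα.le hφm hψm hμ hν hφi hψi h2
      rw [hφeq, hψeq] at h3
      have h4 := (abs_le.1 h3).1
      have h5 : α * (∫ θ, supNorm (θ - φ θ) ∂μ) ≤ α * δ := mul_le_mul_of_nonneg_left hφle hα.le
      rw [not_lt] at h1
      linarith
    obtain ⟨r, m, X, hm, hX, hle⟩ := hL K K' w x w' x' hw hws hw' hws' c hfreq δ hδ0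
    have hm0 : ∀ d, 0 < m d := fun d => (hm.2 d).1
    -- comparison of the functionals
    have hmem : trialFunctional p α μ ν r m X ∈ S := ⟨r, m, X, hm, hX, rfl⟩
    have hFle : F ≤ trialFunctional p α μ ν r m X := csInf_le hbd hmem
    have hinv := hat_map_swap_of_factorization μ hfac
    have hsym := siteFun_symMeas hm0 hX hμ hν hinv (α * p)
    have hinter : Integrable (fun θ => supNorm (φ θ)) μ := by
      refine Integrable.mono' (hμ.add hφi)
        ((Red.measurable_supNorm.comp hφm).aestronglyMeasurable)
        (Filter.Eventually.of_forall fun θ => ?_)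
      rw [Real.norm_eq_abs, abs_of_nonneg (Red.supNorm_nonneg _), Pi.add_apply]
      have e : φ θ = θ + (φ θ - θ) := by abel
      calc supNorm (φ θ) = supNorm (θ + (φ θ - θ)) := by rw [← e]
        _ ≤ supNorm θ + supNorm (φ θ - θ) := Red.supNorm_add_le _ _
        _ = supNorm θ + supNorm (θ - φ θ) := by rw [Red.supNorm_sub_comm]
    have hsite : |siteFun p (α * p) (symMeas μ) ν r m X -
        siteFun p (α * p) (symMeasure w x) (finMeasure w' x') r m X| ≤ δ + α * p * δ := by
      have e1 : symMeasure w x =
          (μ.prod (unifFin p)).map (fun q : Inter p × Fin p => swapInter q.2 (φ q.1)) := by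
        rw [← symMeas_finMeasure w x (fun k => (hw k).le) hws, ← hφeq, symMeas_map μ hφm]
      have hbm : Measurable (fun q : Inter p × Fin p => swapInter q.2 (φ q.1)) :=
        measurable_swapInter_uncurry.comp
          ((hφm.comp measurable_fst).prodMk measurable_snd)
      have hai : Integrable (fun q : Inter p × Fin p => supNorm (swapInter q.2 q.1))
          (μ.prod (unifFin p)) := by
        simp only [supNorm_swapInter]
        exact hμ.comp_fst _
      have hbi : Integrable (fun q : Inter p × Fin p => supNorm (swapInter q.2 (φ q.1)))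
          (μ.prod (unifFin p)) := by
        simp only [supNorm_swapInter]
        exact hinter.comp_fst _
      have h := siteFun_map_map_sub_le (P := μ.prod (unifFin p)) (Q := ν) (f := id) (g := ψ)
        (lam := α * p) hm0 hX measurable_swapInter_uncurry hbm measurable_id hψm hai hbi hν
        hψint (by positivity)
      rw [Measure.map_id, integral_supNorm_swap μ φ, ← e1, hψeq] at h
      refine h.trans (add_le_add hψle ?_)
      exact mul_le_mul_of_nonneg_left hφle (by positivity)
    have hedge : |edgeFun p μ r m X - edgeFun p (finMeasure w x) r m X| ≤ δ := by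
      rw [← hφeq]
      exact (edgeFun_map_sub_le hm0 hX hμ hφm hφi).trans hφle
    rw [trialFunctional_eq, ← hsym] at hFle
    have h1 := (abs_le.1 hsite).2
    have h2 := (abs_le.1 hedge).1
    have hp1 : (0 : ℝ) ≤ α * (p - 1 : ℝ) := by
      have : (1 : ℝ) ≤ p := by
        have : 1 ≤ p := by omega
        exact_mod_cast this
      exact mul_nonneg hα.le (by linarith)
    have h3 : α * (p - 1 : ℝ) * edgeFun p (finMeasure w x) r m X -
        α * (p - 1 : ℝ) * edgeFun p μ r m X ≤ α * (p - 1 : ℝ) * δ := by
      rw [← mul_sub]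
      exact mul_le_mul_of_nonneg_left (by linarith) hp1
    have e2 : α * (p - 1 : ℝ) * δ = α * p * δ - α * δ := by ring
    have e3 : δ * (3 + 2 * (α * p)) = 3 * δ + 2 * (α * p * δ) := by ring
    linarith
  rw [tendsto_order]
  constructor
  · intro a ha
    have := hlow (F - a) (by linarith)
    filter_upwards [this] with N hN
    linarith
  · intro b hb
    filter_upwards [Filter.eventually_ge_atTop 1] with N hN
    exact (hupF N hN).trans_lt hb

end Crest.Agent.R141.RedT
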