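import Crest.Agent.R141.TreeSix

set_option autoImplicit false
open MeasureTheory Filter Topology Set Crest.ProbabilityR.Diluted

/-!
R141, Part U, step U3 (tree limit), by helper92.

* `Tree.Leaf r K` : leaves of the tree with branching numbers `K : Fin r → ℕ`,
* `Tree.WLaw m K : Measure (Leaf r K → ℝ)` : law of the (Pareto) weights,
* `Tree.PathLaw K : Measure (Leaf r K → Fin (r+1) → unitInterval)` : law of the array of one label,
* `tree_limit` : `treeF (WLaw m K) (PathLaw K) W` has iterated limit
  `∫ log (powerMeans m W u) d(uniformArrays L r)`.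
-/

namespace Crest.Agent.R141

namespace Tree

universe u

/-! ## the nested power means -/

lemma measurable_PM {L : Type u} [Fintype L] : (r : ℕ) → (m : Fin r → ℝ) → (Ξ : Type u) →
    [MeasurableSpace Ξ] → (W : Ξ → (L → Fin (r + 1) → unitInterval) → ℝ) →
    Measurable (Function.uncurry W) →
    Measurable (fun x : Ξ × (L → unitInterval) => PM r m (W x.1) x.2)
  | 0, m, Ξ, _, W, hW => by
    have h : Measurable (fun x : Ξ × (L → unitInterval) =>
        (x.1, fun (ω : L) (_ : Fin (0 + 1)) => x.2 ω)) :=
      measurable_fst.prodMk (measurable_pi_iff.mpr fun ω => measurable_pi_iff.mpr fun _ =>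
        (measurable_pi_apply ω).comp measurable_snd)
    exact hW.comp h
  | r + 1, m, Ξ, _, W, hW => by
    have hW' : Measurable (Function.uncurry
        (fun (x : Ξ × (L → unitInterval)) => consW (W x.1) x.2)) := by
      have h : Measurable (fun (p : (Ξ × (L → unitInterval)) × (L → Fin (r + 1) → unitInterval))
          (ω : L) => (Fin.cons (p.1.2 ω) (p.2 ω) : Fin (r + 1 + 1) → unitInterval)) := by
        refine measurable_pi_iff.mpr (fun ω => ?_)
        have h1 : Measurable (fun p : (Ξ × (L → unitInterval)) × (L → Fin (r + 1) → unitInterval) =>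
            (p.1.2 ω, p.2 ω)) :=
          ((measurable_pi_apply ω).comp (measurable_snd.comp measurable_fst)).prodMk
            ((measurable_pi_apply ω).comp measurable_snd)
        exact measurable_cons.comp h1
      exact hW.comp ((measurable_fst.comp measurable_fst).prodMk h)
    have ih := measurable_PM r (Fin.tail m) (Ξ × (L → unitInterval))
      (fun x => consW (W x.1) x.2) hW'
    have h2 : StronglyMeasurable (fun x : Ξ × (L → unitInterval) =>
        ∫ u1, (PM r (Fin.tail m) (consW (W x.1) x.2) u1) ^ (m 0) ∂(rootLaw L)) :=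
      (ih.pow_const (m 0)).stronglyMeasurable.integral_prod_right' (ν := rootLaw L)
    exact h2.measurable.pow_const _

lemma measurable_PM' {L : Type u} [Fintype L] (r : ℕ) (m : Fin r → ℝ)
    {W : (L → Fin (r + 1) → unitInterval) → ℝ} (hW : Measurable W) :
    Measurable (PM r m W) := by
  have h := measurable_PM r m PUnit.{u+1} (fun _ => W) (hW.comp measurable_snd)
  exact h.comp ((measurable_const (a := PUnit.unit)).prodMk measurable_id)

lemma pmStep_apply {L : Type*} [Fintype L] {r : ℕ} (m : ℝ) (lvl : Fin (r + 1))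
    (W : (L → Fin (r + 1) → unitInterval) → ℝ) (u : L → Fin (r + 1) → unitInterval) :
    pmStep m lvl W u = (∫ v : L → unitInterval,
      (W (fun ω j => if j = lvl then v ω else u ω j)) ^ m
      ∂(Measure.pi fun _ : L => (volume : Measure unitInterval))) ^ (1 / m) := rfl

lemma foldr_shift {L : Type*} [Fintype L] {r : ℕ} (m : Fin (r + 1) → ℝ) 
    (W : (L → Fin (r + 1 + 1) → unitInterval) → ℝ) (l : List (Fin r)) :
    ∀ u : L → Fin (r + 1 + 1) → unitInterval,
    (l.foldr (fun d acc => pmStep (m d.succ) d.succ.succ acc) W) u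
      = (l.foldr (fun d acc => pmStep (Fin.tail m d) d.succ acc) (consW W (fun ω => u ω 0)))
        (fun ω => Fin.tail (u ω)) := by
  induction l with
  | nil =>
    intro u
    simp [consW, Fin.cons_self_tail]
  | cons d l ih =>
    intro u
    rw [List.foldr_cons, List.foldr_cons, pmStep_apply, pmStep_apply]
    congr 1
    refine integral_congr_ae (Filter.Eventually.of_forall (fun v => ?_))
    simp only
    rw [ih]
    have h0 : ∀ ω, (if (0 : Fin (r + 1 + 1)) = d.succ.succ then v ω else u ω 0) = u ω 0 := by
      intro ω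
      rw [if_neg (Fin.succ_ne_zero _).symm]
    simp only [h0]
    have h1 : (fun ω => Fin.tail (fun j => if j = d.succ.succ then v ω else u ω j))
        = (fun ω j => if j = d.succ then v ω else Fin.tail (u ω) j) := by
      funext ω j
      unfold Fin.tail
      simp only [Fin.succ_inj]
    rw [h1]
    rfl

lemma powerMeans_eq_PM {L : Type*} [Fintype L] : (r : ℕ) → (m : Fin r → ℝ) →
    (W : (L → Fin (r + 1) → unitInterval) → ℝ) → (u : L → Fin (r + 1) → unitInterval) →
    powerMeans m W u = PM r m W (fun ω => u ω 0)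
  | 0, m, W, u => by
    unfold powerMeans PM
    simp only [List.finRange_zero, List.foldr_nil]
    congr 1
    funext ω j
    have : j = 0 := Subsingleton.elim (α := Fin 1) j 0
    rw [this]
  | r + 1, m, W, u => by
    unfold powerMeans
    rw [List.finRange_succ, List.foldr_cons, List.foldr_map, PM_succ, pmStep_apply]
    congr 1
    refine integral_congr_ae (Filter.Eventually.of_forall (fun v => ?_))
    simp only
    have h := foldr_shift m W (List.finRange r)
      (fun ω j => if j = Fin.succ 0 then v ω else u ω j)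
    have ih := powerMeans_eq_PM r (Fin.tail m) (consW W (fun ω => u ω 0))
      (fun ω => Fin.tail (fun j => if j = Fin.succ 0 then v ω else u ω j))
    have h0 : ∀ ω, (if (0 : Fin (r + 1 + 1)) = Fin.succ 0 then v ω else u ω 0) = u ω 0 := by
      intro ω
      rw [if_neg (Fin.succ_ne_zero _).symm]
    simp only [h0] at h
    rw [h]
    unfold powerMeans at ih
    rw [ih]
    congr 2

/-- projection of the uniform arrays to level 0 -/
lemma mp_root (L : Type*) [Fintype L] (r : ℕ) :
    MeasurePreserving (fun (u : L → Fin (r + 1) → unitInterval) ω => u ω 0)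
      (uniformArrays L r) (rootLaw L) :=
  measurePreserving_pi (fun _ : L => Measure.pi fun _ : Fin (r + 1) => (volume : Measure unitInterval))
    (fun _ => (volume : Measure unitInterval)) (f := fun _ x => x 0)
    (fun _ => measurePreserving_eval (fun _ : Fin (r + 1) => (volume : Measure unitInterval)) 0)

lemma integral_log_powerMeans' {L : Type u} [Fintype L] {r : ℕ} (m : Fin r → ℝ)
    {W : (L → Fin (r + 1) → unitInterval) → ℝ} (hW : Measurable W) :
    ∫ u, Real.log (powerMeans m W u) ∂(uniformArrays L r)
      = ∫ u0, Real.log (PM r m W u0) ∂(rootLaw L) := by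
  simp_rw [powerMeans_eq_PM]
  rw [← (mp_root L r).map_eq, integral_map (mp_root L r).measurable.aemeasurable
    (measurable_PM' r m hW).log.aestronglyMeasurable]

/-! ## the laws in the interface -/

/-- law of the weights -/
noncomputable def WLaw {r : ℕ} (m : Fin r → ℝ) (K : Fin r → ℕ) : Measure (Leaf r K → ℝ) :=
  (NLaw r K).map (V r m K)

/-- law of the array of paths of one label -/
noncomputable def PathLaw {r : ℕ} (K : Fin r → ℕ) :
    Measure (Leaf r K → Fin (r + 1) → unitInterval) := PLaw r K

lemma measurable_V' (r : ℕ) (m : Fin r → ℝ) (K : Fin r → ℕ) : Measurable (V r m K) :=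
  measurable_pi_iff.mpr (fun a => measurable_V r m K a)

instance instProbWLaw {r : ℕ} (m : Fin r → ℝ) (K : Fin r → ℕ) : IsProbabilityMeasure (WLaw m K) :=
  Measure.isProbabilityMeasure_map (measurable_V' r m K).aemeasurable

instance instProbPathLaw {r : ℕ} (K : Fin r → ℕ) : IsProbabilityMeasure (PathLaw K) :=
  inferInstanceAs (IsProbabilityMeasure (PLaw r K))

lemma nonempty_Leaf {r : ℕ} {K : Fin r → ℕ} (hK : ∀ i, 0 < K i) : Nonempty (Leaf r K) :=
  ⟨leaf0 r K hK⟩

lemma ae_WLaw_pos {r : ℕ} (m : Fin r → ℝ) {K : Fin r → ℕ} (hK : ∀ i, 0 < K i) :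
    ∀ᵐ v ∂(WLaw m K), ∀ a, 0 < v a := by
  rw [WLaw, ae_map_iff (measurable_V' r m K).aemeasurable]
  · exact Filter.Eventually.of_forall (fun ξ a => V_pos r m K hK ξ a)
  · rw [show {v : Leaf r K → ℝ | ∀ a, 0 < v a} = ⋂ a, {v | 0 < v a} by ext; simp]
    exact MeasurableSet.iInter (fun a => measurableSet_lt measurable_const (measurable_pi_apply a))

lemma treeF_eq {L : Type u} [Fintype L] {r : ℕ} (m : Fin r → ℝ) (hm : AdmissibleExponents m)
    {W : (L → Fin (r + 1) → unitInterval) → ℝ} (hW : Measurable W) {c C : ℝ} (hc : 0 < c)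
    (hcW : ∀ u, c ≤ W u) (hWC : ∀ u, W u ≤ C) (K : Fin r → ℕ) (hK : ∀ i, 0 < K i) :
    treeF (WLaw m K) (PathLaw K) W = DD r m K W := by
  have hi := integrable_Zw_log (m := m) hW hc hcW hWC hm.1 hm.2 hK
  have hi1 := integrable_Zw_one_log (L := L) r m hm.1 hm.2 K hK
  unfold treeF DD II JL
  unfold JL at hi hi1
  have hmeas : Measurable (fun x : (Leaf r K → ℝ) × (L → Leaf r K → Fin (r + 1) → unitInterval) =>
      Real.log (∑ a, x.1 a * W (fun ω => x.2 ω a))) := by
    refine (Finset.measurable_sum _ (fun a _ => Measurable.mul ?_ ?_)).log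
    · exact (measurable_pi_apply a).comp measurable_fst
    · exact hW.comp (measurable_pi_iff.mpr fun ω => (measurable_pi_apply a).comp
        ((measurable_pi_apply ω).comp measurable_snd))
  have hmeas2 : Measurable (fun v : Leaf r K → ℝ =>
      (∫ y, Real.log (∑ a, v a * W (fun ω => y ω a)) ∂(Measure.pi fun _ : L => PathLaw K)) -
        Real.log (∑ a, v a)) := by
    refine Measurable.sub ?_ ?_
    · exact (hmeas.stronglyMeasurable.integral_prod_right'
        (ν := Measure.pi fun _ : L => PathLaw K)).measurable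
    · exact (Finset.measurable_sum _ (fun a _ => measurable_pi_apply a)).log
  unfold WLaw
  rw [integral_map (measurable_V' r m K).aemeasurable hmeas2.aestronglyMeasurable]
  have e1 : ∀ ξ : NT r K, ∀ y : L → Leaf r K → Fin (r + 1) → unitInterval,
      Real.log (∑ a, V r m K ξ a * W (fun ω => y ω a)) = Real.log (Zw r m K W (ξ, y)) :=
    fun _ _ => rfl
  simp_rw [e1]
  have e2 : ∀ ξ : NT r K, Real.log (∑ a, V r m K ξ a)
      = ∫ y, Real.log (Zw (L := L) r m K (fun _ => 1) (ξ, y)) ∂(Measure.pi fun _ : L => PLaw r K) := by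
    intro ξ
    simp_rw [Zw_one]
    simp
  simp_rw [e2]
  simp only [PathLaw]
  rw [integral_sub hi.integral_prod_left hi1.integral_prod_left, integral_prod _ hi,
    integral_prod _ hi1]

end Tree

open Crest.Agent.R141.Tree in
/-- U3: the tree limit. -/
theorem tree_limit {r : ℕ} (m : Fin r → ℝ) (hm : AdmissibleExponents m) {L : Type} [Fintype L]
    (W : (L → Fin (r + 1) → unitInterval) → ℝ) (hW : Measurable W) (c C : ℝ) (hc : 0 < c)
    (h1 : ∀ u, c ≤ W u) (h2 : ∀ u, W u ≤ C) :
    IterTendsto r (fun K => treeF (WLaw m K) (PathLaw K) W)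
      (∫ u, Real.log (powerMeans m W u) ∂(uniformArrays L r)) := by
  rw [integral_log_powerMeans' m hW]
  refine (iter_DD r m hm.1 hm.2 W hW c C hc h1 h2).congr (fun K hK => ?_)
  rw [treeF_eq m hm hW hc h1 h2 K hK]

end Crest.Agent.R141
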