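import Crest.Agent.R141.ULim
import Crest.Agent.R141.TreeMain

/-!
R141, Part U: the upper bound `pressure ≤ trialFunctional`.
-/

set_option autoImplicit false

namespace Crest.Agent.R141

open MeasureTheory Filter Topology Crest.ProbabilityR.Diluted

theorem treeLimit {r : ℕ} (m : Fin r → ℝ) (hm : AdmissibleExponents m) : U.TreeLimit m :=
  ⟨fun K => Tree.Leaf r K, fun _ => inferInstance, fun K => Tree.WLaw m K,
    fun K => Tree.PathLaw K,
    fun K hK => ⟨Tree.nonempty_Leaf hK, inferInstance, inferInstance, Tree.ae_WLaw_pos m hK⟩,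
    fun _ _ W hW c C hc h1 h2 => tree_limit m hm W hW c C hc h1 h2⟩

/-- Part U for an interaction law with the key inequality (no parity needed). -/
theorem pressure_le_trial_of_KI (p : ℕ) (hp : 1 ≤ p) (α : ℝ) (hα : 0 ≤ α)
    (μ : Measure (Inter p)) [IsProbabilityMeasure μ] (ν : Measure ℝ) [IsProbabilityMeasure ν]
    (hμ : Integrable (fun θ => supNorm θ) μ) (hν : Integrable (fun x : ℝ => x) ν)
    (hKI : KIProp p μ) (N : ℕ) (hN : 1 ≤ N) (r : ℕ) (m : Fin r → ℝ)
    (X : (Fin (r + 1) → unitInterval) → ℝ) (hm : AdmissibleExponents m) (hX : Measurable X) :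
    pressure p α μ ν N ≤ trialFunctional p α μ ν r m X :=
  U.pressure_le_of_tree hμ ν hν hX hp hN hKI hα (fun d => (hm.2 d).1) (treeLimit m hm)

/-- **Part U** (Franz–Leone upper bound). -/
theorem pressure_le_trial (p : ℕ) (hp : Even p) (hp2 : 2 ≤ p) (α : ℝ) (hα : 0 < α)
    (μ : Measure (Inter p)) [IsProbabilityMeasure μ] (ν : Measure ℝ) [IsProbabilityMeasure ν]
    (hμ : Integrable (fun θ => supNorm θ) μ) (hν : Integrable (fun x : ℝ => x) ν)
    (hfac : HasFactorization p μ) (N : ℕ) (hN : 1 ≤ N) (r : ℕ) (m : Fin r → ℝ)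
    (X : (Fin (r + 1) → unitInterval) → ℝ) (hm : AdmissibleExponents m) (hX : Measurable X) :
    pressure p α μ ν N ≤ trialFunctional p α μ ν r m X :=
  pressure_le_trial_of_KI p (by omega) α hα.le μ ν hμ hν
    (kiProp_of_factorization hp (by omega) μ hμ hfac) N hN r m X hm hX

theorem partU (p : ℕ) (hp : Even p) (hp2 : 2 ≤ p) (α : ℝ) (hα : 0 < α)
    (μ : Measure (Inter p)) [IsProbabilityMeasure μ] (ν : Measure ℝ) [IsProbabilityMeasure ν]
    (hμ : Integrable (fun θ => supNorm θ) μ) (hν : Integrable (fun x : ℝ => x) ν)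
    (hfac : HasFactorization p μ) : PartU p α μ ν :=
  fun N hN r m X hm hX => pressure_le_trial p hp hp2 α hα μ ν hμ hν hfac N hN r m X hm hX

theorem partU_of_KI (p : ℕ) (hp : 1 ≤ p) (α : ℝ) (hα : 0 ≤ α)
    (μ : Measure (Inter p)) [IsProbabilityMeasure μ] (ν : Measure ℝ) [IsProbabilityMeasure ν]
    (hμ : Integrable (fun θ => supNorm θ) μ) (hν : Integrable (fun x : ℝ => x) ν)
    (hKI : KIProp p μ) : PartU p α μ ν :=
  fun N hN r m X hm hX => pressure_le_trial_of_KI p hp α hα μ ν hμ hν hKI N hN r m X hm hX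

end Crest.Agent.R141
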