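import Crest.Agent.R141.Asm2
import Crest.Agent.R141.Red5
import Crest.Agent.R141.Upper

/-!
# Row 141: the main theorem from `Sec23` (helper552)
-/

set_option autoImplicit false

open MeasureTheory Crest.ProbabilityR.Diluted

namespace Crest.Agent.R141

/-- S0192 from the output `Sec23` of sections 2-3. -/
theorem main_of_sec23 (h23 : Asm.Sec23) (p : ℕ) (hp : Even p) (hp2 : 2 ≤ p) (α : ℝ) (hα : 0 < α)
    (μ : Measure (Inter p)) [IsProbabilityMeasure μ] (ν : Measure ℝ) [IsProbabilityMeasure ν]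
    (hμ : Integrable (fun θ => supNorm θ) μ) (hν : Integrable (fun x : ℝ => x) ν)
    (hfac : HasFactorization p μ) :
    ∃ F : ℝ, Filter.Tendsto (pressure p α μ ν) Filter.atTop (nhds F) ∧
      IsGLB {B : ℝ | ∃ (r : ℕ) (m : Fin r → ℝ) (X : (Fin (r + 1) → unitInterval) → ℝ),
        AdmissibleExponents m ∧ Measurable X ∧
        B = trialFunctional p α μ ν r m X} F :=
  RedT.main_of_parts p hp2 α hα μ ν hμ hν hfac (partU p hp hp2 α hα μ ν hμ hν hfac)
    (Asm.partL_of_sec23 h23 (by omega) hα.le)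

end Crest.Agent.R141
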