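import Crest.Agent.R141.HierA

/-!
Row 141 (S0192), Part L: independent coordinates (structure `IC`), projections / morphisms of
filtered finite probability spaces and the behaviour of `cE`, `A`, `S`, `tl`.
-/

set_option autoImplicit false

namespace Crest.Agent.R141

open Finset

noncomputable section

section ite

variable {Ω : Type*} [Fintype Ω]

open scoped Classical in
theorem cE_eq_ite (P : Ω → ℝ) (r : Setoid Ω) (f : Ω → ℝ) (ω : Ω) :
    cE P r f ω = (∑ ω', if r ω ω' then P ω' * f ω' else 0) /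
      (∑ ω', if r ω ω' then P ω' else 0) := by
  unfold cE
  rw [Finset.sum_filter, Finset.sum_filter]

end ite

/-- An independent coordinate `ℓ : Ω → Λ` (with update map `upd`) of a finite filtered probability
space: the coordinate has prior `q` and own filtration `G`, and is independent of the rest. -/
structure IC {Ω Λ : Type*} (P : Ω → ℝ) (F : ℕ → Setoid Ω) (ℓ : Ω → Λ) (upd : Ω → Λ → Ω)
    (q : Λ → ℝ) (G : ℕ → Setoid Λ) : Prop where
  get_upd : ∀ ω c, ℓ (upd ω c) = c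
  upd_get : ∀ ω, upd ω (ℓ ω) = ω
  upd_upd : ∀ ω c c', upd (upd ω c) c' = upd ω c'
  prob : ∀ ω c, P (upd ω c) * q (ℓ ω) = P ω * q c
  rel : ∀ k ω ω' c, F k ω ω' ↔ (F k (upd ω c) (upd ω' c) ∧ G k (ℓ ω) (ℓ ω'))

namespace IC

variable {Ω Λ : Type*} [Fintype Ω] [Fintype Λ] {P : Ω → ℝ} {F : ℕ → Setoid Ω} {ℓ : Ω → Λ}
  {upd : Ω → Λ → Ω} {q : Λ → ℝ} {G : ℕ → Setoid Λ}

/-- splitting of `Ω` as base times coordinate -/
def eqv (hic : IC P F ℓ upd q G) (c0 : Λ) : Ω ≃ {b : Ω // ℓ b = c0} × Λ where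
  toFun ω := (⟨upd ω c0, hic.get_upd ω c0⟩, ℓ ω)
  invFun z := upd z.1.1 z.2
  left_inv ω := by
    show upd (upd ω c0) (ℓ ω) = ω
    rw [hic.upd_upd, hic.upd_get]
  right_inv z := by
    obtain ⟨⟨b, hb⟩, c⟩ := z
    have h1 : upd (upd b c) c0 = b := by
      rw [hic.upd_upd]
      conv_lhs => rw [← hb]
      exact hic.upd_get b
    simp only [Prod.mk.injEq, Subtype.mk.injEq]
    exact ⟨h1, hic.get_upd b c⟩

open scoped Classical in
theorem sum_eq (hic : IC P F ℓ upd q G) (c0 : Λ) (g : Ω → ℝ) :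
    ∑ ω, g ω = ∑ b : {b : Ω // ℓ b = c0}, ∑ c, g (upd b.1 c) := by
  rw [← Fintype.sum_prod_type (f := fun z : {b : Ω // ℓ b = c0} × Λ => g (upd z.1.1 z.2))]
  apply Fintype.sum_equiv (hic.eqv c0)
  intro ω
  show g ω = g (upd (upd ω c0) (ℓ ω))
  rw [hic.upd_upd, hic.upd_get]

omit [Fintype Ω] [Fintype Λ] in
theorem prob' (hic : IC P F ℓ upd q G) (hq : ∀ c, 0 < q c) {c0 : Λ} {b : Ω} (hb : ℓ b = c0)
    (c : Λ) : P (upd b c) = P b / q c0 * q c := by
  have h := hic.prob b c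
  rw [hb] at h
  rw [div_mul_eq_mul_div, eq_div_iff (hq c0).ne']
  exact h

omit [Fintype Ω] [Fintype Λ] in
theorem rel' (hic : IC P F ℓ upd q G) (k : ℕ) (ω : Ω) {c0 : Λ} {b : Ω} (hb : ℓ b = c0) (c : Λ) :
    F k ω (upd b c) ↔ (F k (upd ω c0) b ∧ G k (ℓ ω) c) := by
  rw [hic.rel k ω (upd b c) c0, hic.upd_upd, hic.get_upd]
  have : upd b c0 = b := by rw [← hb]; exact hic.upd_get b
  rw [this]

open scoped Classical in
/-- the basic formula: conditional expectations split -/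
theorem cE_formula (hic : IC P F ℓ upd q G) (hq : IsProb q) (c0 : Λ) (k : ℕ)
    (f : Ω → ℝ) (ω : Ω) :
    cE P (F k) f ω =
      (∑ b : {b : Ω // ℓ b = c0}, if F k (upd ω c0) b.1 then
        P b.1 * cE q (G k) (fun c => f (upd b.1 c)) (ℓ ω) else 0) /
      (∑ b : {b : Ω // ℓ b = c0}, if F k (upd ω c0) b.1 then P b.1 else 0) := by
  have hM : 0 < ∑ c, if G k (ℓ ω) c then q c else 0 := by
    have := cls_pos hq (G k) (ℓ ω)
    rwa [Finset.sum_filter] at this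
  -- general computation of class sums
  have key : ∀ g : Ω → ℝ, ∑ ω', (if F k ω ω' then P ω' * g ω' else 0) =
      ∑ b : {b : Ω // ℓ b = c0}, (if F k (upd ω c0) b.1 then
        P b.1 / q c0 * ∑ c, (if G k (ℓ ω) c then q c * g (upd b.1 c) else 0) else 0) := by
    intro g
    rw [hic.sum_eq c0]
    refine Finset.sum_congr rfl fun b _ => ?_
    by_cases hb : F k (upd ω c0) b.1
    · simp only [hb, if_true]
      rw [Finset.mul_sum]
      refine Finset.sum_congr rfl fun c _ => ?_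
      by_cases hc : G k (ℓ ω) c
      · have h1 : F k ω (upd b.1 c) := (hic.rel' k ω b.2 c).mpr ⟨hb, hc⟩
        simp only [h1, hc, if_true]
        rw [hic.prob' hq.pos b.2 c]; ring
      · have h1 : ¬ F k ω (upd b.1 c) := fun h => hc ((hic.rel' k ω b.2 c).mp h).2
        simp [h1, hc]
    · simp only [hb, if_false]
      refine Finset.sum_eq_zero fun c _ => ?_
      have h1 : ¬ F k ω (upd b.1 c) := fun h => hb ((hic.rel' k ω b.2 c).mp h).1
      simp [h1]
  have key1 : ∑ ω', (if F k ω ω' then P ω' else 0) =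
      (∑ b : {b : Ω // ℓ b = c0}, (if F k (upd ω c0) b.1 then P b.1 else 0)) *
        ((∑ c, if G k (ℓ ω) c then q c else 0) / q c0) := by
    have h1 := key (fun _ => 1)
    simp only [mul_one] at h1
    rw [h1, Finset.sum_mul]
    refine Finset.sum_congr rfl fun b _ => ?_
    by_cases hb : F k (upd ω c0) b.1
    · simp only [hb, if_true]; ring
    · simp [hb]
  have key2 : ∑ ω', (if F k ω ω' then P ω' * f ω' else 0) =
      (∑ b : {b : Ω // ℓ b = c0}, if F k (upd ω c0) b.1 then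
        P b.1 * cE q (G k) (fun c => f (upd b.1 c)) (ℓ ω) else 0) *
        ((∑ c, if G k (ℓ ω) c then q c else 0) / q c0) := by
    rw [key f, Finset.sum_mul]
    refine Finset.sum_congr rfl fun b _ => ?_
    by_cases hb : F k (upd ω c0) b.1
    · simp only [hb, if_true]
      rw [cE_eq_ite]
      field_simp
    · simp [hb]
  rw [cE_eq_ite, key2, key1, mul_div_mul_right]
  exact (div_pos hM (hq.pos c0)).ne'

/-- general factorization of conditional expectations -/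
theorem cE_eq (hic : IC P F ℓ upd q G) (hq : IsProb q) (k : ℕ) (f : Ω → ℝ) (ω : Ω) :
    cE P (F k) f ω = cE P (F k) (fun ω' => cE q (G k) (fun c => f (upd ω' c)) (ℓ ω)) ω := by
  classical
  rw [hic.cE_formula hq (ℓ ω) k f ω, hic.cE_formula hq (ℓ ω) k _ ω]
  congr 1
  refine Finset.sum_congr rfl fun b _ => ?_
  by_cases hb : F k (upd ω (ℓ ω)) b.1
  · simp only [hb, if_true, hic.upd_upd]
    rw [cE_const hq]
  · simp [hb]

/-- a function not depending on the coordinate has a conditional expectation not depending on it -/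
theorem cE_inv (hic : IC P F ℓ upd q G) (hq : IsProb q) (k : ℕ)
    {f : Ω → ℝ} (hf : ∀ ω c, f (upd ω c) = f ω) (ω : Ω) (c : Λ) :
    cE P (F k) f (upd ω c) = cE P (F k) f ω := by
  classical
  rw [hic.cE_formula hq (ℓ ω) k f ω, hic.cE_formula hq (ℓ ω) k f (upd ω c)]
  simp only [hic.upd_upd, hf, cE_const hq]

theorem cE_prod (hic : IC P F ℓ upd q G) (hq : IsProb q) (k : ℕ)
    {f : Ω → ℝ} (hf : ∀ ω c, f (upd ω c) = f ω) (g : Λ → ℝ) (ω : Ω) :
    cE P (F k) (fun ω' => f ω' * g (ℓ ω')) ω = cE P (F k) f ω * cE q (G k) g (ℓ ω) := by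
  rw [hic.cE_eq hq]
  have e : (fun ω' => cE q (G k) (fun c => f (upd ω' c) * g (ℓ (upd ω' c))) (ℓ ω)) =
      fun ω' => cE q (G k) g (ℓ ω) * f ω' := by
    funext ω'
    simp only [hf, hic.get_upd]
    rw [cE_smul, mul_comm]
  rw [e, cE_smul, mul_comm]

theorem cE_coord (hP : IsProb P) (hic : IC P F ℓ upd q G) (hq : IsProb q) (k : ℕ)
    (g : Λ → ℝ) (ω : Ω) :
    cE P (F k) (fun ω' => g (ℓ ω')) ω = cE q (G k) g (ℓ ω) := by
  have h := hic.cE_prod hq k (f := fun _ => (1 : ℝ)) (fun _ _ => rfl) g ω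
  rw [cE_const hP, one_mul] at h
  simpa using h

omit [Fintype Ω] [Fintype Λ] in
/-- the same coordinate is independent for the trivial filtration -/
theorem top (hic : IC P F ℓ upd q G) : IC P (fun _ => (⊤ : Setoid Ω)) ℓ upd q
    (fun _ => (⊤ : Setoid Λ)) where
  get_upd := hic.get_upd
  upd_get := hic.upd_get
  upd_upd := hic.upd_upd
  prob := hic.prob
  rel := fun _ _ _ _ => ⟨fun _ => ⟨trivial, trivial⟩, fun _ => trivial⟩

/-- expectations -/
theorem eE_prod (hP : IsProb P) (hic : IC P F ℓ upd q G) (hq : IsProb q)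
    {f : Ω → ℝ} (hf : ∀ ω c, f (upd ω c) = f ω) (g : Λ → ℝ) :
    eE P (fun ω' => f ω' * g (ℓ ω')) = eE P f * eE q g := by
  by_cases hne : Nonempty Ω
  · obtain ⟨ω⟩ := hne
    have h := hic.top.cE_prod hq 0 hf g ω
    rwa [eE_top hP, eE_top hP, eE_top hq] at h
  · rw [not_nonempty_iff] at hne
    simp [eE]

theorem eE_coord (hP : IsProb P) (hic : IC P F ℓ upd q G) (hq : IsProb q) (g : Λ → ℝ) :
    eE P (fun ω' => g (ℓ ω')) = eE q g := by
  have h := hic.eE_prod hP hq (f := fun _ => (1 : ℝ)) (fun _ _ => rfl) g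
  rw [eE_const hP, one_mul] at h
  simpa using h

variable {𝓕 : Filt Ω} {x : ℕ → ℝ}

theorem A_inv (hic : IC P 𝓕.F ℓ upd q G) (hP : IsProb P) (hq : IsProb q) (hx : ∀ k, 0 < x k)
    {U : Ω → ℝ} (hU : ∀ ω c, U (upd ω c) = U ω) (k : ℕ) :
    ∀ (ω : Ω) (c : Λ), A P 𝓕 x U k (upd ω c) = A P 𝓕 x U k ω := by
  refine back_induction 𝓕 (Q := fun k => ∀ (ω : Ω) (c : Λ),
    A P 𝓕 x U k (upd ω c) = A P 𝓕 x U k ω) ?_ ?_ k
  · intro k hk ω c; rw [A_of_ge _ hk]; exact hU ω c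
  · intro k ih ω c
    rw [A_step hP hx U k]
    unfold pm
    rw [hic.cE_inv hq]
    intro ω' c'
    rw [ih]

theorem S_inv (hic : IC P 𝓕.F ℓ upd q G) (hP : IsProb P) (hq : IsProb q) (hx : ∀ k, 0 < x k)
    {U : Ω → ℝ} (hU : ∀ ω c, U (upd ω c) = U ω) (k m : ℕ) (ω : Ω) (c : Λ) :
    S P 𝓕 x U k m (upd ω c) = S P 𝓕 x U k m ω := by
  unfold S
  refine Finset.sum_congr rfl fun l _ => ?_
  rw [hic.A_inv hP hq hx hU, hic.A_inv hP hq hx hU]

/-- tilting by a function which does not depend on the coordinate keeps the coordinate independent -/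
theorem tl_inv (hic : IC P 𝓕.F ℓ upd q G) (hP : IsProb P) (hq : IsProb q) (hx : ∀ k, 0 < x k)
    {U : Ω → ℝ} (hU : ∀ ω c, U (upd ω c) = U ω) :
    IC (tl P 𝓕 x U) 𝓕.F ℓ upd q G where
  get_upd := hic.get_upd
  upd_get := hic.upd_get
  upd_upd := hic.upd_upd
  rel := hic.rel
  prob := by
    intro ω c
    unfold tl
    rw [hic.S_inv hP hq hx hU]
    have := hic.prob ω c
    calc P (upd ω c) * Real.exp (S P 𝓕 x U 0 𝓕.L ω) * q (ℓ ω)
        = (P (upd ω c) * q (ℓ ω)) * Real.exp (S P 𝓕 x U 0 𝓕.L ω) := by ring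
      _ = _ := by rw [this]; ring

end IC

/-! ### projections -/

section proj

variable {Ω' Ω : Type*} [Fintype Ω'] [Fintype Ω]

/-- PROJECTION LEMMA. -/
theorem A_proj {𝓕' : Filt Ω'} {𝓕 : Filt Ω} {P' : Ω' → ℝ} {P : Ω → ℝ} {x : ℕ → ℝ}
    (hP' : IsProb P') (hP : IsProb P) (hx : ∀ k, 0 < x k) (proj : Ω' → Ω)
    (hce : ∀ k (f : Ω → ℝ) (ω' : Ω'), cE P' (𝓕'.F k) (fun ω'' => f (proj ω'')) ω' =
      cE P (𝓕.F k) f (proj ω'))
    (U : Ω → ℝ) (k : ℕ) :
    ∀ ω', A P' 𝓕' x (fun ω'' => U (proj ω'')) k ω' = A P 𝓕 x U k (proj ω') := by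
  have h0 : ∀ k, max 𝓕.L 𝓕'.L ≤ k → ∀ ω',
      A P' 𝓕' x (fun ω'' => U (proj ω'')) k ω' = A P 𝓕 x U k (proj ω') := by
    intro k hk ω'
    rw [A_of_ge _ ((le_max_right _ _).trans hk), A_of_ge _ ((le_max_left _ _).trans hk)]
  have h1 : ∀ k, (∀ ω', A P' 𝓕' x (fun ω'' => U (proj ω'')) (k + 1) ω' =
      A P 𝓕 x U (k + 1) (proj ω')) → ∀ ω',
      A P' 𝓕' x (fun ω'' => U (proj ω'')) k ω' = A P 𝓕 x U k (proj ω') := by
    intro k ih ω'
    rw [A_step hP' hx _ k, A_step hP hx U k]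
    unfold pm
    congr 2
    rw [← hce k (fun a => Real.exp (x (k + 1) * A P 𝓕 x U (k + 1) a)) ω']
    congr 1
    funext a
    rw [ih]
  by_cases hk : max 𝓕.L 𝓕'.L ≤ k
  · exact h0 k hk
  · push Not at hk
    have : ∀ j, j ≤ max 𝓕.L 𝓕'.L → ∀ ω',
        A P' 𝓕' x (fun ω'' => U (proj ω'')) (max 𝓕.L 𝓕'.L - j) ω' =
          A P 𝓕 x U (max 𝓕.L 𝓕'.L - j) (proj ω') := by
      intro j
      induction j with
      | zero => intro _; exact h0 _ (by simp)
      | succ n ih =>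
        intro hn
        apply h1
        have h3 : max 𝓕.L 𝓕'.L - (n + 1) + 1 = max 𝓕.L 𝓕'.L - n := by omega
        rw [h3]; exact ih (by omega)
    have h2 := this (max 𝓕.L 𝓕'.L - k) (by omega)
    have h3 : max 𝓕.L 𝓕'.L - (max 𝓕.L 𝓕'.L - k) = k := by omega
    rwa [h3] at h2

theorem S_proj {𝓕' : Filt Ω'} {𝓕 : Filt Ω} {P' : Ω' → ℝ} {P : Ω → ℝ} {x : ℕ → ℝ}
    (hP' : IsProb P') (hP : IsProb P) (hx : ∀ k, 0 < x k) (proj : Ω' → Ω)
    (hce : ∀ k (f : Ω → ℝ) (ω' : Ω'), cE P' (𝓕'.F k) (fun ω'' => f (proj ω'')) ω' =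
      cE P (𝓕.F k) f (proj ω'))
    (U : Ω → ℝ) (k m : ℕ) (ω' : Ω') :
    S P' 𝓕' x (fun ω'' => U (proj ω'')) k m ω' = S P 𝓕 x U k m (proj ω') := by
  unfold S
  refine Finset.sum_congr rfl fun l _ => ?_
  rw [A_proj hP' hP hx proj hce, A_proj hP' hP hx proj hce]

open scoped Classical in
/-- Criterion for the hypothesis of `A_proj` at one level: the class of `ω'` is mapped with
conditional weights proportional to the image weights. -/
theorem cE_proj {r' : Setoid Ω'} {r : Setoid Ω} {P' : Ω' → ℝ} {P : Ω → ℝ}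
    (proj : Ω' → Ω) (ω' : Ω') (c : ℝ) (hc : 0 < c)
    (hr : ∀ ω'', r' ω' ω'' → r (proj ω') (proj ω''))
    (hfib : ∀ ω, r (proj ω') ω →
      (∑ ω'' ∈ (Finset.univ.filter (fun ω'' => proj ω'' = ω ∧ r' ω' ω'')), P' ω'') = c * P ω)
    (f : Ω → ℝ) :
    cE P' r' (fun ω'' => f (proj ω'')) ω' = cE P r f (proj ω') := by
  have key : ∀ g : Ω → ℝ, (∑ ω'', if r' ω' ω'' then P' ω'' * g (proj ω'') else 0) =
      c * ∑ ω, if r (proj ω') ω then P ω * g ω else 0 := by
    intro g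
    rw [← Finset.sum_fiberwise (s := Finset.univ) (g := proj), Finset.mul_sum]
    refine Finset.sum_congr rfl fun ω _ => ?_
    by_cases h : r (proj ω') ω
    · simp only [h, if_true]
      rw [← mul_assoc, ← hfib ω h, Finset.sum_mul, Finset.sum_filter, Finset.sum_filter]
      refine Finset.sum_congr rfl fun ω'' _ => ?_
      by_cases h1 : proj ω'' = ω
      · by_cases h2 : r' ω' ω''
        · simp [h1, h2]
        · simp [h1, h2]
      · simp [h1]
    · simp only [h, if_false, mul_zero]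
      rw [Finset.sum_filter]
      refine Finset.sum_eq_zero fun ω'' _ => ?_
      by_cases h1 : proj ω'' = ω
      · have h2 : ¬ r' ω' ω'' := fun h2 => h (h1 ▸ hr ω'' h2)
        simp [h2]
      · simp [h1]
  have k1 := key f
  have k2 := key (fun _ => 1)
  simp only [mul_one] at k2
  rw [cE_eq_ite, cE_eq_ite, k1, k2, mul_div_mul_left _ _ hc.ne']

/-- the tilted laws are compatible with the projection too -/
theorem cE_proj_tl {𝓕' : Filt Ω'} {𝓕 : Filt Ω} {P' : Ω' → ℝ} {P : Ω → ℝ} {x : ℕ → ℝ}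
    (hP' : IsProb P') (hP : IsProb P) (hx : ∀ k, 0 < x k) (proj : Ω' → Ω)
    (hL : 𝓕'.L = 𝓕.L)
    (hce : ∀ k (f : Ω → ℝ) (ω' : Ω'), cE P' (𝓕'.F k) (fun ω'' => f (proj ω'')) ω' =
      cE P (𝓕.F k) f (proj ω'))
    (U : Ω → ℝ) (k : ℕ) (f : Ω → ℝ) (ω' : Ω') :
    cE (tl P' 𝓕' x (fun ω'' => U (proj ω''))) (𝓕'.F k) (fun ω'' => f (proj ω'')) ω' =
      cE (tl P 𝓕 x U) (𝓕.F k) f (proj ω') := by
  rw [cE_tl hP' hx, cE_tl hP hx, hL,
    ← hce k (fun w => Real.exp (S P 𝓕 x U k 𝓕.L w) * f w) ω']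
  congr 1
  funext w
  rw [S_proj hP' hP hx proj hce]

end proj

end

end Crest.Agent.R141
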