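import Mathlib
import Crest.Prelude.Def_DilutedSpinGlass

set_option autoImplicit false

/-!
Row 141, Part U1: the key inequality as a property of the interaction law `μ`
(proved in `KI.lean` from the factorization; used by the hybrid argument U2).
-/

namespace Crest.Agent.R141

open MeasureTheory Crest.ProbabilityR.Diluted

/-- The key inequality (KI) for the interaction law `μ`: for every finite state space `S` with
positive weights `G`, spins `sg s : Fin N → Bool`, and every law `Q` of a random message array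
`x y : S → ℝ` (`y ∼ Q`, i.i.d. copies for the different labels),
`(1/p) avg_I E log Σ G e^{θ(σ_I)} + ((p-1)/p) E log Σ G edgeTerm ≤ avg_i E log Σ G e^{U_θ(x;σ_i)}`. -/
def KIProp (p : ℕ) (μ : Measure (Inter p)) : Prop :=
  ∀ (S : Type) [Fintype S] [Nonempty S] (N : ℕ), 0 < N → ∀ (sg : S → Fin N → Bool)
    (Y : Type) [MeasurableSpace Y] (Q : Measure Y) [IsProbabilityMeasure Q] (x : Y → S → ℝ),
    (∀ s, Measurable fun y => x y s) → ∀ G : S → ℝ, (∀ s, 0 < G s) →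
    (1 / (p : ℝ)) * ((Fintype.card (Fin p → Fin N) : ℝ)⁻¹ * ∑ I : Fin p → Fin N,
        ∫ θ, Real.log (∑ s, G s * Real.exp (θ fun ℓ => sg s (I ℓ))) ∂μ) +
      ((p - 1 : ℝ) / p) * ∫ θ, ∫ y, Real.log (∑ s, G s * edgeTerm θ fun ℓ => x (y ℓ) s)
          ∂(Measure.pi fun _ : Fin p => Q) ∂μ ≤
    (N : ℝ)⁻¹ * ∑ i : Fin N,
        ∫ θ, ∫ y, Real.log (∑ s, G s * Real.exp (siteMessage θ (fun ℓ => x (y ℓ) s) (sg s i)))
          ∂(Measure.pi fun _ : Fin (p - 1) => Q) ∂μ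

/-- Factorization with nonnegative site functions (used for odd `p`, row 153). -/
def HasFactorizationNN (p : ℕ) (μ : Measure (Inter p)) : Prop :=
  ∃ (Ω : Type) (_ : MeasurableSpace Ω) (P : Measure Ω) (_ : IsProbabilityMeasure P)
    (a b : Ω → ℝ) (f : Fin p → Ω → Bool → ℝ),
    Measurable a ∧ Measurable b ∧ (∀ ℓ, Measurable (f ℓ)) ∧
    ProbabilityTheory.iIndepFun f P ∧
    (∀ ℓ, ProbabilityTheory.IdentDistrib (f ℓ) (f ⟨0, Fin.pos ℓ⟩) P P) ∧
    ProbabilityTheory.IndepFun b (fun ω => fun ℓ => f ℓ ω) P ∧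
    (∀ᵐ ω ∂P, 0 < a ω ∧ ∀ s : Fin p → Bool, |b ω * ∏ ℓ, f ℓ ω (s ℓ)| < 1) ∧
    (∀ n : ℕ, 1 ≤ n → Integrable (fun ω => (-b ω) ^ n) P ∧ 0 ≤ ∫ ω, (-b ω) ^ n ∂P) ∧
    P.map (fun ω => fun s : Fin p → Bool => Real.log (a ω * (1 + b ω * ∏ ℓ, f ℓ ω (s ℓ)))) = μ ∧
    (∀ ℓ, ∀ᵐ ω ∂P, ∀ e, 0 ≤ f ℓ ω e)

end Crest.Agent.R141
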