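import Mathlib
import Crest.Prelude.Def_DilutedSpinGlass

set_option autoImplicit false

/-!
Row 141, part U1 (key inequality), abstract series part.
-/

namespace Crest.Agent.R141

open MeasureTheory

section Abstract

variable {Z : Type*} [MeasurableSpace Z] {p : ℕ} {S : Type*} [Fintype S]

/-- weighted average of a product of site functions -/
noncomputable def mixProd (w : S → ℝ) (γ : Fin p → Z → S → ℝ) (z : Fin p → Z) : ℝ :=
  ∑ s, w s * ∏ ℓ, γ ℓ (z ℓ) s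

lemma measurable_mixProd (w : S → ℝ) (γ : Fin p → Z → S → ℝ)
    (hγ : ∀ ℓ s, Measurable (fun z => γ ℓ z s)) : Measurable (mixProd w γ) := by
  unfold mixProd
  refine Finset.measurable_sum _ fun s _ => ?_
  refine Measurable.const_mul ?_ _
  refine Finset.measurable_prod _ fun ℓ _ => ?_
  exact (hγ ℓ s).comp (measurable_pi_apply ℓ)

/-- Series expansion of the expected logarithm. -/
lemma hasSum_log_expansion {W : Type*} [MeasurableSpace W] (τ : Measure ℝ) [IsProbabilityMeasure τ]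
    (κ : Measure W) [IsProbabilityMeasure κ] (M : W → ℝ) (hM : Measurable M)
    (hb : ∀ᵐ q ∂(τ.prod κ), |q.1 * M q.2| ≤ 1) (t : ℝ) (ht0 : 0 ≤ t) (ht1 : t < 1) :
    HasSum (fun n : ℕ => -(t ^ (n + 1) / (n + 1)) *
        ((∫ b, (-b) ^ (n + 1) ∂τ) * ∫ z, (M z) ^ (n + 1) ∂κ))
      (∫ q, Real.log (1 + t * (q.1 * M q.2)) ∂(τ.prod κ)) := by
  set F : ℕ → ℝ × W → ℝ := fun n q => -((-(t * (q.1 * M q.2))) ^ (n + 1) / (n + 1)) with hF
  have hmeas : Measurable (fun q : ℝ × W => q.1 * M q.2) :=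
    measurable_fst.mul (hM.comp measurable_snd)
  have hFmeas : ∀ n, Measurable (F n) := by
    intro n
    simp only [hF]
    exact (((hmeas.const_mul t).neg.pow_const (n + 1)).div_const _).neg
  have hbound : ∀ n, ∀ᵐ q ∂(τ.prod κ), ‖F n q‖ ≤ t ^ (n + 1) := by
    intro n
    filter_upwards [hb] with q hq
    simp only [hF, norm_neg, norm_div, norm_pow, norm_mul, Real.norm_eq_abs]
    have h1 : |t| * (|q.1| * |M q.2|) ≤ t := by
      rw [abs_of_nonneg ht0, ← abs_mul]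
      nlinarith
    have h0 : 0 ≤ |t| * (|q.1| * |M q.2|) := by positivity
    have h2 : (|t| * (|q.1| * |M q.2|)) ^ (n + 1) ≤ t ^ (n + 1) := pow_le_pow_left₀ h0 h1 _
    have h3 : (1 : ℝ) ≤ |(n : ℝ) + 1| := by
      rw [abs_of_nonneg (by positivity)]
      have : (0 : ℝ) ≤ n := Nat.cast_nonneg n
      linarith
    calc (|t| * (|q.1| * |M q.2|)) ^ (n + 1) / |(n : ℝ) + 1|
        ≤ (|t| * (|q.1| * |M q.2|)) ^ (n + 1) := div_le_self (by positivity) h3
      _ ≤ t ^ (n + 1) := h2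
  have hFint : ∀ n, Integrable (F n) (τ.prod κ) := fun n =>
    Integrable.of_bound (hFmeas n).aestronglyMeasurable _ (hbound n)
  have hsum : Summable fun n => ∫ q, ‖F n q‖ ∂(τ.prod κ) := by
    refine Summable.of_nonneg_of_le (fun n => integral_nonneg fun q => norm_nonneg _) (fun n => ?_)
      ((summable_geometric_of_lt_one ht0 ht1).mul_left t)
    calc ∫ q, ‖F n q‖ ∂(τ.prod κ) ≤ ∫ q, t ^ (n + 1) ∂(τ.prod κ) :=
          integral_mono_ae (hFint n).norm (integrable_const _) (hbound n)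
      _ = t * t ^ n := by simp [pow_succ, mul_comm]
  have key := hasSum_integral_of_summable_integral_norm hFint hsum
  have hlim : (∫ q, ∑' n, F n q ∂(τ.prod κ)) = ∫ q, Real.log (1 + t * (q.1 * M q.2)) ∂(τ.prod κ) := by
    refine integral_congr_ae ?_
    filter_upwards [hb] with q hq
    have hx : |-(t * (q.1 * M q.2))| < 1 := by
      rw [abs_neg, abs_mul, abs_of_nonneg ht0]
      nlinarith [abs_nonneg (q.1 * M q.2)]
    have h := (Real.hasSum_pow_div_log_of_abs_lt_one hx).neg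
    have h2 : HasSum (fun n => F n q) (Real.log (1 + t * (q.1 * M q.2))) := by
      have e : Real.log (1 + t * (q.1 * M q.2)) = - -Real.log (1 - -(t * (q.1 * M q.2))) := by
        rw [neg_neg, sub_neg_eq_add]
      rw [e]
      exact h
    exact h2.tsum_eq
  rw [hlim] at key
  have hfun : (fun n : ℕ => -(t ^ (n + 1) / (n + 1)) *
        ((∫ b, (-b) ^ (n + 1) ∂τ) * ∫ z, (M z) ^ (n + 1) ∂κ)) =
      fun n => ∫ q, F n q ∂(τ.prod κ) := by
    funext n
    have e1 : (fun q : ℝ × W => F n q) = fun q : ℝ × W =>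
        -(t ^ (n + 1) / (n + 1)) * ((-q.1) ^ (n + 1) * (M q.2) ^ (n + 1)) := by
      funext q
      simp only [hF]
      have : -(t * (q.1 * M q.2)) = t * ((-q.1) * M q.2) := by ring
      rw [this, mul_pow, mul_pow]
      ring
    rw [e1, integral_const_mul]
    rw [integral_prod_mul (fun b : ℝ => (-b) ^ (n + 1)) (fun z => (M z) ^ (n + 1))]
  rw [hfun]
  exact key

lemma integral_mixProd_pow (ρ : Measure Z) [IsProbabilityMeasure ρ] (w : S → ℝ)
    (γ : Fin p → Z → S → ℝ) (hγ : ∀ ℓ s, Measurable (fun z => γ ℓ z s)) (c : ℝ)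
    (hc : ∀ s, ∀ᵐ z ∂(Measure.pi fun _ : Fin p => ρ), |∏ ℓ, γ ℓ (z ℓ) s| ≤ c) (n : ℕ) :
    ∫ z, (mixProd w γ z) ^ n ∂(Measure.pi fun _ : Fin p => ρ) =
      ∑ σ : Fin n → S, (∏ r, w (σ r)) * ∏ ℓ, ∫ z, ∏ r, γ ℓ z (σ r) ∂ρ := by
  have e1 : (fun z => (mixProd w γ z) ^ n) = fun z : Fin p → Z =>
      ∑ σ : Fin n → S, (∏ r, w (σ r)) * ∏ ℓ, ∏ r, γ ℓ (z ℓ) (σ r) := by
    funext z
    unfold mixProd
    rw [Fintype.sum_pow]
    refine Finset.sum_congr rfl fun σ _ => ?_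
    rw [Finset.prod_mul_distrib, Finset.prod_comm]
  rw [e1, integral_finsetSum]
  · refine Finset.sum_congr rfl fun σ _ => ?_
    rw [integral_const_mul]
    congr 1
    exact integral_fintype_prod_eq_prod (fun (ℓ : Fin p) (z : Z) => ∏ r, γ ℓ z (σ r))
  · intro σ _
    refine Integrable.const_mul ?_ _
    have hm : Measurable fun z : Fin p → Z => ∏ ℓ, ∏ r, γ ℓ (z ℓ) (σ r) := by
      refine Finset.measurable_prod _ fun ℓ _ => ?_
      refine Finset.measurable_prod _ fun r _ => ?_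
      exact (hγ ℓ (σ r)).comp (measurable_pi_apply ℓ)
    have hall : ∀ᵐ z ∂(Measure.pi fun _ : Fin p => ρ), ∀ s, |∏ ℓ, γ ℓ (z ℓ) s| ≤ c :=
      ae_all_iff.2 hc
    refine Integrable.of_bound hm.aestronglyMeasurable (|c| ^ n) ?_
    filter_upwards [hall] with z hz
    rw [Finset.prod_comm, norm_prod]
    calc ∏ r : Fin n, ‖∏ ℓ, γ ℓ (z ℓ) (σ r)‖ ≤ ∏ r : Fin n, |c| := by
          refine Finset.prod_le_prod (fun r _ => norm_nonneg _) fun r _ => ?_
          exact (hz (σ r)).trans (le_abs_self c)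
      _ = |c| ^ n := by simp

/-- tangent line inequality `x y^q ≤ (x^{q+1} + q y^{q+1})/(q+1)` for `q+1` even or `x, y ≥ 0` -/
lemma tangent_ineq (q : ℕ) (x y : ℝ) (hq : Even (q + 1) ∨ (0 ≤ x ∧ 0 ≤ y)) :
    x * y ^ q ≤ (1 / (q + 1 : ℝ)) * x ^ (q + 1) + (q / (q + 1 : ℝ)) * y ^ (q + 1) := by
  have hq0 : (0 : ℝ) < q + 1 := by positivity
  have key : (q + 1 : ℝ) * (x * y ^ q) ≤ x ^ (q + 1) + q * y ^ (q + 1) := by
    rcases eq_or_ne y 0 with rfl | hy
    · have : 0 ≤ x ^ (q + 1) := by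
        rcases hq with hq | hq
        · exact hq.pow_nonneg x
        · exact pow_nonneg hq.1 _
      rcases Nat.eq_zero_or_pos q with rfl | hq1
      · simp
      · have h1 : (0 : ℝ) ^ q = 0 := zero_pow hq1.ne'
        have h2 : (0 : ℝ) ^ (q + 1) = 0 := zero_pow (Nat.succ_ne_zero _)
        rw [h1, h2]
        simpa using this
    · set u := x / y with hu
      have hx : x = u * y := by rw [hu]; field_simp
      have hb : 1 + ((q + 1 : ℕ) : ℝ) * (u - 1) ≤ u ^ (q + 1) := by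
        rcases le_or_gt (-1) u with h | h
        · exact one_add_mul_sub_le_pow h _
        · have hq' : Even (q + 1) := by
            rcases hq with hq | hq
            · exact hq
            · exfalso
              have : 0 ≤ u := by rw [hu]; exact div_nonneg hq.1 hq.2
              linarith
          have h1 : 1 ≤ u ^ (q + 1) := by
            have h2 : 1 ≤ |u| := by rw [abs_of_neg (by linarith)]; linarith
            have h3 : |u| ^ (q + 1) = u ^ (q + 1) := hq'.pow_abs u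
            rw [← h3]
            exact one_le_pow₀ h2
          have h4 : ((q + 1 : ℕ) : ℝ) * (u - 1) ≤ 0 := by
            apply mul_nonpos_of_nonneg_of_nonpos
            · positivity
            · linarith
          linarith
      have hy2 : 0 ≤ y ^ (q + 1) := by
        rcases hq with hq | hq
        · exact hq.pow_nonneg y
        · exact pow_nonneg hq.2 _
      push_cast at hb
      have := mul_le_mul_of_nonneg_right hb hy2
      rw [← mul_pow, ← hx] at this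
      have e : x * y ^ q = u * y ^ (q + 1) := by rw [hx]; ring
      rw [e]
      nlinarith
  have h2 : x * y ^ q = (1 / (q + 1 : ℝ)) * ((q + 1 : ℝ) * (x * y ^ q)) := by
    field_simp
  rw [h2]
  have h3 : (1 / (q + 1 : ℝ)) * x ^ (q + 1) + (q / (q + 1 : ℝ)) * y ^ (q + 1) =
      (1 / (q + 1 : ℝ)) * (x ^ (q + 1) + q * y ^ (q + 1)) := by
    field_simp
  rw [h3]
  exact mul_le_mul_of_nonneg_left key (by positivity)

/-- moments of a pattern -/
noncomputable def moment (ρ : Measure Z) (w : S → ℝ) (γ : Fin p → Z → S → ℝ) (n : ℕ) : ℝ :=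
  ∑ σ : Fin n → S, (∏ r, w (σ r)) * ∏ ℓ, ∫ z, ∏ r, γ ℓ z (σ r) ∂ρ

lemma moment_ineq {q N : ℕ} (hN : 0 < N) (ρ : Measure Z) (w : S → ℝ)
    (hw : ∀ s, 0 ≤ w s) (α : Fin N → Z → S → ℝ) (β : Z → S → ℝ)
    (hq : Even (q + 1) ∨ ((∀ i s, ∀ᵐ z ∂ρ, 0 ≤ α i z s) ∧ ∀ s, ∀ᵐ z ∂ρ, 0 ≤ β z s)) (n : ℕ) :
    (N : ℝ)⁻¹ * ∑ i, moment ρ w (fun ℓ : Fin (q + 1) => if ℓ = Fin.last q then α i else β) n ≤
      (1 / (q + 1 : ℝ)) * ((Fintype.card (Fin (q + 1) → Fin N) : ℝ)⁻¹ *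
        ∑ I : Fin (q + 1) → Fin N, moment ρ w (fun ℓ => α (I ℓ)) n) +
      (q / (q + 1 : ℝ)) * moment ρ w (fun _ : Fin (q + 1) => β) n := by
  have hN' : (0 : ℝ) < N := by exact_mod_cast hN
  -- pointwise in σ
  set A : Fin N → (Fin n → S) → ℝ := fun i σ => ∫ z, ∏ r, α i z (σ r) ∂ρ with hA
  set B : (Fin n → S) → ℝ := fun σ => ∫ z, ∏ r, β z (σ r) ∂ρ with hB
  set W : (Fin n → S) → ℝ := fun σ => ∏ r, w (σ r) with hW
  have hW0 : ∀ σ, 0 ≤ W σ := fun σ => Finset.prod_nonneg fun r _ => hw _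
  have e1 : ∀ i, moment ρ w (fun ℓ : Fin (q + 1) => if ℓ = Fin.last q then α i else β) n =
      ∑ σ, W σ * (B σ ^ q * A i σ) := by
    intro i
    unfold moment
    refine Finset.sum_congr rfl fun σ _ => ?_
    congr 1
    rw [Fin.prod_univ_castSucc]
    congr 1
    · rw [← Fin.prod_const q (B σ)]
      refine Finset.prod_congr rfl fun ℓ _ => ?_
      have : (Fin.castSucc ℓ : Fin (q + 1)) ≠ Fin.last q := (Fin.castSucc_lt_last ℓ).ne
      simp only [if_neg this, hB]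
    · simp only [if_pos, hA]
  have e2 : ∀ I : Fin (q + 1) → Fin N, moment ρ w (fun ℓ => α (I ℓ)) n =
      ∑ σ, W σ * ∏ ℓ, A (I ℓ) σ := fun I => rfl
  have e3 : moment ρ w (fun _ : Fin (q + 1) => β) n = ∑ σ, W σ * B σ ^ (q + 1) := by
    unfold moment
    refine Finset.sum_congr rfl fun σ _ => ?_
    simp [hB, hW]
  simp only [e1, e2, e3]
  set a : (Fin n → S) → ℝ := fun σ => (N : ℝ)⁻¹ * ∑ i, A i σ with ha
  have e4 : (N : ℝ)⁻¹ * ∑ i, ∑ σ, W σ * (B σ ^ q * A i σ) = ∑ σ, W σ * (a σ * B σ ^ q) := by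
    rw [Finset.sum_comm, Finset.mul_sum]
    refine Finset.sum_congr rfl fun σ _ => ?_
    simp only [ha]
    rw [← Finset.mul_sum, ← Finset.mul_sum]
    ring
  have e5 : (Fintype.card (Fin (q + 1) → Fin N) : ℝ)⁻¹ *
      ∑ I : Fin (q + 1) → Fin N, ∑ σ, W σ * ∏ ℓ, A (I ℓ) σ = ∑ σ, W σ * (a σ) ^ (q + 1) := by
    rw [Finset.sum_comm, Finset.mul_sum]
    refine Finset.sum_congr rfl fun σ _ => ?_
    have h1 : ∑ I : Fin (q + 1) → Fin N, ∏ ℓ, A (I ℓ) σ = (∑ i, A i σ) ^ (q + 1) := by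
      rw [Fintype.sum_pow]
    rw [← Finset.mul_sum, h1]
    simp only [ha, Fintype.card_fun, Fintype.card_fin, Nat.cast_pow, mul_pow, inv_pow]
    ring
  rw [e4, e5]
  rw [Finset.mul_sum, Finset.mul_sum, ← Finset.sum_add_distrib]
  refine Finset.sum_le_sum fun σ _ => ?_
  have hpos : Even (q + 1) ∨ (0 ≤ a σ ∧ 0 ≤ B σ) := by
    rcases hq with hq | ⟨h1, h2⟩
    · exact Or.inl hq
    · refine Or.inr ⟨?_, ?_⟩
      · refine mul_nonneg (by positivity) (Finset.sum_nonneg fun i _ => ?_)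
        refine integral_nonneg_of_ae ?_
        filter_upwards [ae_all_iff.2 (h1 i)] with z hz
        exact Finset.prod_nonneg fun r _ => hz _
      · refine integral_nonneg_of_ae ?_
        filter_upwards [ae_all_iff.2 h2] with z hz
        exact Finset.prod_nonneg fun r _ => hz _
  have h := mul_le_mul_of_nonneg_left (tangent_ineq q (a σ) (B σ) hpos) (hW0 σ)
  calc W σ * (a σ * B σ ^ q) ≤ _ := h
    _ = _ := by ring

/-- The key inequality for `t < 1`, abstract form. -/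
theorem abstract_key {q N : ℕ} (hN : 0 < N) (τ : Measure ℝ)
    [IsProbabilityMeasure τ] (hτ : ∀ n : ℕ, 0 ≤ ∫ b, (-b) ^ (n + 1) ∂τ)
    (ρ : Measure Z) [IsProbabilityMeasure ρ] (w : S → ℝ)
    (hw : ∀ s, 0 ≤ w s) (α : Fin N → Z → S → ℝ) (β : Z → S → ℝ)
    (hα : ∀ i s, Measurable fun z => α i z s) (hβ : ∀ s, Measurable fun z => β z s)
    (hq : Even (q + 1) ∨ ((∀ i s, ∀ᵐ z ∂ρ, 0 ≤ α i z s) ∧ ∀ s, ∀ᵐ z ∂ρ, 0 ≤ β z s))
    (c : ℝ)
    (hc : ∀ γ : Fin (q + 1) → Z → S → ℝ, (∀ ℓ, γ ℓ = β ∨ ∃ i, γ ℓ = α i) →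
      ∀ s, ∀ᵐ z ∂(Measure.pi fun _ : Fin (q + 1) => ρ), |∏ ℓ, γ ℓ (z ℓ) s| ≤ c)
    (hb : ∀ γ : Fin (q + 1) → Z → S → ℝ, (∀ ℓ, γ ℓ = β ∨ ∃ i, γ ℓ = α i) →
      ∀ᵐ x ∂(τ.prod (Measure.pi fun _ : Fin (q + 1) => ρ)), |x.1 * mixProd w γ x.2| ≤ 1)
    (t : ℝ) (ht0 : 0 ≤ t) (ht1 : t < 1) :
    (1 / (q + 1 : ℝ)) * ((Fintype.card (Fin (q + 1) → Fin N) : ℝ)⁻¹ *
        ∑ I : Fin (q + 1) → Fin N,
          ∫ x, Real.log (1 + t * (x.1 * mixProd w (fun ℓ => α (I ℓ)) x.2))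
            ∂(τ.prod (Measure.pi fun _ : Fin (q + 1) => ρ))) +
      (q / (q + 1 : ℝ)) * ∫ x, Real.log (1 + t * (x.1 * mixProd w (fun _ : Fin (q + 1) => β) x.2))
            ∂(τ.prod (Measure.pi fun _ : Fin (q + 1) => ρ)) ≤
    (N : ℝ)⁻¹ * ∑ i, ∫ x, Real.log (1 + t * (x.1 *
        mixProd w (fun ℓ : Fin (q + 1) => if ℓ = Fin.last q then α i else β) x.2))
            ∂(τ.prod (Measure.pi fun _ : Fin (q + 1) => ρ)) := by
  have hmeas : ∀ γ : Fin (q + 1) → Z → S → ℝ, (∀ ℓ, γ ℓ = β ∨ ∃ i, γ ℓ = α i) →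
      ∀ ℓ s, Measurable fun z => γ ℓ z s := by
    intro γ hγ ℓ s
    rcases hγ ℓ with h | ⟨i, h⟩
    · rw [h]; exact hβ s
    · rw [h]; exact hα i s
  have hser : ∀ γ : Fin (q + 1) → Z → S → ℝ, (∀ ℓ, γ ℓ = β ∨ ∃ i, γ ℓ = α i) →
      HasSum (fun n : ℕ => -(t ^ (n + 1) / (n + 1)) *
        ((∫ b, (-b) ^ (n + 1) ∂τ) * moment ρ w γ (n + 1)))
      (∫ x, Real.log (1 + t * (x.1 * mixProd w γ x.2))
            ∂(τ.prod (Measure.pi fun _ : Fin (q + 1) => ρ))) := by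
    intro γ hγ
    have h := hasSum_log_expansion τ (Measure.pi fun _ : Fin (q + 1) => ρ) (mixProd w γ)
      (measurable_mixProd w γ (hmeas γ hγ)) (hb γ hγ) t ht0 ht1
    have e : ∀ n, ∫ z, (mixProd w γ z) ^ (n + 1) ∂(Measure.pi fun _ : Fin (q + 1) => ρ) =
        moment ρ w γ (n + 1) := fun n =>
      integral_mixProd_pow ρ w γ (hmeas γ hγ) c (hc γ hγ) (n + 1)
    simpa only [e] using h
  have p1 : ∀ I : Fin (q + 1) → Fin N, ∀ ℓ, (fun ℓ => α (I ℓ)) ℓ = β ∨ ∃ i, (fun ℓ => α (I ℓ)) ℓ = α i :=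
    fun I ℓ => Or.inr ⟨I ℓ, rfl⟩
  have p3 : ∀ ℓ, (fun _ : Fin (q + 1) => β) ℓ = β ∨ ∃ i, (fun _ : Fin (q + 1) => β) ℓ = α i :=
    fun ℓ => Or.inl rfl
  have p2 : ∀ j : Fin N, ∀ ℓ, (fun ℓ : Fin (q + 1) => if ℓ = Fin.last q then α j else β) ℓ = β ∨
      ∃ i, (fun ℓ : Fin (q + 1) => if ℓ = Fin.last q then α j else β) ℓ = α i := by
    intro j ℓ
    by_cases h : ℓ = Fin.last q
    · exact Or.inr ⟨j, by simp [h]⟩
    · exact Or.inl (by simp [h])
  have s1 := (hasSum_sum (s := (Finset.univ : Finset (Fin (q + 1) → Fin N)))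
    fun I _ => hser (fun ℓ => α (I ℓ)) (p1 I)).mul_left
      (Fintype.card (Fin (q + 1) → Fin N) : ℝ)⁻¹ |>.mul_left (1 / (q + 1 : ℝ))
  have s3 := (hser (fun _ => β) p3).mul_left (q / (q + 1 : ℝ))
  have s2 := (hasSum_sum (s := (Finset.univ : Finset (Fin N)))
    fun j _ => hser (fun ℓ : Fin (q + 1) => if ℓ = Fin.last q then α j else β) (p2 j)).mul_left
      (N : ℝ)⁻¹
  refine hasSum_le (fun n => ?_) (s1.add s3) s2
  have hm := moment_ineq hN ρ w hw α β hq (n + 1)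
  have hneg : -(t ^ (n + 1) / (n + 1)) * (∫ b, (-b) ^ (n + 1) ∂τ) ≤ 0 := by
    apply mul_nonpos_of_nonpos_of_nonneg
    · rw [neg_nonpos]; positivity
    · exact hτ n
  have := mul_le_mul_of_nonpos_left hm hneg
  simp only [← mul_assoc, ← Finset.mul_sum]
  simp only [← mul_assoc] at this
  linarith

end Abstract

end Crest.Agent.R141
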