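import Mathlib
import Crest.Prelude.Def_DilutedSpinGlass
import Crest.Agent.R141.KIa

set_option autoImplicit false

/-!
Row 141, part U1 (key inequality): transport to the probability space of the factorization and
the limit `t → 1`.
-/

namespace Crest.Agent.R141

open MeasureTheory ProbabilityTheory Crest.ProbabilityR.Diluted

section Avg

variable {p : ℕ}

/-- average of `exp θ` under a product of one-spin weights -/
noncomputable def avgT (θ : Inter p) (κ : Fin p → Bool → ℝ) : ℝ :=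
  ∑ e : Fin p → Bool, Real.exp (θ e) * ∏ ℓ, κ ℓ (e ℓ)

/-- one-spin probability weights -/
structure IsW (κ : Bool → ℝ) : Prop where
  nn : ∀ e, 0 ≤ κ e
  sum : ∑ e, κ e = 1

lemma sum_prod_weights (κ : Fin p → Bool → ℝ) (hκ : ∀ ℓ, IsW (κ ℓ)) :
    ∑ e : Fin p → Bool, ∏ ℓ, κ ℓ (e ℓ) = 1 := by
  have h := Finset.prod_univ_sum (fun _ : Fin p => (Finset.univ : Finset Bool)) (fun ℓ e => κ ℓ e)
  rw [Fintype.piFinset_univ] at h
  rw [← h]
  exact Finset.prod_eq_one fun ℓ _ => (hκ ℓ).sum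

lemma prod_nonneg_weights (κ : Fin p → Bool → ℝ) (hκ : ∀ ℓ, IsW (κ ℓ)) (e : Fin p → Bool) :
    0 ≤ ∏ ℓ, κ ℓ (e ℓ) := Finset.prod_nonneg fun ℓ _ => (hκ ℓ).nn _

lemma abs_le_supNorm (θ : Inter p) (s : Fin p → Bool) : |θ s| ≤ supNorm θ :=
  le_ciSup (f := fun s => |θ s|) (Set.finite_range _).bddAbove s

lemma supNorm_nonneg (θ : Inter p) : 0 ≤ supNorm θ :=
  (abs_nonneg _).trans (abs_le_supNorm θ fun _ => true)

lemma avgT_le (θ : Inter p) (κ : Fin p → Bool → ℝ) (hκ : ∀ ℓ, IsW (κ ℓ)) :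
    avgT θ κ ≤ Real.exp (supNorm θ) := by
  unfold avgT
  calc ∑ e : Fin p → Bool, Real.exp (θ e) * ∏ ℓ, κ ℓ (e ℓ)
      ≤ ∑ e : Fin p → Bool, Real.exp (supNorm θ) * ∏ ℓ, κ ℓ (e ℓ) := by
        refine Finset.sum_le_sum fun e _ => ?_
        refine mul_le_mul_of_nonneg_right ?_ (prod_nonneg_weights κ hκ e)
        exact Real.exp_le_exp.2 ((le_abs_self _).trans (abs_le_supNorm θ e))
    _ = Real.exp (supNorm θ) := by rw [← Finset.mul_sum, sum_prod_weights κ hκ, mul_one]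

lemma le_avgT (θ : Inter p) (κ : Fin p → Bool → ℝ) (hκ : ∀ ℓ, IsW (κ ℓ)) :
    Real.exp (-supNorm θ) ≤ avgT θ κ := by
  unfold avgT
  calc Real.exp (-supNorm θ)
      = ∑ e : Fin p → Bool, Real.exp (-supNorm θ) * ∏ ℓ, κ ℓ (e ℓ) := by
        rw [← Finset.mul_sum, sum_prod_weights κ hκ, mul_one]
    _ ≤ ∑ e : Fin p → Bool, Real.exp (θ e) * ∏ ℓ, κ ℓ (e ℓ) := by
        refine Finset.sum_le_sum fun e _ => ?_
        refine mul_le_mul_of_nonneg_right ?_ (prod_nonneg_weights κ hκ e)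
        exact Real.exp_le_exp.2 ((abs_le.1 (abs_le_supNorm θ e)).1)

lemma avgT_eq_of_exp (θ : Inter p) (κ : Fin p → Bool → ℝ) (hκ : ∀ ℓ, IsW (κ ℓ)) (a b : ℝ)
    (F : Fin p → Bool → ℝ) (h : ∀ e, Real.exp (θ e) = a * (1 + b * ∏ ℓ, F ℓ (e ℓ))) :
    avgT θ κ = a * (1 + b * ∏ ℓ, ∑ e, F ℓ e * κ ℓ e) := by
  have h1 : ∏ ℓ, ∑ e, F ℓ e * κ ℓ e = ∑ e : Fin p → Bool, (∏ ℓ, F ℓ (e ℓ)) * ∏ ℓ, κ ℓ (e ℓ) := by
    have h := Finset.prod_univ_sum (fun _ : Fin p => (Finset.univ : Finset Bool))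
      (fun ℓ e => F ℓ e * κ ℓ e)
    rw [Fintype.piFinset_univ] at h
    rw [h]
    refine Finset.sum_congr rfl fun e _ => ?_
    rw [Finset.prod_mul_distrib]
  unfold avgT
  simp only [h]
  rw [h1]
  calc ∑ e : Fin p → Bool, a * (1 + b * ∏ ℓ, F ℓ (e ℓ)) * ∏ ℓ, κ ℓ (e ℓ)
      = ∑ e : Fin p → Bool, (a * (∏ ℓ, κ ℓ (e ℓ)) +
          a * b * ((∏ ℓ, F ℓ (e ℓ)) * ∏ ℓ, κ ℓ (e ℓ))) := by
        refine Finset.sum_congr rfl fun e _ => ?_
        ring
    _ = a * (∑ e : Fin p → Bool, ∏ ℓ, κ ℓ (e ℓ)) +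
          a * b * ∑ e : Fin p → Bool, (∏ ℓ, F ℓ (e ℓ)) * ∏ ℓ, κ ℓ (e ℓ) := by
        rw [Finset.sum_add_distrib, Finset.mul_sum, Finset.mul_sum]
    _ = _ := by rw [sum_prod_weights κ hκ]; ring

lemma abs_prod_conv_lt (κ : Fin p → Bool → ℝ) (hκ : ∀ ℓ, IsW (κ ℓ)) (b : ℝ)
    (F : Fin p → Bool → ℝ) (h : ∀ e : Fin p → Bool, |b * ∏ ℓ, F ℓ (e ℓ)| ≤ 1) :
    |b * ∏ ℓ, ∑ e, F ℓ e * κ ℓ e| ≤ 1 := by
  have h1 : b * ∏ ℓ, ∑ e, F ℓ e * κ ℓ e =
      ∑ e : Fin p → Bool, (b * ∏ ℓ, F ℓ (e ℓ)) * ∏ ℓ, κ ℓ (e ℓ) := by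
    have h := Finset.prod_univ_sum (fun _ : Fin p => (Finset.univ : Finset Bool))
      (fun ℓ e => F ℓ e * κ ℓ e)
    rw [Fintype.piFinset_univ] at h
    rw [h, Finset.mul_sum]
    refine Finset.sum_congr rfl fun e _ => ?_
    rw [Finset.prod_mul_distrib]; ring
  rw [h1]
  refine (Finset.abs_sum_le_sum_abs _ _).trans ?_
  calc ∑ e : Fin p → Bool, |(b * ∏ ℓ, F ℓ (e ℓ)) * ∏ ℓ, κ ℓ (e ℓ)|
      ≤ ∑ e : Fin p → Bool, ∏ ℓ, κ ℓ (e ℓ) := by
        refine Finset.sum_le_sum fun e _ => ?_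
        rw [abs_mul, abs_of_nonneg (prod_nonneg_weights κ hκ e)]
        exact mul_le_of_le_one_left (prod_nonneg_weights κ hκ e) (h e)
    _ = 1 := sum_prod_weights κ hκ

end Avg

/-- The factorization data on a probability space, `p = q + 1`. -/
structure Fac (q : ℕ) {Ω : Type*} [MeasurableSpace Ω] (P : Measure Ω) (a b : Ω → ℝ)
    (f : Fin (q + 1) → Ω → Bool → ℝ) (θ : Ω → Crest.ProbabilityR.Diluted.Inter (q + 1)) : Prop where
  ma : Measurable a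
  mb : Measurable b
  mf : ∀ ℓ, Measurable (f ℓ)
  ind : iIndepFun f P
  idd : ∀ ℓ, IdentDistrib (f ℓ) (f 0) P P
  ibf : IndepFun b (fun ω => fun ℓ => f ℓ ω) P
  pos : ∀ᵐ ω ∂P, 0 < a ω ∧ ∀ s : Fin (q + 1) → Bool, |b ω * ∏ ℓ, f ℓ ω (s ℓ)| < 1
  mom : ∀ n : ℕ, 1 ≤ n → 0 ≤ ∫ ω, (-b ω) ^ n ∂P
  mθ : Measurable θ
  hθ : ∀ᵐ ω ∂P, ∀ e : Fin (q + 1) → Bool, Real.exp (θ ω e) = a ω * (1 + b ω * ∏ ℓ, f ℓ ω (e ℓ))
  int : Integrable (fun ω => supNorm (θ ω)) P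

section Transport

variable {q : ℕ} {Ω : Type*} [MeasurableSpace Ω] {P : Measure Ω} [IsProbabilityMeasure P]
  {a b : Ω → ℝ} {f : Fin (q + 1) → Ω → Bool → ℝ} {θ : Ω → Crest.ProbabilityR.Diluted.Inter (q + 1)}
  {Y : Type*} [MeasurableSpace Y] (Q : Measure Y) [IsProbabilityMeasure Q]

lemma Fac.mp1 (h : Fac q P a b f θ) :
    MeasurePreserving (fun ω => (b ω, fun ℓ => f ℓ ω)) P
      ((P.map b).prod (Measure.pi fun _ : Fin (q + 1) => P.map (f 0))) := by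
  have hm : Measurable (fun ω => fun ℓ => f ℓ ω) := measurable_pi_iff.2 h.mf
  refine ⟨h.mb.prodMk hm, ?_⟩
  rw [(indepFun_iff_map_prod_eq_prod_map_map h.mb.aemeasurable hm.aemeasurable).1 h.ibf]
  congr 1
  rw [(iIndepFun_iff_map_fun_eq_pi_map fun ℓ => (h.mf ℓ).aemeasurable).1 h.ind]
  congr 1
  funext ℓ
  exact (h.idd ℓ).map_eq

lemma Fac.mp (h : Fac q P a b f θ) :
    MeasurePreserving (fun x : Ω × (Fin (q + 1) → Y) => (b x.1, fun ℓ => (f ℓ x.1, x.2 ℓ)))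
      (P.prod (Measure.pi fun _ : Fin (q + 1) => Q))
      ((P.map b).prod (Measure.pi fun _ : Fin (q + 1) => (P.map (f 0)).prod Q)) := by
  have : IsProbabilityMeasure (P.map b) := Measure.isProbabilityMeasure_map h.mb.aemeasurable
  have : IsProbabilityMeasure (P.map (f 0)) :=
    Measure.isProbabilityMeasure_map (h.mf 0).aemeasurable
  have i1 : IsProbabilityMeasure (Measure.pi fun _ : Fin (q + 1) => P.map (f 0)) := inferInstance
  have i2 : IsProbabilityMeasure (Measure.pi fun _ : Fin (q + 1) => Q) := inferInstance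
  have i3 : IsProbabilityMeasure ((Measure.pi fun _ : Fin (q + 1) => P.map (f 0)).prod
    (Measure.pi fun _ : Fin (q + 1) => Q)) := inferInstance
  have i4 : SFinite ((Measure.pi fun _ : Fin (q + 1) => P.map (f 0)).prod
    (Measure.pi fun _ : Fin (q + 1) => Q)) := inferInstance
  have i5 : IsProbabilityMeasure ((P.map (f 0)).prod Q) := inferInstance
  have i6 : IsProbabilityMeasure (Measure.pi fun _ : Fin (q + 1) => (P.map (f 0)).prod Q) :=
    inferInstance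
  have mp2 := h.mp1.prod (MeasurePreserving.id (Measure.pi fun _ : Fin (q + 1) => Q))
  have mp3 := measurePreserving_prodAssoc (P.map b) (Measure.pi fun _ : Fin (q + 1) => P.map (f 0))
    (Measure.pi fun _ : Fin (q + 1) => Q)
  have mp4 := (MeasurePreserving.id (P.map b)).prod
    ((measurePreserving_arrowProdEquivProdArrow (Bool → ℝ) Y (Fin (q + 1))
      (fun _ => P.map (f 0)) (fun _ => Q)).symm _)
  exact mp4.comp (mp3.comp mp2)

end Transport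

section Limit

/-- site function attached to a kernel -/
noncomputable def siteF {Y S : Type*} (κ : Y → S → Bool → ℝ) (z : (Bool → ℝ) × Y) (s : S) : ℝ :=
  ∑ e, z.1 e * κ z.2 s e

/-- A one-label kernel. -/
structure IsK {Y S : Type*} [MeasurableSpace Y] (κ : Y → S → Bool → ℝ) : Prop where
  w : ∀ y s, IsW (κ y s)
  m : ∀ s e, Measurable fun y => κ y s e

lemma measurable_siteF {Y S : Type*} [MeasurableSpace Y] {κ : Y → S → Bool → ℝ} (hκ : IsK κ)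
    (s : S) : Measurable fun z => siteF κ z s := by
  unfold siteF
  refine Finset.measurable_sum _ fun e _ => ?_
  exact ((measurable_pi_apply e).comp measurable_fst).mul ((hκ.m s e).comp measurable_snd)

/-- the Gibbs average of `exp θ` under the kernels -/
noncomputable def Tbar {p : ℕ} {Y S : Type*} [Fintype S] (w : S → ℝ)
    (κ : Fin p → Y → S → Bool → ℝ) (θ : Crest.ProbabilityR.Diluted.Inter p) (y : Fin p → Y) : ℝ :=
  ∑ s, w s * avgT θ fun ℓ => κ ℓ (y ℓ) s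

lemma measurable_Tbar {p : ℕ} {Y S : Type*} [MeasurableSpace Y] [Fintype S] (w : S → ℝ)
    (κ : Fin p → Y → S → Bool → ℝ) (hκ : ∀ ℓ, IsK (κ ℓ)) :
    Measurable fun x : Crest.ProbabilityR.Diluted.Inter p × (Fin p → Y) => Tbar w κ x.1 x.2 := by
  unfold Tbar avgT
  refine Finset.measurable_sum _ fun s _ => Measurable.const_mul ?_ _
  refine Finset.measurable_sum _ fun e _ => ?_
  refine Measurable.mul ?_ ?_
  · exact Real.measurable_exp.comp ((measurable_pi_apply e).comp measurable_fst)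
  · refine Finset.measurable_prod _ fun ℓ _ => ?_
    exact ((hκ ℓ).m s (e ℓ)).comp ((measurable_pi_apply ℓ).comp measurable_snd)

variable {S : Type*} [Fintype S] {w : S → ℝ}

lemma Tbar_le {p : ℕ} {Y : Type*} [MeasurableSpace Y] (hw : ∀ s, 0 ≤ w s) (hw1 : ∑ s, w s = 1)
    (κ : Fin p → Y → S → Bool → ℝ) (hκ : ∀ ℓ, IsK (κ ℓ))
    (θ : Crest.ProbabilityR.Diluted.Inter p) (y : Fin p → Y) :
    Tbar w κ θ y ≤ Real.exp (supNorm θ) := by
  unfold Tbar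
  calc ∑ s, w s * avgT θ (fun ℓ => κ ℓ (y ℓ) s) ≤ ∑ s, w s * Real.exp (supNorm θ) := by
        refine Finset.sum_le_sum fun s _ => mul_le_mul_of_nonneg_left ?_ (hw s)
        exact avgT_le θ _ fun ℓ => (hκ ℓ).w _ _
    _ = Real.exp (supNorm θ) := by rw [← Finset.sum_mul, hw1, one_mul]

lemma le_Tbar {p : ℕ} {Y : Type*} [MeasurableSpace Y] (hw : ∀ s, 0 ≤ w s) (hw1 : ∑ s, w s = 1)
    (κ : Fin p → Y → S → Bool → ℝ) (hκ : ∀ ℓ, IsK (κ ℓ))
    (θ : Crest.ProbabilityR.Diluted.Inter p) (y : Fin p → Y) :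
    Real.exp (-supNorm θ) ≤ Tbar w κ θ y := by
  unfold Tbar
  calc Real.exp (-supNorm θ) = ∑ s, w s * Real.exp (-supNorm θ) := by
        rw [← Finset.sum_mul, hw1, one_mul]
    _ ≤ ∑ s, w s * avgT θ (fun ℓ => κ ℓ (y ℓ) s) := by
        refine Finset.sum_le_sum fun s _ => mul_le_mul_of_nonneg_left ?_ (hw s)
        exact le_avgT θ _ fun ℓ => (hκ ℓ).w _ _

variable {q : ℕ} {Ω : Type*} [MeasurableSpace Ω] {P : Measure Ω} [IsProbabilityMeasure P]
  {a b : Ω → ℝ} {f : Fin (q + 1) → Ω → Bool → ℝ}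
  {θ : Ω → Crest.ProbabilityR.Diluted.Inter (q + 1)}
  {Y : Type*} [MeasurableSpace Y] (Q : Measure Y) [IsProbabilityMeasure Q]

/-- the `t`-logarithm on the original space -/
noncomputable def Lt (b : Ω → ℝ) (f : Fin (q + 1) → Ω → Bool → ℝ) (w : S → ℝ)
    (κ : Fin (q + 1) → Y → S → Bool → ℝ) (t : ℝ) (x : Ω × (Fin (q + 1) → Y)) : ℝ :=
  Real.log (1 + t * (b x.1 * mixProd w (fun ℓ => siteF (κ ℓ)) (fun ℓ => (f ℓ x.1, x.2 ℓ))))

lemma integral_Lt (h : Fac q P a b f θ) (κ : Fin (q + 1) → Y → S → Bool → ℝ)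
    (hκ : ∀ ℓ, IsK (κ ℓ)) (t : ℝ) :
    ∫ x, Lt b f w κ t x ∂(P.prod (Measure.pi fun _ : Fin (q + 1) => Q)) =
      ∫ x, Real.log (1 + t * (x.1 * mixProd w (fun ℓ => siteF (κ ℓ)) x.2))
        ∂((P.map b).prod (Measure.pi fun _ : Fin (q + 1) => (P.map (f 0)).prod Q)) := by
  rw [← (h.mp Q).map_eq, integral_map (h.mp Q).measurable.aemeasurable]
  · rfl
  · refine Measurable.aestronglyMeasurable ?_
    refine Real.measurable_log.comp ?_
    refine Measurable.const_add (Measurable.const_mul ?_ _) _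
    exact measurable_fst.mul ((measurable_mixProd w _ fun ℓ s =>
      measurable_siteF (hκ ℓ) s).comp measurable_snd)

lemma ae_bound (h : Fac q P a b f θ) :
    ∀ᵐ x ∂((P.map b).prod (Measure.pi fun _ : Fin (q + 1) => (P.map (f 0)).prod Q)),
      ∀ e : Fin (q + 1) → Bool, |x.1 * ∏ ℓ, (x.2 ℓ).1 (e ℓ)| ≤ 1 := by
  rw [← (h.mp Q).map_eq]
  rw [ae_map_iff (h.mp Q).measurable.aemeasurable]
  · have h1 : ∀ᵐ x ∂(P.prod (Measure.pi fun _ : Fin (q + 1) => Q)),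
        0 < a x.1 ∧ ∀ s : Fin (q + 1) → Bool, |b x.1 * ∏ ℓ, f ℓ x.1 (s ℓ)| < 1 :=
      Measure.quasiMeasurePreserving_fst.ae h.pos
    filter_upwards [h1] with x hx e
    exact (hx.2 e).le
  · have : {x : ℝ × (Fin (q + 1) → (Bool → ℝ) × Y) |
        ∀ e : Fin (q + 1) → Bool, |x.1 * ∏ ℓ, (x.2 ℓ).1 (e ℓ)| ≤ 1} =
        ⋂ e : Fin (q + 1) → Bool, {x | |x.1 * ∏ ℓ, (x.2 ℓ).1 (e ℓ)| ≤ 1} := by
      ext x; simp
    rw [this]
    refine MeasurableSet.iInter fun e => ?_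
    refine measurableSet_le ?_ measurable_const
    refine continuous_abs.measurable.comp ?_
    refine measurable_fst.mul ?_
    refine Finset.measurable_prod _ fun ℓ _ => ?_
    exact (measurable_pi_apply (e ℓ)).comp (measurable_fst.comp
      ((measurable_pi_apply ℓ).comp measurable_snd))

lemma abs_mul_mixProd_le {p : ℕ} {Y : Type*} [MeasurableSpace Y] (hw : ∀ s, 0 ≤ w s)
    (hw1 : ∑ s, w s = 1) (κ : Fin p → Y → S → Bool → ℝ) (hκ : ∀ ℓ, IsK (κ ℓ)) (b : ℝ)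
    (z : Fin p → (Bool → ℝ) × Y)
    (hb : ∀ e : Fin p → Bool, |b * ∏ ℓ, (z ℓ).1 (e ℓ)| ≤ 1) :
    |b * mixProd w (fun ℓ => siteF (κ ℓ)) z| ≤ 1 := by
  unfold mixProd
  have : b * ∑ s, w s * ∏ ℓ, siteF (κ ℓ) (z ℓ) s = ∑ s, w s * (b * ∏ ℓ, siteF (κ ℓ) (z ℓ) s) := by
    rw [Finset.mul_sum]
    refine Finset.sum_congr rfl fun s _ => by ring
  rw [this]
  refine (Finset.abs_sum_le_sum_abs _ _).trans ?_
  rw [← hw1]
  refine Finset.sum_le_sum fun s _ => ?_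
  rw [abs_mul, abs_of_nonneg (hw s)]
  refine mul_le_of_le_one_right (hw s) ?_
  exact abs_prod_conv_lt (fun ℓ => κ ℓ (z ℓ).2 s) (fun ℓ => (hκ ℓ).w _ _) b
    (fun ℓ => (z ℓ).1) hb

/-- The key inequality for `t < 1` on the original space. -/
theorem key_lt_one (h : Fac q P a b f θ)
    (hpos : Even (q + 1) ∨ ∀ᵐ ω ∂P, ∀ e, 0 ≤ f 0 ω e) {N : ℕ} (hN : 0 < N)
    (hw : ∀ s, 0 ≤ w s) (hw1 : ∑ s, w s = 1) (κα : Fin N → Y → S → Bool → ℝ)
    (κβ : Y → S → Bool → ℝ) (hα : ∀ i, IsK (κα i)) (hβ : IsK κβ) (t : ℝ) (ht0 : 0 ≤ t)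
    (ht1 : t < 1) :
    (1 / (q + 1 : ℝ)) * ((Fintype.card (Fin (q + 1) → Fin N) : ℝ)⁻¹ *
        ∑ I : Fin (q + 1) → Fin N,
          ∫ x, Lt b f w (fun ℓ => κα (I ℓ)) t x ∂(P.prod (Measure.pi fun _ : Fin (q + 1) => Q))) +
      (q / (q + 1 : ℝ)) * ∫ x, Lt b f w (fun _ => κβ) t x
          ∂(P.prod (Measure.pi fun _ : Fin (q + 1) => Q)) ≤
    (N : ℝ)⁻¹ * ∑ i, ∫ x, Lt b f w (fun ℓ => if ℓ = Fin.last q then κα i else κβ) t x
          ∂(P.prod (Measure.pi fun _ : Fin (q + 1) => Q)) := by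
  have hK2 : ∀ (i : Fin N) (ℓ : Fin (q + 1)), IsK (if ℓ = Fin.last q then κα i else κβ) := by
    intro i ℓ
    by_cases hℓ : ℓ = Fin.last q
    · rw [if_pos hℓ]; exact hα i
    · rw [if_neg hℓ]; exact hβ
  by_cases hb0 : ∀ᵐ ω ∂P, b ω = 0
  · -- trivial case
    have hz : ∀ κ : Fin (q + 1) → Y → S → Bool → ℝ,
        ∫ x, Lt b f w κ t x ∂(P.prod (Measure.pi fun _ : Fin (q + 1) => Q)) = 0 := by
      intro κ
      have h1 : ∀ᵐ x ∂(P.prod (Measure.pi fun _ : Fin (q + 1) => Q)), b x.1 = 0 :=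
        Measure.quasiMeasurePreserving_fst.ae hb0
      rw [integral_congr_ae (g := fun _ => (0 : ℝ))]
      · simp
      · filter_upwards [h1] with x hx
        simp [Lt, hx]
    simp [hz]
  have i0 : IsProbabilityMeasure (P.map b) := Measure.isProbabilityMeasure_map h.mb.aemeasurable
  have i1 : IsProbabilityMeasure (P.map (f 0)) :=
    Measure.isProbabilityMeasure_map (h.mf 0).aemeasurable
  have i5 : IsProbabilityMeasure ((P.map (f 0)).prod Q) := inferInstance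
  have i6 : IsProbabilityMeasure (Measure.pi fun _ : Fin (q + 1) => (P.map (f 0)).prod Q) :=
    inferInstance
  have hae := ae_bound Q h
  -- a bound for the products
  obtain ⟨b1, hb1, hb1'⟩ : ∃ b1 : ℝ, b1 ≠ 0 ∧
      ∀ᵐ z ∂(Measure.pi fun _ : Fin (q + 1) => (P.map (f 0)).prod Q),
        ∀ e : Fin (q + 1) → Bool, |b1 * ∏ ℓ, (z ℓ).1 (e ℓ)| ≤ 1 := by
    have h1 := Measure.ae_ae_of_ae_prod hae
    have h2 : ∃ᵐ b' ∂(P.map b), b' ≠ 0 := by
      intro hcon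
      apply hb0
      have h3 : ∀ᵐ b' ∂(P.map b), b' = 0 := by
        filter_upwards [hcon] with b' hb'
        simpa using hb'
      exact ae_of_ae_map h.mb.aemeasurable h3
    obtain ⟨b1, hb1, hb1'⟩ := (h2.and_eventually h1).exists
    exact ⟨b1, hb1, hb1'⟩
  have hchoice : ∀ γ : Fin (q + 1) → ((Bool → ℝ) × Y) → S → ℝ,
      (∀ ℓ, γ ℓ = siteF κβ ∨ ∃ i, γ ℓ = (fun i => siteF (κα i)) i) →
      ∃ κ : Fin (q + 1) → Y → S → Bool → ℝ, (∀ ℓ, IsK (κ ℓ)) ∧ γ = fun ℓ => siteF (κ ℓ) := by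
    intro γ hγ
    have : ∀ ℓ, ∃ κ : Y → S → Bool → ℝ, IsK κ ∧ γ ℓ = siteF κ := by
      intro ℓ
      rcases hγ ℓ with h1 | ⟨i, h1⟩
      · exact ⟨κβ, hβ, h1⟩
      · exact ⟨κα i, hα i, h1⟩
    choose κ hκ hκ' using this
    exact ⟨κ, hκ, funext hκ'⟩
  have key := abstract_key (q := q) (N := N) hN (P.map b) ?_ ((P.map (f 0)).prod Q) w hw
    (fun i => siteF (κα i)) (siteF κβ) (fun i s => measurable_siteF (hα i) s)
    (fun s => measurable_siteF hβ s) ?_ |b1|⁻¹ ?_ ?_ t ht0 ht1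
  · have e1 : ∀ I : Fin (q + 1) → Fin N,
        ∫ x, Lt b f w (fun ℓ => κα (I ℓ)) t x ∂(P.prod (Measure.pi fun _ : Fin (q + 1) => Q)) =
        ∫ x, Real.log (1 + t * (x.1 * mixProd w (fun ℓ => (fun i => siteF (κα i)) (I ℓ)) x.2))
        ∂((P.map b).prod (Measure.pi fun _ : Fin (q + 1) => (P.map (f 0)).prod Q)) := fun I =>
      integral_Lt Q h (fun ℓ => κα (I ℓ)) (fun ℓ => hα _) t
    have e3 := integral_Lt (w := w) Q h (fun _ : Fin (q + 1) => κβ) (fun _ => hβ) t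
    have e2 : ∀ i : Fin N,
        ∫ x, Lt b f w (fun ℓ => if ℓ = Fin.last q then κα i else κβ) t x
          ∂(P.prod (Measure.pi fun _ : Fin (q + 1) => Q)) =
        ∫ x, Real.log (1 + t * (x.1 * mixProd w
          (fun ℓ : Fin (q + 1) => if ℓ = Fin.last q then (fun i => siteF (κα i)) i else siteF κβ)
            x.2))
        ∂((P.map b).prod (Measure.pi fun _ : Fin (q + 1) => (P.map (f 0)).prod Q)) := by
      intro i
      rw [integral_Lt Q h (fun ℓ => if ℓ = Fin.last q then κα i else κβ) (hK2 i) t]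
      congr 1
      funext x
      congr 5
      funext ℓ
      by_cases hℓ : ℓ = Fin.last q
      · rw [if_pos hℓ, if_pos hℓ]
      · rw [if_neg hℓ, if_neg hℓ]
    simp only [e1, e2, e3]
    exact key
  · intro n
    rw [integral_map h.mb.aemeasurable (by fun_prop)]
    exact h.mom (n + 1) (Nat.le_add_left 1 n)
  · rcases hpos with hpos | hpos
    · exact Or.inl hpos
    · right
      have h1 : ∀ᵐ g ∂(P.map (f 0)), ∀ e, 0 ≤ g e := by
        rw [ae_map_iff (h.mf 0).aemeasurable]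
        · exact hpos
        · have : {g : Bool → ℝ | ∀ e, 0 ≤ g e} = ⋂ e, {g : Bool → ℝ | 0 ≤ g e} := by
            ext; simp
          rw [this]
          exact MeasurableSet.iInter fun e => measurableSet_le measurable_const
            (measurable_pi_apply e)
      have h2 : ∀ᵐ z ∂((P.map (f 0)).prod Q), ∀ e, 0 ≤ z.1 e :=
        Measure.quasiMeasurePreserving_fst.ae h1
      refine ⟨fun i s => ?_, fun s => ?_⟩
      · filter_upwards [h2] with z hz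
        exact Finset.sum_nonneg fun e _ => mul_nonneg (hz e) (((hα i).w _ _).nn e)
      · filter_upwards [h2] with z hz
        exact Finset.sum_nonneg fun e _ => mul_nonneg (hz e) ((hβ.w _ _).nn e)
  · intro γ hγ s
    obtain ⟨κ, hκ, rfl⟩ := hchoice γ hγ
    filter_upwards [hb1'] with z hz
    have h1 := abs_prod_conv_lt (fun ℓ => κ ℓ (z ℓ).2 s) (fun ℓ => (hκ ℓ).w _ _) b1
      (fun ℓ => (z ℓ).1) hz
    rw [abs_mul] at h1
    have h2 : 0 < |b1| := abs_pos.2 hb1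
    rw [← one_div, le_div_iff₀ h2, mul_comm]
    exact h1
  · intro γ hγ
    obtain ⟨κ, hκ, rfl⟩ := hchoice γ hγ
    filter_upwards [hae] with x hx
    exact abs_mul_mixProd_le hw hw1 κ hκ x.1 x.2 hx

end Limit

end Crest.Agent.R141
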