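import Mathlib
import Crest.Prelude.Def_DilutedSpinGlass
import Crest.Agent.R141.KIb

set_option autoImplicit false

/-!
Row 141, part U1 (key inequality): the limit `t → 1`.
-/

namespace Crest.Agent.R141

open MeasureTheory ProbabilityTheory Crest.ProbabilityR.Diluted Filter Topology

section LimitOne

variable {S : Type*} [Fintype S] {w : S → ℝ}
  {q : ℕ} {Ω : Type*} [MeasurableSpace Ω] {P : Measure Ω} [IsProbabilityMeasure P]
  {a b : Ω → ℝ} {f : Fin (q + 1) → Ω → Bool → ℝ}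
  {θ : Ω → Crest.ProbabilityR.Diluted.Inter (q + 1)}
  {Y : Type*} [MeasurableSpace Y] (Q : Measure Y) [IsProbabilityMeasure Q]

/-- the interpolated logarithm -/
noncomputable def Vt (a : Ω → ℝ) (θ : Ω → Crest.ProbabilityR.Diluted.Inter (q + 1)) (w : S → ℝ)
    (κ : Fin (q + 1) → Y → S → Bool → ℝ) (t : ℝ) (x : Ω × (Fin (q + 1) → Y)) : ℝ :=
  Real.log ((1 - t) * a x.1 + t * Tbar w κ (θ x.1) x.2) - Real.log ((1 - t) * a x.1 + t)

lemma measurable_Tbar' {Ω' : Type*} [MeasurableSpace Ω'] {p : ℕ} (w : S → ℝ)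
    (κ : Fin p → Y → S → Bool → ℝ) (hκ : ∀ ℓ, IsK (κ ℓ))
    (g : Ω' → Crest.ProbabilityR.Diluted.Inter p) (hg : Measurable g) (y : Ω' → Fin p → Y)
    (hy : Measurable y) :
    Measurable fun x : Ω' => Tbar w κ (g x) (y x) := by
  unfold Tbar avgT
  refine Finset.measurable_sum _ fun s _ => Measurable.const_mul ?_ _
  refine Finset.measurable_sum _ fun e _ => ?_
  refine Measurable.mul ?_ ?_
  · exact Real.measurable_exp.comp ((measurable_pi_apply e).comp hg)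
  · refine Finset.measurable_prod _ fun ℓ _ => ?_
    exact ((hκ ℓ).m s (e ℓ)).comp ((measurable_pi_apply ℓ).comp hy)

lemma measurable_Vt (h : Fac q P a b f θ) (κ : Fin (q + 1) → Y → S → Bool → ℝ)
    (hκ : ∀ ℓ, IsK (κ ℓ)) (t : ℝ) : Measurable (Vt a θ w κ t) := by
  have h1 : Measurable fun x : Ω × (Fin (q + 1) → Y) => Tbar w κ (θ x.1) x.2 :=
    measurable_Tbar' w κ hκ (fun x : Ω × (Fin (q + 1) → Y) => θ x.1)
      (h.mθ.comp measurable_fst) (fun x => x.2) measurable_snd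
  have h2 : Measurable fun x : Ω × (Fin (q + 1) → Y) => a x.1 := h.ma.comp measurable_fst
  have h3 : Measurable fun x : Ω × (Fin (q + 1) → Y) =>
      Real.log ((1 - t) * a x.1 + t * Tbar w κ (θ x.1) x.2) :=
    Real.measurable_log.comp ((h2.const_mul (1 - t)).add (h1.const_mul t))
  have h4 : Measurable fun x : Ω × (Fin (q + 1) → Y) => Real.log ((1 - t) * a x.1 + t) :=
    Real.measurable_log.comp ((h2.const_mul (1 - t)).add_const t)
  exact h3.sub h4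

/-- scalar bound behind the domination -/
lemma abs_log_sub_log_le (a t T s : ℝ) (ha : 0 < a) (ht0 : 0 ≤ t) (ht1 : t ≤ 1) (hs : 0 ≤ s)
    (h1 : Real.exp (-s) ≤ T) (h2 : T ≤ Real.exp s) :
    |Real.log ((1 - t) * a + t * T) - Real.log ((1 - t) * a + t)| ≤ s := by
  have hT : 0 < T := (Real.exp_pos _).trans_le h1
  have hd : 0 < (1 - t) * a + t := by
    rcases eq_or_lt_of_le ht0 with h | h
    · rw [← h]; simpa using ha
    · have : 0 ≤ (1 - t) * a := mul_nonneg (by linarith) ha.le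
      linarith
  have hn : 0 < (1 - t) * a + t * T := by
    rcases eq_or_lt_of_le ht0 with h | h
    · rw [← h]; simpa using ha
    · have : 0 ≤ (1 - t) * a := mul_nonneg (by linarith) ha.le
      have : 0 < t * T := mul_pos h hT
      linarith
  have hexp1 : 1 ≤ Real.exp s := Real.one_le_exp hs
  have hexp2 : Real.exp (-s) ≤ 1 := Real.exp_le_one_iff.2 (by linarith)
  have ha1 : 0 ≤ (1 - t) * a := mul_nonneg (by linarith) ha.le
  have hup : (1 - t) * a + t * T ≤ Real.exp s * ((1 - t) * a + t) := by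
    have e1 : (1 - t) * a ≤ Real.exp s * ((1 - t) * a) := le_mul_of_one_le_left ha1 hexp1
    have e2 : t * T ≤ Real.exp s * t := by
      rw [mul_comm (Real.exp s)]; exact mul_le_mul_of_nonneg_left h2 ht0
    nlinarith
  have hlo : Real.exp (-s) * ((1 - t) * a + t) ≤ (1 - t) * a + t * T := by
    have e1 : Real.exp (-s) * ((1 - t) * a) ≤ (1 - t) * a := mul_le_of_le_one_left ha1 hexp2
    have e2 : Real.exp (-s) * t ≤ t * T := by
      rw [mul_comm (Real.exp (-s))]; exact mul_le_mul_of_nonneg_left h1 ht0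
    nlinarith
  rw [abs_le]
  constructor
  · have := Real.log_le_log (mul_pos (Real.exp_pos _) hd) hlo
    rw [Real.log_mul (Real.exp_pos _).ne' hd.ne', Real.log_exp] at this
    linarith
  · have := Real.log_le_log hn hup
    rw [Real.log_mul (Real.exp_pos _).ne' hd.ne', Real.log_exp] at this
    linarith

lemma abs_Vt_le (h : Fac q P a b f θ) (hw : ∀ s, 0 ≤ w s) (hw1 : ∑ s, w s = 1)
    (κ : Fin (q + 1) → Y → S → Bool → ℝ)
    (hκ : ∀ ℓ, IsK (κ ℓ)) (t : ℝ) (ht0 : 0 ≤ t) (ht1 : t ≤ 1) :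
    ∀ᵐ x ∂(P.prod (Measure.pi fun _ : Fin (q + 1) => Q)),
      ‖Vt a θ w κ t x‖ ≤ supNorm (θ x.1) := by
  have h1 : ∀ᵐ x ∂(P.prod (Measure.pi fun _ : Fin (q + 1) => Q)),
      0 < a x.1 ∧ ∀ s : Fin (q + 1) → Bool, |b x.1 * ∏ ℓ, f ℓ x.1 (s ℓ)| < 1 :=
    Measure.quasiMeasurePreserving_fst.ae h.pos
  filter_upwards [h1] with x hx
  rw [Real.norm_eq_abs]
  exact abs_log_sub_log_le _ _ _ _ hx.1 ht0 ht1 (supNorm_nonneg _)
    (le_Tbar hw hw1 κ hκ _ _) (Tbar_le hw hw1 κ hκ _ _)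

lemma integrable_sup (h : Fac q P a b f θ) :
    Integrable (fun x : Ω × (Fin (q + 1) → Y) => supNorm (θ x.1))
      (P.prod (Measure.pi fun _ : Fin (q + 1) => Q)) :=
  h.int.comp_fst _

lemma integrable_Vt (h : Fac q P a b f θ) (hw : ∀ s, 0 ≤ w s) (hw1 : ∑ s, w s = 1)
    (κ : Fin (q + 1) → Y → S → Bool → ℝ)
    (hκ : ∀ ℓ, IsK (κ ℓ)) (t : ℝ) (ht0 : 0 ≤ t) (ht1 : t ≤ 1) :
    Integrable (Vt a θ w κ t) (P.prod (Measure.pi fun _ : Fin (q + 1) => Q)) :=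
  (integrable_sup Q h).mono' (measurable_Vt h κ hκ t).aestronglyMeasurable
    (abs_Vt_le Q h hw hw1 κ hκ t ht0 ht1)

lemma tendsto_integral_Vt (h : Fac q P a b f θ) (hw : ∀ s, 0 ≤ w s) (hw1 : ∑ s, w s = 1)
    (κ : Fin (q + 1) → Y → S → Bool → ℝ) (hκ : ∀ ℓ, IsK (κ ℓ)) :
    Tendsto (fun t => ∫ x, Vt a θ w κ t x ∂(P.prod (Measure.pi fun _ : Fin (q + 1) => Q)))
      (𝓝[<] (1 : ℝ)) (𝓝 (∫ x, Vt a θ w κ 1 x ∂(P.prod (Measure.pi fun _ : Fin (q + 1) => Q)))) := by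
  have hev : ∀ᶠ t in 𝓝[<] (1 : ℝ), 0 ≤ t ∧ t ≤ 1 := by
    have h1 : ∀ᶠ t in 𝓝[<] (1 : ℝ), t ∈ Set.Ioo (0 : ℝ) 1 := Ioo_mem_nhdsLT (by norm_num)
    filter_upwards [h1] with t ht
    exact ⟨ht.1.le, ht.2.le⟩
  refine tendsto_integral_filter_of_dominated_convergence (fun x => supNorm (θ x.1)) ?_ ?_
    (integrable_sup Q h) ?_
  · exact Eventually.of_forall fun t => (measurable_Vt h κ hκ t).aestronglyMeasurable
  · filter_upwards [hev] with t ht
    exact abs_Vt_le Q h hw hw1 κ hκ t ht.1 ht.2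
  · have h1 : ∀ᵐ x ∂(P.prod (Measure.pi fun _ : Fin (q + 1) => Q)),
        0 < a x.1 ∧ ∀ s : Fin (q + 1) → Bool, |b x.1 * ∏ ℓ, f ℓ x.1 (s ℓ)| < 1 :=
      Measure.quasiMeasurePreserving_fst.ae h.pos
    filter_upwards [h1] with x hx
    have hT : 0 < Tbar w κ (θ x.1) x.2 :=
      (Real.exp_pos _).trans_le (le_Tbar hw hw1 κ hκ _ _)
    have hc : ContinuousAt (fun t => Vt a θ w κ t x) 1 := by
      unfold Vt
      refine ContinuousAt.sub ?_ ?_
      · refine ContinuousAt.log (by fun_prop) ?_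
        simp only [sub_self, zero_mul, one_mul, zero_add]
        exact hT.ne'
      · refine ContinuousAt.log (by fun_prop) ?_
        simp
    exact hc.tendsto.mono_left nhdsWithin_le_nhds

lemma measurable_Lt (h : Fac q P a b f θ) (κ : Fin (q + 1) → Y → S → Bool → ℝ)
    (hκ : ∀ ℓ, IsK (κ ℓ)) (t : ℝ) : Measurable (Lt b f w κ t) := by
  have h1 : Measurable (fun x : ℝ × (Fin (q + 1) → (Bool → ℝ) × Y) =>
      Real.log (1 + t * (x.1 * mixProd w (fun ℓ => siteF (κ ℓ)) x.2))) := by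
    refine Real.measurable_log.comp ?_
    refine Measurable.const_add (Measurable.const_mul ?_ _) _
    exact measurable_fst.mul ((measurable_mixProd w _ fun ℓ s =>
      measurable_siteF (hκ ℓ) s).comp measurable_snd)
  have h2 : Measurable (fun x : Ω × (Fin (q + 1) → Y) => (b x.1, fun ℓ => (f ℓ x.1, x.2 ℓ))) := by
    refine (h.mb.comp measurable_fst).prodMk ?_
    refine measurable_pi_iff.2 fun ℓ => ?_
    exact ((h.mf ℓ).comp measurable_fst).prodMk ((measurable_pi_apply ℓ).comp measurable_snd)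
  exact h1.comp h2

lemma integrable_Lt (h : Fac q P a b f θ) (hw : ∀ s, 0 ≤ w s) (hw1 : ∑ s, w s = 1)
    (κ : Fin (q + 1) → Y → S → Bool → ℝ)
    (hκ : ∀ ℓ, IsK (κ ℓ)) (t : ℝ) (ht0 : 0 ≤ t) (ht1 : t < 1) :
    Integrable (Lt b f w κ t) (P.prod (Measure.pi fun _ : Fin (q + 1) => Q)) := by
  have h1 : ∀ᵐ x ∂(P.prod (Measure.pi fun _ : Fin (q + 1) => Q)),
      0 < a x.1 ∧ ∀ s : Fin (q + 1) → Bool, |b x.1 * ∏ ℓ, f ℓ x.1 (s ℓ)| < 1 :=
    Measure.quasiMeasurePreserving_fst.ae h.pos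
  refine Integrable.of_bound (measurable_Lt h κ hκ t).aestronglyMeasurable
    (max (-Real.log (1 - t)) (Real.log 2)) ?_
  filter_upwards [h1] with x hx
  have h2 := abs_mul_mixProd_le hw hw1 κ hκ (b x.1) (fun ℓ => (f ℓ x.1, x.2 ℓ))
    (fun e => (hx.2 e).le)
  unfold Lt
  set m := b x.1 * mixProd w (fun ℓ => siteF (κ ℓ)) (fun ℓ => (f ℓ x.1, x.2 ℓ)) with hm
  have h3 := abs_le.1 h2
  have h4 : 1 - t ≤ 1 + t * m := by nlinarith
  have h5 : 1 + t * m ≤ 2 := by nlinarith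
  have h6 : 0 < 1 - t := by linarith
  rw [Real.norm_eq_abs, abs_le]
  constructor
  · have := Real.log_le_log h6 h4
    have := le_max_left (-Real.log (1 - t)) (Real.log 2)
    linarith
  · have := Real.log_le_log (h6.trans_le h4) h5
    have := le_max_right (-Real.log (1 - t)) (Real.log 2)
    linarith

/-- relation between the two logarithms -/
lemma Vt_sub_Lt (h : Fac q P a b f θ) (hw : ∀ s, 0 ≤ w s) (hw1 : ∑ s, w s = 1)
    (κ : Fin (q + 1) → Y → S → Bool → ℝ) (hκ : ∀ ℓ, IsK (κ ℓ)) (t : ℝ) (ht0 : 0 ≤ t)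
    (ht1 : t < 1) :
    ∀ᵐ x ∂(P.prod (Measure.pi fun _ : Fin (q + 1) => Q)),
      Vt a θ w κ t x = Lt b f w κ t x + (Real.log (a x.1) - Real.log ((1 - t) * a x.1 + t)) := by
  have h1 : ∀ᵐ x ∂(P.prod (Measure.pi fun _ : Fin (q + 1) => Q)),
      0 < a x.1 ∧ ∀ s : Fin (q + 1) → Bool, |b x.1 * ∏ ℓ, f ℓ x.1 (s ℓ)| < 1 :=
    Measure.quasiMeasurePreserving_fst.ae h.pos
  have h1' : ∀ᵐ x ∂(P.prod (Measure.pi fun _ : Fin (q + 1) => Q)),
      ∀ e : Fin (q + 1) → Bool, Real.exp (θ x.1 e) = a x.1 * (1 + b x.1 * ∏ ℓ, f ℓ x.1 (e ℓ)) :=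
    Measure.quasiMeasurePreserving_fst.ae h.hθ
  filter_upwards [h1, h1'] with x hx hx'
  have h2 := abs_mul_mixProd_le hw hw1 κ hκ (b x.1) (fun ℓ => (f ℓ x.1, x.2 ℓ))
    (fun e => (hx.2 e).le)
  have hT : Tbar w κ (θ x.1) x.2 = a x.1 * (1 + b x.1 *
      mixProd w (fun ℓ => siteF (κ ℓ)) (fun ℓ => (f ℓ x.1, x.2 ℓ))) := by
    unfold Tbar mixProd siteF
    have e1 : ∀ s, avgT (θ x.1) (fun ℓ => κ ℓ (x.2 ℓ) s) =
        a x.1 * (1 + b x.1 * ∏ ℓ, ∑ e, f ℓ x.1 e * κ ℓ (x.2 ℓ) s e) := fun s =>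
      avgT_eq_of_exp (θ x.1) (fun ℓ => κ ℓ (x.2 ℓ) s) (fun ℓ => (hκ ℓ).w _ _) _ _
        (fun ℓ => f ℓ x.1) hx'
    simp only [e1]
    have e2 : ∀ s, w s * (a x.1 * (1 + b x.1 * ∏ ℓ, ∑ e, f ℓ x.1 e * κ ℓ (x.2 ℓ) s e)) =
        w s * a x.1 + a x.1 * (b x.1 * (w s * ∏ ℓ, ∑ e, f ℓ x.1 e * κ ℓ (x.2 ℓ) s e)) := by
      intro s; ring
    simp only [e2]
    rw [Finset.sum_add_distrib, ← Finset.sum_mul, hw1, ← Finset.mul_sum, ← Finset.mul_sum]
    ring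
  unfold Vt Lt
  set m := b x.1 * mixProd w (fun ℓ => siteF (κ ℓ)) (fun ℓ => (f ℓ x.1, x.2 ℓ)) with hm
  have h3 := abs_le.1 h2
  have h4 : 0 < 1 + t * m := by nlinarith
  rw [hT]
  have e : (1 - t) * a x.1 + t * (a x.1 * (1 + m)) = a x.1 * (1 + t * m) := by ring
  rw [e, Real.log_mul hx.1.ne' h4.ne']
  ring

/-- The key inequality on the original space, kernels form. -/
theorem key_kappa (h : Fac q P a b f θ)
    (hpos : Even (q + 1) ∨ ∀ᵐ ω ∂P, ∀ e, 0 ≤ f 0 ω e) {N : ℕ} (hN : 0 < N)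
    (hw : ∀ s, 0 ≤ w s) (hw1 : ∑ s, w s = 1) (κα : Fin N → Y → S → Bool → ℝ)
    (κβ : Y → S → Bool → ℝ) (hα : ∀ i, IsK (κα i)) (hβ : IsK κβ) :
    (1 / (q + 1 : ℝ)) * ((Fintype.card (Fin (q + 1) → Fin N) : ℝ)⁻¹ *
        ∑ I : Fin (q + 1) → Fin N,
          ∫ x, Real.log (Tbar w (fun ℓ => κα (I ℓ)) (θ x.1) x.2)
            ∂(P.prod (Measure.pi fun _ : Fin (q + 1) => Q))) +
      (q / (q + 1 : ℝ)) * ∫ x, Real.log (Tbar w (fun _ => κβ) (θ x.1) x.2)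
          ∂(P.prod (Measure.pi fun _ : Fin (q + 1) => Q)) ≤
    (N : ℝ)⁻¹ * ∑ i, ∫ x, Real.log
        (Tbar w (fun ℓ => if ℓ = Fin.last q then κα i else κβ) (θ x.1) x.2)
          ∂(P.prod (Measure.pi fun _ : Fin (q + 1) => Q)) := by
  have hK2 : ∀ (i : Fin N) (ℓ : Fin (q + 1)), IsK (if ℓ = Fin.last q then κα i else κβ) := by
    intro i ℓ
    by_cases hℓ : ℓ = Fin.last q
    · rw [if_pos hℓ]; exact hα i
    · rw [if_neg hℓ]; exact hβ
  have hV1 : ∀ κ : Fin (q + 1) → Y → S → Bool → ℝ,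
      (fun x : Ω × (Fin (q + 1) → Y) => Real.log (Tbar w κ (θ x.1) x.2)) = Vt a θ w κ 1 := by
    intro κ
    funext x
    simp [Vt]
  simp only [hV1]
  -- the inequality for t < 1
  have hlt : ∀ t : ℝ, 0 ≤ t → t < 1 →
      (1 / (q + 1 : ℝ)) * ((Fintype.card (Fin (q + 1) → Fin N) : ℝ)⁻¹ *
        ∑ I : Fin (q + 1) → Fin N,
          ∫ x, Vt a θ w (fun ℓ => κα (I ℓ)) t x ∂(P.prod (Measure.pi fun _ : Fin (q + 1) => Q))) +
      (q / (q + 1 : ℝ)) * ∫ x, Vt a θ w (fun _ => κβ) t x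
          ∂(P.prod (Measure.pi fun _ : Fin (q + 1) => Q)) ≤
      (N : ℝ)⁻¹ * ∑ i, ∫ x, Vt a θ w (fun ℓ => if ℓ = Fin.last q then κα i else κβ) t x
          ∂(P.prod (Measure.pi fun _ : Fin (q + 1) => Q)) := by
    intro t ht0 ht1
    have hk := key_lt_one Q h hpos hN hw hw1 κα κβ hα hβ t ht0 ht1
    set K : ℝ := ∫ x : Ω × (Fin (q + 1) → Y), (Real.log (a x.1) - Real.log ((1 - t) * a x.1 + t))
      ∂(P.prod (Measure.pi fun _ : Fin (q + 1) => Q)) with hK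
    have hVL : ∀ κ : Fin (q + 1) → Y → S → Bool → ℝ, (∀ ℓ, IsK (κ ℓ)) →
        ∫ x, Vt a θ w κ t x ∂(P.prod (Measure.pi fun _ : Fin (q + 1) => Q)) =
        ∫ x, Lt b f w κ t x ∂(P.prod (Measure.pi fun _ : Fin (q + 1) => Q)) + K := by
      intro κ hκ
      have hiV := integrable_Vt Q h hw hw1 κ hκ t ht0 ht1.le
      have hiL := integrable_Lt Q h hw hw1 κ hκ t ht0 ht1
      have hae := Vt_sub_Lt Q h hw hw1 κ hκ t ht0 ht1
      have hiK : Integrable (fun x : Ω × (Fin (q + 1) → Y) =>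
          (Real.log (a x.1) - Real.log ((1 - t) * a x.1 + t)))
          (P.prod (Measure.pi fun _ : Fin (q + 1) => Q)) := by
        refine (hiV.sub hiL).congr ?_
        filter_upwards [hae] with x hx
        simp only [Pi.sub_apply, hx]
        ring
      rw [integral_congr_ae hae, integral_add hiL hiK]
    have e1 : ∀ I : Fin (q + 1) → Fin N, _ := fun I => hVL (fun ℓ => κα (I ℓ)) fun ℓ => hα _
    have e2 : ∀ i : Fin N, _ := fun i =>
      hVL (fun ℓ => if ℓ = Fin.last q then κα i else κβ) (hK2 i)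
    have e3 := hVL (fun _ => κβ) fun _ => hβ
    simp only [e1, e2, e3, Finset.sum_add_distrib, Finset.sum_const, Finset.card_univ,
      nsmul_eq_mul, Fintype.card_fin]
    have hN' : (N : ℝ) ≠ 0 := by exact_mod_cast hN.ne'
    have hc : (Fintype.card (Fin (q + 1) → Fin N) : ℝ) ≠ 0 := by
      rw [Fintype.card_fun, Fintype.card_fin, Fintype.card_fin]
      push_cast
      positivity
    have hq : (q + 1 : ℝ) ≠ 0 := by positivity
    have a1 : ∀ X : ℝ, (N : ℝ)⁻¹ * (X + N * K) = (N : ℝ)⁻¹ * X + K := fun X => by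
      rw [mul_add, inv_mul_cancel_left₀ hN']
    have a2 : ∀ X : ℝ, (Fintype.card (Fin (q + 1) → Fin N) : ℝ)⁻¹ *
        (X + (Fintype.card (Fin (q + 1) → Fin N) : ℝ) * K) =
        (Fintype.card (Fin (q + 1) → Fin N) : ℝ)⁻¹ * X + K := fun X => by
      rw [mul_add, inv_mul_cancel_left₀ hc]
    rw [a1, a2]
    have a3 : 1 / (q + 1 : ℝ) * K + q / (q + 1 : ℝ) * K = K := by
      field_simp
      ring
    rw [mul_add, mul_add]
    linarith
  have hlim1 : Tendsto (fun t : ℝ =>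
      (1 / (q + 1 : ℝ)) * ((Fintype.card (Fin (q + 1) → Fin N) : ℝ)⁻¹ *
        ∑ I : Fin (q + 1) → Fin N,
          ∫ x, Vt a θ w (fun ℓ => κα (I ℓ)) t x ∂(P.prod (Measure.pi fun _ : Fin (q + 1) => Q))) +
      (q / (q + 1 : ℝ)) * ∫ x, Vt a θ w (fun _ => κβ) t x
          ∂(P.prod (Measure.pi fun _ : Fin (q + 1) => Q))) (𝓝[<] 1)
      (𝓝 ((1 / (q + 1 : ℝ)) * ((Fintype.card (Fin (q + 1) → Fin N) : ℝ)⁻¹ *
        ∑ I : Fin (q + 1) → Fin N,
          ∫ x, Vt a θ w (fun ℓ => κα (I ℓ)) 1 x ∂(P.prod (Measure.pi fun _ : Fin (q + 1) => Q))) +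
      (q / (q + 1 : ℝ)) * ∫ x, Vt a θ w (fun _ => κβ) 1 x
          ∂(P.prod (Measure.pi fun _ : Fin (q + 1) => Q)))) := by
    refine Tendsto.add (Tendsto.const_mul _ (Tendsto.const_mul _ ?_)) (Tendsto.const_mul _ ?_)
    · exact tendsto_finsetSum _ fun I _ =>
        tendsto_integral_Vt Q h hw hw1 (fun ℓ => κα (I ℓ)) fun ℓ => hα _
    · exact tendsto_integral_Vt Q h hw hw1 (fun _ => κβ) fun _ => hβ
  have hlim2 : Tendsto (fun t : ℝ => (N : ℝ)⁻¹ * ∑ i, ∫ x,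
        Vt a θ w (fun ℓ => if ℓ = Fin.last q then κα i else κβ) t x
          ∂(P.prod (Measure.pi fun _ : Fin (q + 1) => Q))) (𝓝[<] 1)
      (𝓝 ((N : ℝ)⁻¹ * ∑ i, ∫ x, Vt a θ w (fun ℓ => if ℓ = Fin.last q then κα i else κβ) 1 x
          ∂(P.prod (Measure.pi fun _ : Fin (q + 1) => Q)))) := by
    refine Tendsto.const_mul _ ?_
    exact tendsto_finsetSum _ fun i _ =>
        tendsto_integral_Vt Q h hw hw1 (fun ℓ => if ℓ = Fin.last q then κα i else κβ) (hK2 i)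
  refine le_of_tendsto_of_tendsto hlim1 hlim2 ?_
  have h1 : ∀ᶠ t in 𝓝[<] (1 : ℝ), t ∈ Set.Ioo (0 : ℝ) 1 := Ioo_mem_nhdsLT (by norm_num)
  filter_upwards [h1] with t ht
  exact hlt t ht.1.le ht.2

end LimitOne

end Crest.Agent.R141
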