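import Mathlib
import Crest.Prelude.Def_DilutedSpinGlass
import Crest.Agent.R141.KI0
import Crest.Agent.R141.KIc

set_option autoImplicit false

/-!
Row 141, part U1: the key inequality `KIProp` from the factorization of the interaction law.
-/

namespace Crest.Agent.R141

open MeasureTheory ProbabilityTheory Crest.ProbabilityR.Diluted Filter Topology

section Final

lemma tilt_isW (x : ℝ) : IsW (tilt x) := by
  constructor
  · intro e
    unfold tilt
    have := Real.cosh_pos x
    positivity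
  · simp only [tilt, Fintype.sum_bool, spinVal, if_true]
    have hc := Real.cosh_pos x
    rw [← add_div, div_eq_one_iff_eq (by positivity)]
    rw [Real.cosh_eq]
    simp
    ring

lemma measurable_tilt (e : Bool) : Measurable fun x => tilt x e := by
  unfold tilt
  exact (Real.measurable_exp.comp (measurable_id.mul_const _)).div
    (Real.measurable_cosh.const_mul 2)

/-- the point kernel -/
def kDelta {Y S : Type*} (s' : S → Bool) : Y → S → Bool → ℝ := fun _ s e =>
  if e = s' s then 1 else 0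

lemma kDelta_isK {Y S : Type*} [MeasurableSpace Y] (s' : S → Bool) :
    IsK (kDelta (Y := Y) s') := by
  constructor
  · intro y s
    constructor
    · intro e; unfold kDelta; split_ifs <;> norm_num
    · simp [kDelta]
  · intro s e; unfold kDelta; exact measurable_const

/-- the tilt kernel -/
noncomputable def kTilt {Y S : Type*} (x : Y → S → ℝ) : Y → S → Bool → ℝ := fun y s e =>
  tilt (x y s) e

lemma kTilt_isK {Y S : Type*} [MeasurableSpace Y] (x : Y → S → ℝ)
    (hx : ∀ s, Measurable fun y => x y s) : IsK (kTilt x) := by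
  constructor
  · intro y s; exact tilt_isW _
  · intro s e; exact (measurable_tilt e).comp (hx s)

variable {q N : ℕ} {S : Type*} [Fintype S] {Y : Type*} [MeasurableSpace Y]

lemma avgT_delta {p : ℕ} (θ : Crest.ProbabilityR.Diluted.Inter p) (e0 : Fin p → Bool) :
    avgT θ (fun ℓ e => if e = e0 ℓ then 1 else 0) = Real.exp (θ e0) := by
  unfold avgT
  rw [Finset.sum_eq_single e0]
  · simp
  · intro e _ he
    have : ∃ ℓ, e ℓ ≠ e0 ℓ := by
      by_contra hcon
      push Not at hcon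
      exact he (funext hcon)
    obtain ⟨ℓ, hℓ⟩ := this
    rw [Finset.prod_eq_zero (Finset.mem_univ ℓ)]
    · simp
    · simp [hℓ]
  · intro h; exact absurd (Finset.mem_univ _) h

lemma Tbar_delta (w : S → ℝ) (sg : S → Fin N → Bool) (I : Fin (q + 1) → Fin N)
    (θ : Crest.ProbabilityR.Diluted.Inter (q + 1)) (y : Fin (q + 1) → Y) :
    Tbar w (fun ℓ => kDelta fun s => sg s (I ℓ)) θ y =
      ∑ s, w s * Real.exp (θ fun ℓ => sg s (I ℓ)) := by
  unfold Tbar
  refine Finset.sum_congr rfl fun s _ => ?_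
  congr 1
  exact avgT_delta θ fun ℓ => sg s (I ℓ)

lemma Tbar_tilt (w : S → ℝ) (x : Y → S → ℝ)
    (θ : Crest.ProbabilityR.Diluted.Inter (q + 1)) (y : Fin (q + 1) → Y) :
    Tbar w (fun _ => kTilt x) θ y = ∑ s, w s * edgeTerm θ fun ℓ => x (y ℓ) s := rfl

lemma exp_siteMessage (θ : Crest.ProbabilityR.Diluted.Inter (q + 1)) (x : Fin q → ℝ) (ε : Bool) :
    Real.exp (siteMessage θ x ε) = ∑ s' : Fin q → Bool,
      Real.exp (θ (Fin.snoc s' ε)) * ∏ ℓ, tilt (x ℓ) (s' ℓ) := by
  have hfun : ∀ s' : Fin q → Bool,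
      (fun ℓ : Fin (q + 1) => if h : ℓ.val < (q + 1) - 1 then s' ⟨ℓ.val, h⟩ else ε) =
      (Fin.snoc s' ε : Fin (q + 1) → Bool) := by
    intro s'
    funext ℓ
    simp only [Fin.snoc]
    by_cases h : ℓ.val < q
    · have h' : ℓ.val < (q + 1) - 1 := h
      rw [dif_pos h', dif_pos h]
      rfl
    · have h' : ¬ ℓ.val < (q + 1) - 1 := h
      rw [dif_neg h', dif_neg h]
      rfl
  unfold siteMessage
  rw [Real.exp_log]
  · refine Finset.sum_congr rfl fun s' _ => ?_
    rw [hfun s']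
    rfl
  · refine Finset.sum_pos (fun s' _ => ?_) Finset.univ_nonempty
    refine mul_pos (Real.exp_pos _) (Finset.prod_pos fun ℓ _ => ?_)
    unfold tilt
    have := Real.cosh_pos (x ℓ)
    positivity

lemma Tbar_mixed (w : S → ℝ) (sg : S → Fin N → Bool) (i : Fin N) (x : Y → S → ℝ)
    (θ : Crest.ProbabilityR.Diluted.Inter (q + 1)) (y : Fin (q + 1) → Y) :
    Tbar w (fun ℓ => if ℓ = Fin.last q then kDelta fun s => sg s i else kTilt x) θ y =
      ∑ s, w s * Real.exp (siteMessage θ (fun ℓ : Fin q => x (y ℓ.castSucc) s) (sg s i)) := by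
  unfold Tbar
  refine Finset.sum_congr rfl fun s _ => ?_
  congr 1
  rw [exp_siteMessage]
  unfold avgT
  rw [← (Fin.snocEquiv fun _ : Fin (q + 1) => Bool).sum_comp, Fintype.sum_prod_type]
  rw [Finset.sum_eq_single (sg s i)]
  · refine Finset.sum_congr rfl fun s' _ => ?_
    have e1 : (Fin.snocEquiv fun _ : Fin (q + 1) => Bool) (sg s i, s') =
        (Fin.snoc s' (sg s i) : Fin (q + 1) → Bool) := rfl
    rw [e1, Fin.prod_univ_castSucc]
    congr 1
    have e2 : (if Fin.last q = Fin.last q then kDelta (Y := Y) (fun s => sg s i) else kTilt x)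
        (y (Fin.last q)) s ((Fin.snoc s' (sg s i) : Fin (q + 1) → Bool) (Fin.last q)) = 1 := by
      rw [if_pos rfl, Fin.snoc_last]
      simp [kDelta]
    beta_reduce
    rw [e2, mul_one]
    refine Finset.prod_congr rfl fun ℓ _ => ?_
    rw [if_neg (Fin.castSucc_lt_last ℓ).ne, Fin.snoc_castSucc]
    rfl
  · intro ε _ hε
    refine Finset.sum_eq_zero fun s' _ => ?_
    have e1 : (Fin.snocEquiv fun _ : Fin (q + 1) => Bool) (ε, s') =
        (Fin.snoc s' ε : Fin (q + 1) → Bool) := rfl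
    rw [e1, Fin.prod_univ_castSucc]
    have e2 : (if Fin.last q = Fin.last q then kDelta (Y := Y) (fun s => sg s i) else kTilt x)
        (y (Fin.last q)) s ((Fin.snoc s' ε : Fin (q + 1) → Bool) (Fin.last q)) = 0 := by
      rw [if_pos rfl, Fin.snoc_last]
      simp [kDelta, hε]
    beta_reduce
    rw [e2]
    ring
  · intro h; exact absurd (Finset.mem_univ _) h

/-- Fubini + change of variables. -/
lemma integral_transport {p : ℕ} {Ω : Type*} [MeasurableSpace Ω] (P : Measure Ω)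
    [IsProbabilityMeasure P] {Y' : Type*} [MeasurableSpace Y'] (R : Measure Y')
    [IsProbabilityMeasure R] (θ : Ω → Crest.ProbabilityR.Diluted.Inter p) (hθ : Measurable θ)
    (hint : Integrable (fun ω => supNorm (θ ω)) P)
    (H : Crest.ProbabilityR.Diluted.Inter p → Y' → ℝ) (hH : Measurable (Function.uncurry H))
    (hb : ∀ (t : Crest.ProbabilityR.Diluted.Inter p) (y : Y'), |H t y| ≤ supNorm t) :
    ∫ x, H (θ x.1) x.2 ∂(P.prod R) = ∫ t, ∫ y, H t y ∂(R) ∂(P.map θ) := by
  have hm : Measurable fun x : Ω × Y' => H (θ x.1) x.2 :=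
    hH.comp ((hθ.comp measurable_fst).prodMk measurable_snd)
  have hi : Integrable (fun x : Ω × Y' => H (θ x.1) x.2) (P.prod R) := by
    refine (hint.comp_fst R).mono' hm.aestronglyMeasurable (Eventually.of_forall fun x => ?_)
    rw [Real.norm_eq_abs]
    exact hb _ _
  rw [integral_prod _ hi, integral_map hθ.aemeasurable]
  exact (hH.stronglyMeasurable.integral_prod_right).aestronglyMeasurable

lemma measurePreserving_castSucc (q : ℕ) (Q : Measure Y) [IsProbabilityMeasure Q] :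
    MeasurePreserving (fun (y : Fin (q + 1) → Y) (ℓ : Fin q) => y ℓ.castSucc)
      (Measure.pi fun _ => Q) (Measure.pi fun _ => Q) := by
  have h1 := measurePreserving_piFinSuccAbove (fun _ : Fin (q + 1) => Q) (Fin.last q)
  have h2 : MeasurePreserving (Prod.snd : Y × (Fin q → Y) → (Fin q → Y))
      (Q.prod (Measure.pi fun _ => Q)) (Measure.pi fun _ => Q) := measurePreserving_snd
  have h3 := h2.comp h1
  have e : (fun (y : Fin (q + 1) → Y) (ℓ : Fin q) => y ℓ.castSucc) =
      Prod.snd ∘ (MeasurableEquiv.piFinSuccAbove (fun _ => Y) (Fin.last q)) := by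
    funext y ℓ
    simp [MeasurableEquiv.piFinSuccAbove, Fin.insertNthEquiv]
    rfl
  rw [e]
  exact h3

lemma abs_log_le_of_exp {T s : ℝ} (h1 : Real.exp (-s) ≤ T) (h2 : T ≤ Real.exp s) :
    |Real.log T| ≤ s := by
  have hT : 0 < T := (Real.exp_pos _).trans_le h1
  rw [abs_le]
  constructor
  · have := Real.log_le_log (Real.exp_pos _) h1
    rwa [Real.log_exp] at this
  · have := Real.log_le_log hT h2
    rwa [Real.log_exp] at this

/-- The normalised key inequality in terms of the law of `θ`. -/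
theorem key_norm {Ω : Type*} [MeasurableSpace Ω] {P : Measure Ω} [IsProbabilityMeasure P]
    {a b : Ω → ℝ} {f : Fin (q + 1) → Ω → Bool → ℝ}
    {θ : Ω → Crest.ProbabilityR.Diluted.Inter (q + 1)} (h : Fac q P a b f θ)
    (hpos : Even (q + 1) ∨ ∀ᵐ ω ∂P, ∀ e, 0 ≤ f 0 ω e) (hN : 0 < N)
    (Q : Measure Y) [IsProbabilityMeasure Q] (w : S → ℝ) (hw : ∀ s, 0 ≤ w s)
    (hw1 : ∑ s, w s = 1) (sg : S → Fin N → Bool) (x : Y → S → ℝ)
    (hx : ∀ s, Measurable fun y => x y s) :
    (1 / (q + 1 : ℝ)) * ((Fintype.card (Fin (q + 1) → Fin N) : ℝ)⁻¹ *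
        ∑ I : Fin (q + 1) → Fin N,
          ∫ t, Real.log (∑ s, w s * Real.exp (t fun ℓ => sg s (I ℓ))) ∂(P.map θ)) +
      (q / (q + 1 : ℝ)) * ∫ t, ∫ y, Real.log (∑ s, w s * edgeTerm t fun ℓ => x (y ℓ) s)
          ∂(Measure.pi fun _ : Fin (q + 1) => Q) ∂(P.map θ) ≤
    (N : ℝ)⁻¹ * ∑ i, ∫ t, ∫ y, Real.log (∑ s, w s *
        Real.exp (siteMessage t (fun ℓ : Fin q => x (y ℓ) s) (sg s i)))
          ∂(Measure.pi fun _ : Fin q => Q) ∂(P.map θ) := by
  have hα : ∀ i : Fin N, IsK (kDelta (Y := Y) fun s => sg s i) := fun i => kDelta_isK _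
  have hβ : IsK (kTilt x) := kTilt_isK x hx
  have hK2 : ∀ (i : Fin N) (ℓ : Fin (q + 1)),
      IsK (if ℓ = Fin.last q then kDelta (Y := Y) (fun s => sg s i) else kTilt x) := by
    intro i ℓ
    by_cases hℓ : ℓ = Fin.last q
    · rw [if_pos hℓ]; exact hα i
    · rw [if_neg hℓ]; exact hβ
  have key := key_kappa Q h hpos hN hw hw1 (fun i => kDelta (Y := Y) fun s => sg s i) (kTilt x)
    hα hβ
  -- general transport
  have tr : ∀ κ : Fin (q + 1) → Y → S → Bool → ℝ, (∀ ℓ, IsK (κ ℓ)) →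
      ∫ z, Real.log (Tbar w κ (θ z.1) z.2) ∂(P.prod (Measure.pi fun _ : Fin (q + 1) => Q)) =
      ∫ t, ∫ y, Real.log (Tbar w κ t y) ∂(Measure.pi fun _ : Fin (q + 1) => Q) ∂(P.map θ) := by
    intro κ hκ
    have hm0 : Measurable fun z : Crest.ProbabilityR.Diluted.Inter (q + 1) × (Fin (q + 1) → Y) =>
        Tbar w κ z.1 z.2 :=
      measurable_Tbar w κ hκ
    have hm1 : Measurable fun z : Crest.ProbabilityR.Diluted.Inter (q + 1) × (Fin (q + 1) → Y) =>
        Real.log (Tbar w κ z.1 z.2) := hm0.log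
    have hb : ∀ (t : Crest.ProbabilityR.Diluted.Inter (q + 1)) (y : Fin (q + 1) → Y),
        |Real.log (Tbar w κ t y)| ≤ supNorm t := fun t y =>
      abs_log_le_of_exp (le_Tbar hw hw1 κ hκ t y) (Tbar_le hw hw1 κ hκ t y)
    exact integral_transport P (Measure.pi fun _ : Fin (q + 1) => Q) θ h.mθ h.int
      (fun t y => Real.log (Tbar w κ t y)) hm1 hb
  have T1 : ∀ I : Fin (q + 1) → Fin N,
      ∫ z, Real.log (Tbar w (fun ℓ => kDelta (Y := Y) fun s => sg s (I ℓ)) (θ z.1) z.2)
        ∂(P.prod (Measure.pi fun _ : Fin (q + 1) => Q)) =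
      ∫ t, Real.log (∑ s, w s * Real.exp (t fun ℓ => sg s (I ℓ))) ∂(P.map θ) := by
    intro I
    rw [tr _ fun ℓ => hα _]
    refine integral_congr_ae (Eventually.of_forall fun t => ?_)
    simp only [Tbar_delta, integral_const, probReal_univ, smul_eq_mul, one_mul]
  have T2 : ∀ i : Fin N,
      ∫ z, Real.log (Tbar w (fun ℓ => if ℓ = Fin.last q then kDelta (Y := Y) fun s => sg s i
        else kTilt x) (θ z.1) z.2)
        ∂(P.prod (Measure.pi fun _ : Fin (q + 1) => Q)) =
      ∫ t, ∫ y, Real.log (∑ s, w s *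
        Real.exp (siteMessage t (fun ℓ : Fin q => x (y ℓ) s) (sg s i)))
          ∂(Measure.pi fun _ : Fin q => Q) ∂(P.map θ) := by
    intro i
    rw [tr _ (hK2 i)]
    refine integral_congr_ae (Eventually.of_forall fun t => ?_)
    simp only [Tbar_mixed]
    have mp := measurePreserving_castSucc q Q
    rw [← mp.map_eq, integral_map mp.measurable.aemeasurable]
    refine Measurable.aestronglyMeasurable ?_
    refine Real.measurable_log.comp ?_
    refine Finset.measurable_sum _ fun s _ => Measurable.const_mul ?_ _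
    simp only [exp_siteMessage]
    refine Finset.measurable_sum _ fun s' _ => Measurable.const_mul ?_ _
    refine Finset.measurable_prod _ fun ℓ _ => ?_
    exact (measurable_tilt _).comp ((hx s).comp (measurable_pi_apply ℓ))
  have T3 := tr (fun _ => kTilt x) fun _ => hβ
  simp only [T1, T2] at key
  rw [T3] at key
  exact key

/-- unnormalised logarithm -/
lemma log_sum_G [Nonempty S] (G T : S → ℝ) (hG : ∀ s, 0 < G s) (hT : ∀ s, 0 < T s) :
    Real.log (∑ s, G s * T s) = Real.log (∑ s, G s) +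
      Real.log (∑ s, (G s / ∑ s', G s') * T s) := by
  have hG0 : 0 < ∑ s, G s := Finset.sum_pos (fun s _ => hG s) Finset.univ_nonempty
  have h1 : ∑ s, G s * T s = (∑ s, G s) * ∑ s, (G s / ∑ s', G s') * T s := by
    rw [Finset.mul_sum]
    refine Finset.sum_congr rfl fun s _ => ?_
    field_simp
  have h2 : 0 < ∑ s, (G s / ∑ s', G s') * T s :=
    Finset.sum_pos (fun s _ => mul_pos (div_pos (hG s) hG0) (hT s)) Finset.univ_nonempty
  rw [h1, Real.log_mul hG0.ne' h2.ne']

lemma edgeTerm_eq_avgT {p : ℕ} (θ : Crest.ProbabilityR.Diluted.Inter p) (x : Fin p → ℝ) :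
    edgeTerm θ x = avgT θ fun ℓ => tilt (x ℓ) := rfl

lemma exp_siteMessage_eq_avgT (θ : Crest.ProbabilityR.Diluted.Inter (q + 1)) (x : Fin q → ℝ)
    (ε : Bool) :
    Real.exp (siteMessage θ x ε) = avgT θ
      (fun ℓ => if h : ℓ.val < q then tilt (x ⟨ℓ.val, h⟩) else fun e => if e = ε then 1 else 0) := by
  rw [exp_siteMessage]
  unfold avgT
  rw [← (Fin.snocEquiv fun _ : Fin (q + 1) => Bool).sum_comp, Fintype.sum_prod_type]
  rw [Finset.sum_eq_single ε]
  · refine Finset.sum_congr rfl fun s' _ => ?_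
    have e1 : (Fin.snocEquiv fun _ : Fin (q + 1) => Bool) (ε, s') =
        (Fin.snoc s' ε : Fin (q + 1) → Bool) := rfl
    rw [e1, Fin.prod_univ_castSucc]
    beta_reduce
    rw [Fin.snoc_last, dif_neg (by simp)]
    simp only [if_true, mul_one]
    congr 1
    refine Finset.prod_congr rfl fun ℓ _ => ?_
    rw [Fin.snoc_castSucc, dif_pos (by simp)]
    rfl
  · intro ε' _ hε
    refine Finset.sum_eq_zero fun s' _ => ?_
    have e1 : (Fin.snocEquiv fun _ : Fin (q + 1) => Bool) (ε', s') =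
        (Fin.snoc s' ε' : Fin (q + 1) → Bool) := rfl
    rw [e1, Fin.prod_univ_castSucc]
    beta_reduce
    rw [Fin.snoc_last, dif_neg (by simp)]
    simp [hε]
  · intro h; exact absurd (Finset.mem_univ _) h

lemma edgeTerm_bounds {p : ℕ} (θ : Crest.ProbabilityR.Diluted.Inter p) (x : Fin p → ℝ) :
    Real.exp (-supNorm θ) ≤ edgeTerm θ x ∧ edgeTerm θ x ≤ Real.exp (supNorm θ) :=
  ⟨le_avgT θ _ fun ℓ => tilt_isW _, avgT_le θ _ fun ℓ => tilt_isW _⟩

lemma exp_siteMessage_bounds (θ : Crest.ProbabilityR.Diluted.Inter (q + 1)) (x : Fin q → ℝ)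
    (ε : Bool) : Real.exp (-supNorm θ) ≤ Real.exp (siteMessage θ x ε) ∧
      Real.exp (siteMessage θ x ε) ≤ Real.exp (supNorm θ) := by
  rw [exp_siteMessage_eq_avgT]
  have h : ∀ ℓ : Fin (q + 1), IsW
      (if h : ℓ.val < q then tilt (x ⟨ℓ.val, h⟩) else fun e => if e = ε then 1 else 0) := by
    intro ℓ
    by_cases h : ℓ.val < q
    · rw [dif_pos h]; exact tilt_isW _
    · rw [dif_neg h]
      constructor
      · intro e; split_ifs <;> norm_num
      · simp
  exact ⟨le_avgT θ _ h, avgT_le θ _ h⟩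

lemma exp_theta_bounds {p : ℕ} (θ : Crest.ProbabilityR.Diluted.Inter p) (e : Fin p → Bool) :
    Real.exp (-supNorm θ) ≤ Real.exp (θ e) ∧ Real.exp (θ e) ≤ Real.exp (supNorm θ) :=
  ⟨Real.exp_le_exp.2 (abs_le.1 (abs_le_supNorm θ e)).1,
    Real.exp_le_exp.2 ((le_abs_self _).trans (abs_le_supNorm θ e))⟩

lemma abs_log_avg_le (w T : S → ℝ) (hw : ∀ s, 0 ≤ w s) (hw1 : ∑ s, w s = 1) (c : ℝ)
    (h : ∀ s, Real.exp (-c) ≤ T s ∧ T s ≤ Real.exp c) : |Real.log (∑ s, w s * T s)| ≤ c := by
  refine abs_log_le_of_exp ?_ ?_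
  · calc Real.exp (-c) = ∑ s, w s * Real.exp (-c) := by rw [← Finset.sum_mul, hw1, one_mul]
      _ ≤ _ := Finset.sum_le_sum fun s _ => mul_le_mul_of_nonneg_left (h s).1 (hw s)
  · calc _ ≤ ∑ s, w s * Real.exp c :=
          Finset.sum_le_sum fun s _ => mul_le_mul_of_nonneg_left (h s).2 (hw s)
      _ = Real.exp c := by rw [← Finset.sum_mul, hw1, one_mul]

lemma measurable_edgeTerm_arr {p : ℕ} (x : Y → S → ℝ) (hx : ∀ s, Measurable fun y => x y s) (s : S) :
    Measurable fun z : Crest.ProbabilityR.Diluted.Inter p × (Fin p → Y) =>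
      edgeTerm z.1 fun ℓ => x (z.2 ℓ) s := by
  unfold edgeTerm
  refine Finset.measurable_sum _ fun e _ => ?_
  refine Measurable.mul ?_ ?_
  · exact ((measurable_pi_apply e).comp measurable_fst).exp
  · refine Finset.measurable_prod _ fun ℓ _ => ?_
    exact (measurable_tilt _).comp ((hx s).comp ((measurable_pi_apply ℓ).comp measurable_snd))

lemma measurable_expSite_arr (x : Y → S → ℝ) (hx : ∀ s, Measurable fun y => x y s) (s : S)
    (ε : Bool) :
    Measurable fun z : Crest.ProbabilityR.Diluted.Inter (q + 1) × (Fin q → Y) =>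
      Real.exp (siteMessage z.1 (fun ℓ : Fin q => x (z.2 ℓ) s) ε) := by
  simp only [exp_siteMessage]
  refine Finset.measurable_sum _ fun e _ => ?_
  refine Measurable.mul ?_ ?_
  · exact ((measurable_pi_apply (Fin.snoc e ε : Fin (q + 1) → Bool)).comp measurable_fst).exp
  · refine Finset.measurable_prod _ fun ℓ _ => ?_
    exact (measurable_tilt _).comp ((hx s).comp ((measurable_pi_apply ℓ).comp measurable_snd))

lemma shift1 {p : ℕ} (μ : Measure (Crest.ProbabilityR.Diluted.Inter p)) [IsProbabilityMeasure μ]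
    (hμ : Integrable (fun t => supNorm t) μ) (g : Crest.ProbabilityR.Diluted.Inter p → ℝ)
    (hg : Measurable g) (hb : ∀ t, |g t| ≤ supNorm t) (c : ℝ) :
    ∫ t, (c + g t) ∂μ = c + ∫ t, g t ∂μ := by
  have hi : Integrable g μ := hμ.mono' hg.aestronglyMeasurable
    (Eventually.of_forall fun t => by rw [Real.norm_eq_abs]; exact hb t)
  rw [integral_add (integrable_const c) hi]
  simp

lemma shift2 {p : ℕ} (μ : Measure (Crest.ProbabilityR.Diluted.Inter p)) [IsProbabilityMeasure μ]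
    (hμ : Integrable (fun t => supNorm t) μ) {Y' : Type*} [MeasurableSpace Y'] (R : Measure Y')
    [IsProbabilityMeasure R] (H : Crest.ProbabilityR.Diluted.Inter p → Y' → ℝ)
    (hH : Measurable (Function.uncurry H))
    (hb : ∀ (t : Crest.ProbabilityR.Diluted.Inter p) (y : Y'), |H t y| ≤ supNorm t) (c : ℝ) :
    ∫ t, ∫ y, (c + H t y) ∂(R) ∂μ = c + ∫ t, ∫ y, H t y ∂(R) ∂μ := by
  have hin : ∀ t, ∫ y, (c + H t y) ∂(R) = c + ∫ y, H t y ∂(R) := by
    intro t
    have hi : Integrable (H t) R :=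
      Integrable.of_bound (hH.of_uncurry_left).aestronglyMeasurable (supNorm t)
        (Eventually.of_forall fun y => by rw [Real.norm_eq_abs]; exact hb t y)
    rw [integral_add (integrable_const c) hi]
    simp
  simp only [hin]
  refine shift1 μ hμ _ (hH.stronglyMeasurable.integral_prod_right).measurable ?_ c
  intro t
  have := norm_integral_le_of_norm_le_const (μ := R) (f := H t) (C := supNorm t)
    (Eventually.of_forall fun y => by rw [Real.norm_eq_abs]; exact hb t y)
  simpa using this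

theorem kiProp_of_fac {Ω : Type*} [MeasurableSpace Ω] {P : Measure Ω} [IsProbabilityMeasure P]
    {a b : Ω → ℝ} {f : Fin (q + 1) → Ω → Bool → ℝ}
    {θ : Ω → Crest.ProbabilityR.Diluted.Inter (q + 1)} (h : Fac q P a b f θ)
    (hpos : Even (q + 1) ∨ ∀ᵐ ω ∂P, ∀ e, 0 ≤ f 0 ω e)
    (μ : Measure (Crest.ProbabilityR.Diluted.Inter (q + 1))) (hμP : P.map θ = μ)
    (hμ : Integrable (fun t => supNorm t) μ) : KIProp (q + 1) μ := by
  intro S _ _ N hN sg Y _ Q _ x hx G hG
  have iμ : IsProbabilityMeasure μ := by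
    rw [← hμP]; exact Measure.isProbabilityMeasure_map h.mθ.aemeasurable
  have hG0 : 0 < ∑ s, G s := Finset.sum_pos (fun s _ => hG s) Finset.univ_nonempty
  set w : S → ℝ := fun s => G s / ∑ s', G s' with hwdef
  have hw : ∀ s, 0 ≤ w s := fun s => (div_pos (hG s) hG0).le
  have hw1 : ∑ s, w s = 1 := by
    simp only [hwdef]
    rw [← Finset.sum_div, div_self hG0.ne']
  set c : ℝ := Real.log (∑ s, G s) with hc
  have key := key_norm h hpos hN Q w hw hw1 sg x hx
  rw [hμP] at key
  -- the three terms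
  have T1 : ∀ I : Fin (q + 1) → Fin N,
      ∫ t, Real.log (∑ s, G s * Real.exp (t fun ℓ => sg s (I ℓ))) ∂μ =
      c + ∫ t, Real.log (∑ s, w s * Real.exp (t fun ℓ => sg s (I ℓ))) ∂μ := by
    intro I
    have e : ∀ t : Crest.ProbabilityR.Diluted.Inter (q + 1),
        Real.log (∑ s, G s * Real.exp (t fun ℓ => sg s (I ℓ))) =
        c + Real.log (∑ s, w s * Real.exp (t fun ℓ => sg s (I ℓ))) := fun t =>
      log_sum_G G _ hG fun s => Real.exp_pos _
    simp only [e]
    refine shift1 μ hμ _ ?_ ?_ c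
    · refine Real.measurable_log.comp ?_
      refine Finset.measurable_sum _ fun s _ => Measurable.const_mul ?_ _
      exact (measurable_pi_apply _).exp
    · intro t
      exact abs_log_avg_le w _ hw hw1 _ fun s => exp_theta_bounds t _
  have T3 : ∫ t, ∫ y, Real.log (∑ s, G s * edgeTerm t fun ℓ => x (y ℓ) s)
        ∂(Measure.pi fun _ : Fin (q + 1) => Q) ∂μ =
      c + ∫ t, ∫ y, Real.log (∑ s, w s * edgeTerm t fun ℓ => x (y ℓ) s)
        ∂(Measure.pi fun _ : Fin (q + 1) => Q) ∂μ := by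
    have e : ∀ (t : Crest.ProbabilityR.Diluted.Inter (q + 1)) (y : Fin (q + 1) → Y),
        Real.log (∑ s, G s * edgeTerm t fun ℓ => x (y ℓ) s) =
        c + Real.log (∑ s, w s * edgeTerm t fun ℓ => x (y ℓ) s) := fun t y =>
      log_sum_G G _ hG fun s => (Real.exp_pos _).trans_le (edgeTerm_bounds t _).1
    simp only [e]
    have hm0 : Measurable fun z : Crest.ProbabilityR.Diluted.Inter (q + 1) × (Fin (q + 1) → Y) =>
        ∑ s, w s * edgeTerm z.1 fun ℓ => x (z.2 ℓ) s :=
      Finset.measurable_sum _ fun s _ => (measurable_edgeTerm_arr x hx s).const_mul _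
    have hm1 : Measurable fun z : Crest.ProbabilityR.Diluted.Inter (q + 1) × (Fin (q + 1) → Y) =>
        Real.log (∑ s, w s * edgeTerm z.1 fun ℓ => x (z.2 ℓ) s) := hm0.log
    exact shift2 μ hμ (Measure.pi fun _ : Fin (q + 1) => Q)
      (fun t y => Real.log (∑ s, w s * edgeTerm t fun ℓ => x (y ℓ) s)) hm1
      (fun t y => abs_log_avg_le w _ hw hw1 _ fun s => edgeTerm_bounds t _) c
  have T2 : ∀ i : Fin N, ∫ t, ∫ y, Real.log (∑ s, G s *
        Real.exp (siteMessage t (fun ℓ : Fin q => x (y ℓ) s) (sg s i)))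
        ∂(Measure.pi fun _ : Fin q => Q) ∂μ =
      c + ∫ t, ∫ y, Real.log (∑ s, w s *
        Real.exp (siteMessage t (fun ℓ : Fin q => x (y ℓ) s) (sg s i)))
        ∂(Measure.pi fun _ : Fin q => Q) ∂μ := by
    intro i
    have e : ∀ (t : Crest.ProbabilityR.Diluted.Inter (q + 1)) (y : Fin q → Y),
        Real.log (∑ s, G s * Real.exp (siteMessage t (fun ℓ : Fin q => x (y ℓ) s) (sg s i))) =
        c + Real.log (∑ s, w s *
          Real.exp (siteMessage t (fun ℓ : Fin q => x (y ℓ) s) (sg s i))) := fun t y =>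
      log_sum_G G _ hG fun s => Real.exp_pos _
    simp only [e]
    have hm0 : Measurable fun z : Crest.ProbabilityR.Diluted.Inter (q + 1) × (Fin q → Y) =>
        ∑ s, w s * Real.exp (siteMessage z.1 (fun ℓ : Fin q => x (z.2 ℓ) s) (sg s i)) :=
      Finset.measurable_sum _ fun s _ => (measurable_expSite_arr x hx s (sg s i)).const_mul _
    have hm1 : Measurable fun z : Crest.ProbabilityR.Diluted.Inter (q + 1) × (Fin q → Y) =>
        Real.log (∑ s, w s *
          Real.exp (siteMessage z.1 (fun ℓ : Fin q => x (z.2 ℓ) s) (sg s i))) := hm0.log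
    exact shift2 μ hμ (Measure.pi fun _ : Fin q => Q)
      (fun t y => Real.log (∑ s, w s *
          Real.exp (siteMessage t (fun ℓ : Fin q => x (y ℓ) s) (sg s i)))) hm1
      (fun t y => abs_log_avg_le w _ hw hw1 _ fun s => exp_siteMessage_bounds t _ _) c
  have hN' : (N : ℝ) ≠ 0 := by exact_mod_cast hN.ne'
  have hcard : (Fintype.card (Fin (q + 1) → Fin N) : ℝ) ≠ 0 := by
    rw [Fintype.card_fun, Fintype.card_fin, Fintype.card_fin]
    push_cast
    positivity
  have a1 : ∀ X : ℝ, (N : ℝ)⁻¹ * (N * c + X) = c + (N : ℝ)⁻¹ * X := fun X => by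
    rw [mul_add, inv_mul_cancel_left₀ hN']
  have a2 : ∀ X : ℝ, (Fintype.card (Fin (q + 1) → Fin N) : ℝ)⁻¹ *
      ((Fintype.card (Fin (q + 1) → Fin N) : ℝ) * c + X) =
      c + (Fintype.card (Fin (q + 1) → Fin N) : ℝ)⁻¹ * X := fun X => by
    rw [mul_add, inv_mul_cancel_left₀ hcard]
  have hcast : ((q + 1 : ℕ) : ℝ) = (q : ℝ) + 1 := by push_cast; ring
  show (1 / ((q + 1 : ℕ) : ℝ)) * ((Fintype.card (Fin (q + 1) → Fin N) : ℝ)⁻¹ *
        ∑ I : Fin (q + 1) → Fin N,
        ∫ θ, Real.log (∑ s, G s * Real.exp (θ fun ℓ => sg s (I ℓ))) ∂μ) +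
      ((((q + 1 : ℕ) : ℝ) - 1) / ((q + 1 : ℕ) : ℝ)) *
        ∫ θ, ∫ y, Real.log (∑ s, G s * edgeTerm θ fun ℓ => x (y ℓ) s)
          ∂(Measure.pi fun _ : Fin (q + 1) => Q) ∂μ ≤
    (N : ℝ)⁻¹ * ∑ i : Fin N,
        ∫ θ, ∫ y, Real.log (∑ s, G s * Real.exp (siteMessage θ (fun ℓ : Fin q => x (y ℓ) s) (sg s i)))
          ∂(Measure.pi fun _ : Fin q => Q) ∂μ
  simp only [T1, T2, T3, Finset.sum_add_distrib, Finset.sum_const, Finset.card_univ,
    nsmul_eq_mul, Fintype.card_fin]
  rw [a1, a2, hcast, mul_add, mul_add]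
  have e3 : ((q : ℝ) + 1 - 1) / (q + 1) = q / (q + 1) := by ring
  rw [e3]
  have e4 : 1 / ((q : ℝ) + 1) * c + q / (q + 1) * c = c := by
    field_simp
    ring
  linarith

theorem kiProp_of_factorization {p : ℕ} (hp : Even p) (hp2 : 1 ≤ p) (μ : Measure (Inter p))
    (hμ : Integrable (fun t => supNorm t) μ) (hfac : HasFactorization p μ) : KIProp p μ := by
  obtain ⟨q, rfl⟩ : ∃ q, p = q + 1 := ⟨p - 1, by omega⟩
  obtain ⟨Ω, _, P, _, a, b, f, ma, mb, mf, ind, idd, ibf, pos, mom, hmap⟩ := hfac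
  set θ : Ω → Crest.ProbabilityR.Diluted.Inter (q + 1) := fun ω s =>
    Real.log (a ω * (1 + b ω * ∏ ℓ, f ℓ ω (s ℓ))) with hθ
  have mθ : Measurable θ := by
    refine measurable_pi_iff.2 fun s => ?_
    refine Measurable.log ?_
    refine ma.mul (Measurable.const_add (mb.mul ?_) _)
    refine Finset.measurable_prod _ fun ℓ _ => ?_
    exact (measurable_pi_apply (s ℓ)).comp (mf ℓ)
  have hF : Fac q P a b f θ := by
    refine ⟨ma, mb, mf, ind, idd, ibf, pos, fun n hn => (mom n hn).2, mθ, ?_, ?_⟩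
    · filter_upwards [pos] with ω hω e
      have h1 := (abs_lt.1 (hω.2 e)).1
      rw [hθ]
      exact Real.exp_log (mul_pos hω.1 (by linarith))
    · have h1 : Integrable (fun t => supNorm t) (P.map θ) := by rw [hmap]; exact hμ
      exact (integrable_map_measure h1.aestronglyMeasurable mθ.aemeasurable).1 h1
  exact kiProp_of_fac hF (Or.inl hp) μ hmap hμ

theorem kiProp_of_factorizationNN {p : ℕ} (hp2 : 1 ≤ p) (μ : Measure (Inter p))
    (hμ : Integrable (fun t => supNorm t) μ) (hfac : HasFactorizationNN p μ) : KIProp p μ := by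
  obtain ⟨q, rfl⟩ : ∃ q, p = q + 1 := ⟨p - 1, by omega⟩
  obtain ⟨Ω, _, P, _, a, b, f, ma, mb, mf, ind, idd, ibf, pos, mom, hmap, hnn⟩ := hfac
  set θ : Ω → Crest.ProbabilityR.Diluted.Inter (q + 1) := fun ω s =>
    Real.log (a ω * (1 + b ω * ∏ ℓ, f ℓ ω (s ℓ))) with hθ
  have mθ : Measurable θ := by
    refine measurable_pi_iff.2 fun s => ?_
    refine Measurable.log ?_
    refine ma.mul (Measurable.const_add (mb.mul ?_) _)
    refine Finset.measurable_prod _ fun ℓ _ => ?_
    exact (measurable_pi_apply (s ℓ)).comp (mf ℓ)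
  have hF : Fac q P a b f θ := by
    refine ⟨ma, mb, mf, ind, idd, ibf, pos, fun n hn => (mom n hn).2, mθ, ?_, ?_⟩
    · filter_upwards [pos] with ω hω e
      have h1 := (abs_lt.1 (hω.2 e)).1
      rw [hθ]
      exact Real.exp_log (mul_pos hω.1 (by linarith))
    · have h1 : Integrable (fun t => supNorm t) (P.map θ) := by rw [hmap]; exact hμ
      exact (integrable_map_measure h1.aestronglyMeasurable mθ.aemeasurable).1 h1
  exact kiProp_of_fac hF (Or.inr (hnn 0)) μ hmap hμ

end Final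

end Crest.Agent.R141
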