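import Mathlib
import Crest.Prelude.Def_DilutedSpinGlass
import Crest.Agent.R141.KI

set_option autoImplicit false

/-!
Row 141, part U1: the key inequality in the form of the Part U interface (averages inside the
integrals).
-/

namespace Crest.Agent.R141

open MeasureTheory ProbabilityTheory Crest.ProbabilityR.Diluted Filter Topology

lemma sm_int {α Y' : Type*} [MeasurableSpace α] [MeasurableSpace Y'] (R : Measure Y')
    [IsProbabilityMeasure R] (H : α × Y' → ℝ) (hH : Measurable H) :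
    Measurable fun t => ∫ y, H (t, y) ∂(R) :=
  (hH.stronglyMeasurable.integral_prod_right').measurable

/-- sums and nested integrals -/
lemma nested_sum {ι α Y' : Type*} [Fintype ι] [MeasurableSpace α] [MeasurableSpace Y']
    (μ : Measure α) [IsProbabilityMeasure μ] (R : Measure Y')
    [IsProbabilityMeasure R] (H : ι → α × Y' → ℝ) (hH : ∀ i, Measurable (H i))
    (B : α → ℝ) (hB : Integrable B μ) (hb : ∀ i t y, |H i (t, y)| ≤ B t) (c : ℝ) :
    ∫ t, ∫ y, (c * ∑ i, H i (t, y)) ∂(R) ∂μ = c * ∑ i, ∫ t, ∫ y, H i (t, y) ∂(R) ∂μ := by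
  have hin : ∀ (i : ι) (t : α), Integrable (fun y => H i (t, y)) R := by
    intro i t
    refine Integrable.of_bound ?_ (B t)
      (Eventually.of_forall fun x => by rw [Real.norm_eq_abs]; exact hb i t x)
    exact ((hH i).comp (measurable_const.prodMk measurable_id)).aestronglyMeasurable
  have hout : ∀ i : ι, Integrable (fun t => ∫ y, H i (t, y) ∂(R)) μ := by
    intro i
    refine hB.mono' (sm_int R (H i) (hH i)).aestronglyMeasurable
      (Eventually.of_forall fun t => ?_)
    have h1 := norm_integral_le_of_norm_le_const (μ := R) (f := fun y => H i (t, y))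
      (C := B t) (Eventually.of_forall fun x => by rw [Real.norm_eq_abs]; exact hb i t x)
    simpa using h1
  have e1 : ∀ t, ∫ y, (c * ∑ i, H i (t, y)) ∂(R) = c * ∑ i, ∫ y, H i (t, y) ∂(R) := by
    intro t
    rw [integral_const_mul, integral_finsetSum]
    intro i _
    exact hin i t
  simp only [e1]
  rw [integral_const_mul, integral_finsetSum]
  intro i _
  exact hout i

/-- The key inequality with the site averages inside the integrals. -/
theorem kiProp_inside {p : ℕ} (hp1 : 1 ≤ p) (μ : Measure (Inter p)) [IsProbabilityMeasure μ]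
    (hμ : Integrable (fun t => supNorm t) μ) (hKI : KIProp p μ)
    {A : Type} [Fintype A] [Nonempty A] (N : ℕ) (hN : 0 < N) (G : A × (Fin N → Bool) → ℝ)
    (hG : ∀ s, 0 < G s) (Q : Measure (A → ℝ)) [IsProbabilityMeasure Q] :
    (1 / (p : ℝ)) * ∫ t, ((Fintype.card (Fin p → Fin N) : ℝ)⁻¹ * ∑ I : Fin p → Fin N,
        Real.log (∑ s, G s * Real.exp (t fun ℓ => s.2 (I ℓ)))) ∂μ +
      (((p : ℝ) - 1) / p) * ∫ t, ∫ x, Real.log (∑ s, G s * edgeTerm t fun ℓ => x ℓ s.1)
          ∂(Measure.pi fun _ : Fin p => Q) ∂μ ≤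
    ∫ t, ∫ x, ((N : ℝ)⁻¹ * ∑ i : Fin N,
        Real.log (∑ s, G s * Real.exp (siteMessage t (fun ℓ => x ℓ s.1) (s.2 i))))
          ∂(Measure.pi fun _ : Fin (p - 1) => Q) ∂μ := by
  obtain ⟨q, rfl⟩ : ∃ q, p = q + 1 := ⟨p - 1, by omega⟩
  have key := hKI (A × (Fin N → Bool)) N hN (fun s => s.2) (A → ℝ) Q (fun y s => y s.1)
    (fun s => measurable_pi_apply s.1) G hG
  have hG0 : 0 < ∑ s, G s := Finset.sum_pos (fun s _ => hG s) Finset.univ_nonempty
  set w : A × (Fin N → Bool) → ℝ := fun s => G s / ∑ s', G s' with hwdef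
  have hw : ∀ s, 0 ≤ w s := fun s => (div_pos (hG s) hG0).le
  have hw1 : ∑ s, w s = 1 := by
    simp only [hwdef]
    rw [← Finset.sum_div, div_self hG0.ne']
  set c : ℝ := Real.log (∑ s, G s) with hc
  have hbound : ∀ (T : A × (Fin N → Bool) → ℝ) (C : ℝ),
      (∀ s, Real.exp (-C) ≤ T s ∧ T s ≤ Real.exp C) →
      |Real.log (∑ s, G s * T s)| ≤ |c| + C := by
    intro T C hT
    rw [log_sum_G G T hG fun s => (Real.exp_pos _).trans_le (hT s).1]
    exact (abs_add_le _ _).trans (add_le_add le_rfl (abs_log_avg_le w T hw hw1 C hT))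
  -- term 1
  have i1 : ∀ I : Fin (q + 1) → Fin N, Integrable (fun t : Crest.ProbabilityR.Diluted.Inter (q + 1) =>
      Real.log (∑ s, G s * Real.exp (t fun ℓ => s.2 (I ℓ)))) μ := by
    intro I
    have hm : Measurable (fun t : Crest.ProbabilityR.Diluted.Inter (q + 1) =>
        Real.log (∑ s, G s * Real.exp (t fun ℓ => s.2 (I ℓ)))) := by
      refine Real.measurable_log.comp ?_
      refine Finset.measurable_sum _ fun s _ => Measurable.const_mul ?_ _
      exact (measurable_pi_apply _).exp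
    refine ((integrable_const |c|).add hμ).mono' hm.aestronglyMeasurable
      (Eventually.of_forall fun t => ?_)
    rw [Real.norm_eq_abs]
    exact hbound _ _ fun s => exp_theta_bounds t _
  have T1 : ∫ t, ((Fintype.card (Fin (q + 1) → Fin N) : ℝ)⁻¹ * ∑ I : Fin (q + 1) → Fin N,
        Real.log (∑ s, G s * Real.exp (t fun ℓ => s.2 (I ℓ)))) ∂μ =
      (Fintype.card (Fin (q + 1) → Fin N) : ℝ)⁻¹ * ∑ I : Fin (q + 1) → Fin N,
        ∫ t, Real.log (∑ s, G s * Real.exp (t fun ℓ => s.2 (I ℓ))) ∂μ := by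
    rw [integral_const_mul, integral_finsetSum]
    intro I _
    exact i1 I
  -- term 2
  have hm2 : ∀ i : Fin N, Measurable fun z :
      Crest.ProbabilityR.Diluted.Inter (q + 1) × (Fin q → A → ℝ) =>
      Real.log (∑ s, G s * Real.exp (siteMessage z.1 (fun ℓ : Fin q => z.2 ℓ s.1) (s.2 i))) := by
    intro i
    have hm0 : Measurable fun z : Crest.ProbabilityR.Diluted.Inter (q + 1) × (Fin q → A → ℝ) =>
        ∑ s, G s * Real.exp (siteMessage z.1 (fun ℓ : Fin q => z.2 ℓ s.1) (s.2 i)) :=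
      Finset.measurable_sum _ fun s _ => (measurable_expSite_arr
        (fun (y : A → ℝ) (s : A × (Fin N → Bool)) => y s.1)
        (fun s => measurable_pi_apply s.1) s (s.2 i)).const_mul _
    exact hm0.log
  have hb2 : ∀ (i : Fin N) (t : Crest.ProbabilityR.Diluted.Inter (q + 1)) (x : Fin q → A → ℝ),
      |Real.log (∑ s, G s * Real.exp (siteMessage t (fun ℓ : Fin q => x ℓ s.1) (s.2 i)))| ≤
        |c| + supNorm t := fun i t x => hbound _ _ fun s => exp_siteMessage_bounds t _ _
  have T2 := nested_sum μ (Measure.pi fun _ : Fin q => Q)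
    (fun (i : Fin N) (z : Crest.ProbabilityR.Diluted.Inter (q + 1) × (Fin q → A → ℝ)) =>
      Real.log (∑ s, G s * Real.exp (siteMessage z.1 (fun ℓ : Fin q => z.2 ℓ s.1) (s.2 i)))) hm2
    (fun t => |c| + supNorm t) ((integrable_const |c|).add hμ) hb2 (N : ℝ)⁻¹
  rw [T1]
  refine key.trans (le_of_eq ?_)
  exact T2.symm

/-- The key inequality in the form of the Part U interface. -/
theorem KI (p : ℕ) (hp : Even p) (hp2 : 2 ≤ p) (μ : Measure (Inter p)) [IsProbabilityMeasure μ]
    (hμ : Integrable (fun t => supNorm t) μ) (hfac : HasFactorization p μ)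
    {A : Type} [Fintype A] [Nonempty A] (N : ℕ) (hN : 0 < N) (G : A × (Fin N → Bool) → ℝ)
    (hG : ∀ s, 0 < G s) (Q : Measure (A → ℝ)) [IsProbabilityMeasure Q] :
    (1 / (p : ℝ)) * ∫ t, ((Fintype.card (Fin p → Fin N) : ℝ)⁻¹ * ∑ I : Fin p → Fin N,
        Real.log (∑ s, G s * Real.exp (t fun ℓ => s.2 (I ℓ)))) ∂μ +
      (((p : ℝ) - 1) / p) * ∫ t, ∫ x, Real.log (∑ s, G s * edgeTerm t fun ℓ => x ℓ s.1)
          ∂(Measure.pi fun _ : Fin p => Q) ∂μ ≤
    ∫ t, ∫ x, ((N : ℝ)⁻¹ * ∑ i : Fin N,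
        Real.log (∑ s, G s * Real.exp (siteMessage t (fun ℓ => x ℓ s.1) (s.2 i))))
          ∂(Measure.pi fun _ : Fin (p - 1) => Q) ∂μ :=
  kiProp_inside (by omega) μ hμ (kiProp_of_factorization hp (by omega) μ hμ hfac) N hN G hG Q

end Crest.Agent.R141
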