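import Mathlib

/-!
Row 141, Part L, section 2.3: the outer randomness (helper354).

`D = I → Option C` (`I` = steps, `C` = coordinates) with the product law giving `none` the weight
`1/2` and every `some c` the weight `1 / (2 |C|)`.

* `palm` : the exchange (Palm) formula.
* `exchange`, `exchange_prod` : its consequences (S1).
* `exists_selection` : selection of a good null step (S2).
* `abs_E_sub_le` : comparison of the laws for `Fin (N+1) × B` and `Fin N × B` (S3).
-/

set_option autoImplicit false

namespace Crest.Agent.R141.Outer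

open Finset

/-! ### product weights -/

section product

variable {I O : Type*} [Fintype I] [DecidableEq I] [Fintype O]

/-- expectation with respect to the product of the weights `W k`. -/
noncomputable def EW (W : I → O → ℝ) (F : (I → O) → ℝ) : ℝ :=
  ∑ d : I → O, (∏ k, W k (d k)) * F d

theorem EW_congr (W : I → O → ℝ) {F G : (I → O) → ℝ} (h : ∀ d, F d = G d) : EW W F = EW W G := by
  unfold EW
  exact Finset.sum_congr rfl fun d _ => by rw [h d]

theorem EW_mono {W : I → O → ℝ} (hW : ∀ k o, 0 ≤ W k o) {F G : (I → O) → ℝ}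
    (h : ∀ d, F d ≤ G d) : EW W F ≤ EW W G :=
  Finset.sum_le_sum fun d _ =>
    mul_le_mul_of_nonneg_left (h d) (Finset.prod_nonneg fun k _ => hW k _)

theorem EW_add (W : I → O → ℝ) (F G : (I → O) → ℝ) :
    EW W (fun d => F d + G d) = EW W F + EW W G := by
  simp [EW, mul_add, Finset.sum_add_distrib]

theorem EW_sub (W : I → O → ℝ) (F G : (I → O) → ℝ) :
    EW W (fun d => F d - G d) = EW W F - EW W G := by
  simp [EW, mul_sub, Finset.sum_sub_distrib]

theorem EW_smul (W : I → O → ℝ) (c : ℝ) (F : (I → O) → ℝ) :
    EW W (fun d => c * F d) = c * EW W F := by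
  unfold EW
  rw [Finset.mul_sum]
  exact Finset.sum_congr rfl fun d _ => by ring

theorem EW_sum {ι : Type*} (s : Finset ι) (W : I → O → ℝ) (F : ι → (I → O) → ℝ) :
    EW W (fun d => ∑ i ∈ s, F i d) = ∑ i ∈ s, EW W (F i) := by
  unfold EW
  rw [Finset.sum_comm]
  exact Finset.sum_congr rfl fun d _ => by rw [Finset.mul_sum]

theorem EW_const {W : I → O → ℝ} (hW : ∀ k, ∑ o, W k o = 1) (c : ℝ) :
    EW W (fun _ => c) = c := by
  unfold EW
  rw [← Finset.sum_mul, ← Fintype.prod_sum (fun k o => W k o)]
  simp [hW]

theorem abs_EW_le {W : I → O → ℝ} (hW0 : ∀ k o, 0 ≤ W k o) (hW : ∀ k, ∑ o, W k o = 1)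
    {F : (I → O) → ℝ} {c : ℝ} (h : ∀ d, |F d| ≤ c) : |EW W F| ≤ c := by
  rw [abs_le]
  constructor
  · have := EW_mono hW0 (F := fun _ => -c) (G := F) fun d => (abs_le.1 (h d)).1
    rwa [EW_const hW] at this
  · have := EW_mono hW0 (F := F) (G := fun _ => c) fun d => (abs_le.1 (h d)).2
    rwa [EW_const hW] at this

/-- Replace the weight of the coordinate `k` by `P`: resample this coordinate. -/
theorem EW_update (W : I → O → ℝ) (k : I) (hk : ∑ o, W k o = 1) (P : O → ℝ)
    (F : (I → O) → ℝ) :
    EW (Function.update W k P) F = EW W (fun d => ∑ o, P o * F (Function.update d k o)) := by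
  classical
  -- the involution `(d, o) ↦ (update d k o, d k)`
  let e : (I → O) × O ≃ (I → O) × O :=
    { toFun := fun x => (Function.update x.1 k x.2, x.1 k)
      invFun := fun x => (Function.update x.1 k x.2, x.1 k)
      left_inv := by rintro ⟨d, o⟩; simp
      right_inv := by rintro ⟨d, o⟩; simp }
  have hprod : ∀ (V : I → O → ℝ) (d : I → O),
      (∏ j, V j (d j)) = V k (d k) * ∏ j ∈ Finset.univ.erase k, V j (d j) := by
    intro V d
    exact (Finset.mul_prod_erase Finset.univ (fun j => V j (d j)) (Finset.mem_univ k)).symm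
  have h1 : EW W (fun d => ∑ o, P o * F (Function.update d k o)) =
      ∑ x : (I → O) × O, (∏ j, W j (x.1 j)) * (P x.2 * F (Function.update x.1 k x.2)) := by
    unfold EW
    rw [Fintype.sum_prod_type]
    exact Finset.sum_congr rfl fun d _ => by rw [Finset.mul_sum]
  have h2 : (∑ x : (I → O) × O, (∏ j, W j (x.1 j)) * (P x.2 * F (Function.update x.1 k x.2))) =
      ∑ x : (I → O) × O, (∏ j, W j ((Function.update x.1 k x.2) j)) * (P (x.1 k) * F x.1) := by
    refine Fintype.sum_equiv e _ _ fun x => ?_
    simp [e]
  rw [h1, h2, Fintype.sum_prod_type]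
  unfold EW
  refine Finset.sum_congr rfl fun d _ => ?_
  have h3 : ∀ o, (∏ j, W j ((Function.update d k o) j)) =
      W k o * ∏ j ∈ Finset.univ.erase k, W j (d j) := by
    intro o
    rw [hprod W]
    congr 1
    · simp
    · refine Finset.prod_congr rfl fun j hj => ?_
      rw [Function.update_of_ne (Finset.ne_of_mem_erase hj)]
  simp only [h3]
  rw [hprod (Function.update W k P)]
  simp only [Function.update_self]
  have h4 : (∏ j ∈ Finset.univ.erase k, (Function.update W k P) j (d j)) =
      ∏ j ∈ Finset.univ.erase k, W j (d j) := by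
    refine Finset.prod_congr rfl fun j hj => ?_
    rw [Function.update_of_ne (Finset.ne_of_mem_erase hj)]
  rw [h4]
  have h5 : (∑ o, W k o * (∏ j ∈ Finset.univ.erase k, W j (d j)) * (P (d k) * F d)) =
      (∑ o, W k o) * ((∏ j ∈ Finset.univ.erase k, W j (d j)) * (P (d k) * F d)) := by
    rw [Finset.sum_mul]
    exact Finset.sum_congr rfl fun o _ => by ring
  rw [h5, hk]
  ring

/-- resampling a coordinate does not change the expectation. -/
theorem EW_resample (W : I → O → ℝ) (k : I) (hk : ∑ o, W k o = 1) (F : (I → O) → ℝ) :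
    EW W F = EW W (fun d => ∑ o, W k o * F (Function.update d k o)) := by
  rw [← EW_update W k hk (W k) F, Function.update_eq_self]

/-- Comparison of two product laws for a function with bounded differences. -/
theorem abs_EW_sub_EW_le (P Q : O → ℝ) (hP0 : ∀ o, 0 ≤ P o) (hQ0 : ∀ o, 0 ≤ Q o)
    (hP : ∑ o, P o = 1) (hQ : ∑ o, Q o = 1) {δ : ℝ} {F : (I → O) → ℝ}
    (hF : ∀ d k o, |F (Function.update d k o) - F d| ≤ δ) :
    |EW (fun _ : I => P) F - EW (fun _ : I => Q) F| ≤
      (Fintype.card I : ℝ) * ((∑ o, |P o - Q o|) * δ) := by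
  classical
  have key : ∀ S : Finset I,
      |EW (fun k => if k ∈ S then P else Q) F - EW (fun _ : I => Q) F| ≤
        (S.card : ℝ) * ((∑ o, |P o - Q o|) * δ) := by
    intro S
    induction S using Finset.induction_on with
    | empty => simp
    | insert a S ha ih =>
      set W : I → O → ℝ := fun k => if k ∈ S then P else Q with hW
      have hW1 : ∀ k, ∑ o, W k o = 1 := by
        intro k; simp only [hW]; split_ifs <;> assumption
      have hW0 : ∀ k o, 0 ≤ W k o := by
        intro k o; simp only [hW]; split_ifs
        · exact hP0 o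
        · exact hQ0 o
      have hWa : W a = Q := by simp [hW, ha]
      have hup : (fun k => if k ∈ insert a S then P else Q) = Function.update W a P := by
        funext k
        by_cases hk : k = a
        · subst hk; simp
        · simp [hW, Finset.mem_insert, hk]
      have h1 : EW (fun k => if k ∈ insert a S then P else Q) F - EW W F =
          EW W (fun d => ∑ o, (P o - Q o) * (F (Function.update d a o) - F d)) := by
        rw [hup, EW_update W a (hW1 a)]
        conv_lhs => rw [EW_resample W a (hW1 a) F]
        rw [hWa, ← EW_sub]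
        refine EW_congr W fun d => ?_
        have e1 : ∑ o, (P o - Q o) * (F (Function.update d a o) - F d) =
            ∑ o, (P o - Q o) * F (Function.update d a o) - (∑ o, (P o - Q o)) * F d := by
          rw [Finset.sum_mul, ← Finset.sum_sub_distrib]
          exact Finset.sum_congr rfl fun o _ => by ring
        rw [e1, Finset.sum_sub_distrib (f := P) (g := Q), hP, hQ, sub_self, zero_mul, sub_zero,
          ← Finset.sum_sub_distrib]
        exact Finset.sum_congr rfl fun o _ => by ring
      have h2 : |EW (fun k => if k ∈ insert a S then P else Q) F - EW W F| ≤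
          (∑ o, |P o - Q o|) * δ := by
        rw [h1]
        refine abs_EW_le hW0 hW1 fun d => ?_
        rw [Finset.sum_mul]
        refine (Finset.abs_sum_le_sum_abs _ _).trans (Finset.sum_le_sum fun o _ => ?_)
        rw [abs_mul]
        exact mul_le_mul_of_nonneg_left (hF d a o) (abs_nonneg _)
      have h3 : |EW (fun k => if k ∈ insert a S then P else Q) F - EW (fun _ : I => Q) F| ≤
          |EW (fun k => if k ∈ insert a S then P else Q) F - EW W F| +
            |EW W F - EW (fun _ : I => Q) F| := by
        have := abs_sub_le (EW (fun k => if k ∈ insert a S then P else Q) F) (EW W F)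
          (EW (fun _ : I => Q) F)
        exact this
      rw [Finset.card_insert_of_notMem ha]
      push_cast
      have := h3.trans (add_le_add h2 ih)
      linarith
  have := key Finset.univ
  simpa using this

/-- push-forward of a product law by a map of the factors. -/
theorem EW_map {O' : Type*} [Fintype O'] [DecidableEq O] (q : O' → ℝ) (e : O' → O)
    (F : (I → O) → ℝ) :
    EW (fun _ : I => q) (fun d' => F (fun k => e (d' k))) =
      EW (fun _ : I => fun o => ∑ o' ∈ Finset.univ.filter (fun o' => e o' = o), q o') F := by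
  classical
  unfold EW
  have h1 : ∀ d : I → O, (∏ k, ∑ o' ∈ Finset.univ.filter (fun o' => e o' = d k), q o') =
      ∑ d' ∈ Finset.univ.filter (fun d' : I → O' => (fun k => e (d' k)) = d),
        ∏ k, q (d' k) := by
    intro d
    rw [Finset.prod_univ_sum]
    refine Finset.sum_congr ?_ fun _ _ => rfl
    ext d'
    simp only [Fintype.mem_piFinset, Finset.mem_filter, Finset.mem_univ, true_and]
    exact ⟨fun h => funext h, fun h k => congrFun h k⟩
  simp only [h1]
  rw [← Finset.sum_fiberwise (s := (Finset.univ : Finset (I → O')))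
    (g := fun d' : I → O' => fun k => e (d' k))]
  refine Finset.sum_congr rfl fun d _ => ?_
  rw [Finset.sum_mul]
  refine Finset.sum_congr rfl fun d' hd' => ?_
  rw [(Finset.mem_filter.1 hd').2]

end product

/-! ### the outer randomness -/

section outer

variable {I C : Type*} [Fintype I] [DecidableEq I] [Fintype C]

/-- weight of one step. -/
noncomputable def w1 (o : Option C) : ℝ :=
  match o with
  | none => 1 / 2
  | some _ => 1 / (2 * (Fintype.card C : ℝ))

/-- product weight. -/
noncomputable def w (d : I → Option C) : ℝ := ∏ k, w1 (d k)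

/-- expectation over the outer randomness. -/
noncomputable def E (F : (I → Option C) → ℝ) : ℝ := ∑ d, w d * F d

theorem E_eq_EW (F : (I → Option C) → ℝ) : E F = EW (fun _ : I => w1) F := rfl

theorem w1_nonneg (o : Option C) : 0 ≤ w1 o := by
  unfold w1
  split <;> positivity

omit [DecidableEq I] in
theorem w_nonneg (d : I → Option C) : 0 ≤ w d := Finset.prod_nonneg fun _ _ => w1_nonneg _

theorem sum_w1 [Nonempty C] : ∑ o : Option C, w1 o = 1 := by
  rw [Fintype.sum_option]
  simp only [w1, Finset.sum_const, Finset.card_univ, nsmul_eq_mul]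
  have : (0 : ℝ) < Fintype.card C := by exact_mod_cast Fintype.card_pos
  field_simp
  ring

theorem E_const [Nonempty C] (c : ℝ) : E (fun _ : I → Option C => c) = c := by
  rw [E_eq_EW]; exact EW_const (fun _ => sum_w1) c

theorem E_mono {F G : (I → Option C) → ℝ} (h : ∀ d, F d ≤ G d) : E F ≤ E G := by
  rw [E_eq_EW, E_eq_EW]; exact EW_mono (fun _ o => w1_nonneg o) h

theorem E_add (F G : (I → Option C) → ℝ) : E (fun d => F d + G d) = E F + E G := by
  rw [E_eq_EW, E_eq_EW, E_eq_EW]; exact EW_add _ F G

theorem E_smul (c : ℝ) (F : (I → Option C) → ℝ) : E (fun d => c * F d) = c * E F := by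
  rw [E_eq_EW, E_eq_EW]; exact EW_smul _ c F

theorem E_sum {ι : Type*} (s : Finset ι) (F : ι → (I → Option C) → ℝ) :
    E (fun d => ∑ i ∈ s, F i d) = ∑ i ∈ s, E (F i) := by
  simp only [E_eq_EW]; exact EW_sum s _ F

theorem E_resample [Nonempty C] (k : I) (F : (I → Option C) → ℝ) :
    E F = E (fun d => ∑ o, w1 o * F (Function.update d k o)) := by
  rw [E_eq_EW, E_eq_EW]; exact EW_resample _ k sum_w1 F

/-- The Palm (exchange) formula. -/
theorem palm [Nonempty C] (k : I) (F : C → (I → Option C) → ℝ) :
    (∑ d, w d * (if d k = none then ∑ c, F c (Function.update d k (some c)) else 0)) =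
      (Fintype.card C : ℝ) * ∑ d, w d * ((d k).elim 0 fun c => F c d) := by
  have hC : (0 : ℝ) < Fintype.card C := by exact_mod_cast Fintype.card_pos
  have h1 := E_resample k (fun d : I → Option C =>
    if d k = none then ∑ c, F c (Function.update d k (some c)) else 0)
  have h2 := E_resample k (fun d : I → Option C => ((d k).elim 0 fun c => F c d))
  have e1 : (∑ d, w d * (if d k = none then ∑ c, F c (Function.update d k (some c)) else 0)) =
      E (fun d : I → Option C =>
        if d k = none then ∑ c, F c (Function.update d k (some c)) else 0) := rfl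
  have e2 : (∑ d, w d * ((d k).elim 0 fun c => F c d)) =
      E (fun d : I → Option C => ((d k).elim 0 fun c => F c d)) := rfl
  rw [e1, e2, h1, h2, ← E_smul]
  unfold E
  refine Finset.sum_congr rfl fun d _ => ?_
  congr 1
  show (∑ o, w1 o * if Function.update d k o k = none then
      ∑ c, F c (Function.update (Function.update d k o) k (some c)) else 0) =
    (Fintype.card C : ℝ) * ∑ o, w1 o *
      ((Function.update d k o k).elim 0 fun c => F c (Function.update d k o))
  rw [Fintype.sum_option, Fintype.sum_option]
  simp only [Option.elim_none, Option.elim_some, Function.update_self, Function.update_idem, w1, if_true, reduceCtorEq, if_false,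
    mul_zero, Finset.sum_const_zero, add_zero, zero_add]
  rw [Finset.mul_sum, Finset.mul_sum]
  refine Finset.sum_congr rfl fun c _ => ?_
  field_simp

/-- (S1) exchange. -/
theorem exchange [Nonempty C] (k : I) (F : (I → Option C) → ℝ) :
    (∑ d, w d * (if d k = none then
      (Fintype.card C : ℝ)⁻¹ * ∑ c, F (Function.update d k (some c)) else 0)) =
      ∑ d, w d * (if d k = none then 0 else F d) := by
  have hC : (0 : ℝ) < Fintype.card C := by exact_mod_cast Fintype.card_pos
  have h := palm k (fun _ : C => F)
  have e1 : (∑ d, w d * (if d k = none then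
      (Fintype.card C : ℝ)⁻¹ * ∑ c, F (Function.update d k (some c)) else 0)) =
      (Fintype.card C : ℝ)⁻¹ *
        ∑ d, w d * (if d k = none then ∑ c, F (Function.update d k (some c)) else 0) := by
    rw [Finset.mul_sum]
    refine Finset.sum_congr rfl fun d _ => ?_
    split_ifs
    · ring
    · simp
  rw [e1, h, ← mul_assoc, inv_mul_cancel₀ hC.ne', one_mul]
  refine Finset.sum_congr rfl fun d _ => ?_
  congr 1
  cases h : d k <;> simp

/-- (S1) exchange for coordinates `C = J × B` and a fixed type `b`. -/
theorem exchange_prod {J B : Type*} [Fintype J] [Fintype B] [DecidableEq B] [Nonempty J]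
    [Nonempty B] (k : I) (b : B) (F : J → (I → Option (J × B)) → ℝ) :
    (∑ d, w d * (if d k = none then
      (Fintype.card J : ℝ)⁻¹ * ∑ j, F j (Function.update d k (some (j, b))) else 0)) =
      (Fintype.card B : ℝ) * ∑ d, w d *
        ((d k).elim 0 fun c => if c.2 = b then F c.1 d else 0) := by
  have hJ : (0 : ℝ) < Fintype.card J := by exact_mod_cast Fintype.card_pos
  have h := palm k (fun (c : J × B) (d : I → Option (J × B)) => if c.2 = b then F c.1 d else 0)
  have e1 : (∑ d, w d * (if d k = none then
      (Fintype.card J : ℝ)⁻¹ * ∑ j, F j (Function.update d k (some (j, b))) else 0)) =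
      (Fintype.card J : ℝ)⁻¹ * ∑ d, w d * (if d k = none then
        ∑ c : J × B, (if c.2 = b then F c.1 (Function.update d k (some c)) else 0) else 0) := by
    rw [Finset.mul_sum]
    refine Finset.sum_congr rfl fun d _ => ?_
    split_ifs
    · have : (∑ c : J × B, (if c.2 = b then F c.1 (Function.update d k (some c)) else 0)) =
          ∑ j, F j (Function.update d k (some (j, b))) := by
        rw [Fintype.sum_prod_type]
        refine Finset.sum_congr rfl fun j _ => ?_
        simp
      rw [this]
      ring
    · simp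
  rw [e1, h, ← mul_assoc, Fintype.card_prod]
  congr 1
  push_cast
  field_simp

/-- number of null steps in `K` has variance at most `|K| / 4`. -/
theorem E_null_sq [Nonempty C] (K : Finset I) :
    E (fun d : I → Option C => ((∑ k ∈ K, if d k = none then (1 : ℝ) else 0) -
      (K.card : ℝ) / 2) ^ 2) = (K.card : ℝ) / 4 := by
  classical
  have hx : ∀ (k : I), E (fun d : I → Option C => (if d k = none then (1 : ℝ) else 0)) = 1 / 2 := by
    intro k
    rw [E_resample k]
    have : ∀ d : I → Option C, (∑ o : Option C, w1 o *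
        (if (Function.update d k o) k = none then (1 : ℝ) else 0)) = 1 / 2 := by
      intro d
      rw [Fintype.sum_option]
      simp [w1]
    rw [E_eq_EW, EW_congr _ this, ← E_eq_EW, E_const]
  have hxy : ∀ (k l : I), k ≠ l → E (fun d : I → Option C =>
      (if d k = none then (1 : ℝ) else 0) * (if d l = none then (1 : ℝ) else 0)) = 1 / 4 := by
    intro k l hkl
    rw [E_resample k]
    have : ∀ d : I → Option C, (∑ o : Option C, w1 o *
        ((if (Function.update d k o) k = none then (1 : ℝ) else 0) *
          (if (Function.update d k o) l = none then (1 : ℝ) else 0))) =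
          1 / 2 * (if d l = none then (1 : ℝ) else 0) := by
      intro d
      rw [Fintype.sum_option]
      simp [w1, Function.update_of_ne hkl.symm]
    rw [E_eq_EW, EW_congr _ this, ← E_eq_EW, E_smul, hx]
    norm_num
  have hexp : ∀ d : I → Option C, ((∑ k ∈ K, if d k = none then (1 : ℝ) else 0) -
      (K.card : ℝ) / 2) ^ 2 = ∑ k ∈ K, ∑ l ∈ K,
        (((if d k = none then (1 : ℝ) else 0) * (if d l = none then (1 : ℝ) else 0)) +
          (-(1 / 2)) * ((if d k = none then (1 : ℝ) else 0)) +
          (-(1 / 2)) * ((if d l = none then (1 : ℝ) else 0)) + 1 / 4) := by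
    intro d
    have h1 : (∑ k ∈ K, if d k = none then (1 : ℝ) else 0) - (K.card : ℝ) / 2 =
        ∑ k ∈ K, ((if d k = none then (1 : ℝ) else 0) - 1 / 2) := by
      rw [Finset.sum_sub_distrib]
      simp only [Finset.sum_const, nsmul_eq_mul]
      ring
    rw [h1, sq, Finset.sum_mul_sum]
    refine Finset.sum_congr rfl fun k _ => Finset.sum_congr rfl fun l _ => ?_
    ring
  rw [E_eq_EW, EW_congr _ hexp, EW_sum]
  have hkl : ∀ k ∈ K, ∀ l ∈ K, EW (fun _ : I => w1) (fun d : I → Option C =>
        (((if d k = none then (1 : ℝ) else 0) * (if d l = none then (1 : ℝ) else 0)) +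
          (-(1 / 2)) * ((if d k = none then (1 : ℝ) else 0)) +
          (-(1 / 2)) * ((if d l = none then (1 : ℝ) else 0)) + 1 / 4)) =
      if k = l then 1 / 4 else 0 := by
    intro k _ l _
    simp only [← E_eq_EW]
    rw [E_add, E_add, E_add, E_smul, E_smul, hx, hx, E_const]
    split_ifs with h
    · subst h
      have : (fun d : I → Option C => (if d k = none then (1 : ℝ) else 0) *
          (if d k = none then (1 : ℝ) else 0)) =
          fun d : I → Option C => (if d k = none then (1 : ℝ) else 0) := by
        funext d; split_ifs <;> simp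
      rw [this, hx]
      norm_num
    · rw [hxy k l h]
      norm_num
  have : (∑ k ∈ K, EW (fun _ : I => w1) (fun d : I → Option C => ∑ l ∈ K,
        (((if d k = none then (1 : ℝ) else 0) * (if d l = none then (1 : ℝ) else 0)) +
          (-(1 / 2)) * ((if d k = none then (1 : ℝ) else 0)) +
          (-(1 / 2)) * ((if d l = none then (1 : ℝ) else 0)) + 1 / 4))) =
      ∑ k ∈ K, ∑ l ∈ K, (if k = l then (1 / 4 : ℝ) else 0) := by
    refine Finset.sum_congr rfl fun k hk => ?_
    rw [EW_sum]
    exact Finset.sum_congr rfl fun l hl => hkl k hk l hl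
  rw [this]
  simp only [Finset.sum_ite_eq]
  rw [Finset.sum_congr rfl (fun k hk => if_pos hk)]
  simp only [Finset.sum_const, nsmul_eq_mul]
  ring

/-- (S2) selection of a good null step. -/
theorem exists_selection [Nonempty C] (K : Finset I) (hK : 0 < K.card) {M S : ℝ}
    (B : I → (I → Option C) → ℝ) (hB0 : ∀ k d, 0 ≤ B k d) (hBM : ∀ k ∈ K, ∀ d, B k d ≤ M)
    (hS : ∑ k ∈ K, E (fun d : I → Option C => (if d k = none then B k d else 0)) ≤ S) :
    ∃ t : (I → Option C) → I, (∀ d, t d ∈ K) ∧
      (∀ d : I → Option C, (∃ k ∈ K, d k = none) → d (t d) = none) ∧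
      E (fun d => B (t d) d) ≤ 4 * S / K.card + 4 * M / K.card := by
  classical
  have hKn : K.Nonempty := Finset.card_pos.1 hK
  have hT : (0 : ℝ) < K.card := by exact_mod_cast hK
  have hM : 0 ≤ M := by
    obtain ⟨k, hk⟩ := hKn
    exact (hB0 k (fun _ => none)).trans (hBM k hk _)
  -- choose the best null step
  have hex : ∀ d : I → Option C, ∃ k ∈ K, ((∃ k ∈ K, d k = none) → d k = none) ∧
      (∀ l ∈ K, d l = none → B k d ≤ B l d) := by
    intro d
    by_cases h : ∃ k ∈ K, d k = none
    · have hne : (K.filter (fun k => d k = none)).Nonempty := by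
        obtain ⟨k, hk, hk2⟩ := h
        exact ⟨k, Finset.mem_filter.2 ⟨hk, hk2⟩⟩
      obtain ⟨k, hk, hmin⟩ := Finset.exists_min_image _ (fun k => B k d) hne
      rw [Finset.mem_filter] at hk
      exact ⟨k, hk.1, fun _ => hk.2, fun l hl hl2 => hmin l (Finset.mem_filter.2 ⟨hl, hl2⟩)⟩
    · obtain ⟨k, hk⟩ := hKn
      exact ⟨k, hk, fun h' => absurd h' h, fun l hl hl2 => absurd ⟨l, hl, hl2⟩ h⟩
  choose t ht1 ht2 ht3 using hex
  refine ⟨t, ht1, ht2, ?_⟩
  set n : (I → Option C) → ℝ := fun d => ∑ k ∈ K, if d k = none then (1 : ℝ) else 0 with hn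
  set Z : (I → Option C) → ℝ := fun d => ∑ k ∈ K, if d k = none then B k d else 0 with hZ
  have hZ0 : ∀ d, 0 ≤ Z d := fun d => Finset.sum_nonneg fun k _ => by
    split_ifs
    · exact hB0 k d
    · exact le_rfl
  -- pointwise bound
  have hpt : ∀ d, B (t d) d ≤ 4 / K.card * Z d +
      16 * M / (K.card : ℝ) ^ 2 * (n d - (K.card : ℝ) / 2) ^ 2 := by
    intro d
    have h1 : n d * B (t d) d ≤ Z d := by
      simp only [hn, hZ]
      rw [Finset.sum_mul]
      refine Finset.sum_le_sum fun k hk => ?_
      split_ifs with hk2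
      · rw [one_mul]; exact ht3 d k hk hk2
      · rw [zero_mul]
    have hb0 := hB0 (t d) d
    have hbM := hBM (t d) (ht1 d) d
    by_cases hcase : (K.card : ℝ) / 4 ≤ n d
    · have h2 : (K.card : ℝ) / 4 * B (t d) d ≤ Z d :=
        (mul_le_mul_of_nonneg_right hcase hb0).trans h1
      have h3 : B (t d) d ≤ 4 / K.card * Z d := by
        rw [div_mul_eq_mul_div, le_div_iff₀ hT]
        linarith
      have h4 : 0 ≤ 16 * M / (K.card : ℝ) ^ 2 * (n d - (K.card : ℝ) / 2) ^ 2 := by positivity
      linarith
    · have hlt : n d < (K.card : ℝ) / 4 := lt_of_not_ge hcase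
      have h5 : ((K.card : ℝ) / 4) ^ 2 ≤ (n d - (K.card : ℝ) / 2) ^ 2 := by
        have : (K.card : ℝ) / 4 ≤ (K.card : ℝ) / 2 - n d := by linarith
        have h6 := mul_self_le_mul_self (by positivity) this
        nlinarith
      have h7 : M ≤ 16 * M / (K.card : ℝ) ^ 2 * (n d - (K.card : ℝ) / 2) ^ 2 := by
        rw [div_mul_eq_mul_div, le_div_iff₀ (by positivity)]
        nlinarith
      have h8 : 0 ≤ 4 / (K.card : ℝ) * Z d := mul_nonneg (by positivity) (hZ0 d)
      linarith
  have h9 := E_mono hpt
  have h10 : E Z ≤ S := by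
    have : E Z = ∑ k ∈ K, E (fun d : I → Option C => (if d k = none then B k d else 0)) := by
      rw [← E_sum]
    rw [this]; exact hS
  rw [E_add, E_smul, E_smul] at h9
  have h11 : E (fun d : I → Option C => (n d - (K.card : ℝ) / 2) ^ 2) = (K.card : ℝ) / 4 :=
    E_null_sq K
  rw [h11] at h9
  calc E (fun d => B (t d) d) ≤ _ := h9
    _ ≤ 4 / (K.card : ℝ) * S + 16 * M / (K.card : ℝ) ^ 2 * ((K.card : ℝ) / 4) := by
        have := mul_le_mul_of_nonneg_left h10 (show (0 : ℝ) ≤ 4 / (K.card : ℝ) by positivity)
        linarith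
    _ = 4 * S / K.card + 4 * M / K.card := by
        field_simp
        ring

end outer

/-! ### comparison of `N` and `N + 1` -/

section compare

variable {I B : Type*} [Fintype I] [DecidableEq I] [Fintype B] [Nonempty B]

/-- embedding of the coordinates for `N` sites into those for `N + 1` sites. -/
def emb {N : ℕ} (o : Option (Fin N × B)) : Option (Fin (N + 1) × B) :=
  o.map fun c => (c.1.castSucc, c.2)

/-- (S3) comparison of the laws of the outer randomness for `N` and `N + 1` sites. -/
theorem abs_E_sub_le {N : ℕ} (hN : 0 < N) {δ : ℝ} (F : (I → Option (Fin (N + 1) × B)) → ℝ)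
    (hF : ∀ d k o, |F (Function.update d k o) - F d| ≤ δ) :
    |E F - E (fun d' : I → Option (Fin N × B) => F (fun k => emb (d' k)))| ≤
      (Fintype.card I : ℝ) * (δ / ((N : ℝ) + 1)) := by
  classical
  have : Nonempty (Fin N) := ⟨⟨0, hN⟩⟩
  have hmap := EW_map (I := I) (w1 (C := Fin N × B)) (emb (B := B) (N := N)) F
  rw [E_eq_EW, E_eq_EW, hmap]
  set Q : Option (Fin (N + 1) × B) → ℝ := fun o =>
    ∑ o' ∈ Finset.univ.filter (fun o' : Option (Fin N × B) => emb o' = o), w1 o' with hQ
  have hQ0 : ∀ o, 0 ≤ Q o := fun o => Finset.sum_nonneg fun _ _ => w1_nonneg _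
  have hQ1 : ∑ o, Q o = 1 := by
    simp only [hQ]
    rw [Finset.sum_fiberwise (s := (Finset.univ : Finset (Option (Fin N × B))))
      (g := fun o' => emb o')]
    exact sum_w1
  have hQnone : Q none = 1 / 2 := by
    simp only [hQ]
    have : (Finset.univ.filter (fun o' : Option (Fin N × B) => emb o' = none)) = {none} := by
      ext o'
      cases o' <;> simp [emb]
    rw [this, Finset.sum_singleton]
    rfl
  have hQcast : ∀ (i : Fin N) (b : B), Q (some (i.castSucc, b)) =
      1 / (2 * ((N : ℝ) * (Fintype.card B : ℝ))) := by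
    intro i b
    simp only [hQ]
    have : (Finset.univ.filter (fun o' : Option (Fin N × B) =>
        emb o' = some (i.castSucc, b))) = {some (i, b)} := by
      ext o'
      rw [Finset.mem_filter]
      cases o' with
      | none => simp [emb]
      | some c =>
        simp only [emb, Option.map_some, Finset.mem_univ, true_and,
          Option.some.injEq, Prod.mk.injEq, Fin.castSucc_inj, Finset.mem_singleton]
        constructor
        · rintro ⟨h1, h2⟩; exact Prod.ext h1 h2
        · rintro rfl; exact ⟨rfl, rfl⟩
    rw [this, Finset.sum_singleton]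
    simp [w1, Fintype.card_prod]
  have hQlast : ∀ b : B, Q (some (Fin.last N, b)) = 0 := by
    intro b
    simp only [hQ]
    apply Finset.sum_eq_zero
    intro o' ho'
    exfalso
    rw [Finset.mem_filter] at ho'
    have h := ho'.2
    cases o' with
    | none => simp [emb] at h
    | some c =>
      simp only [emb, Option.map_some, Option.some.injEq, Prod.mk.injEq] at h
      exact (Fin.castSucc_lt_last c.1).ne h.1
  have hsum : ∑ o, |w1 (C := Fin (N + 1) × B) o - Q o| = 1 / ((N : ℝ) + 1) := by
    have hNpos : (0 : ℝ) < N := by exact_mod_cast hN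
    have hBpos : (0 : ℝ) < Fintype.card B := by exact_mod_cast Fintype.card_pos
    rw [Fintype.sum_option, Fintype.sum_prod_type, Fin.sum_univ_castSucc]
    simp only [hQnone, hQcast, hQlast]
    have hw : ∀ c : Fin (N + 1) × B, w1 (some c) =
        1 / (2 * (((N : ℝ) + 1) * (Fintype.card B : ℝ))) := by
      intro c
      simp [w1, Fintype.card_prod]
    simp only [hw]
    have hw0 : w1 (C := Fin (N + 1) × B) none = 1 / 2 := rfl
    rw [hw0]
    have habs : |(1 : ℝ) / (2 * (((N : ℝ) + 1) * (Fintype.card B : ℝ))) -
        1 / (2 * ((N : ℝ) * (Fintype.card B : ℝ)))| =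
        1 / (2 * ((N : ℝ) * (((N : ℝ) + 1) * (Fintype.card B : ℝ)))) := by
      rw [abs_sub_comm, abs_of_nonneg]
      · field_simp
        ring
      · rw [sub_nonneg]
        apply one_div_le_one_div_of_le (by positivity)
        nlinarith
    rw [habs]
    simp only [sub_self, abs_zero, sub_zero, Finset.sum_const, Finset.card_univ, Fintype.card_fin,
      nsmul_eq_mul]
    rw [abs_of_pos (by positivity)]
    field_simp
    ring
  have hfin := abs_EW_sub_EW_le (I := I) (w1 (C := Fin (N + 1) × B)) Q (fun o => w1_nonneg o) hQ0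
    sum_w1 hQ1 hF
  rw [hsum] at hfin
  calc _ ≤ _ := hfin
    _ = (Fintype.card I : ℝ) * (δ / ((N : ℝ) + 1)) := by ring

end compare

end Crest.Agent.R141.Outer
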