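import Crest.Agent.R141.Outer
import Crest.Agent.R141.SysEmb

/-!
Row 141: the outer randomness of `Sys.lean` is the one of `Outer.lean` (helper354).
-/

set_option autoImplicit false

namespace Crest.Agent.R141

open Finset

theorem dw1_eq (p : Par) (N : ℕ) (o : Option (Crd p N)) : dw1 p N o = Outer.w1 o := by
  cases o with
  | none => rfl
  | some c => simp [dw1, Outer.w1, Fintype.card_prod]

theorem dw_eq (p : Par) (N : ℕ) (d : DD p N) : dw p N d = Outer.w d :=
  Finset.prod_congr rfl fun k _ => dw1_eq p N (d k)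

theorem Ed_eq (p : Par) (N : ℕ) (f : DD p N → ℝ) : Ed p N f = Outer.E f :=
  Finset.sum_congr rfl fun d _ => by rw [dw_eq]

theorem nonempty_Crd (p : Par) {N : ℕ} (hN : 0 < N) : Nonempty (Crd p N) :=
  ⟨(⟨0, hN⟩, none)⟩

theorem card_Crd (p : Par) (N : ℕ) : Fintype.card (Crd p N) = N * (p.nb + 1) := by
  simp [Fintype.card_prod]

/-- Palm formula for the outer randomness of the system. -/
theorem Ed_palm (p : Par) {N : ℕ} (hN : 0 < N) (k : Stp p) (F : Crd p N → DD p N → ℝ) :
    Ed p N (fun d => if d k = none then ∑ c, F c (Function.update d k (some c)) else 0) =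
      ((N : ℝ) * ((p.nb : ℝ) + 1)) * Ed p N (fun d => (d k).elim 0 fun c => F c d) := by
  have := nonempty_Crd p hN
  rw [Ed_eq, Ed_eq]
  have h := Outer.palm k F
  rw [card_Crd] at h
  push_cast at h
  exact h

/-- exchange for a fixed type `b` (`none` = spin, `some b` = gadget). -/
theorem Ed_exchange (p : Par) {N : ℕ} (hN : 0 < N) (k : Stp p) (b : Option (Fin p.nb))
    (F : Fin N → DD p N → ℝ) :
    Ed p N (fun d => if d k = none then
      (N : ℝ)⁻¹ * ∑ j, F j (Function.update d k (some (j, b))) else 0) =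
      ((p.nb : ℝ) + 1) * Ed p N (fun d => (d k).elim 0 fun c => if c.2 = b then F c.1 d else 0) := by
  classical
  have : Nonempty (Fin N) := ⟨⟨0, hN⟩⟩
  rw [Ed_eq, Ed_eq]
  have h := Outer.exchange_prod (J := Fin N) (B := Option (Fin p.nb)) k b F
  simp only [Fintype.card_fin, Fintype.card_option] at h
  push_cast at h
  exact h

/-- selection of a good null step. -/
theorem Ed_selection (p : Par) {N : ℕ} (hN : 0 < N) (K : Finset (Stp p)) (hK : 0 < K.card)
    {M S : ℝ} (B : Stp p → DD p N → ℝ) (hB0 : ∀ k d, 0 ≤ B k d) (hBM : ∀ k ∈ K, ∀ d, B k d ≤ M)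
    (hS : ∑ k ∈ K, Ed p N (fun d => (if d k = none then B k d else 0)) ≤ S) :
    ∃ t : DD p N → Stp p, (∀ d, t d ∈ K) ∧
      (∀ d : DD p N, (∃ k ∈ K, d k = none) → d (t d) = none) ∧
      Ed p N (fun d => B (t d) d) ≤ 4 * S / K.card + 4 * M / K.card := by
  have := nonempty_Crd p hN
  obtain ⟨t, h1, h2, h3⟩ := Outer.exists_selection (C := Crd p N) K hK B hB0 hBM
    (by simpa only [Ed_eq] using hS)
  exact ⟨t, h1, h2, by simpa only [Ed_eq] using h3⟩

/-- comparison of the outer randomness for `N` and `N + 1` sites. -/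
theorem abs_Ed_sub_le (p : Par) {N : ℕ} (hN : 0 < N) {δ : ℝ} (F : DD p (N + 1) → ℝ)
    (hF : ∀ d k o, |F (Function.update d k o) - F d| ≤ δ) :
    |Ed p (N + 1) F - Ed p N (fun d' => F (embD p N d'))| ≤
      ((p.nc : ℝ) * (p.T : ℝ)) * (δ / ((N : ℝ) + 1)) := by
  rw [Ed_eq, Ed_eq]
  have h := Outer.abs_E_sub_le (I := Stp p) (B := Option (Fin p.nb)) hN F hF
  simp only [Fintype.card_prod, Fintype.card_fin] at h
  push_cast at h
  exact h

end Crest.Agent.R141
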