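import Crest.Agent.R141.OuterSys

/-!
Row 141: per-cell form of the selection of null steps (helper354).
-/

set_option autoImplicit false

namespace Crest.Agent.R141

open Finset

/-- selection of a good null step in every cell; on the event that there is no null step the
value is counted as `M`. -/
theorem selection_cell (p : Par) {N : ℕ} (hN : 0 < N) (hT : 0 < p.T) {M S : ℝ}
    (B : Stp p → DD p N → ℝ) (hB0 : ∀ k d, 0 ≤ B k d) (hBM : ∀ k d, B k d ≤ M)
    (hS : ∀ g : Fin p.nc, ∑ t : Fin p.T,
      Ed p N (fun d => (if d (g, t) = none then B (g, t) d else 0)) ≤ S) :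
    ∃ sel : Fin p.nc → DD p N → Fin p.T, ∀ g : Fin p.nc,
      Ed p N (fun d => if d (g, sel g d) = none then B (g, sel g d) d else M) ≤
        4 * S / p.T + 4 * M / p.T := by
  classical
  have hM : 0 ≤ M := by
    have k0 : Stp p := (⟨0, p.hnc⟩, ⟨0, hT⟩)
    exact (hB0 k0 (fun _ => none)).trans (hBM k0 _)
  have key : ∀ g : Fin p.nc, ∃ sel : DD p N → Fin p.T,
      Ed p N (fun d => if d (g, sel d) = none then B (g, sel d) d else M) ≤
        4 * S / p.T + 4 * M / p.T := by
    intro g
    set K : Finset (Stp p) := Finset.univ.image (fun t : Fin p.T => ((g, t) : Stp p)) with hK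
    have hinj : Function.Injective (fun t : Fin p.T => ((g, t) : Stp p)) := by
      intro a b h
      exact (Prod.mk.injEq _ _ _ _ ▸ h).2
    have hcard : K.card = p.T := by
      rw [hK, Finset.card_image_of_injective _ hinj, Finset.card_univ, Fintype.card_fin]
    set B' : Stp p → DD p N → ℝ := fun k d => if d k = none then B k d else M with hB'
    have h0 : ∀ k d, 0 ≤ B' k d := by
      intro k d; simp only [hB']; split_ifs
      · exact hB0 k d
      · exact hM
    have h1 : ∀ k ∈ K, ∀ d, B' k d ≤ M := by
      intro k _ d; simp only [hB']; split_ifs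
      · exact hBM k d
      · exact le_rfl
    have h2 : ∑ k ∈ K, Ed p N (fun d => (if d k = none then B' k d else 0)) ≤ S := by
      rw [hK, Finset.sum_image (fun a _ b _ h => hinj h)]
      refine le_trans (le_of_eq ?_) (hS g)
      refine Finset.sum_congr rfl fun t _ => ?_
      congr 1
      funext d
      simp only [hB']
      split_ifs <;> rfl
    obtain ⟨t, ht1, -, ht3⟩ := Ed_selection p hN K (by rw [hcard]; exact hT) B' h0 h1 h2
    have hex : ∀ d, ∃ s : Fin p.T, t d = (g, s) := by
      intro d
      have := ht1 d
      rw [hK, Finset.mem_image] at this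
      obtain ⟨s, -, hs⟩ := this
      exact ⟨s, hs.symm⟩
    choose sel hsel using hex
    refine ⟨sel, ?_⟩
    rw [hcard] at ht3
    refine le_trans (le_of_eq ?_) ht3
    congr 1
    funext d
    simp only [hB', hsel]
  choose sel hsel using key
  exact ⟨sel, hsel⟩

end Crest.Agent.R141
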