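import Crest.Agent.R141.Closure

/-!
Row 141 (S0192), Part L: a common finite family of gadget trees approximating finitely many shape
functionals.
-/

set_option autoImplicit false

namespace Crest.Agent.R141.Bld

open Finset Crest.Agent.R141.Clo

noncomputable section

/-- change of alphabet and of depth. -/
theorem exists_tree {ρ : ℕ → ℝ} {n n' Q Q' m : ℕ} (hn : n = n') (hQ : Q * m = Q') (hm : 0 < m)
    (Y : Tree Q n) (hY : Tree.Good n Y) :
    ∃ Y' : Tree Q' n', Tree.Good n' Y' ∧ BX ρ Q' n' Y' = BX ρ Q n Y := by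
  subst hn; subst hQ
  exact ⟨Tree.refine m n Y, Tree.refine_good m n Y hY, BX_refine hm n Y⟩

/-- the approximation of a shape functional by the family of trees. -/
def Approx (nc : ℕ) (ρ : ℕ → ℝ) (η C : ℝ) {ι : Type} [Fintype ι] (Q : ℕ) (lev : ι → Fin nc)
    (tree : ∀ b : ι, Tree Q (nc - 1 - (lev b : ℕ))) (n : ℕ) (s : Shape (n + 1)) : Prop :=
  ∃ c : ι → ℝ, (∀ b, c b ≠ 0 → nc - 1 - (lev b : ℕ) = n) ∧ ∑ b, |c b| ≤ C ∧
    ∀ x : Pt, |VX (n + 1) s x - ∑ b, c b * BX ρ Q (nc - 1 - (lev b : ℕ)) (tree b) x| ≤ η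

theorem build_ind (nc : ℕ) {ρ : ℕ → ℝ} (hρ : ∀ n, 0 < ρ n ∧ ρ n < 1) {η : ℝ} (hη : 0 < η) :
    ∀ AP : List (Σ n : Fin nc, Shape ((n : ℕ) + 1)),
    ∃ (ι : Type) (_ : Fintype ι) (Q : ℕ) (_ : 0 < Q) (lev : ι → Fin nc)
      (tree : ∀ b : ι, Tree Q (nc - 1 - (lev b : ℕ))) (_ : ∀ b, Tree.Good _ (tree b))
      (C : ℝ) (_ : 0 ≤ C), ∀ q ∈ AP, Approx nc ρ η C Q lev tree (q.1 : ℕ) q.2
  | [] => ⟨Empty, inferInstance, 1, one_pos, Empty.elim, fun b => b.elim, fun b => b.elim, 0,
      le_rfl, fun q hq => absurd hq (by simp)⟩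
  | (⟨n, s⟩ : Σ n : Fin nc, Shape ((n : ℕ) + 1)) :: AP => by
    obtain ⟨ι, hι, Q1, hQ1, lev, tree, good, C, hC, hAP⟩ := build_ind nc hρ hη AP
    obtain ⟨Q2, L, hQ2, hL, happ⟩ := closure_AS hρ (n : ℕ) s η hη
    have hn := n.2
    -- level of the new trees
    let g : Fin nc := ⟨nc - 1 - (n : ℕ), by omega⟩
    have hg : (n : ℕ) = nc - 1 - (g : ℕ) := by simp only [g]; omega
    have h1 : ∀ b : ι, ∃ Y' : Tree (Q1 * Q2) (nc - 1 - (lev b : ℕ)), Tree.Good _ Y' ∧
        BX ρ (Q1 * Q2) _ Y' = BX ρ Q1 _ (tree b) := fun b =>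
      exists_tree rfl rfl hQ2 (tree b) (good b)
    have h2 : ∀ j : Fin L.length, ∃ Y' : Tree (Q1 * Q2) (nc - 1 - (g : ℕ)), Tree.Good _ Y' ∧
        BX ρ (Q1 * Q2) _ Y' = BX ρ Q2 n (L.get j).2 := fun j =>
      exists_tree hg (Nat.mul_comm _ _) hQ1 (L.get j).2 (hL _ (List.get_mem _ _))
    choose T1 hT1 hT1' using h1
    choose T2 hT2 hT2' using h2
    let lev' : ι ⊕ Fin L.length → Fin nc := Sum.elim lev (fun _ => g)
    let tree' : ∀ b : ι ⊕ Fin L.length, Tree (Q1 * Q2) (nc - 1 - (lev' b : ℕ)) := fun b =>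
      match b with
      | Sum.inl b => T1 b
      | Sum.inr j => T2 j
    refine ⟨ι ⊕ Fin L.length, inferInstance, Q1 * Q2, by positivity, lev', tree', ?_,
      C + ∑ j : Fin L.length, |(L.get j).1|, by positivity, ?_⟩
    · intro b
      match b with
      | Sum.inl b => exact hT1 b
      | Sum.inr j => exact hT2 j
    · intro q hq
      rw [List.mem_cons] at hq
      rcases hq with rfl | hq
      · refine ⟨Sum.elim (fun _ => 0) (fun j => (L.get j).1), ?_, ?_, ?_⟩
        · intro b hb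
          match b with
          | Sum.inl b => exact absurd rfl hb
          | Sum.inr j => exact hg.symm
        · rw [Fintype.sum_sum_type]
          simp only [Sum.elim_inl, Sum.elim_inr, abs_zero, Finset.sum_const_zero, zero_add]
          linarith
        · intro x
          rw [Fintype.sum_sum_type]
          simp only [Sum.elim_inl, Sum.elim_inr, zero_mul, Finset.sum_const_zero, zero_add]
          have e : ∑ j : Fin L.length, (L.get j).1 * BX ρ (Q1 * Q2) (nc - 1 - (lev' (Sum.inr j) : ℕ))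
              (tree' (Sum.inr j)) x = (L.map (fun y => y.1 * BX ρ Q2 (n : ℕ) y.2 x)).sum := by
            rw [← List.sum_ofFn]
            congr 1
            apply List.ext_get
            · simp
            · intro k hk1 hk2
              simp only [List.get_eq_getElem, List.getElem_ofFn, List.getElem_map]
              have := congrFun (hT2' ⟨k, by simpa using hk2⟩) x
              show _ * BX ρ (Q1 * Q2) (nc - 1 - (g : ℕ)) (T2 ⟨k, _⟩) x = _
              rw [this]
              rfl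
          rw [e]
          exact happ x
      · obtain ⟨c, hc1, hc2, hc3⟩ := hAP q hq
        refine ⟨Sum.elim c (fun _ => 0), ?_, ?_, ?_⟩
        · intro b hb
          match b with
          | Sum.inl b => exact hc1 b hb
          | Sum.inr j => exact absurd rfl hb
        · rw [Fintype.sum_sum_type]
          simp only [Sum.elim_inl, Sum.elim_inr, abs_zero, Finset.sum_const_zero, add_zero]
          have : 0 ≤ ∑ j : Fin L.length, |(L.get j).1| := Finset.sum_nonneg fun _ _ => abs_nonneg _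
          linarith
        · intro x
          rw [Fintype.sum_sum_type]
          simp only [Sum.elim_inl, Sum.elim_inr, zero_mul, Finset.sum_const_zero, add_zero]
          have e : ∀ b : ι, BX ρ (Q1 * Q2) (nc - 1 - (lev' (Sum.inl b) : ℕ)) (tree' (Sum.inl b)) x =
              BX ρ Q1 (nc - 1 - (lev b : ℕ)) (tree b) x := fun b => congrFun (hT1' b) x
          simp only [e]
          exact hc3 x

/-- A finite family of trees over a common alphabet, whose refinements are also available. -/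
theorem build (nc : ℕ) {ρ : ℕ → ℝ} (hρ : ∀ n, 0 < ρ n ∧ ρ n < 1) {η : ℝ} (hη : 0 < η)
    (FS : (n : ℕ) → List (Shape (n + 1))) :
    ∃ (nb : ℕ) (Q0 : ℕ) (_ : 0 < Q0) (lev : Fin nb → Fin nc) (C : ℝ) (_ : 0 ≤ C), ∀ m : ℕ, 0 < m →
      ∃ (tree : ∀ b : Fin nb, Tree (Q0 * m) (nc - 1 - (lev b : ℕ)))
        (_ : ∀ b, Tree.Good _ (tree b)), ∀ n, n < nc → ∀ s ∈ FS n,
          Approx nc ρ η C (Q0 * m) lev tree n s := by
  classical
  obtain ⟨ι, hι, Q, hQ, lev, tree, good, C, hC, hAP⟩ := build_ind nc hρ hη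
    ((List.finRange nc).flatMap (fun n : Fin nc => (FS (n : ℕ)).map (fun s => ⟨n, s⟩)))
  let e := Fintype.equivFin ι
  refine ⟨Fintype.card ι, Q, hQ, fun b => lev (e.symm b), C, hC, ?_⟩
  intro m hm
  have h1 : ∀ b : Fin (Fintype.card ι), ∃ Y' : Tree (Q * m) (nc - 1 - (lev (e.symm b) : ℕ)),
      Tree.Good _ Y' ∧ BX ρ (Q * m) _ Y' = BX ρ Q _ (tree (e.symm b)) := fun b =>
    exists_tree rfl rfl hm (tree (e.symm b)) (good (e.symm b))
  choose T1 hT1 hT1' using h1
  refine ⟨T1, hT1, ?_⟩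
  intro n hn s hs
  have hmem : (⟨⟨n, hn⟩, s⟩ : Σ n : Fin nc, Shape ((n : ℕ) + 1)) ∈
      ((List.finRange nc).flatMap (fun n : Fin nc => (FS (n : ℕ)).map (fun s => ⟨n, s⟩)) :
        List (Σ n : Fin nc, Shape ((n : ℕ) + 1))) := by
    rw [List.mem_flatMap]
    refine ⟨⟨n, hn⟩, List.mem_finRange _, ?_⟩
    rw [List.mem_map]
    exact ⟨s, hs, rfl⟩
  obtain ⟨c, hc1, hc2, hc3⟩ := hAP _ hmem
  refine ⟨fun b => c (e.symm b), fun b hb => hc1 (e.symm b) hb, ?_, ?_⟩
  · rw [e.symm.sum_comp (fun b => |c b|)]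
    exact hc2
  · intro x
    have h2 : ∑ b, c (e.symm b) * BX ρ (Q * m) (nc - 1 - (lev (e.symm b) : ℕ)) (T1 b) x =
        ∑ b, c b * BX ρ Q (nc - 1 - (lev b : ℕ)) (tree b) x := by
      rw [← e.symm.sum_comp (fun b => c b * BX ρ Q (nc - 1 - (lev b : ℕ)) (tree b) x)]
      apply Finset.sum_congr rfl
      intro b _
      rw [hT1' b]
    rw [h2]
    exact hc3 x

end

end Crest.Agent.R141.Bld
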