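import Crest.Agent.R141.Sys

/-!
Row 141 (S0192), Part L, section 2.5: the context of a site in the enriched system, exponents.
-/

set_option autoImplicit false

namespace Crest.Agent.R141

open Finset

noncomputable section

/-- conditional expectation as a linear map. -/
def cEl {Ω : Type} [Fintype Ω] (P : Ω → ℝ) (r : Setoid Ω) : (Ω → ℝ) →ₗ[ℝ] (Ω → ℝ) where
  toFun f := cE P r f
  map_add' f g := by funext ω; exact cE_add P r f g ω
  map_smul' c f := by funext ω; exact cE_smul P r c f ω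

@[simp] theorem cEl_apply {Ω : Type} [Fintype Ω] (P : Ω → ℝ) (r : Setoid Ω) (f : Ω → ℝ) :
    cEl P r f = cE P r f := rfl

/-- The context of the site `i` under the law `P`: `E n` is the conditional expectation at the label
step of the cell `nc - 1 - n`. -/
def ctx (p : Par) (N : ℕ) (P : Om p N → ℝ) (hP : IsProb P) (i : Fin N) : Clo.Ctx (Om p N) where
  E n := cEl P ((fil p N).F (p.mt (p.nc - 1 - n)))
  mono n f g h := fun ω => cE_mono' hP h ω
  one n := by
    funext ω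
    exact cE_const hP _ 1 ω
  σ ω := sv (ω.1 i)
  hσ ω := (sv_abs _).le

/-- exponents of the `B`-functionals: `ρ 0 = ξ_{nc-1}`, `ρ n = ξ_g / ξ_{g+1}` with `g = nc-1-n`. -/
def Par.rho (p : Par) (n : ℕ) : ℝ :=
  if n = 0 then p.xi (p.nc - 1) else if n < p.nc then p.xi (p.nc - 1 - n) / p.xi (p.nc - n) else 1 / 2

theorem Par.xi_pos (p : Par) (g : ℕ) : 0 < p.xi g := by unfold Par.xi; positivity

theorem Par.rho_zero (p : Par) : p.rho 0 = p.xi (p.nc - 1) := by simp [Par.rho]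

theorem Par.rho_succ (p : Par) {n : ℕ} (h : n + 1 < p.nc) :
    p.rho (n + 1) = p.xi (p.nc - 1 - (n + 1)) / p.xi (p.nc - 1 - n) := by
  unfold Par.rho
  rw [if_neg (Nat.succ_ne_zero n), if_pos h]
  congr 2
  omega

theorem Par.rho_mem (p : Par) (n : ℕ) : 0 < p.rho n ∧ p.rho n < 1 := by
  unfold Par.rho
  split_ifs with h1 h2
  · refine ⟨p.xi_pos _, ?_⟩
    unfold Par.xi
    have h := p.hnc
    rw [div_lt_one (by positivity)]
    have : ((p.nc - 1 : ℕ) : ℝ) + 1 = p.nc := by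
      have : (p.nc - 1 : ℕ) + 1 = p.nc := by omega
      exact_mod_cast this
    rw [this]; linarith
  · refine ⟨div_pos (p.xi_pos _) (p.xi_pos _), ?_⟩
    rw [div_lt_one (p.xi_pos _)]
    unfold Par.xi
    apply div_lt_div_of_pos_right _ (by positivity)
    have : p.nc - 1 - n < p.nc - n := by omega
    have : ((p.nc - 1 - n : ℕ) : ℝ) < ((p.nc - n : ℕ) : ℝ) := by exact_mod_cast this
    linarith
  · norm_num

/-- `B_g(Y)` for the site `i` under the law `P`, `Y` of depth `n = nc-1-g`. -/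
def BB (p : Par) (N : ℕ) (P : Om p N → ℝ) (hP : IsProb P) (i : Fin N) (n : ℕ)
    (Y : Clo.Tree p.Q n) : Om p N → ℝ :=
  Clo.Bfun (ctx p N P hP i) p.rho p.Q n Y

/-- `V_g^s` for the site `i` under the law `P`, `s` of depth `n = nc-g`. -/
def VV (p : Par) (N : ℕ) (P : Om p N → ℝ) (hP : IsProb P) (i : Fin N) (n : ℕ)
    (s : Clo.Shape n) : Om p N → ℝ :=
  Clo.Vfun (ctx p N P hP i) n s

theorem BB_zero (p : Par) (N : ℕ) (P : Om p N → ℝ) (hP : IsProb P) (i : Fin N)
    (y : Clo.Tree p.Q 0) (ω : Om p N) :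
    BB p N P hP i 0 y ω = (1 + (show ℝ from y) *
      cE P ((fil p N).F (p.mt (p.nc - 1))) (fun ω => sv (ω.1 i)) ω) ^ p.rho 0 := rfl

theorem BB_succ (p : Par) (N : ℕ) (P : Om p N → ℝ) (hP : IsProb P) (i : Fin N) (n : ℕ)
    (Y : Clo.Tree p.Q (n + 1)) (ω : Om p N) :
    BB p N P hP i (n + 1) Y ω = ((p.Q : ℝ)⁻¹ * ∑ q : Fin p.Q,
      cE P ((fil p N).F (p.mt (p.nc - 1 - (n + 1)))) (BB p N P hP i n (Y q)) ω) ^ p.rho (n + 1) := rfl

theorem VV_zero (p : Par) (N : ℕ) (P : Om p N → ℝ) (hP : IsProb P) (i : Fin N)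
    (b : Clo.Shape 0) : VV p N P hP i 0 b =
      if (show Bool from b) then (fun ω : Om p N => sv (ω.1 i)) else (1 : Om p N → ℝ) := rfl

theorem VV_succ (p : Par) (N : ℕ) (P : Om p N → ℝ) (hP : IsProb P) (i : Fin N) (n : ℕ)
    (l : List (Clo.Shape n)) (ω : Om p N) :
    VV p N P hP i (n + 1) l ω =
      (l.map (fun s => cE P ((fil p N).F (p.mt (p.nc - 1 - n))) (VV p N P hP i n s) ω)).prod := rfl

end

end Crest.Agent.R141
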