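import Crest.Agent.R141.PurB
import Crest.Agent.R141.SysCtx

/-!
Row 141 (S0192), Part L, section 2.4: the average covariances at an observation step are bounded by
the impurities of the coordinates.
-/

set_option autoImplicit false

namespace Crest.Agent.R141.Pur

open Finset Crest.Agent.R141

noncomputable section

/-- trivial bound for the total impurity. -/
def M0 (p : Par) : ℝ := 1 + (p.Q : ℝ) ^ 4 * (p.nb : ℝ) ^ 2

open scoped Classical in
/-- the total impurity at the coin step `k`. -/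
def tot (p : Par) (N : ℕ) (H : (Fin N → Bool) → ℝ) (k : Stp p) (d : DD p N) : ℝ :=
  bad p N H k none none d + (p.Q : ℝ) ^ 4 * ∑ b, ∑ b2,
    if (k.1 ≤ p.lev b ∧ k.1 ≤ p.lev b2) then bad p N H k (some b) (some b2) d else 0

theorem tot_spin (p : Par) (N : ℕ) (H : (Fin N → Bool) → ℝ) (k : Stp p) (d : DD p N) :
    bad p N H k none none d ≤ tot p N H k d := by
  unfold tot
  have : 0 ≤ (p.Q : ℝ) ^ 4 * ∑ b, ∑ b2,
      if (k.1 ≤ p.lev b ∧ k.1 ≤ p.lev b2) then bad p N H k (some b) (some b2) d else 0 := by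
    apply mul_nonneg (by positivity)
    apply Finset.sum_nonneg; intro b _
    apply Finset.sum_nonneg; intro b2 _
    split_ifs
    · exact bad_nonneg p N H k _ _ d
    · exact le_rfl
  linarith

theorem tot_gad (p : Par) (N : ℕ) (H : (Fin N → Bool) → ℝ) (k : Stp p) (d : DD p N)
    (b b' : Fin p.nb) (hb : k.1 ≤ p.lev b) (hb' : k.1 ≤ p.lev b') :
    (p.Q : ℝ) ^ 4 * bad p N H k (some b) (some b') d ≤ tot p N H k d := by
  unfold tot
  have h0 := bad_nonneg p N H k none none d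
  have h1 : bad p N H k (some b) (some b') d ≤ ∑ b, ∑ b2,
      if (k.1 ≤ p.lev b ∧ k.1 ≤ p.lev b2) then bad p N H k (some b) (some b2) d else 0 := by
    have hnn : ∀ b b2, 0 ≤ (if (k.1 ≤ p.lev b ∧ k.1 ≤ p.lev b2) then
        bad p N H k (some b) (some b2) d else 0) := by
      intro b b2
      split_ifs
      · exact bad_nonneg p N H k _ _ d
      · exact le_rfl
    calc bad p N H k (some b) (some b') d = (if (k.1 ≤ p.lev b ∧ k.1 ≤ p.lev b') then
          bad p N H k (some b) (some b') d else 0) := by rw [if_pos ⟨hb, hb'⟩]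
      _ ≤ ∑ b2, (if (k.1 ≤ p.lev b ∧ k.1 ≤ p.lev b2) then
          bad p N H k (some b) (some b2) d else 0) :=
        Finset.single_le_sum (f := fun b2 => (if (k.1 ≤ p.lev b ∧ k.1 ≤ p.lev b2) then
          bad p N H k (some b) (some b2) d else 0)) (fun b2 _ => hnn b b2) (Finset.mem_univ b')
      _ ≤ _ := Finset.single_le_sum (f := fun b => ∑ b2, (if (k.1 ≤ p.lev b ∧ k.1 ≤ p.lev b2) then
          bad p N H k (some b) (some b2) d else 0))
          (fun b _ => Finset.sum_nonneg fun b2 _ => hnn b b2) (Finset.mem_univ b)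
  have h2 := mul_le_mul_of_nonneg_left h1 (by positivity : (0 : ℝ) ≤ (p.Q : ℝ) ^ 4)
  linarith

theorem tot_nonneg (p : Par) (N : ℕ) (H : (Fin N → Bool) → ℝ) (k : Stp p) (d : DD p N) :
    0 ≤ tot p N H k d :=
  (bad_nonneg p N H k none none d).trans (tot_spin p N H k d)

/-- average over the pairs of sites of the absolute conditional covariance. -/
def avc (p : Par) (N : ℕ) (P : Om p N → ℝ) (r : Setoid (Om p N)) (f : Fin N → Om p N → ℝ) : ℝ :=
  ((N : ℝ) ^ 2)⁻¹ * ∑ i, ∑ j, eE P (fun ω => |covR P r (f i) (f j) ω|)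

theorem card_touched (p : Par) (N : ℕ) (d : DD p N) :
    (((Un p N d)ᶜ).card : ℝ) ≤ (p.nc : ℝ) * p.T := by
  classical
  have h1 : ((Un p N d)ᶜ).image (fun i => (some i : Option (Fin N))) ⊆
      (univ : Finset (Stp p)).image (fun k => (d k).map Prod.fst) := by
    intro o ho
    rw [Finset.mem_image] at ho
    obtain ⟨i, hi, rfl⟩ := ho
    rw [Finset.mem_compl, mem_Un, not_not] at hi
    obtain ⟨k, o, hk⟩ := hi
    rw [Finset.mem_image]
    exact ⟨k, Finset.mem_univ _, by rw [hk]; rfl⟩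
  have h2 := Finset.card_le_card h1
  rw [Finset.card_image_of_injective _ (Option.some_injective _)] at h2
  have h3 : ((univ : Finset (Stp p)).image (fun k => (d k).map Prod.fst)).card ≤
      p.nc * p.T := by
    refine Finset.card_image_le.trans ?_
    rw [Finset.card_univ]
    simp [Fintype.card_prod]
  exact_mod_cast h2.trans h3

theorem avc_le (p : Par) {N : ℕ} (hN : 0 < N) {P : Om p N → ℝ} (hP : IsProb P)
    (r : Setoid (Om p N)) (d : DD p N) {f : Fin N → Om p N → ℝ} (hf : ∀ i ω, |f i ω| ≤ 1) :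
    avc p N P r f ≤ 4 * (p.nc * p.T) / N +
      ((N : ℝ) ^ 2)⁻¹ * ∑ i ∈ Un p N d, ∑ j ∈ Un p N d,
        eE P (fun ω => |covR P r (f i) (f j) ω|) := by
  classical
  have hN' : (0 : ℝ) < N := by exact_mod_cast hN
  set g : Fin N → Fin N → ℝ := fun i j => eE P (fun ω => |covR P r (f i) (f j) ω|) with hg
  have hg0 : ∀ i j, 0 ≤ g i j := fun i j => eE_nonneg hP (fun _ => abs_nonneg _)
  have hg2 : ∀ i j, g i j ≤ 2 := fun i j =>
    eE_le_of_le hP (fun ω => covR_abs_le hP r (hf i) (hf j) ω)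
  have h1 : ∀ i j, g i j ≤ (if i ∈ Un p N d then (if j ∈ Un p N d then g i j else 0) else 0) +
      ((if i ∈ (Un p N d)ᶜ then (2:ℝ) else 0) + (if j ∈ (Un p N d)ᶜ then (2:ℝ) else 0)) := by
    intro i j
    have := hg0 i j
    have := hg2 i j
    by_cases hi : i ∈ Un p N d <;> by_cases hj : j ∈ Un p N d <;> simp [hi, hj] <;> linarith
  have h2 : ∑ i, ∑ j, g i j ≤ (∑ i ∈ Un p N d, ∑ j ∈ Un p N d, g i j) +
      4 * (N * (p.nc * p.T)) := by
    calc ∑ i, ∑ j, g i j ≤ ∑ i, ∑ j, ((if i ∈ Un p N d then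
          (if j ∈ Un p N d then g i j else 0) else 0) +
          ((if i ∈ (Un p N d)ᶜ then (2:ℝ) else 0) + (if j ∈ (Un p N d)ᶜ then (2:ℝ) else 0))) :=
          Finset.sum_le_sum fun i _ => Finset.sum_le_sum fun j _ => h1 i j
      _ = (∑ i ∈ Un p N d, ∑ j ∈ Un p N d, g i j) + 4 * (N * ((Un p N d)ᶜ).card) := by
          simp only [Finset.sum_add_distrib]
          congr 1
          · rw [← Finset.sum_subset (Finset.subset_univ (Un p N d))]
            · apply Finset.sum_congr rfl; intro i hi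
              rw [← Finset.sum_subset (Finset.subset_univ (Un p N d))]
              · apply Finset.sum_congr rfl; intro j hj
                rw [if_pos hi, if_pos hj]
              · intro j _ hj
                rw [if_pos hi, if_neg hj]
            · intro i _ hi
              apply Finset.sum_eq_zero; intro j _
              rw [if_neg hi]
          · have e1 : ∑ i : Fin N, ∑ j : Fin N, (if i ∈ (Un p N d)ᶜ then (2:ℝ) else 0) =
                N * (2 * ((Un p N d)ᶜ).card) := by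
              simp only [Finset.sum_const, Finset.card_univ, Fintype.card_fin, nsmul_eq_mul]
              rw [← Finset.mul_sum, Finset.sum_ite_mem, Finset.univ_inter, Finset.sum_const,
                nsmul_eq_mul]
              ring
            have e2 : ∑ i : Fin N, ∑ j : Fin N, (if j ∈ (Un p N d)ᶜ then (2:ℝ) else 0) =
                N * (2 * ((Un p N d)ᶜ).card) := by
              rw [Finset.sum_const, Finset.card_univ, Fintype.card_fin, nsmul_eq_mul,
                Finset.sum_ite_mem, Finset.univ_inter, Finset.sum_const, nsmul_eq_mul]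
              ring
            rw [e1, e2]; ring
      _ ≤ _ := by
          have := card_touched p N d
          gcongr
  unfold avc
  calc ((N : ℝ) ^ 2)⁻¹ * ∑ i, ∑ j, g i j ≤ ((N : ℝ) ^ 2)⁻¹ *
        ((∑ i ∈ Un p N d, ∑ j ∈ Un p N d, g i j) + 4 * (N * (p.nc * p.T))) :=
        mul_le_mul_of_nonneg_left h2 (by positivity)
    _ = _ := by field_simp; ring

theorem abs_le_eps (a : ℝ) {ε : ℝ} (hε : 0 < ε) : |a| ≤ ε + ε⁻¹ * a ^ 2 := by
  have h : 0 ≤ ε⁻¹ * (ε - |a|) ^ 2 := by positivity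
  have h2 : ε⁻¹ * (ε - |a|) ^ 2 = ε - 2 * |a| + ε⁻¹ * a ^ 2 := by
    rw [← sq_abs a]; field_simp; ring
  have h3 := abs_nonneg a
  linarith

theorem xs_ge (p : Par) (l : ℕ) : ((p.nc : ℝ) + 1)⁻¹ ≤ p.xs l := by
  unfold Par.xs
  apply le_min
  · apply inv_le_one_of_one_le₀
    have : (0 : ℝ) ≤ p.nc := Nat.cast_nonneg _
    linarith
  · rw [inv_eq_one_div]
    apply div_le_div_of_nonneg_right _ (by positivity)
    have : (0 : ℝ) ≤ (((l - 1) / (p.T + 1) : ℕ) : ℝ) := Nat.cast_nonneg _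
    linarith

/-- the common part of the two bounds. -/
theorem avc_combo (p : Par) {N : ℕ} (hN : 0 < N) {H : (Fin N → Bool) → ℝ} (d : DD p N)
    {k m : ℕ} (hkm : k ≤ m) (hmL : m ≤ p.L) {B : Type} [Fintype B]
    (v : Fin N → B → Om p N → ℝ) (hv : ∀ i b ω, |v i b ω| ≤ 1) (c : B → ℝ) {Q β C : ℝ}
    (hQ : 0 ≤ Q) (hC : ∑ b, |c b| ≤ C) (hβ0 : 0 ≤ β)
    (hβ : ∀ b b', ((N : ℝ) ^ 2)⁻¹ * ∑ i ∈ Un p N d, ∑ j ∈ (Un p N d).erase i,
      eE (PP p N H d) (fun ω =>
        (Yf (PP p N H d) (fil p N).F p.xs p.L k (v i b) (v j b') ω) ^ 2) ≤ β)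
    {f : Fin N → Om p N → ℝ} (hf : ∀ i ω, |f i ω| ≤ 1) {δ ε : ℝ} (hε : 0 < ε)
    (hδ0 : 0 ≤ δ) (hδ1 : δ ≤ 1)
    (hfh : ∀ i ∈ Un p N d, ∀ ω, |f i ω - cE (PP p N H d) ((fil p N).F m)
      (fun a => ∑ b, (Q * c b) * v i b a) ω| ≤ δ) :
    avc p N (PP p N H d) ((fil p N).F k) f ≤ 4 * (p.nc * p.T) / N + 6 * δ + ε +
      ε⁻¹ * (((p.nc : ℝ) + 1) ^ 2 * (Q ^ 4 * C ^ 4 * β + (Q * C) ^ 4 / N)) := by
  classical
  have hN' : (0 : ℝ) < N := by exact_mod_cast hN
  have hP := PP_isProb p N H d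
  set P := PP p N H d with hPdef
  set h : Fin N → Om p N → ℝ := fun i => cE P ((fil p N).F m)
      (fun a => ∑ b, (Q * c b) * v i b a) with hh
  have hC0 : 0 ≤ ∑ b, |c b| := Finset.sum_nonneg fun _ _ => abs_nonneg _
  have hβ' : ∀ b b', ∑ i ∈ Un p N d, ∑ j ∈ (Un p N d).erase i,
      eE P (fun ω => (Yf P (fil p N).F p.xs p.L k (v i b) (v j b') ω) ^ 2) ≤ (N : ℝ) ^ 2 * β := by
    intro b b'
    have h1 := hβ b b'
    rw [inv_mul_le_iff₀ (by positivity)] at h1
    exact h1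
  have hcombo := combo (P := P) hP (fil p N).antitone (x := p.xs) (L := p.L) hkm hmL
    (y0 := ((p.nc : ℝ) + 1)⁻¹) (by positivity) (fun l _ => xs_ge p l)
    (fun l _ => p.xs_expo.le_one l) (Un p N d) v hv c hQ (Un_card_le p N d) hβ'
  have hpair : ∀ i ∈ Un p N d, ∀ j ∈ Un p N d,
      eE P (fun ω => |covR P ((fil p N).F k) (f i) (f j) ω|) ≤
        (6 * δ + ε) + ε⁻¹ * eE P (fun ω => (covR P ((fil p N).F k) (h i) (h j) ω) ^ 2) := by
    intro i hi j hj
    rw [← eE_const hP (6 * δ + ε), ← eE_smul, ← eE_add]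
    apply eE_mono hP
    intro ω
    have h1 := covR_diff hP ((fil p N).F k) hδ0 hδ1 (hf i) (hf j) (hfh i hi) (hfh j hj) ω
    have h2 := abs_le_eps (covR P ((fil p N).F k) (h i) (h j) ω) hε
    have h3 : |covR P ((fil p N).F k) (f i) (f j) ω| ≤
        |covR P ((fil p N).F k) (f i) (f j) ω - covR P ((fil p N).F k) (h i) (h j) ω| +
        |covR P ((fil p N).F k) (h i) (h j) ω| := by
      have := abs_add_le (covR P ((fil p N).F k) (f i) (f j) ω -
        covR P ((fil p N).F k) (h i) (h j) ω) (covR P ((fil p N).F k) (h i) (h j) ω)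
      simpa using this
    linarith
  have hsum : ∑ i ∈ Un p N d, ∑ j ∈ Un p N d,
      eE P (fun ω => |covR P ((fil p N).F k) (f i) (f j) ω|) ≤
      (N : ℝ) ^ 2 * (6 * δ + ε) + ε⁻¹ * (((p.nc : ℝ) + 1) ^ 2 *
        (Q ^ 4 * C ^ 4 * ((N : ℝ) ^ 2 * β) + N * (Q * C) ^ 4)) := by
    calc _ ≤ ∑ i ∈ Un p N d, ∑ j ∈ Un p N d, ((6 * δ + ε) +
          ε⁻¹ * eE P (fun ω => (covR P ((fil p N).F k) (h i) (h j) ω) ^ 2)) :=
          Finset.sum_le_sum fun i hi => Finset.sum_le_sum fun j hj => hpair i hi j hj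
      _ = ((Un p N d).card * ((Un p N d).card * (6 * δ + ε))) + ε⁻¹ *
          ∑ i ∈ Un p N d, ∑ j ∈ Un p N d,
            eE P (fun ω => (covR P ((fil p N).F k) (h i) (h j) ω) ^ 2) := by
          simp only [Finset.sum_add_distrib, Finset.sum_const, nsmul_eq_mul, Finset.mul_sum]
          ring
      _ ≤ (N : ℝ) ^ 2 * (6 * δ + ε) + ε⁻¹ * ((((p.nc : ℝ) + 1)⁻¹ ^ 2)⁻¹ *
          (Q ^ 4 * (∑ b, |c b|) ^ 4 * ((N : ℝ) ^ 2 * β) + N * (Q * ∑ b, |c b|) ^ 4)) := by
          apply add_le_add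
          · have hc := Un_card_le p N d
            have hc0 : (0 : ℝ) ≤ ((Un p N d).card : ℝ) := Nat.cast_nonneg _
            rw [← mul_assoc, pow_two]
            gcongr
          · exact mul_le_mul_of_nonneg_left hcombo (by positivity)
      _ ≤ _ := by
          rw [inv_pow, inv_inv]
          gcongr
  have havc := avc_le p hN hP ((fil p N).F k) d hf
  refine havc.trans ?_
  have h5 := mul_le_mul_of_nonneg_left hsum (by positivity : (0 : ℝ) ≤ ((N : ℝ) ^ 2)⁻¹)
  have h6 : ((N : ℝ) ^ 2)⁻¹ * ((N : ℝ) ^ 2 * (6 * δ + ε) + ε⁻¹ * (((p.nc : ℝ) + 1) ^ 2 *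
        (Q ^ 4 * C ^ 4 * ((N : ℝ) ^ 2 * β) + N * (Q * C) ^ 4))) =
      6 * δ + ε + ε⁻¹ * (((p.nc : ℝ) + 1) ^ 2 * (Q ^ 4 * C ^ 4 * β + (Q * C) ^ 4 / N)) := by
    field_simp
  rw [h6] at h5
  linarith

/-- gadgets. -/
theorem avc_gadget (p : Par) {N : ℕ} (hN : 0 < N) {H : (Fin N → Bool) → ℝ} (d : DD p N)
    (k : Stp p) (c : Fin p.nb → ℝ) (g' : Fin p.nc) (hg' : k.1 ≤ g')
    (hc : ∀ b, c b ≠ 0 → p.lev b = g') {C : ℝ}
    (hC : ∑ b, |c b| ≤ C) {f : Fin N → Om p N → ℝ} (hf : ∀ i ω, |f i ω| ≤ 1) {δ ε : ℝ}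
    (hε : 0 < ε) (hδ0 : 0 ≤ δ) (hδ1 : δ ≤ 1)
    (hfh : ∀ i ∈ Un p N d, ∀ ω, |f i ω - cE (PP p N H d) ((fil p N).F (p.mt g' - 1))
      (fun a => ∑ b, ((p.Q : ℝ) * c b) * cv p N (i, some b) a) ω| ≤ δ) :
    avc p N (PP p N H d) ((fil p N).F (p.ct k.1 k.2)) f ≤ 4 * (p.nc * p.T) / N + 6 * δ + ε +
      ε⁻¹ * (((p.nc : ℝ) + 1) ^ 2 * (C ^ 4 * tot p N H k d + (p.Q * C) ^ 4 / N)) := by
  classical
  have hQ : (0 : ℝ) < p.Q := by have := p.hQ; exact_mod_cast (by omega : 0 < p.Q)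
  let B := {b : Fin p.nb // p.lev b = g'}
  have hsub : ∀ F : Fin p.nb → ℝ, (∀ b, c b = 0 → F b = 0) → ∑ b, F b = ∑ b : B, F b.1 := by
    intro F hF
    rw [← Finset.sum_subtype (univ.filter (fun b => p.lev b = g')) (by intro b; simp) F]
    symm
    apply Finset.sum_subset (Finset.filter_subset _ _)
    intro b _ hb
    apply hF
    by_contra hcb
    exact hb (Finset.mem_filter.2 ⟨Finset.mem_univ _, hc b hcb⟩)
  have hkm : p.ct k.1 k.2 ≤ p.mt g' - 1 := by
    have h1 := p.ct_lt_mt (g := k.1) k.2.2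
    have h2 : p.mt k.1 ≤ p.mt g' := Nat.mul_le_mul_right _ (by
      have : (k.1 : ℕ) ≤ g' := hg'
      omega)
    omega
  have hmL : p.mt g' - 1 ≤ p.L := by
    have := p.mt_lt_L g'.2
    omega
  have h := avc_combo p hN (H := H) d hkm hmL (B := B) (fun i b => cv p N (i, some b.1))
    (fun i b ω => by rw [abs_of_nonneg (cv_nonneg p N _ ω)]; exact cv_le_one p N _ ω)
    (fun b => c b.1) (Q := p.Q) (β := tot p N H k d / (p.Q : ℝ) ^ 4) (C := C) hQ.le
    (by rw [← hsub (fun b => |c b|) (fun b hb => by rw [hb, abs_zero])]; exact hC)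
    (div_nonneg (tot_nonneg p N H k d) (by positivity))
    (fun b b' => by
      rw [le_div_iff₀ (by positivity), mul_comm]
      exact tot_gad p N H k d b.1 b'.1 (by rw [b.2]; exact hg') (by rw [b'.2]; exact hg'))
    hf hε hδ0 hδ1
    (fun i hi ω => by
      have h1 := hfh i hi ω
      have h2 : (fun a => ∑ b, ((p.Q : ℝ) * c b) * cv p N (i, some b) a) =
          (fun a => ∑ b : B, ((p.Q : ℝ) * c b.1) * cv p N (i, some b.1) a) := by
        funext a
        exact hsub (fun b => ((p.Q : ℝ) * c b) * cv p N (i, some b) a)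
          (fun b hb => by rw [hb, mul_zero, zero_mul])
      rw [h2] at h1
      exact h1)
  have h3 : (p.Q : ℝ) ^ 4 * C ^ 4 * (tot p N H k d / (p.Q : ℝ) ^ 4) = C ^ 4 * tot p N H k d := by
    field_simp
  rw [h3] at h
  exact h

theorem covR_affine {Ω : Type*} [Fintype Ω] {P : Ω → ℝ} (hP : IsProb P) (r : Setoid Ω)
    (a b : ℝ) (f g : Ω → ℝ) (ω : Ω) :
    covR P r (fun w => a * f w + b) (fun w => a * g w + b) ω =
      covR P r (fun w => a * f w) (fun w => a * g w) ω := by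
  have hadd : ∀ u : Ω → ℝ, cE P r (fun w => u w + b) ω = cE P r u ω + b := by
    intro u
    rw [cE_add P r u (fun _ => b), cE_const hP]
  have e : (fun w => (fun w => a * f w + b) w * (fun w => a * g w + b) w) =
      fun w => ((a * f w) * (a * g w) + (b * (a * f w) + b * (a * g w))) + b * b := by
    funext w; ring
  have e2 : cE P r (fun w => ((a * f w) * (a * g w) + (b * (a * f w) + b * (a * g w))) + b * b) ω =
      cE P r (fun w => (a * f w) * (a * g w)) ω + (b * cE P r (fun w => a * f w) ω +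
        b * cE P r (fun w => a * g w) ω) + b * b := by
    rw [cE_add P r (fun w => (a * f w) * (a * g w) + (b * (a * f w) + b * (a * g w)))
      (fun _ => b * b), cE_const hP, cE_add P r (fun w => (a * f w) * (a * g w))
      (fun w => b * (a * f w) + b * (a * g w)), cE_add P r (fun w => b * (a * f w)),
      cE_smul P r b (fun w => a * f w), cE_smul P r b (fun w => a * g w)]
  unfold covR
  rw [e, e2, hadd, hadd]
  ring

theorem covR_scale {Ω : Type*} [Fintype Ω] {P : Ω → ℝ} (r : Setoid Ω)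
    (a : ℝ) (f g : Ω → ℝ) (ω : Ω) :
    covR P r (fun w => a * f w) (fun w => a * g w) ω = a ^ 2 * covR P r f g ω := by
  have e : (fun w => (fun w => a * f w) w * (fun w => a * g w) w) =
      fun w => a ^ 2 * (f w * g w) := by
    funext w; ring
  unfold covR
  rw [e, cE_smul P r (a ^ 2) (fun w => f w * g w), cE_smul P r a f, cE_smul P r a g]
  ring

/-- spins. -/
theorem avc_spin (p : Par) {N : ℕ} (hN : 0 < N) {H : (Fin N → Bool) → ℝ} (d : DD p N)
    (k : Stp p) {ε : ℝ} (hε : 0 < ε) :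
    avc p N (PP p N H d) ((fil p N).F (p.ct k.1 k.2)) (fun i ω => sv (ω.1 i)) ≤
      16 * (p.nc * p.T) / N + ε +
      ε⁻¹ * (((p.nc : ℝ) + 1) ^ 2 * (16 * tot p N H k d + 16 / N)) := by
  classical
  have hN' : (0 : ℝ) < N := by exact_mod_cast hN
  have hP := PP_isProb p N H d
  have hkm : p.ct k.1 k.2 ≤ p.L := by
    have := p.ct_lt_mt (g := k.1) k.2.2
    have := p.mt_lt_L k.1.2
    omega
  have hLbot : (fil p N).F p.L = ⊥ := (fil p N).bot p.L le_rfl
  have habs : ∀ i ω, |cv p N (i, none) ω| ≤ 1 := fun i ω => by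
    rw [abs_of_nonneg (cv_nonneg p N _ ω)]; exact cv_le_one p N _ ω
  have h := avc_combo p hN (H := H) d hkm le_rfl (B := Unit) (fun i _ => cv p N (i, none))
    (fun i _ ω => habs i ω) (fun _ => 1) (Q := 1) (β := tot p N H k d) (C := 1) zero_le_one
    (by simp) (tot_nonneg p N H k d) (fun _ _ => tot_spin p N H k d)
    (f := fun i => cv p N (i, none)) habs (δ := 0) (ε := ε / 4) (by positivity) le_rfl zero_le_one
    (fun i _ ω => by
      rw [hLbot, cE_bot hP]
      simp)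
  have e1 : avc p N (PP p N H d) ((fil p N).F (p.ct k.1 k.2)) (fun i ω => sv (ω.1 i)) =
      4 * avc p N (PP p N H d) ((fil p N).F (p.ct k.1 k.2)) (fun i => cv p N (i, none)) := by
    unfold avc
    rw [mul_left_comm, Finset.mul_sum (s := univ) (a := (4 : ℝ))]
    congr 1
    apply Finset.sum_congr rfl; intro i _
    rw [Finset.mul_sum]
    apply Finset.sum_congr rfl; intro j _
    rw [← eE_smul]
    congr 1
    funext ω
    have hsv : ∀ i, (fun ω : Om p N => sv (ω.1 i)) =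
        fun ω => 2 * cv p N (i, none) ω + (-1) := by
      intro i
      funext ω
      simp only [cv_none, sv]
      split_ifs <;> norm_num
    show |covR (PP p N H d) ((fil p N).F (p.ct ↑k.1 ↑k.2)) (fun ω : Om p N => sv (ω.1 i))
      (fun ω : Om p N => sv (ω.1 j)) ω| = _
    rw [hsv i, hsv j, covR_affine hP, covR_scale, abs_mul]
    norm_num
  rw [e1]
  have h2 := mul_le_mul_of_nonneg_left h (by norm_num : (0 : ℝ) ≤ 4)
  refine h2.trans (le_of_eq ?_)
  field_simp
  ring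

end

end Crest.Agent.R141.Pur
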