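import Crest.Agent.R141.PurC
import Crest.Agent.R141.PurW

/-!
Row 141 (S0192), Part L: the purity theorem `purity_main : PurityMain`.
-/

set_option autoImplicit false

namespace Crest.Agent.R141.Pur

open Finset Crest.Agent.R141
open Crest.ProbabilityR.Diluted (spinVal)

noncomputable section

/-- the bound of `selBad`. -/
def RR (p : Par) : ℝ :=
  4 / p.T * (16 / p.τ ^ 2 * (p.nb + 1) * (1 + 16 * p.Q ^ 2 * p.nb ^ 2) + M0 p) +
    4 * (242 * p.τ ^ 2 * (1 + 256 * p.nb ^ 2))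

theorem Ed_tot_le (p : Par) {N : ℕ} (hN : 0 < N) (H : (Fin N → Bool) → ℝ)
    (sel : Fin p.nc → DD p N → Fin p.T) (g : Fin p.nc)
    (hsel : Ed p N (fun d => if d (g, sel g d) = none then tot p N H (g, sel g d) d else M0 p) ≤
      RR p) : Ed p N (fun d => tot p N H (g, sel g d) d) ≤ RR p := by
  refine (Ed_mono p N (fun d => ?_)).trans hsel
  split_ifs
  · exact le_rfl
  · exact tot_le_M0 p hN H _ d

theorem Ed_spin (p : Par) {N : ℕ} (hN : 0 < N) (H : (Fin N → Bool) → ℝ)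
    (sel : Fin p.nc → DD p N → Fin p.T) (g : Fin p.nc)
    (hsel : Ed p N (fun d => tot p N H (g, sel g d) d) ≤ RR p) {ε : ℝ} (hε : 0 < ε) :
    Ed p N (fun d => Quiet.pur (PP p N H d) ((fil p N).F (p.ct g (sel g d)))
      (fun (i : Fin N) (ω : Om p N) => spinVal (ω.1 i))) ≤
      16 * (p.nc * p.T) / N + ε +
        ε⁻¹ * (((p.nc : ℝ) + 1) ^ 2 * (16 * RR p + 16 / N)) := by
  have h1 : ∀ d, Quiet.pur (PP p N H d) ((fil p N).F (p.ct g (sel g d)))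
      (fun (i : Fin N) (ω : Om p N) => spinVal (ω.1 i)) ≤
      (16 * (p.nc * p.T) / N + ε + ε⁻¹ * (((p.nc : ℝ) + 1) ^ 2 * (16 / N))) +
        (ε⁻¹ * (((p.nc : ℝ) + 1) ^ 2 * 16)) * tot p N H (g, sel g d) d := by
    intro d
    rw [pur_eq_avc]
    refine (avc_spin p hN (H := H) d (g, sel g d) hε).trans (le_of_eq ?_)
    ring
  refine (Ed_mono p N h1).trans ?_
  rw [Ed_add, Ed_const p hN, Ed_smul]
  have h2 := mul_le_mul_of_nonneg_left hsel
    (by positivity : 0 ≤ ε⁻¹ * (((p.nc : ℝ) + 1) ^ 2 * 16))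
  linarith

theorem Ed_gadget (p : Par) {N : ℕ} (hN : 0 < N) (H : (Fin N → Bool) → ℝ)
    (sel : Fin p.nc → DD p N → Fin p.T) (g : Fin p.nc)
    (hsel : Ed p N (fun d => tot p N H (g, sel g d) d) ≤ RR p) {n : ℕ} (hn : n < p.nc)
    (hg : (g : ℕ) ≤ p.nc - 1 - n) (s : Clo.Shape (n + 1)) {η C : ℝ} (hη : 0 ≤ η) (hC : 0 ≤ C)
    (happ : Bld.Approx p.nc p.rho η C p.Q p.lev p.tree n s) (hδ1 : η + C * (8 / p.Q) ≤ 1)
    {ε : ℝ} (hε : 0 < ε) :
    Ed p N (fun d => Quiet.pur (PP p N H d) ((fil p N).F (p.ct g (sel g d)))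
      (fun (i : Fin N) => cE (PP p N H d) ((fil p N).F (p.mt (p.nc - 1 - n) - 1))
        (VV p N (PP p N H d) (PP_isProb p N H d) i (n + 1) s))) ≤
      4 * (p.nc * p.T) / N + 6 * (η + C * (8 / p.Q)) + ε +
        ε⁻¹ * (((p.nc : ℝ) + 1) ^ 2 * (C ^ 4 * RR p + (p.Q * C) ^ 4 / N)) := by
  obtain ⟨c, hc1, hc2, hc3⟩ := happ
  have hQ : (0 : ℝ) < p.Q := by have := p.hQ; exact_mod_cast (by omega : 0 < p.Q)
  let g' : Fin p.nc := ⟨p.nc - 1 - n, by omega⟩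
  have h1 : ∀ d, Quiet.pur (PP p N H d) ((fil p N).F (p.ct g (sel g d)))
      (fun (i : Fin N) => cE (PP p N H d) ((fil p N).F (p.mt (p.nc - 1 - n) - 1))
        (VV p N (PP p N H d) (PP_isProb p N H d) i (n + 1) s)) ≤
      (4 * (p.nc * p.T) / N + 6 * (η + C * (8 / p.Q)) + ε +
        ε⁻¹ * (((p.nc : ℝ) + 1) ^ 2 * ((p.Q * C) ^ 4 / N))) +
        (ε⁻¹ * (((p.nc : ℝ) + 1) ^ 2 * C ^ 4)) * tot p N H (g, sel g d) d := by
    intro d
    rw [pur_eq_avc]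
    refine (avc_gadget p hN (H := H) d (g, sel g d) c g' hg ?_ hc2 ?_ hε (by positivity) hδ1
      ?_).trans (le_of_eq ?_)
    · intro b hb
      have h2 := hc1 b hb
      have h3 := (p.lev b).2
      apply Fin.ext
      simp only [g']
      omega
    · intro i ω
      exact abs_cE_le_of_le (PP_isProb p N H d)
        (fun a => VV_abs p N (PP p N H d) (PP_isProb p N H d) i (n + 1) s a) ω
    · intro i hi ω
      exact VV_approx p H (mem_Un.1 hi) hn s c hc1 hc2 hc3 ω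
    · ring
  refine (Ed_mono p N h1).trans ?_
  rw [Ed_add, Ed_const p hN, Ed_smul]
  have h2 := mul_le_mul_of_nonneg_left hsel
    (by positivity : 0 ≤ ε⁻¹ * (((p.nc : ℝ) + 1) ^ 2 * C ^ 4))
  linarith

/-! ### Exponents -/

/-- exponents in terms of the number of cells. -/
def rhoN (nc n : ℕ) : ℝ :=
  if n = 0 then (((nc - 1 : ℕ) : ℝ) + 1) / ((nc : ℝ) + 1) else
    if n < nc then ((((nc - 1 - n : ℕ) : ℝ) + 1) / ((nc : ℝ) + 1)) /
      ((((nc - n : ℕ) : ℝ) + 1) / ((nc : ℝ) + 1)) else 1 / 2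

theorem rho_eq (p : Par) : p.rho = rhoN p.nc := by
  funext n
  rfl

/-- a trivial set of parameters. -/
def p0 (nc : ℕ) (hnc : 0 < nc) : Par where
  nc := nc
  T := 1
  nb := 0
  Q := 2
  lev := fun b => b.elim0
  tree := fun b => b.elim0
  good := fun b => b.elim0
  τ := 1 / 2
  hnc := hnc
  hQ := le_rfl
  hτ0 := by norm_num
  hτ1 := le_rfl

theorem rhoN_mem (nc : ℕ) (hnc : 0 < nc) (n : ℕ) : 0 < rhoN nc n ∧ rhoN nc n < 1 := by
  have := (p0 nc hnc).rho_mem n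
  rw [rho_eq] at this
  exact this

/-- the shapes of a given height. -/
def shapesOf (FS : Finset (Σ k, Clo.Shape k)) (n : ℕ) : List (Clo.Shape (n + 1)) :=
  FS.toList.filterMap (fun x => if h : x.1 = n + 1 then some (h ▸ x.2) else none)

theorem mem_shapesOf {FS : Finset (Σ k, Clo.Shape k)} {n : ℕ} {s : Clo.Shape (n + 1)}
    (h : (⟨n + 1, s⟩ : Σ k, Clo.Shape k) ∈ FS) : s ∈ shapesOf FS n := by
  unfold shapesOf
  rw [List.mem_filterMap]
  refine ⟨⟨n + 1, s⟩, Finset.mem_toList.2 h, ?_⟩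
  simp

/-- the observation steps. -/
def tsel (p : Par) {N : ℕ} (sel : Fin p.nc → DD p N → Fin p.T) (d : DD p N) (g : ℕ) : ℕ :=
  if h : g < p.nc then p.ct g (sel ⟨g, h⟩ d) else g * (p.T + 1)

theorem tsel_mem (p : Par) {N : ℕ} (sel : Fin p.nc → DD p N → Fin p.T) (d : DD p N) (g : ℕ) :
    g * (p.T + 1) ≤ tsel p sel d g ∧ tsel p sel d g < (g + 1) * (p.T + 1) := by
  have hm : (g + 1) * (p.T + 1) = g * (p.T + 1) + (p.T + 1) := by ring
  unfold tsel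
  split_ifs with h
  · have := (sel ⟨g, h⟩ d).2
    unfold Par.ct
    omega
  · omega

/-- total purity of one set of parameters. -/
theorem Ed_totPur (p : Par) {N : ℕ} (hN : 0 < N) (H : (Fin N → Bool) → ℝ)
    (sel : Fin p.nc → DD p N → Fin p.T)
    (hsel : ∀ g, Ed p N (fun d => tot p N H (g, sel g d) d) ≤ RR p)
    (FS : Finset (Σ k, Clo.Shape k)) (hFS : ∀ x ∈ FS, 1 ≤ x.1 ∧ x.1 ≤ p.nc)
    {η C ε η1 : ℝ} (hη : 0 ≤ η) (hC : 0 ≤ C) (hε : 0 < ε)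
    (happ : ∀ n, n < p.nc → ∀ s ∈ shapesOf FS n, Bld.Approx p.nc p.rho η C p.Q p.lev p.tree n s)
    (hδ1 : η + C * (8 / p.Q) ≤ 1)
    (hs : 16 * (p.nc * p.T) / N + ε +
        ε⁻¹ * (((p.nc : ℝ) + 1) ^ 2 * (16 * RR p + 16 / N)) ≤ η1)
    (hg : 4 * (p.nc * p.T) / N + 6 * (η + C * (8 / p.Q)) + ε +
        ε⁻¹ * (((p.nc : ℝ) + 1) ^ 2 * (C ^ 4 * RR p + (p.Q * C) ^ 4 / N)) ≤ η1) :
    Ed p N (fun d => Quiet.totPur (PP p N H d) (fil p N) (fun g => g * (p.T + 1))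
      (tsel p sel d) (fun (i : Fin N) (ω : Om p N) => ω.1 i) p.nc FS) ≤
      (p.nc + FS.card * p.nc) * η1 := by
  have hη1 : 0 ≤ η1 := by
    refine le_trans ?_ hs
    have hR : 0 ≤ RR p := by
      refine le_trans ?_ (hsel ⟨0, p.hnc⟩)
      rw [← Ed_const p hN 0]
      exact Ed_mono p N (fun d => tot_nonneg p N H _ d)
    positivity
  have hts : ∀ (d : DD p N) (g : ℕ) (h : g < p.nc), tsel p sel d g = p.ct g (sel ⟨g, h⟩ d) := by
    intro d g h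
    unfold tsel
    rw [dif_pos h]
  unfold Quiet.totPur
  rw [Ed_add, Ed_sum, Ed_sum]
  have hA : ∑ g ∈ range p.nc, Ed p N (fun d => Quiet.pur (PP p N H d)
      ((fil p N).F (tsel p sel d g)) (fun (i : Fin N) (ω : Om p N) => spinVal (ω.1 i))) ≤
      p.nc * η1 := by
    calc _ ≤ ∑ g ∈ range p.nc, η1 := by
          apply Finset.sum_le_sum
          intro g hgr
          rw [Finset.mem_range] at hgr
          simp only [hts _ g hgr]
          exact (Ed_spin p hN H sel ⟨g, hgr⟩ (hsel _) hε).trans hs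
      _ = _ := by rw [Finset.sum_const, Finset.card_range, nsmul_eq_mul]
  have hB : ∑ x ∈ FS, Ed p N (fun d => ∑ g ∈ range (p.nc - x.1 + 1), Quiet.pur (PP p N H d)
      ((fil p N).F (tsel p sel d g)) (fun i => cE (PP p N H d) ((fil p N).F
        ((fun g => g * (p.T + 1)) (p.nc - x.1 + 1) - 1))
        (KerS.VS (PP p N H d) (Quiet.Rfull (fil p N) (fun g => g * (p.T + 1)) p.nc)
          (fun (i : Fin N) (ω : Om p N) => ω.1 i) x.1 x.2 i))) ≤
      FS.card * p.nc * η1 := by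
    calc _ ≤ ∑ x ∈ FS, (p.nc : ℝ) * η1 := by
          apply Finset.sum_le_sum
          rintro ⟨k, s⟩ hx
          obtain ⟨h1, h2⟩ := hFS _ hx
          simp only at h1 h2
          obtain ⟨n, rfl⟩ : ∃ n, k = n + 1 := ⟨k - 1, by omega⟩
          rw [Ed_sum]
          calc _ ≤ ∑ g ∈ range (p.nc - (n + 1) + 1), η1 := by
                apply Finset.sum_le_sum
                intro g hgr
                have hgr : g < p.nc - (n + 1) + 1 := Finset.mem_range.1 hgr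
                have h2' : n + 1 ≤ p.nc := h2
                have hgn : g < p.nc := by omega
                simp only [hts _ g hgn]
                have e1 : (p.nc - (n + 1) + 1) * (p.T + 1) - 1 = p.mt (p.nc - 1 - n) - 1 := by
                  unfold Par.mt
                  have : p.nc - (n + 1) + 1 = p.nc - 1 - n + 1 := by omega
                  rw [this]
                simp only [e1]
                have e2 : ∀ d, (fun i => cE (PP p N H d) ((fil p N).F (p.mt (p.nc - 1 - n) - 1))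
                    (KerS.VS (PP p N H d) (Quiet.Rfull (fil p N) (fun g => g * (p.T + 1)) p.nc)
                      (fun (i : Fin N) (ω : Om p N) => ω.1 i) (n + 1) s i)) =
                    (fun (i : Fin N) => cE (PP p N H d) ((fil p N).F (p.mt (p.nc - 1 - n) - 1))
                      (VV p N (PP p N H d) (PP_isProb p N H d) i (n + 1) s)) := by
                  intro d
                  funext i
                  rw [VS_full p N (PP p N H d) (PP_isProb p N H d) i h2' s]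
                simp only [e2]
                exact (Ed_gadget p hN H sel ⟨g, hgn⟩ (hsel _) (n := n) (by omega)
                  (by simp only; omega) s hη hC
                  (happ n (by omega) s (mem_shapesOf hx)) hδ1 hε).trans hg
            _ = ((p.nc - (n + 1) + 1 : ℕ) : ℝ) * η1 := by
                rw [Finset.sum_const, Finset.card_range, nsmul_eq_mul]
            _ ≤ (p.nc : ℝ) * η1 := by
                apply mul_le_mul_of_nonneg_right _ hη1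
                exact_mod_cast (by omega : p.nc - (n + 1) + 1 ≤ p.nc)
      _ = _ := by rw [Finset.sum_const, nsmul_eq_mul]; ring
  have hsum := add_le_add hA hB
  refine le_trans hsum (le_of_eq ?_)
  ring

theorem real_params {nc nb C η1 ε Q τ T N M : ℝ} (hnc : 0 ≤ nc) (hC : 0 ≤ C)
    (hη1 : 0 < η1) (hε : ε = η1 / 8) (hQ : 0 < Q) (hτ : 0 < τ) (hT : 0 < T) (hN : 0 < N)
    {ηc : ℝ} (hηc : ηc ≤ η1 / 96) (hCQ : C * (8 / Q) ≤ ηc)
    (h1 : (ε⁻¹ * ((nc + 1) ^ 2 * (C ^ 4 + 16))) * (4 * (242 * τ ^ 2 * (1 + 256 * nb ^ 2))) ≤ η1 / 8)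
    (h2 : (ε⁻¹ * ((nc + 1) ^ 2 * (C ^ 4 + 16))) * (4 / T * (16 / τ ^ 2 * (nb + 1) *
      (1 + 16 * Q ^ 2 * nb ^ 2) + M)) ≤ η1 / 8)
    (h3 : 16 * (nc * T) / N ≤ η1 / 8)
    (h4 : ε⁻¹ * ((nc + 1) ^ 2 * (((Q * C) ^ 4 + 16) / N)) ≤ η1 / 8) {R : ℝ} (hR0 : 0 ≤ R)
    (hR : R = 4 / T * (16 / τ ^ 2 * (nb + 1) * (1 + 16 * Q ^ 2 * nb ^ 2) + M) +
      4 * (242 * τ ^ 2 * (1 + 256 * nb ^ 2))) :
    16 * (nc * T) / N + ε + ε⁻¹ * ((nc + 1) ^ 2 * (16 * R + 16 / N)) ≤ η1 ∧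
    4 * (nc * T) / N + 6 * (ηc + C * (8 / Q)) + ε +
        ε⁻¹ * ((nc + 1) ^ 2 * (C ^ 4 * R + (Q * C) ^ 4 / N)) ≤ η1 := by
  have hε0 : 0 < ε := by rw [hε]; positivity
  have hKR : (ε⁻¹ * ((nc + 1) ^ 2 * (C ^ 4 + 16))) * R ≤ η1 / 4 := by
    rw [hR, mul_add]; linarith
  have hK0 : 0 ≤ ε⁻¹ * (nc + 1) ^ 2 := by positivity
  constructor
  · have e1 : ε⁻¹ * ((nc + 1) ^ 2 * (16 * R + 16 / N)) ≤
        (ε⁻¹ * ((nc + 1) ^ 2 * (C ^ 4 + 16))) * R +
          ε⁻¹ * ((nc + 1) ^ 2 * (((Q * C) ^ 4 + 16) / N)) := by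
      have h5 : 16 / N ≤ ((Q * C) ^ 4 + 16) / N := by
        apply div_le_div_of_nonneg_right _ hN.le
        have : 0 ≤ (Q * C) ^ 4 := by positivity
        linarith
      have h6 : 16 * R ≤ (C ^ 4 + 16) * R := by
        apply mul_le_mul_of_nonneg_right _ hR0
        have : 0 ≤ C ^ 4 := by positivity
        linarith
      have h7 := mul_le_mul_of_nonneg_left (add_le_add h6 h5) hK0
      have h8 : (ε⁻¹ * (nc + 1) ^ 2) * ((C ^ 4 + 16) * R + ((Q * C) ^ 4 + 16) / N) =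
          (ε⁻¹ * ((nc + 1) ^ 2 * (C ^ 4 + 16))) * R +
          ε⁻¹ * ((nc + 1) ^ 2 * (((Q * C) ^ 4 + 16) / N)) := by ring
      rw [h8] at h7
      have h9 : ε⁻¹ * (nc + 1) ^ 2 * (16 * R + 16 / N) =
        ε⁻¹ * ((nc + 1) ^ 2 * (16 * R + 16 / N)) := by ring
      rw [h9] at h7
      exact h7
    linarith
  · have e1 : ε⁻¹ * ((nc + 1) ^ 2 * (C ^ 4 * R + (Q * C) ^ 4 / N)) ≤
        (ε⁻¹ * ((nc + 1) ^ 2 * (C ^ 4 + 16))) * R +
          ε⁻¹ * ((nc + 1) ^ 2 * (((Q * C) ^ 4 + 16) / N)) := by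
      have h5 : (Q * C) ^ 4 / N ≤ ((Q * C) ^ 4 + 16) / N := by
        apply div_le_div_of_nonneg_right _ hN.le
        linarith
      have h6 : C ^ 4 * R ≤ (C ^ 4 + 16) * R := by
        apply mul_le_mul_of_nonneg_right _ hR0
        linarith
      have h7 := mul_le_mul_of_nonneg_left (add_le_add h6 h5) hK0
      have h8 : (ε⁻¹ * (nc + 1) ^ 2) * ((C ^ 4 + 16) * R + ((Q * C) ^ 4 + 16) / N) =
          (ε⁻¹ * ((nc + 1) ^ 2 * (C ^ 4 + 16))) * R +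
          ε⁻¹ * ((nc + 1) ^ 2 * (((Q * C) ^ 4 + 16) / N)) := by ring
      rw [h8] at h7
      have h9 : ε⁻¹ * (nc + 1) ^ 2 * (C ^ 4 * R + (Q * C) ^ 4 / N) =
        ε⁻¹ * ((nc + 1) ^ 2 * (C ^ 4 * R + (Q * C) ^ 4 / N)) := by ring
      rw [h9] at h7
      exact h7
    have e2 : 4 * (nc * T) / N ≤ 16 * (nc * T) / N := by
      apply div_le_div_of_nonneg_right _ hN.le
      have : 0 ≤ nc * T := by positivity
      linarith
    linarith

/-- **The purity theorem.** -/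
theorem purity_main : PurityMain := by
  intro nc hnc FS hFS eps eta heps heta
  have hK : (0 : ℝ) < (nc : ℝ) + FS.card * nc + 1 := by positivity
  obtain ⟨η1, hη1d⟩ : ∃ η1 : ℝ, η1 = eta / ((nc : ℝ) + FS.card * nc + 1) := ⟨_, rfl⟩
  have hη1 : 0 < η1 := by rw [hη1d]; positivity
  obtain ⟨ε, hε⟩ : ∃ ε : ℝ, ε = η1 / 8 := ⟨_, rfl⟩
  have hε0 : 0 < ε := by rw [hε]; positivity
  obtain ⟨ηc, hηcd⟩ : ∃ ηc : ℝ, ηc = min (1 / 2) (η1 / 96) := ⟨_, rfl⟩
  have hηc : 0 < ηc := by rw [hηcd]; positivity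
  have hηc1 : ηc ≤ 1 / 2 := by rw [hηcd]; exact min_le_left _ _
  have hηc2 : ηc ≤ η1 / 96 := by rw [hηcd]; exact min_le_right _ _
  obtain ⟨nb, Q0, hQ0, lev, C, hC, hb⟩ := Bld.build nc (rhoN_mem nc hnc) hηc (shapesOf FS)
  obtain ⟨m, hm⟩ := exists_nat_ge (max 4 (max ((nb : ℝ) / eps) (8 * C / ηc)))
  have hm4 : (4 : ℝ) ≤ m := (le_max_left _ _).trans hm
  have hm4' : 4 ≤ m := by exact_mod_cast hm4
  have hm1 : (nb : ℝ) / eps ≤ m := ((le_max_left _ _).trans (le_max_right _ _)).trans hm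
  have hm2 : 8 * C / ηc ≤ m := ((le_max_right _ _).trans (le_max_right _ _)).trans hm
  obtain ⟨tree, good, happ⟩ := hb m (by omega)
  obtain ⟨Q, hQd⟩ : ∃ Q : ℝ, Q = ((Q0 * m : ℕ) : ℝ) := ⟨_, rfl⟩
  have hQm : (m : ℝ) ≤ Q := by
    rw [hQd]
    exact_mod_cast Nat.le_mul_of_pos_left m hQ0
  have hQ4 : (4 : ℝ) ≤ Q := hm4.trans hQm
  have hQ4' : 4 ≤ Q0 * m := by
    have : ((4 : ℕ) : ℝ) ≤ ((Q0 * m : ℕ) : ℝ) := by rw [← hQd]; exact_mod_cast hQ4
    exact_mod_cast this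
  have hQ0' : (0 : ℝ) < Q := by linarith
  have hCQ : C * (8 / Q) ≤ ηc := by
    have h1 : 8 * C ≤ ηc * m := by
      rw [div_le_iff₀ hηc] at hm2
      linarith
    have h2 : ηc * m ≤ ηc * Q := mul_le_mul_of_nonneg_left hQm hηc.le
    rw [← mul_div_assoc, div_le_iff₀ hQ0']
    linarith
  have hnbQ : (nb : ℝ) / Q ≤ eps := by
    rw [div_le_iff₀ hQ0']
    rw [div_le_iff₀ heps] at hm1
    calc (nb : ℝ) ≤ m * eps := hm1
      _ ≤ Q * eps := mul_le_mul_of_nonneg_right hQm heps.le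
      _ = eps * Q := mul_comm _ _
  -- the coin strength
  obtain ⟨K1, hK1d⟩ : ∃ K1 : ℝ, K1 = ε⁻¹ * (((nc : ℝ) + 1) ^ 2 * (C ^ 4 + 16)) := ⟨_, rfl⟩
  have hK1 : 0 < K1 := by rw [hK1d]; positivity
  obtain ⟨D, hDd⟩ : ∃ D : ℝ, D = 8 * K1 * (4 * (242 * (1 + 256 * (nb : ℝ) ^ 2))) := ⟨_, rfl⟩
  have hD : 0 < D := by rw [hDd]; positivity
  obtain ⟨τ, hτd⟩ : ∃ τ : ℝ, τ = min (1 / 3) (η1 / D) := ⟨_, rfl⟩
  have hτ0 : 0 < τ := by rw [hτd]; positivity
  have hτ3 : τ ≤ 1 / 3 := by rw [hτd]; exact min_le_left _ _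
  have hτD : τ ≤ η1 / D := by rw [hτd]; exact min_le_right _ _
  have h1 : K1 * (4 * (242 * τ ^ 2 * (1 + 256 * (nb : ℝ) ^ 2))) ≤ η1 / 8 := by
    have h2 : τ ^ 2 ≤ τ := by nlinarith
    have h3 : τ * D ≤ η1 := by rwa [le_div_iff₀ hD] at hτD
    have h4 : τ ^ 2 * D ≤ η1 := (mul_le_mul_of_nonneg_right h2 hD.le).trans h3
    rw [hDd] at h4
    linarith
  -- the number of coins
  obtain ⟨X, hXd⟩ : ∃ X : ℝ, X = 16 / τ ^ 2 * ((nb : ℝ) + 1) * (1 + 16 * Q ^ 2 * (nb : ℝ) ^ 2) +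
    (1 + Q ^ 4 * (nb : ℝ) ^ 2) := ⟨_, rfl⟩
  have hX : 0 < X := by rw [hXd]; positivity
  obtain ⟨T, hT⟩ := exists_nat_gt (8 * K1 * 4 * X / η1)
  have hT0 : (0 : ℝ) < T := lt_of_le_of_lt (by positivity) hT
  have hT0' : 0 < T := by exact_mod_cast hT0
  have h2 : K1 * (4 / T * X) ≤ η1 / 8 := by
    rw [div_lt_iff₀ hη1] at hT
    rw [mul_comm (4 / (T : ℝ)), mul_div_assoc', ← mul_div_assoc, div_le_div_iff₀ hT0 (by norm_num)]
    linarith
  let p : Par :=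
    { nc := nc
      T := T
      nb := nb
      Q := Q0 * m
      lev := lev
      tree := tree
      good := good
      τ := τ
      hnc := hnc
      hQ := by omega
      hτ0 := hτ0
      hτ1 := by linarith }
  obtain ⟨N0, hN0⟩ := exists_nat_gt (max (8 * (16 * ((nc : ℝ) * T)) / η1)
    (8 * (ε⁻¹ * (((nc : ℝ) + 1) ^ 2 * ((Q * C) ^ 4 + 16))) / η1))
  refine ⟨p, rfl, ?_, N0 + 1, ?_⟩
  · show (nb : ℝ) / ((Q0 * m : ℕ) : ℝ) ≤ eps
    rw [← hQd]; exact hnbQ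
  intro N hNN H
  have hN : 0 < N := by omega
  have hN' : (0 : ℝ) < N := by exact_mod_cast hN
  have hNN0 : (N0 : ℝ) ≤ N := by exact_mod_cast (by omega : N0 ≤ N)
  have h3 : 16 * ((nc : ℝ) * T) / N ≤ η1 / 8 := by
    have h5 := (lt_of_le_of_lt (le_max_left _ _) hN0).le.trans hNN0
    rw [div_le_iff₀ hη1] at h5
    rw [div_le_div_iff₀ hN' (by norm_num)]
    linarith
  have h4 : ε⁻¹ * (((nc : ℝ) + 1) ^ 2 * (((Q * C) ^ 4 + 16) / N)) ≤ η1 / 8 := by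
    have h5 := (lt_of_le_of_lt (le_max_right _ _) hN0).le.trans hNN0
    rw [div_le_iff₀ hη1] at h5
    rw [← mul_div_assoc, ← mul_div_assoc, div_le_div_iff₀ hN' (by norm_num)]
    linarith
  obtain ⟨sel, hsel⟩ := selBad p hτ3 hQ4' hN hT0' H
  have hsel' : ∀ g, Ed p N (fun d => tot p N H (g, sel g d) d) ≤ RR p :=
    fun g => Ed_tot_le p hN H sel g (hsel g)
  have hR0 : 0 ≤ RR p := by
    unfold RR M0
    positivity
  have hRR : RR p = 4 / (T : ℝ) * (16 / τ ^ 2 * ((nb : ℝ) + 1) * (1 + 16 * Q ^ 2 * (nb : ℝ) ^ 2) +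
      (1 + Q ^ 4 * (nb : ℝ) ^ 2)) + 4 * (242 * τ ^ 2 * (1 + 256 * (nb : ℝ) ^ 2)) := by
    rw [hQd]
    rfl
  rw [hXd] at h2
  rw [hK1d] at h1 h2
  obtain ⟨hs, hg⟩ := real_params (nc := (nc : ℝ)) (by positivity) hC hη1 hε hQ0' hτ0 hT0 hN' hηc2
    hCQ h1 h2 h3 h4 hR0 hRR
  refine ⟨fun d g => tsel p sel d g, fun d g => tsel_mem p sel d g, ?_⟩
  have hfin := Ed_totPur p hN H sel hsel' FS hFS (η := ηc) (C := C) (ε := ε) (η1 := η1) hηc.le hC
    hε0 (fun n hn s hs => happ n hn s hs) (by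
      show ηc + C * (8 / ((Q0 * m : ℕ) : ℝ)) ≤ 1
      rw [← hQd]
      linarith) hs (by
      show 4 * ((nc : ℝ) * T) / N + 6 * (ηc + C * (8 / ((Q0 * m : ℕ) : ℝ))) + ε +
        ε⁻¹ * (((nc : ℝ) + 1) ^ 2 * (C ^ 4 * RR p + (((Q0 * m : ℕ) : ℝ) * C) ^ 4 / N)) ≤ η1
      rw [← hQd]
      exact hg)
  refine hfin.trans ?_
  show ((nc : ℝ) + FS.card * nc) * η1 ≤ eta
  have h9 : ((nc : ℝ) + FS.card * nc + 1) * η1 = eta := by
    rw [hη1d]; field_simp
  linarith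

end

end Crest.Agent.R141.Pur
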