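import Crest.Agent.R141.Quiet

/-!
Row 141 (S0192), Part L, 3.3: purity transfer from the full-depth shape functionals (evaluated at
the ends of all cells) to the shape functionals of the skeleton.
-/

set_option autoImplicit false

namespace Crest.Agent.R141.Quiet

open Finset Crest.Agent.R141.KerS
open Crest.Agent.R141.Fact hiding Shape
open Crest.ProbabilityR.Diluted (spinVal)
open Crest.Agent.R141.Clo (Shape)

noncomputable section

section cov

variable {Ω I : Type} [Fintype Ω] [Fintype I] {P : Ω → ℝ}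

/-- purity number of the family `φ` at the partition `r` -/
def pur (P : Ω → ℝ) (r : Setoid Ω) (φ : I → Ω → ℝ) : ℝ :=
  ∑ ω, P ω * avgCov (kerS P r) ω φ

theorem pur_nonneg (hP : IsProb P) (r : Setoid Ω) (φ : I → Ω → ℝ) : 0 ≤ pur P r φ :=
  Finset.sum_nonneg fun ω _ => mul_nonneg (hP.pos ω).le (avgCov_nonneg _ _)

theorem covS_sub_le (hP : IsProb P) (r : Setoid Ω) {f f' h h' : Ω → ℝ}
    (hf : ∀ ω, |f ω| ≤ 1) (hf' : ∀ ω, |f' ω| ≤ 1) (hh : ∀ ω, |h ω| ≤ 1) (hh' : ∀ ω, |h' ω| ≤ 1)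
    (ω : Ω) :
    |covS P r f f' ω| ≤ |covS P r h h' ω| + 2 * cE P r (fun a => |f a - h a|) ω +
      2 * cE P r (fun a => |f' a - h' a|) ω := by
  set E := fun g : Ω → ℝ => cE P r g ω with hE
  have e1 : |E (fun a => f a * f' a) - E (fun a => h a * h' a)| ≤
      E (fun a => |f a - h a|) + E (fun a => |f' a - h' a|) := by
    have : E (fun a => f a * f' a) - E (fun a => h a * h' a) =
        E (fun a => (f a - h a) * f' a + h a * (f' a - h' a)) := by
      simp only [hE]
      rw [← cE_sub]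
      congr 1; funext a; ring
    rw [this]
    refine (cE_abs_le hP _ ω).trans ?_
    simp only [hE]
    rw [← cE_add]
    apply cE_mono' hP
    intro a
    refine (abs_add_le _ _).trans (add_le_add ?_ ?_)
    · rw [abs_mul]
      calc |f a - h a| * |f' a| ≤ |f a - h a| * 1 :=
            mul_le_mul_of_nonneg_left (hf' a) (abs_nonneg _)
        _ = _ := mul_one _
    · rw [abs_mul]
      calc |h a| * |f' a - h' a| ≤ 1 * |f' a - h' a| :=
            mul_le_mul_of_nonneg_right (hh a) (abs_nonneg _)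
        _ = _ := one_mul _
  have e2 : |E f - E h| ≤ E (fun a => |f a - h a|) := by
    have : E f - E h = E (fun a => f a - h a) := by simp only [hE]; rw [← cE_sub]
    rw [this]; exact cE_abs_le hP _ ω
  have e3 : |E f' - E h'| ≤ E (fun a => |f' a - h' a|) := by
    have : E f' - E h' = E (fun a => f' a - h' a) := by simp only [hE]; rw [← cE_sub]
    rw [this]; exact cE_abs_le hP _ ω
  have e4 : |E f'| ≤ 1 := abs_cE_le_of_le hP hf' ω
  have e5 : |E h| ≤ 1 := abs_cE_le_of_le hP hh ω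
  have e6 : |E f * E f' - E h * E h'| ≤
      E (fun a => |f a - h a|) + E (fun a => |f' a - h' a|) := by
    have : E f * E f' - E h * E h' = (E f - E h) * E f' + E h * (E f' - E h') := by ring
    rw [this]
    refine (abs_add_le _ _).trans (add_le_add ?_ ?_)
    · rw [abs_mul]
      calc |E f - E h| * |E f'| ≤ |E f - E h| * 1 :=
            mul_le_mul_of_nonneg_left e4 (abs_nonneg _)
        _ ≤ _ := by rw [mul_one]; exact e2
    · rw [abs_mul]
      calc |E h| * |E f' - E h'| ≤ 1 * |E f' - E h'| :=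
            mul_le_mul_of_nonneg_right e5 (abs_nonneg _)
        _ ≤ _ := by rw [one_mul]; exact e3
  have e7 : covS P r f f' ω = covS P r h h' ω +
      ((E (fun a => f a * f' a) - E (fun a => h a * h' a)) -
        (E f * E f' - E h * E h')) := by
    simp only [covS, hE]; ring
  rw [e7]
  have e8 := abs_add_le (covS P r h h' ω) ((E (fun a => f a * f' a) - E (fun a => h a * h' a)) -
        (E f * E f' - E h * E h'))
  have e9 := abs_sub (E (fun a => f a * f' a) - E (fun a => h a * h' a))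
        (E f * E f' - E h * E h')
  simp only [hE] at *
  linarith

/-- transfer of purity -/
theorem pur_le (hP : IsProb P) [Nonempty I] (r : Setoid Ω) {f h : I → Ω → ℝ}
    (hf : ∀ i ω, |f i ω| ≤ 1) (hh : ∀ i ω, |h i ω| ≤ 1) {b : ℝ}
    (hb : avg (fun i => eE P (fun ω => |f i ω - h i ω|)) ≤ b) :
    pur P r f ≤ pur P r h + 4 * b := by
  set D : I → Ω → ℝ := fun i ω => cE P r (fun a => |f i a - h i a|) ω with hD
  have h1 : ∀ ω, avgCov (kerS P r) ω f ≤ avgCov (kerS P r) ω h + 4 * avg (fun i => D i ω) := by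
    intro ω
    unfold avgCov
    calc avg (fun i => avg (fun i' => |Cov (kerS P r) ω (f i) (f i')|))
        ≤ avg (fun i => avg (fun i' => |Cov (kerS P r) ω (h i) (h i')|) +
            (2 * D i ω + 2 * avg (fun i' => D i' ω))) := by
          apply avg_mono
          intro i
          calc avg (fun i' => |Cov (kerS P r) ω (f i) (f i')|)
              ≤ avg (fun i' => |Cov (kerS P r) ω (h i) (h i')| + (2 * D i ω + 2 * D i' ω)) := by
                apply avg_mono
                intro i'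
                rw [Cov_kerS, Cov_kerS]
                have := covS_sub_le hP r (hf i) (hf i') (hh i) (hh i') ω
                simp only [hD]
                linarith
            _ = _ := by rw [avg_add, avg_add, avg_const, avg_smul]
      _ = avg (fun i => avg (fun i' => |Cov (kerS P r) ω (h i) (h i')|)) +
            4 * avg (fun i => D i ω) := by
          rw [avg_add, avg_add, avg_const, avg_smul]; ring
  have h2 : ∑ ω, P ω * avg (fun i => D i ω) = avg (fun i => eE P (fun ω => |f i ω - h i ω|)) := by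
    have e1 : ∀ i, eE P (fun ω => |f i ω - h i ω|) = ∑ ω, P ω * D i ω := by
      intro i
      exact (eE_cE hP r (fun ω => |f i ω - h i ω|)).symm
    simp only [e1]
    unfold avg
    simp only [Finset.mul_sum]
    rw [Finset.sum_comm]
    apply Finset.sum_congr rfl; intro i _
    apply Finset.sum_congr rfl; intro ω _
    ring
  calc pur P r f ≤ ∑ ω, P ω * (avgCov (kerS P r) ω h + 4 * avg (fun i => D i ω)) :=
        Finset.sum_le_sum fun ω _ => mul_le_mul_of_nonneg_left (h1 ω) (hP.pos ω).le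
    _ = pur P r h + 4 * ∑ ω, P ω * avg (fun i => D i ω) := by
        unfold pur
        rw [Finset.mul_sum, ← Finset.sum_add_distrib]
        apply Finset.sum_congr rfl; intro ω _; ring
    _ ≤ pur P r h + 4 * b := by rw [h2]; linarith

end cov

/-! ### full-depth shapes -/

section full

variable {Ω I : Type} [Fintype Ω] {P : Ω → ℝ}

/-- the full sequence of partitions: height `k+1` (level `g = nc-(k+1)`) uses the end of the
cell `g`. -/
def Rfull (𝓕 : Filt Ω) (st : ℕ → ℕ) (nc k : ℕ) : Setoid Ω := 𝓕.F (st (nc - k))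

/-- raising a shape by one-element lists -/
def up : (j : ℕ) → {k : ℕ} → Shape k → Shape (k + j)
  | 0, _, s => s
  | j + 1, _, s => Shape.ofList [up j s]

theorem cE_up (hP : IsProb P) (𝓕 : Filt Ω) {st : ℕ → ℕ} (hst : Monotone st) (nc : ℕ)
    (sg : I → Ω → Bool) (j : ℕ) {k : ℕ} (s : Shape k) (i : I) (ω : Ω) :
    cE P (Rfull 𝓕 st nc (k + j)) (VS P (Rfull 𝓕 st nc) sg (k + j) (up j s) i) ω =
      cE P (Rfull 𝓕 st nc (k + j)) (VS P (Rfull 𝓕 st nc) sg k s i) ω := by
  induction j generalizing ω with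
  | zero => rfl
  | succ j ih =>
    have h1 : VS P (Rfull 𝓕 st nc) sg (k + (j + 1)) (up (j + 1) s) i =
        cE P (Rfull 𝓕 st nc (k + j)) (VS P (Rfull 𝓕 st nc) sg k s i) := by
      funext ω'
      have h2 := VS_succ P (Rfull 𝓕 st nc) sg (n := k + j) (Shape.ofList [up j s]) i ω'
      rw [Shape.toList_ofList] at h2
      simp only [List.map_cons, List.map_nil, List.prod_cons, List.prod_nil, mul_one] at h2
      rw [← ih ω']
      exact h2
    rw [h1]
    apply cE_tower hP
    apply filt_anti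
    apply hst
    omega

/-- height of the functional of depth `n` -/
def hgt (nc : ℕ) (c : ℕ → ℕ) : ℕ → ℕ
  | 0 => 0
  | n + 1 => nc - c n

/-- `x` is a full-depth representation of the depth `n` shape `s` for the cells `c` -/
def Rep (nc : ℕ) (c : ℕ → ℕ) (n : ℕ) (s : Shape n) (x : Σ k, Shape k) : Prop :=
  x.1 = hgt nc c n ∧ ∀ (Ω I : Type) [Fintype Ω] (P : Ω → ℝ), IsProb P → ∀ (𝓕 : Filt Ω)
    (st : ℕ → ℕ), Monotone st → ∀ (sg : I → Ω → Bool) (i : I) (ω : Ω),
    VS P (Rfull 𝓕 st nc) sg x.1 x.2 i ω = VS P (Rm 𝓕 st c) sg n s i ω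

theorem exists_full (nc : ℕ) : ∀ (n : ℕ) (c : ℕ → ℕ), (∀ m, m < n → c m < nc) →
    (∀ m, m + 1 < n → c (m + 1) < c m) → ∀ s : Shape n,
    ∃ s' : Shape (hgt nc c n), Rep nc c n s ⟨hgt nc c n, s'⟩ := by
  intro n
  induction n with
  | zero =>
    intro c _ _ s
    refine ⟨s, rfl, ?_⟩
    intro Ω I _ P hP 𝓕 st hst sg i ω
    show VS P (Rfull 𝓕 st nc) sg 0 s i ω = _
    rw [VS_zero, VS_zero]
  | succ n ih =>
    intro c hc hdec s
    have ih' := ih c (fun m hm => hc m (by omega)) (fun m hm => hdec m (by omega))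
    choose F hF using ih'
    obtain ⟨j, hj⟩ : ∃ j, hgt nc c (n + 1) = hgt nc c n + j + 1 := by
      have h1 : hgt nc c n + 1 ≤ hgt nc c (n + 1) := by
        have hcn := hc n (by omega)
        cases n with
        | zero => show 0 + 1 ≤ nc - c 0; omega
        | succ m =>
          show (nc - c m) + 1 ≤ nc - c (m + 1)
          have := hdec m (by omega)
          have := hc m (by omega)
          omega
      exact ⟨hgt nc c (n + 1) - (hgt nc c n + 1), by omega⟩
    have hcn : nc - (hgt nc c n + j) = c n + 1 := by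
      have h1 : hgt nc c (n + 1) = nc - c n := rfl
      have h2 := hc n (by omega)
      omega
    rw [hj]
    refine ⟨Shape.ofList (s.toList.map (fun r : Shape n => up j (F r))), hj.symm, ?_⟩
    intro Ω I _ P hP 𝓕 st hst sg i ω
    have h2 := VS_succ P (Rfull 𝓕 st nc) sg (n := hgt nc c n + j)
      (Shape.ofList (s.toList.map (fun r : Shape n => up j (F r)))) i ω
    rw [Shape.toList_ofList, List.map_map] at h2
    refine h2.trans ?_
    rw [VS_succ]
    congr 1
    apply List.map_congr_left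
    intro r _
    show cE P (Rfull 𝓕 st nc (hgt nc c n + j))
      (VS P (Rfull 𝓕 st nc) sg (hgt nc c n + j) (up j (F r)) i) ω = _
    rw [cE_up hP 𝓕 hst nc sg j (F r) i ω]
    have h3 : VS P (Rfull 𝓕 st nc) sg (hgt nc c n) (F r) i = VS P (Rm 𝓕 st c) sg n r i := by
      funext ω'
      exact (hF r).2 Ω I P hP 𝓕 st hst sg i ω'
    rw [h3]
    show cE P (𝓕.F (st (nc - (hgt nc c n + j)))) _ ω = cE P (𝓕.F (st (c n + 1))) _ ω
    rw [hcn]

end full

/-! ### the transfer theorem -/

section transfer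

/-- extension of a finite sequence of cells -/
def cfun {J nc : ℕ} (cx : Fin (J + 1) → Fin nc) (k : ℕ) : ℕ :=
  if h : k < J + 1 then (cx ⟨k, h⟩ : ℕ) else 0

theorem cfun_apply {J nc : ℕ} (c0 : ℕ → ℕ) (h : ∀ n, n ≤ J → c0 n < nc) {n : ℕ} (hn : n ≤ J) :
    cfun (fun k : Fin (J + 1) => (⟨c0 k, h k (Nat.lt_succ_iff.mp k.2)⟩ : Fin nc)) n = c0 n := by
  unfold cfun
  rw [dif_pos (Nat.lt_succ_of_le hn)]

open scoped Classical in
/-- the finite family of full-depth shapes -/
def FSet (J nc : ℕ) (SS : (n : ℕ) → Finset (Shape n)) : Finset (Σ k, Shape k) :=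
  (Finset.univ : Finset (Fin (J + 1) → Fin nc)).biUnion fun cx =>
    (Finset.range (J + 1)).biUnion fun n => (SS n).biUnion fun s =>
      if h : ∃ x, Rep nc (cfun cx) n s x ∧ 1 ≤ x.1 ∧ x.1 ≤ nc then {h.choose} else ∅

theorem FSet_height {J nc : ℕ} {SS : (n : ℕ) → Finset (Shape n)} {x : Σ k, Shape k}
    (hx : x ∈ FSet J nc SS) : 1 ≤ x.1 ∧ x.1 ≤ nc := by
  classical
  unfold FSet at hx
  simp only [Finset.mem_biUnion] at hx
  obtain ⟨cx, _, n, _, s, _, hx⟩ := hx
  split_ifs at hx with h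
  · rw [Finset.mem_singleton] at hx
    rw [hx]
    exact h.choose_spec.2
  · exact absurd hx (Finset.notMem_empty _)

theorem FSet_mem {J nc : ℕ} {SS : (n : ℕ) → Finset (Shape n)} (cx : Fin (J + 1) → Fin nc)
    {n : ℕ} (hn : n ≤ J) {s : Shape n} (hs : s ∈ SS n)
    (h : ∃ x, Rep nc (cfun cx) n s x ∧ 1 ≤ x.1 ∧ x.1 ≤ nc) :
    ∃ x ∈ FSet J nc SS, Rep nc (cfun cx) n s x := by
  classical
  refine ⟨h.choose, ?_, h.choose_spec.1⟩
  unfold FSet
  simp only [Finset.mem_biUnion]
  refine ⟨cx, Finset.mem_univ _, n, Finset.mem_range.mpr (by omega), s, hs, ?_⟩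
  rw [dif_pos h]
  exact Finset.mem_singleton_self _

variable {Ω I : Type} [Fintype Ω] [Fintype I] {P : Ω → ℝ}

/-- total purity number of the structure: spins at all observation steps plus the full-depth
functionals of the family `FS` at all observation steps up to their level. -/
def totPur (P : Ω → ℝ) (𝓕 : Filt Ω) (st t : ℕ → ℕ) (sg : I → Ω → Bool) (nc : ℕ)
    (FS : Finset (Σ k, Shape k)) : ℝ :=
  (∑ g ∈ range nc, pur P (𝓕.F (t g)) (fun i ω => spinVal (sg i ω))) +
  ∑ x ∈ FS, ∑ g ∈ range (nc - x.1 + 1), pur P (𝓕.F (t g))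
    (fun i => cE P (𝓕.F (st (nc - x.1 + 1) - 1)) (VS P (Rfull 𝓕 st nc) sg x.1 x.2 i))

/-- 3.2 + 3.3: QUIET CELLS AND PURITY TRANSFER. -/
theorem purity_transfer (J M : ℕ) (SS : (n : ℕ) → Finset (Shape n))
    (hSS : ∀ n (s : Shape (n + 1)), s ∈ SS (n + 1) ↔
      s.toList.length ≤ M ∧ ∀ q ∈ s.toList, q ∈ SS n) :
    ∃ C : ℝ, 0 ≤ C ∧ ∀ (w : ℕ), 0 < w → ∀ (Ω I : Type) [Fintype Ω] [Fintype I], Nonempty I →
      ∀ (P : Ω → ℝ), IsProb P → ∀ (𝓕 : Filt Ω) (st t : ℕ → ℕ), StrictMono st →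
      (∀ g, st g ≤ t g) → (∀ g, t g < st (g + 1)) → ∀ (sg : I → Ω → Bool),
      ∃ c : ℕ → ℕ, (∀ n, n ≤ J → (J - n) * w ≤ c n ∧ c n < (J - n + 1) * w) ∧
        ∀ n, n ≤ J → ∀ s ∈ SS n,
          pur P (𝓕.F (t (c n))) (VS P (Rt 𝓕 t c) sg n s) ≤
            totPur P 𝓕 st t sg ((J + 1) * w) (FSet J ((J + 1) * w) SS) +
              C / Real.sqrt w := by
  classical
  obtain ⟨K, hK⟩ : ∃ K : ℝ, K = ∑ n ∈ range (J + 1), ((SS n).card : ℝ) := ⟨_, rfl⟩
  obtain ⟨B, hB⟩ : ∃ B : ℝ, B = ∑ n ∈ range (J + 1), Bn M n := ⟨_, rfl⟩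
  have hK0 : 0 ≤ K := by rw [hK]; exact Finset.sum_nonneg fun _ _ => Nat.cast_nonneg _
  have hB0 : 0 ≤ B := by rw [hB]; exact Finset.sum_nonneg fun n _ => Bn_nonneg M n
  have hC00 : 0 ≤ 4 * (B + 2 * (M : ℝ)) * Real.sqrt K := by
    have := Real.sqrt_nonneg K
    have hM : (0 : ℝ) ≤ M := Nat.cast_nonneg M
    exact mul_nonneg (by linarith) this
  refine ⟨4 * (B + 2 * M) * Real.sqrt K, hC00, ?_⟩
  intro w hw Ω I _ _ hI P hP 𝓕 st t hst ht1 ht2 sg
  obtain ⟨c0, hc0, hq0⟩ := exists_cells hP 𝓕 hst.monotone sg SS J w hw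
  have hJn : ∀ n, J - n + 1 ≤ J + 1 := fun n => Nat.succ_le_succ (Nat.sub_le J n)
  generalize hnc : (J + 1) * w = nc
  have hc0lt : ∀ n, n ≤ J → c0 n < nc := by
    intro n hn
    refine (hc0 n hn).2.trans_le ?_
    rw [← hnc]
    exact Nat.mul_le_mul_right w (hJn n)
  obtain ⟨cx, hcx⟩ : ∃ cx : Fin (J + 1) → Fin nc, ∀ n, n ≤ J → cfun cx n = c0 n :=
    ⟨_, fun n hn => cfun_apply c0 hc0lt hn⟩
  obtain ⟨c, hc⟩ : ∃ c, c = cfun cx := ⟨_, rfl⟩
  have hcc : ∀ n, n ≤ J → c n = c0 n := by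
    intro n hn
    rw [hc]; exact hcx n hn
  have hwin : ∀ n, n ≤ J → (J - n) * w ≤ c n ∧ c n < (J - n + 1) * w := by
    intro n hn; rw [hcc n hn]; exact hc0 n hn
  have hclt : ∀ n, n ≤ J → c n < nc := by
    intro n hn; rw [hcc n hn]; exact hc0lt n hn
  have hdec : ∀ m, m + 1 ≤ J → c (m + 1) < c m := by
    intro m hm
    have h1 := (hwin (m + 1) hm).2
    have h2 := (hwin m (by omega)).1
    have h3 : J - (m + 1) + 1 = J - m := by omega
    rw [h3] at h1
    omega
  obtain ⟨κ, hκ⟩ : ∃ κ : ℝ, κ = K / w := ⟨_, rfl⟩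
  have hq : ∀ n, n < J → ∀ s ∈ SS n, qt P 𝓕 st (VS P (Rm 𝓕 st c) sg n s) (c n) ≤ κ := by
    intro n hn s hs
    have h1 : VS P (Rm 𝓕 st c) sg n s = VS P (Rm 𝓕 st c0) sg n s := by
      funext i
      apply VS_congr
      intro k hk
      unfold Rm
      rw [hcc k (by omega)]
    rw [h1, hcc n hn.le]
    refine (hq0 n hn.le s hs).trans ?_
    rw [hκ, hK]
    apply div_le_div_of_nonneg_right _ (Nat.cast_nonneg w)
    exact Finset.single_le_sum (f := fun n => ((SS n).card : ℝ)) (fun _ _ => Nat.cast_nonneg _)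
      (Finset.mem_range.mpr (by omega))
  refine ⟨c, hwin, ?_⟩
  intro n hn s hs
  have hC0 : 0 ≤ 4 * (B + 2 * M) * Real.sqrt K / Real.sqrt w :=
    div_nonneg hC00 (Real.sqrt_nonneg _)
  have hsp0 : ∀ g ∈ range nc, 0 ≤ pur P (𝓕.F (t g)) (fun i ω => spinVal (sg i ω)) :=
    fun g _ => pur_nonneg hP _ _
  have hfs0 : ∀ x ∈ FSet J nc SS, 0 ≤ ∑ g ∈ range (nc - x.1 + 1), pur P (𝓕.F (t g))
      (fun i => cE P (𝓕.F (st (nc - x.1 + 1) - 1)) (VS P (Rfull 𝓕 st nc) sg x.1 x.2 i)) :=
    fun x _ => Finset.sum_nonneg fun g _ => pur_nonneg hP _ _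
  have hsum1 : 0 ≤ ∑ g ∈ range nc, pur P (𝓕.F (t g)) (fun i ω => spinVal (sg i ω)) :=
    Finset.sum_nonneg hsp0
  have hsum2 : 0 ≤ ∑ x ∈ FSet J nc SS, ∑ g ∈ range (nc - x.1 + 1), pur P (𝓕.F (t g))
      (fun i => cE P (𝓕.F (st (nc - x.1 + 1) - 1)) (VS P (Rfull 𝓕 st nc) sg x.1 x.2 i)) :=
    Finset.sum_nonneg hfs0
  cases n with
  | zero =>
    have h1 : pur P (𝓕.F (t (c 0))) (VS P (Rt 𝓕 t c) sg 0 s) ≤
        ∑ g ∈ range nc, pur P (𝓕.F (t g)) (fun i ω => spinVal (sg i ω)) := by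
      by_cases hb : s.toBool = true
      · have h2 : VS P (Rt 𝓕 t c) sg 0 s = fun i ω => spinVal (sg i ω) := by
          funext i ω
          rw [VS_zero, if_pos hb]
        rw [h2]
        exact Finset.single_le_sum hsp0 (Finset.mem_range.mpr (hclt 0 hn))
      · have h2 : VS P (Rt 𝓕 t c) sg 0 s = fun _ _ => 1 := by
          funext i ω
          rw [VS_zero, if_neg hb]
        rw [h2]
        have h3 : pur P (𝓕.F (t (c 0))) (fun (_ : I) (_ : Ω) => (1 : ℝ)) = 0 := by
          unfold pur avgCov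
          have : ∀ ω, Cov (kerS P (𝓕.F (t (c 0)))) ω (fun _ => (1 : ℝ)) (fun _ => 1) = 0 := by
            intro ω
            rw [Cov_kerS]
            unfold covS
            rw [cE_const hP, mul_one, cE_const hP]
            norm_num
          simp only [this]
          simp [avg]
        rw [h3]
        exact hsum1
    unfold totPur
    linarith
  | succ m =>
    have hrep : ∃ x, Rep nc c (m + 1) s x ∧ 1 ≤ x.1 ∧ x.1 ≤ nc := by
      obtain ⟨s', hs'⟩ := exists_full nc (m + 1) c (fun k hk => hclt k (by omega))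
        (fun k hk => hdec k (by omega)) s
      refine ⟨_, hs', ?_, ?_⟩
      · show 1 ≤ nc - c m
        have := hclt m (by omega)
        omega
      · show nc - c m ≤ nc
        omega
    obtain ⟨x, hx, hx1, hx2⟩ : ∃ x ∈ FSet J nc SS, Rep nc c (m + 1) s x := by
      rw [hc] at hrep ⊢
      exact FSet_mem cx hn hs hrep
    have hxh : x.1 = nc - c m := hx1
    have hnx : nc - x.1 = c m := by
      have := hclt m (by omega)
      omega
    -- the comparison function
    have hVS : ∀ i, VS P (Rm 𝓕 st c) sg (m + 1) s i = VS P (Rfull 𝓕 st nc) sg x.1 x.2 i := by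
      intro i
      funext ω
      exact (hx2 Ω I P hP 𝓕 st hst.monotone sg i ω).symm
    set Z : I → Ω → ℝ := fun i =>
      cE P (𝓕.F (st (c m + 1) - 1)) (VS P (Rm 𝓕 st c) sg (m + 1) s i) with hZ
    have hZ1 : ∀ i ω, |Z i ω| ≤ 1 := fun i ω =>
      abs_cE_le_of_le hP (fun a => VS_abs_le hP _ sg s i a) ω
    have hd1 := VS_close (t := t) (sg := sg) hP ht1 ht2 hSS hq (m + 1) hn s hs
    have hd2 := VS_pred (sg := sg) hP hst hSS hq (by omega : m < J) hs
    have hd : avg (fun i => eE P (fun ω => |VS P (Rt 𝓕 t c) sg (m + 1) s i ω - Z i ω|)) ≤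
        (Bn M (m + 1) + 2 * M) * Real.sqrt κ := by
      calc _ ≤ avg (fun i => eE P (fun ω => |VS P (Rt 𝓕 t c) sg (m + 1) s i ω -
              VS P (Rm 𝓕 st c) sg (m + 1) s i ω|) +
            eE P (fun ω => |VS P (Rm 𝓕 st c) sg (m + 1) s i ω - Z i ω|)) := by
            apply avg_mono
            intro i
            rw [← eE_add]
            apply eE_mono hP
            intro ω
            exact abs_sub_le _ _ _
        _ = _ := avg_add _ _
        _ ≤ Bn M (m + 1) * Real.sqrt κ + 2 * M * Real.sqrt κ := add_le_add hd1 hd2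
        _ = _ := by ring
    have hpl := pur_le hP (𝓕.F (t (c (m + 1)))) (f := VS P (Rt 𝓕 t c) sg (m + 1) s) (h := Z)
      (fun i ω => VS_abs_le hP _ sg s i ω) hZ1 hd
    have hZle : pur P (𝓕.F (t (c (m + 1)))) Z ≤ ∑ x ∈ FSet J nc SS,
        ∑ g ∈ range (nc - x.1 + 1), pur P (𝓕.F (t g))
        (fun i => cE P (𝓕.F (st (nc - x.1 + 1) - 1)) (VS P (Rfull 𝓕 st nc) sg x.1 x.2 i)) := by
      have e1 : Z = fun i => cE P (𝓕.F (st (nc - x.1 + 1) - 1))
          (VS P (Rfull 𝓕 st nc) sg x.1 x.2 i) := by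
        funext i
        simp only [hZ]
        rw [hVS i, hnx]
      rw [e1]
      refine le_trans ?_ (Finset.single_le_sum hfs0 hx)
      have hmem : c (m + 1) ∈ range (nc - x.1 + 1) := by
        rw [Finset.mem_range, hnx]
        have := hdec m hn
        omega
      exact Finset.single_le_sum (f := fun g => pur P (𝓕.F (t g))
        (fun i => cE P (𝓕.F (st (nc - x.1 + 1) - 1)) (VS P (Rfull 𝓕 st nc) sg x.1 x.2 i)))
        (fun g _ => pur_nonneg hP _ _) hmem
    have hBle : Bn M (m + 1) ≤ B := by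
      rw [hB]
      exact Finset.single_le_sum (f := fun n => Bn M n) (fun n _ => Bn_nonneg M n)
        (Finset.mem_range.mpr (by omega))
    have hsq : Real.sqrt κ = Real.sqrt K / Real.sqrt w := by
      rw [hκ, Real.sqrt_div hK0]
    have hfin : 4 * ((Bn M (m + 1) + 2 * M) * Real.sqrt κ) ≤
        4 * (B + 2 * M) * Real.sqrt K / Real.sqrt w := by
      rw [hsq]
      have : 0 ≤ Real.sqrt K / Real.sqrt w := div_nonneg (Real.sqrt_nonneg _) (Real.sqrt_nonneg _)
      have h1 : (Bn M (m + 1) + 2 * M) * (Real.sqrt K / Real.sqrt w) ≤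
          (B + 2 * M) * (Real.sqrt K / Real.sqrt w) :=
        mul_le_mul_of_nonneg_right (by linarith) this
      calc _ ≤ 4 * ((B + 2 * M) * (Real.sqrt K / Real.sqrt w)) := by linarith
        _ = _ := by ring
    unfold totPur
    linarith

end transfer

end

end Crest.Agent.R141.Quiet
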