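import Crest.Agent.R141.Sys
import Crest.Agent.R141.QuietT

/-!
Row 141 (S0192), Part L: statement of the purity theorem (2.3 + 2.4 + 2.5 + 2.6).
-/

set_option autoImplicit false

namespace Crest.Agent.R141.Pur

open Crest.Agent.R141

/-- **Purity theorem**: proved in `PurE.lean` (`purity_main : PurityMain`). -/
def PurityMain : Prop :=
  ∀ (nc : ℕ), 0 < nc → ∀ (FS : Finset (Σ k, Clo.Shape k)), (∀ x ∈ FS, 1 ≤ x.1 ∧ x.1 ≤ nc) →
    ∀ eps eta : ℝ, 0 < eps → 0 < eta →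
      ∃ p : Par, p.nc = nc ∧ (p.nb : ℝ) / p.Q ≤ eps ∧ ∃ N0 : ℕ, ∀ N, N0 ≤ N →
        ∀ H : (Fin N → Bool) → ℝ, ∃ t : DD p N → ℕ → ℕ,
          (∀ d g, g * (p.T + 1) ≤ t d g ∧ t d g < (g + 1) * (p.T + 1)) ∧
          Ed p N (fun d => Quiet.totPur (PP p N H d) (fil p N) (fun g => g * (p.T + 1)) (t d)
            (fun (i : Fin N) (ω : Om p N) => ω.1 i) nc FS) ≤ eta

end Crest.Agent.R141.Pur
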