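import Crest.Agent.R141.Sec3
import Crest.Agent.R141.Asm0
import Crest.Agent.R141.PurStmt

/-!
Row 141 (S0192), Part L: `Asm.Sec23` from the purity theorem of section 2 (`Pur.PurityMain`).
-/

set_option autoImplicit false

namespace Crest.Agent.R141.Sec3

open Finset Crest.Agent.R141.KerS Crest.Agent.R141.Quiet
open Crest.Agent.R141.Fact hiding Shape
open Crest.ProbabilityR.Diluted (spinVal)
open Crest.Agent.R141.Clo (Shape)

noncomputable section

/-- the cell structure of the enriched system -/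
theorem cells_sys (p : Par) : Cells p.xs p.L p.nc (fun g => g * (p.T + 1)) where
  expo := p.xs_expo
  mono := fun a b h => Nat.mul_lt_mul_of_pos_right h (Nat.succ_pos _)
  zero := Nat.zero_mul _
  last := Nat.le_succ _
  cell g hg k h1 h2 := by
    rw [p.xs_cell hg h1 h2]
    rfl
  top k h1 _ := p.xs_last (by unfold Par.L; exact h1)

theorem sec23_of_purity (hpm : Pur.PurityMain) : Asm.Sec23 := by
  classical
  intro J hJ S0 δ ε hδ hε
  obtain ⟨M, hM⟩ := exists_common_bound J S0
  obtain ⟨SS, hSS0, hSS⟩ := exists_SSb M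
  have hsub := hM SS hSS0 hSS
  obtain ⟨C, hC0, htr⟩ := purity_transfer J M SS hSS
  obtain ⟨w, hw1⟩ := exists_nat_gt ((2 * C / δ) ^ 2 + 1)
  have hwR : (0 : ℝ) < w := lt_trans (by positivity) hw1
  have hw : 0 < w := by exact_mod_cast hwR
  have hCw : C / Real.sqrt w ≤ δ / 2 := by
    have h1 : 2 * C / δ ≤ Real.sqrt w := by
      apply Real.le_sqrt_of_sq_le
      linarith
    have h2 : 0 < Real.sqrt w := Real.sqrt_pos.mpr hwR
    rw [div_le_iff₀ h2]
    rw [div_le_iff₀ hδ] at h1
    nlinarith
  obtain ⟨p, hpnc, hpe, N0, hN0⟩ := hpm ((J + 1) * w) (Nat.mul_pos (Nat.succ_pos J) hw)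
    (FSet J ((J + 1) * w) SS) (fun y hy => FSet_height hy) ε (δ / 2) hε (by positivity)
  refine ⟨p, hpe, max N0 1, fun N hN H => ?_⟩
  have hN1 : 0 < N := lt_of_lt_of_le Nat.one_pos ((le_max_right _ _).trans hN)
  obtain ⟨t, ht, htp⟩ := hN0 N ((le_max_left _ _).trans hN) H
  have hI : Nonempty (Fin N) := ⟨⟨0, hN1⟩⟩
  have hCs := cells_sys p
  have ht1 : ∀ d g, (fun g => g * (p.T + 1)) g ≤ t d g := fun d g => (ht d g).1
  have ht2 : ∀ d g, t d g < (fun g => g * (p.T + 1)) (g + 1) := fun d g => (ht d g).2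
  choose c hc1 hc2 using fun d => htr w hw (Om p N) (Fin N) hI (PP p N H d) (PP_isProb p N H d)
    (fil p N) (fun g => g * (p.T + 1)) (t d) hCs.mono (ht1 d) (ht2 d)
    (fun (i : Fin N) (ω : Om p N) => ω.1 i)
  have hCs' : Cells p.xs p.L ((J + 1) * w) (fun g => g * (p.T + 1)) := by
    have := hCs
    rw [hpnc] at this
    exact this
  refine ⟨fun d j => t d (c d (J - j)), fun d => ?_, ?_⟩
  · obtain ⟨h1, h2, h3, h4, h5⟩ := cells_win hw hCs' (ht1 d) (ht2 d) (hc1 d)
    have hle : 1 / ((J : ℝ) + 1) ≤ 2 / ((J : ℝ) + 1) := by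
      apply div_le_div_of_nonneg_right _ (by positivity)
      norm_num
    exact ⟨h1, h2, fun l hl => (h3 l hl).trans hle,
      fun j hj1 hj2 l hl1 hl2 => (h4 j hj1 hj2 l hl1 hl2).trans hle,
      fun l hl1 hl2 => (h5 l hl1 hl2).trans hle⟩
  · intro m hm s hs
    have hterm : ∀ d, ∑ ω, PP p N H d ω *
        avgCov (kerS (PP p N H d) ((fil p N).F (t d (c d (J - (J - m)))))) ω
          (VS (PP p N H d) (fun n => (fil p N).F (t d (c d (J - (J - n))))) (Asm.sgN p N) m s) ≤
        totPur (PP p N H d) (fil p N) (fun g => g * (p.T + 1)) (t d)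
          (fun (i : Fin N) (ω : Om p N) => ω.1 i) ((J + 1) * w) (FSet J ((J + 1) * w) SS) +
          δ / 2 := by
      intro d
      have h1 := hc2 d m hm s (hsub m hm s hs)
      have e1 : VS (PP p N H d) (fun n => (fil p N).F (t d (c d (J - (J - n))))) (Asm.sgN p N) m s
          = VS (PP p N H d) (Rt (fil p N) (t d) (c d))
            (fun (i : Fin N) (ω : Om p N) => ω.1 i) m s := by
        funext i
        apply VS_congr
        intro k hk
        show (fil p N).F (t d (c d (J - (J - k)))) = (fil p N).F (t d (c d k))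
        have : J - (J - k) = k := by omega
        rw [this]
      have e2 : J - (J - m) = m := by omega
      rw [e1, e2]
      have h2 : pur (PP p N H d) ((fil p N).F (t d (c d m)))
          (VS (PP p N H d) (Rt (fil p N) (t d) (c d))
            (fun (i : Fin N) (ω : Om p N) => ω.1 i) m s) ≤
          totPur (PP p N H d) (fil p N) (fun g => g * (p.T + 1)) (t d)
          (fun (i : Fin N) (ω : Om p N) => ω.1 i) ((J + 1) * w) (FSet J ((J + 1) * w) SS) +
          δ / 2 := by
        linarith
      exact h2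
    refine (Ed_mono p N hterm).trans ?_
    rw [Ed_add, Ed_const p hN1]
    linarith

end

end Crest.Agent.R141.Sec3
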