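import Crest.Agent.R141.Asm2
import Crest.Agent.R141.Sec23
import Crest.Agent.R141.PurE

/-!
# Row 141: `PartL` unconditionally (all `p ≥ 1`)
-/

set_option autoImplicit false

namespace Crest.Agent.R141

/-- Output of sections 2-3. -/
theorem sec23 : Asm.Sec23 := Sec3.sec23_of_purity Pur.purity_main

/-- **PART L** for every `p ≥ 1` and `α ≥ 0` (no parity, no factorization). -/
theorem partL {p : ℕ} (hp : 0 < p) {α : ℝ} (hα : 0 ≤ α) : PartL p α :=
  Asm.partL_of_sec23 sec23 hp hα

end Crest.Agent.R141
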