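import Mathlib
import Crest.Prelude.Def_DilutedSpinGlass

/-!
# Row 141: compound Poisson operators on Lipschitz functions (helper552)

`E` is a seminormed additive group.  A *shift operator* is a finite positive combination of
translations `G ↦ (e ↦ Σ_i v_i G (e + x_i))`, `IsShift m B K` : total mass `m`, `Σ v_i ‖x_i‖ ≤ B`.
`Top m K G e = Σ_M e^{-m} (K^M G)(e) / M!` is the compound Poisson operator of `K`.

Main facts (for Lipschitz `G`): positivity, constants, `|Top m K G e - G e| ≤ L B`, Lipschitz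
preserved, `Top (m+m') (K+K') G = Top m K (Top m' K' G)`, explicit formula, intertwining with
additive maps.
-/

set_option autoImplicit false

open Crest.ProbabilityR.Diluted

namespace Crest.Agent.R141.Pois

section Pois

variable {E : Type} [SeminormedAddCommGroup E]

/-- `G` is `L`-Lipschitz. -/
def LipG (L : ℝ) (G : E → ℝ) : Prop := ∀ a b, |G a - G b| ≤ L * ‖a - b‖

/-- The shift operator of the finite weighted family `(v, x)`. -/
noncomputable def Kop {ι : Type} [Fintype ι] (v : ι → ℝ) (x : ι → E) :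
    Module.End ℝ (E → ℝ) where
  toFun G := fun e => ∑ i, v i * G (e + x i)
  map_add' G G' := by
    funext e
    simp [mul_add, Finset.sum_add_distrib]
  map_smul' c G := by
    funext e
    simp only [Pi.smul_apply, smul_eq_mul, RingHom.id_apply, Finset.mul_sum]
    exact Finset.sum_congr rfl fun i _ => by ring

theorem Kop_apply {ι : Type} [Fintype ι] (v : ι → ℝ) (x : ι → E) (G : E → ℝ) (e : E) :
    Kop v x G e = ∑ i, v i * G (e + x i) := rfl

/-- `K` is a positive finite combination of translations, of mass `m` and first moment `≤ B`. -/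
def IsShift (m B : ℝ) (K : Module.End ℝ (E → ℝ)) : Prop :=
  ∃ (ι : Type) (_ : Fintype ι) (v : ι → ℝ) (x : ι → E),
    (∀ i, 0 ≤ v i) ∧ ∑ i, v i = m ∧ ∑ i, v i * ‖x i‖ ≤ B ∧
      ∀ G e, K G e = ∑ i, v i * G (e + x i)

theorem isShift_Kop {ι : Type} [Fintype ι] {v : ι → ℝ} {x : ι → E} (hv : ∀ i, 0 ≤ v i)
    {m B : ℝ} (hm : ∑ i, v i = m) (hB : ∑ i, v i * ‖x i‖ ≤ B) : IsShift m B (Kop v x) :=
  ⟨ι, inferInstance, v, x, hv, hm, hB, fun _ _ => rfl⟩

theorem IsShift.mass_nonneg {m B : ℝ} {K : Module.End ℝ (E → ℝ)} (h : IsShift m B K) :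
    0 ≤ m := by
  obtain ⟨ι, _, v, x, hv, hm, -, -⟩ := h
  rw [← hm]; exact Finset.sum_nonneg fun i _ => hv i

theorem IsShift.B_nonneg {m B : ℝ} {K : Module.End ℝ (E → ℝ)} (h : IsShift m B K) :
    0 ≤ B := by
  obtain ⟨ι, _, v, x, hv, -, hB, -⟩ := h
  exact le_trans (Finset.sum_nonneg fun i _ => mul_nonneg (hv i) (norm_nonneg _)) hB

theorem IsShift.mono_B {m B B' : ℝ} {K : Module.End ℝ (E → ℝ)} (h : IsShift m B K)
    (hB : B ≤ B') : IsShift m B' K := by
  obtain ⟨ι, _, v, x, hv, hm, hB', h'⟩ := h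
  exact ⟨ι, inferInstance, v, x, hv, hm, hB'.trans hB, h'⟩

theorem IsShift.add {m B m' B' : ℝ} {K K' : Module.End ℝ (E → ℝ)} (h : IsShift m B K)
    (h' : IsShift m' B' K') : IsShift (m + m') (B + B') (K + K') := by
  obtain ⟨ι, _, v, x, hv, hm, hB, hK⟩ := h
  obtain ⟨ι', _, v', x', hv', hm', hB', hK'⟩ := h'
  refine ⟨ι ⊕ ι', inferInstance, Sum.elim v v', Sum.elim x x', ?_, ?_, ?_, ?_⟩
  · rintro (i | i)
    · exact hv i
    · exact hv' i
  · simp [Fintype.sum_sum_type, hm, hm']
  · simp only [Fintype.sum_sum_type, Sum.elim_inl, Sum.elim_inr]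
    exact add_le_add hB hB'
  · intro G e
    simp [Fintype.sum_sum_type, hK, hK']

theorem IsShift.smul {m B : ℝ} {K : Module.End ℝ (E → ℝ)} (h : IsShift m B K) {c : ℝ}
    (hc : 0 ≤ c) : IsShift (c * m) (c * B) (c • K) := by
  obtain ⟨ι, _, v, x, hv, hm, hB, hK⟩ := h
  refine ⟨ι, inferInstance, fun i => c * v i, x, fun i => mul_nonneg hc (hv i), ?_, ?_, ?_⟩
  · rw [← hm, Finset.mul_sum]
  · simp only [mul_assoc, ← Finset.mul_sum]
    exact mul_le_mul_of_nonneg_left hB hc
  · intro G e
    simp [hK, Finset.mul_sum, mul_assoc]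

theorem IsShift.zero : IsShift 0 0 (0 : Module.End ℝ (E → ℝ)) :=
  ⟨Empty, inferInstance, Empty.elim, Empty.elim, fun i => i.elim, by simp, by simp,
    fun G e => by simp⟩

theorem IsShift.sum {κ : Type} (s : Finset κ) {m B : κ → ℝ} {K : κ → Module.End ℝ (E → ℝ)}
    (h : ∀ k ∈ s, IsShift (m k) (B k) (K k)) :
    IsShift (∑ k ∈ s, m k) (∑ k ∈ s, B k) (∑ k ∈ s, K k) := by
  classical
  induction s using Finset.induction_on with
  | empty => simpa using IsShift.zero
  | insert a s ha ih =>
    rw [Finset.sum_insert ha, Finset.sum_insert ha, Finset.sum_insert ha]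
    exact (h a (Finset.mem_insert_self a s)).add
      (ih fun k hk => h k (Finset.mem_insert_of_mem hk))

theorem IsShift.mul {m B m' B' : ℝ} {K K' : Module.End ℝ (E → ℝ)} (h : IsShift m B K)
    (h' : IsShift m' B' K') : IsShift (m * m') (B * m' + m * B') (K * K') := by
  obtain ⟨ι, _, v, x, hv, hm, hB, hK⟩ := h
  obtain ⟨ι', _, v', x', hv', hm', hB', hK'⟩ := h'
  have hm0 : 0 ≤ m := hm ▸ Finset.sum_nonneg fun i _ => hv i
  have hm0' : 0 ≤ m' := hm' ▸ Finset.sum_nonneg fun i _ => hv' i
  refine ⟨ι × ι', inferInstance, fun i => v i.1 * v' i.2, fun i => x i.1 + x' i.2, ?_, ?_, ?_, ?_⟩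
  · exact fun i => mul_nonneg (hv _) (hv' _)
  · rw [Fintype.sum_prod_type]
    simp only [← Finset.mul_sum, hm', ← Finset.sum_mul, hm]
  · calc ∑ i : ι × ι', v i.1 * v' i.2 * ‖x i.1 + x' i.2‖
        ≤ ∑ i : ι × ι', (v i.1 * ‖x i.1‖ * v' i.2 + v i.1 * (v' i.2 * ‖x' i.2‖)) := by
          refine Finset.sum_le_sum fun i _ => ?_
          have h1 : ‖x i.1 + x' i.2‖ ≤ ‖x i.1‖ + ‖x' i.2‖ := norm_add_le _ _
          calc v i.1 * v' i.2 * ‖x i.1 + x' i.2‖
              ≤ v i.1 * v' i.2 * (‖x i.1‖ + ‖x' i.2‖) :=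
                mul_le_mul_of_nonneg_left h1 (mul_nonneg (hv _) (hv' _))
            _ = _ := by ring
      _ = (∑ i, v i * ‖x i‖) * m' + m * ∑ i, v' i * ‖x' i‖ := by
          rw [Finset.sum_add_distrib, Fintype.sum_prod_type, Fintype.sum_prod_type]
          simp only [← Finset.mul_sum, hm', ← Finset.sum_mul, hm]
      _ ≤ B * m' + m * B' :=
          add_le_add (mul_le_mul_of_nonneg_right hB hm0') (mul_le_mul_of_nonneg_left hB' hm0)
  · intro G e
    rw [Module.End.mul_apply, hK, Fintype.sum_prod_type]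
    refine Finset.sum_congr rfl fun i _ => ?_
    rw [hK', Finset.mul_sum]
    exact Finset.sum_congr rfl fun j _ => by rw [mul_assoc, add_assoc]

theorem IsShift.one : IsShift 1 0 (1 : Module.End ℝ (E → ℝ)) :=
  ⟨Unit, inferInstance, fun _ => 1, fun _ => 0, fun _ => zero_le_one, by simp, by simp,
    fun G e => by simp⟩

theorem IsShift.pow {m B : ℝ} {K : Module.End ℝ (E → ℝ)} (h : IsShift m B K) (M : ℕ) :
    IsShift (m ^ M) (M * m ^ (M - 1) * B) (K ^ M) := by
  induction M with
  | zero => simpa using IsShift.one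
  | succ M ih =>
    have := ih.mul h
    rw [pow_succ, pow_succ]
    refine this.mono_B (le_of_eq ?_)
    rcases M with _ | M
    · simp
    · simp only [Nat.add_sub_cancel, Nat.cast_add, Nat.cast_one]
      ring

/-- Shift operators commute. -/
theorem IsShift.commute {m B m' B' : ℝ} {K K' : Module.End ℝ (E → ℝ)} (h : IsShift m B K)
    (h' : IsShift m' B' K') : Commute K K' := by
  obtain ⟨ι, _, v, x, hv, hm, hB, hK⟩ := h
  obtain ⟨ι', _, v', x', hv', hm', hB', hK'⟩ := h'
  refine LinearMap.ext fun G => ?_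
  funext e
  rw [Module.End.mul_apply, Module.End.mul_apply, hK, hK']
  simp only [hK, hK', Finset.mul_sum]
  rw [Finset.sum_comm]
  refine Finset.sum_congr rfl fun j _ => Finset.sum_congr rfl fun i _ => ?_
  rw [add_assoc, add_assoc, add_comm (x i)]
  ring

theorem IsShift.mono {m B : ℝ} {K : Module.End ℝ (E → ℝ)} (h : IsShift m B K) {G G' : E → ℝ}
    (hG : ∀ e, G e ≤ G' e) (e : E) : K G e ≤ K G' e := by
  obtain ⟨ι, _, v, x, hv, hm, hB, hK⟩ := h
  rw [hK, hK]
  exact Finset.sum_le_sum fun i _ => mul_le_mul_of_nonneg_left (hG _) (hv i)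

theorem IsShift.const {m B : ℝ} {K : Module.End ℝ (E → ℝ)} (h : IsShift m B K) (c : ℝ) (e : E) :
    K (fun _ => c) e = m * c := by
  obtain ⟨ι, _, v, x, hv, hm, hB, hK⟩ := h
  rw [hK, ← hm, Finset.sum_mul]

theorem IsShift.abs_sub_le {m B : ℝ} {K : Module.End ℝ (E → ℝ)} (h : IsShift m B K)
    {L : ℝ} (hL : 0 ≤ L) {G : E → ℝ} (hG : LipG L G) (e : E) : |K G e - m * G e| ≤ L * B := by
  obtain ⟨ι, _, v, x, hv, hm, hB, hK⟩ := h
  rw [hK, ← hm, Finset.sum_mul, ← Finset.sum_sub_distrib]
  calc |∑ i, (v i * G (e + x i) - v i * G e)|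
      ≤ ∑ i, |v i * G (e + x i) - v i * G e| := Finset.abs_sum_le_sum_abs _ _
    _ ≤ ∑ i, L * (v i * ‖x i‖) := by
        refine Finset.sum_le_sum fun i _ => ?_
        rw [← mul_sub, abs_mul, abs_of_nonneg (hv i)]
        have := hG (e + x i) e
        rw [add_sub_cancel_left] at this
        calc v i * |G (e + x i) - G e| ≤ v i * (L * ‖x i‖) :=
              mul_le_mul_of_nonneg_left this (hv i)
          _ = L * (v i * ‖x i‖) := by ring
    _ = L * ∑ i, v i * ‖x i‖ := by rw [Finset.mul_sum]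
    _ ≤ L * B := mul_le_mul_of_nonneg_left hB hL

theorem IsShift.abs_le {m B : ℝ} {K : Module.End ℝ (E → ℝ)} (h : IsShift m B K)
    {L : ℝ} (hL : 0 ≤ L) {G : E → ℝ} (hG : LipG L G) (e : E) :
    |K G e| ≤ m * |G e| + L * B := by
  have h1 := h.abs_sub_le hL hG e
  have hm := h.mass_nonneg
  calc |K G e| = |(K G e - m * G e) + m * G e| := by ring_nf
    _ ≤ |K G e - m * G e| + |m * G e| := abs_add_le _ _
    _ ≤ L * B + m * |G e| := by rw [abs_mul, abs_of_nonneg hm]; linarith
    _ = _ := by ring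

theorem IsShift.lip {m B : ℝ} {K : Module.End ℝ (E → ℝ)} (h : IsShift m B K)
    {L : ℝ} {G : E → ℝ} (hG : LipG L G) : LipG (m * L) (K G) := by
  obtain ⟨ι, _, v, x, hv, hm, hB, hK⟩ := h
  intro a b
  rw [hK, hK, ← Finset.sum_sub_distrib, ← hm]
  calc |∑ i, (v i * G (a + x i) - v i * G (b + x i))|
      ≤ ∑ i, |v i * G (a + x i) - v i * G (b + x i)| := Finset.abs_sum_le_sum_abs _ _
    _ ≤ ∑ i, v i * (L * ‖a - b‖) := by
        refine Finset.sum_le_sum fun i _ => ?_
        rw [← mul_sub, abs_mul, abs_of_nonneg (hv i)]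
        have := hG (a + x i) (b + x i)
        rw [add_sub_add_right_eq_sub] at this
        exact mul_le_mul_of_nonneg_left this (hv i)
    _ = (∑ i, v i) * L * ‖a - b‖ := by rw [← Finset.sum_mul]; ring

/-- Shift operators commute with convergent pointwise sums. -/
theorem IsShift.tsum {m B : ℝ} {K : Module.End ℝ (E → ℝ)} (h : IsShift m B K)
    {F : ℕ → E → ℝ} (hF : ∀ e, Summable fun n => F n e) (e : E) :
    K (fun e => ∑' n, F n e) e = ∑' n, K (F n) e := by
  obtain ⟨ι, _, v, x, hv, hm, hB, hK⟩ := h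
  simp only [hK]
  rw [Summable.tsum_finsetSum fun i _ => (hF (e + x i)).mul_left (v i)]
  exact Finset.sum_congr rfl fun i _ => (tsum_mul_left).symm

theorem IsShift.translate {m B : ℝ} {K : Module.End ℝ (E → ℝ)} (h : IsShift m B K)
    (G : E → ℝ) (a e : E) : K (fun e => G (e + a)) e = K G (e + a) := by
  obtain ⟨ι, _, v, x, hv, hm, hB, hK⟩ := h
  rw [hK, hK]
  exact Finset.sum_congr rfl fun i _ => by rw [add_right_comm]

/-! ### The compound Poisson operator -/

/-- The compound Poisson operator `exp (K - m)`. -/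
noncomputable def Top (m : ℝ) (K : Module.End ℝ (E → ℝ)) (G : E → ℝ) (e : E) : ℝ :=
  ∑' M : ℕ, Real.exp (-m) / (M.factorial : ℝ) * (K ^ M) G e

theorem summable_pow_fact (m : ℝ) : Summable fun M : ℕ => m ^ M / (M.factorial : ℝ) :=
  Real.summable_pow_div_factorial m

theorem succ_term (m : ℝ) (M : ℕ) :
    ((M + 1 : ℕ) : ℝ) * m ^ (M + 1 - 1) / ((M + 1).factorial : ℝ) =
      m ^ M / (M.factorial : ℝ) := by
  rw [Nat.factorial_succ, Nat.add_sub_cancel]
  push_cast
  have h1 : (M : ℝ) + 1 ≠ 0 := by positivity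
  have h2 : (M.factorial : ℝ) ≠ 0 := by positivity
  field_simp

theorem summable_mul_pow_fact (m : ℝ) :
    Summable fun M : ℕ => (M : ℝ) * m ^ (M - 1) / (M.factorial : ℝ) := by
  rw [← summable_nat_add_iff 1]
  simp only [succ_term]
  exact summable_pow_fact m

theorem tsum_pow_fact (m : ℝ) : ∑' M : ℕ, m ^ M / (M.factorial : ℝ) = Real.exp m := by
  rw [Real.exp_eq_exp_ℝ, NormedSpace.exp_eq_tsum_div]

theorem tsum_mul_pow_fact (m : ℝ) :
    ∑' M : ℕ, (M : ℝ) * m ^ (M - 1) / (M.factorial : ℝ) = Real.exp m := by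
  rw [(summable_mul_pow_fact m).tsum_eq_zero_add]
  simp only [succ_term, tsum_pow_fact]
  simp

variable {m B m' B' L : ℝ} {K K' : Module.End ℝ (E → ℝ)} {G : E → ℝ}

theorem Top_bound_summable (m B L c : ℝ) : Summable fun M : ℕ =>
    Real.exp (-m) / (M.factorial : ℝ) * (m ^ M * c + L * (M * m ^ (M - 1) * B)) := by
  have h1 := ((summable_pow_fact m).mul_left (Real.exp (-m) * c)).add
    ((summable_mul_pow_fact m).mul_left (Real.exp (-m) * L * B))
  refine h1.congr fun M => ?_
  ring

theorem Top_summable (h : IsShift m B K) (hL : 0 ≤ L) (hG : LipG L G) (e : E) :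
    Summable fun M : ℕ => Real.exp (-m) / (M.factorial : ℝ) * (K ^ M) G e := by
  refine Summable.of_norm_bounded (Top_bound_summable m B L |G e|) fun M => ?_
  rw [Real.norm_eq_abs, abs_mul, abs_of_nonneg (by positivity)]
  exact mul_le_mul_of_nonneg_left ((h.pow M).abs_le hL hG e) (by positivity)

theorem tsum_poisson (m : ℝ) :
    ∑' M : ℕ, Real.exp (-m) / (M.factorial : ℝ) * m ^ M = 1 := by
  have : (fun M : ℕ => Real.exp (-m) / (M.factorial : ℝ) * m ^ M) =
      fun M : ℕ => Real.exp (-m) * (m ^ M / (M.factorial : ℝ)) := by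
    funext M; ring
  rw [this, tsum_mul_left, tsum_pow_fact, ← Real.exp_add]
  simp

theorem summable_poisson (m : ℝ) :
    Summable fun M : ℕ => Real.exp (-m) / (M.factorial : ℝ) * m ^ M := by
  refine ((summable_pow_fact m).mul_left (Real.exp (-m))).congr fun M => ?_
  ring

theorem Top_const (h : IsShift m B K) (c : ℝ) (e : E) : Top m K (fun _ => c) e = c := by
  unfold Top
  simp only [(h.pow _).const]
  calc ∑' M : ℕ, Real.exp (-m) / (M.factorial : ℝ) * (m ^ M * c)
      = ∑' M : ℕ, (Real.exp (-m) / (M.factorial : ℝ) * m ^ M) * c := by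
        refine tsum_congr fun M => ?_
        ring
    _ = c := by rw [tsum_mul_right, tsum_poisson, one_mul]

theorem Top_mono (h : IsShift m B K) (hL : 0 ≤ L) (hG : LipG L G) {L' : ℝ} (hL' : 0 ≤ L')
    {G' : E → ℝ} (hG' : LipG L' G') (hle : ∀ e, G e ≤ G' e) (e : E) :
    Top m K G e ≤ Top m K G' e := by
  refine Summable.tsum_le_tsum (fun M => ?_) (Top_summable h hL hG e) (Top_summable h hL' hG' e)
  exact mul_le_mul_of_nonneg_left ((h.pow M).mono hle e) (by positivity)

theorem Top_add (h : IsShift m B K) (hL : 0 ≤ L) (hG : LipG L G) {L' : ℝ} (hL' : 0 ≤ L')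
    {G' : E → ℝ} (hG' : LipG L' G') (e : E) :
    Top m K (fun e => G e + G' e) e = Top m K G e + Top m K G' e := by
  unfold Top
  rw [← (Top_summable h hL hG e).tsum_add (Top_summable h hL' hG' e)]
  refine tsum_congr fun M => ?_
  have : (fun e => G e + G' e) = G + G' := rfl
  rw [this, map_add, Pi.add_apply, mul_add]

omit [SeminormedAddCommGroup E] in
theorem Top_smul (c : ℝ) (G : E → ℝ) (e : E) :
    Top m K (fun e => c * G e) e = c * Top m K G e := by
  unfold Top
  rw [← tsum_mul_left]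
  refine tsum_congr fun M => ?_
  have : (fun e => c * G e) = c • G := rfl
  rw [this, map_smul, Pi.smul_apply, smul_eq_mul]
  ring

theorem LipG.add {L L' : ℝ} {G G' : E → ℝ} (hG : LipG L G) (hG' : LipG L' G') :
    LipG (L + L') (fun e => G e + G' e) := by
  intro a b
  have h1 := abs_le.1 (hG a b)
  have h2 := abs_le.1 (hG' a b)
  rw [abs_le]
  constructor <;> nlinarith [h1.1, h1.2, h2.1, h2.2]

theorem LipG.neg {L : ℝ} {G : E → ℝ} (hG : LipG L G) : LipG L (fun e => - G e) := by
  intro a b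
  have := hG b a
  rw [norm_sub_rev] at this
  have h2 : -G a - -G b = G b - G a := by ring
  rw [h2]; exact this

theorem LipG.const (c : ℝ) : LipG 0 (fun _ : E => c) := by
  intro a b
  simp

theorem LipG.add_const {L : ℝ} {G : E → ℝ} (hG : LipG L G) (c : ℝ) :
    LipG L (fun e => G e + c) := by
  intro a b
  simpa using hG a b

theorem LipG.translate {L : ℝ} {G : E → ℝ} (hG : LipG L G) (a : E) :
    LipG L (fun e => G (e + a)) := by
  intro b c
  simpa using hG (b + a) (c + a)

theorem Top_lip (h : IsShift m B K) (hL : 0 ≤ L) (hG : LipG L G) : LipG L (Top m K G) := by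
  intro a b
  unfold Top
  rw [← (Top_summable h hL hG a).tsum_sub (Top_summable h hL hG b)]
  have hs : Summable fun M : ℕ => Real.exp (-m) / (M.factorial : ℝ) * m ^ M * (L * ‖a - b‖) :=
    (summable_poisson m).mul_right _
  calc |∑' M : ℕ, (Real.exp (-m) / (M.factorial : ℝ) * (K ^ M) G a -
          Real.exp (-m) / (M.factorial : ℝ) * (K ^ M) G b)|
      ≤ ∑' M : ℕ, Real.exp (-m) / (M.factorial : ℝ) * m ^ M * (L * ‖a - b‖) := by
        rw [← Real.norm_eq_abs]
        refine tsum_of_norm_bounded hs.hasSum fun M => ?_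
        rw [← mul_sub, Real.norm_eq_abs, abs_mul, abs_of_nonneg (by positivity), mul_assoc]
        refine mul_le_mul_of_nonneg_left ?_ (by positivity)
        rw [← mul_assoc]
        exact (h.pow M).lip hG a b
    _ = L * ‖a - b‖ := by rw [tsum_mul_right, tsum_poisson, one_mul]

theorem Top_abs_sub_le (h : IsShift m B K) (hL : 0 ≤ L) (hG : LipG L G) (e : E) :
    |Top m K G e - G e| ≤ L * B := by
  have h0 : G e = ∑' M : ℕ, Real.exp (-m) / (M.factorial : ℝ) * m ^ M * G e := by
    rw [tsum_mul_right, tsum_poisson, one_mul]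
  have hs0 : Summable fun M : ℕ => Real.exp (-m) / (M.factorial : ℝ) * m ^ M * G e :=
    (summable_poisson m).mul_right _
  conv_lhs => rw [h0]
  unfold Top
  rw [← (Top_summable h hL hG e).tsum_sub hs0]
  have hs : Summable fun M : ℕ =>
      (M : ℝ) * m ^ (M - 1) / (M.factorial : ℝ) * (Real.exp (-m) * L * B) :=
    (summable_mul_pow_fact m).mul_right _
  calc |∑' M : ℕ, (Real.exp (-m) / (M.factorial : ℝ) * (K ^ M) G e -
          Real.exp (-m) / (M.factorial : ℝ) * m ^ M * G e)|
      ≤ ∑' M : ℕ, (M : ℝ) * m ^ (M - 1) / (M.factorial : ℝ) * (Real.exp (-m) * L * B) := by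
        rw [← Real.norm_eq_abs]
        refine tsum_of_norm_bounded hs.hasSum fun M => ?_
        rw [mul_assoc, ← mul_sub, Real.norm_eq_abs, abs_mul, abs_of_nonneg (by positivity)]
        calc Real.exp (-m) / (M.factorial : ℝ) * |(K ^ M) G e - m ^ M * G e|
            ≤ Real.exp (-m) / (M.factorial : ℝ) * (L * (M * m ^ (M - 1) * B)) :=
              mul_le_mul_of_nonneg_left ((h.pow M).abs_sub_le hL hG e) (by positivity)
          _ = _ := by ring
    _ = L * B := by
        rw [tsum_mul_right, tsum_mul_pow_fact]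
        have : Real.exp m * Real.exp (-m) = 1 := by rw [← Real.exp_add]; simp
        calc Real.exp m * (Real.exp (-m) * L * B) = (Real.exp m * Real.exp (-m)) * (L * B) := by
              ring
          _ = L * B := by rw [this, one_mul]

omit [SeminormedAddCommGroup E] in
theorem Top_zero (hK : K = 0) (G : E → ℝ) (e : E) : Top 0 K G e = G e := by
  unfold Top
  rw [hK, tsum_eq_single 0]
  · simp
  · intro M hM
    simp [zero_pow hM]

/-- Compound Poisson operators of commuting families compose. -/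
theorem Top_comp (h : IsShift m B K) (h' : IsShift m' B' K') (hL : 0 ≤ L) (hG : LipG L G)
    (e : E) : Top (m + m') (K + K') G e = Top m K (Top m' K' G) e := by
  have hcomm : Commute K K' := h.commute h'
  set f : ℕ → ℕ → ℝ := fun a b =>
    (Real.exp (-m) / (a.factorial : ℝ)) * ((Real.exp (-m') / (b.factorial : ℝ)) *
      (K ^ a) ((K' ^ b) G) e) with hf
  -- summability on the product
  have hfs : Summable fun q : ℕ × ℕ => f q.1 q.2 := by
    have hm := h.mass_nonneg
    have hm' := h'.mass_nonneg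
    have hB := h.B_nonneg
    have hB' := h'.B_nonneg
    have A0 := summable_poisson m
    have A0' := summable_poisson m'
    have A1 : Summable fun M : ℕ =>
        Real.exp (-m) / (M.factorial : ℝ) * (M * m ^ (M - 1)) := by
      refine ((summable_mul_pow_fact m).mul_left (Real.exp (-m))).congr fun M => ?_
      ring
    have A1' : Summable fun M : ℕ =>
        Real.exp (-m') / (M.factorial : ℝ) * (M * m' ^ (M - 1)) := by
      refine ((summable_mul_pow_fact m').mul_left (Real.exp (-m'))).congr fun M => ?_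
      ring
    have P1 := (A0.mul_of_nonneg A0' (fun M => by positivity) (fun M => by positivity)).mul_right
      |G e|
    have P2 := (A1.mul_of_nonneg A0' (fun M => by positivity) (fun M => by positivity)).mul_right
      (L * B)
    have P3 := (A0.mul_of_nonneg A1' (fun M => by positivity) (fun M => by positivity)).mul_right
      (L * B')
    refine Summable.of_norm_bounded ((P1.add P2).add P3) fun q => ?_
    have hsh := (h.pow q.1).mul (h'.pow q.2)
    have hle := hsh.abs_le hL hG e
    rw [Module.End.mul_apply] at hle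
    rw [hf, Real.norm_eq_abs, abs_mul, abs_mul, abs_of_nonneg (by positivity),
      abs_of_nonneg (by positivity)]
    calc Real.exp (-m) / (q.1.factorial : ℝ) * (Real.exp (-m') / (q.2.factorial : ℝ) *
          |(K ^ q.1) ((K' ^ q.2) G) e|)
        ≤ Real.exp (-m) / (q.1.factorial : ℝ) * (Real.exp (-m') / (q.2.factorial : ℝ) *
          (m ^ q.1 * m' ^ q.2 * |G e| + L * (q.1 * m ^ (q.1 - 1) * B * m' ^ q.2 +
            m ^ q.1 * (q.2 * m' ^ (q.2 - 1) * B')))) := by gcongr
      _ = _ := by ring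
  -- right-hand side
  have hR : Top m K (Top m' K' G) e = ∑' a, ∑' b, f a b := by
    unfold Top
    refine tsum_congr fun a => ?_
    rw [(h.pow a).tsum (fun e => Top_summable h' hL hG e)]
    rw [← tsum_mul_left]
    refine tsum_congr fun b => ?_
    rw [hf]
    have : (fun e => Real.exp (-m') / (b.factorial : ℝ) * (K' ^ b) G e) =
        (Real.exp (-m') / (b.factorial : ℝ)) • (K' ^ b) G := rfl
    rw [this, map_smul, Pi.smul_apply, smul_eq_mul]
  -- left-hand side
  have hLHS : Top (m + m') (K + K') G e =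
      ∑' n, ∑ q ∈ Finset.HasAntidiagonal.antidiagonal n, f q.1 q.2 := by
    unfold Top
    refine tsum_congr fun n => ?_
    rw [hcomm.add_pow', LinearMap.sum_apply, Finset.sum_apply, Finset.mul_sum]
    refine Finset.sum_congr rfl fun q hq => ?_
    rw [Finset.HasAntidiagonal.mem_antidiagonal] at hq
    rw [hf, LinearMap.smul_apply, Pi.smul_apply, Module.End.mul_apply, nsmul_eq_mul]
    have hc : (n.choose q.1 : ℝ) = (n.factorial : ℝ) / (q.1.factorial * q.2.factorial) := by
      rw [← hq, Nat.cast_add_choose]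
    have hn : (n.factorial : ℝ) ≠ 0 := by positivity
    have h1 : (q.1.factorial : ℝ) ≠ 0 := by positivity
    have h2 : (q.2.factorial : ℝ) ≠ 0 := by positivity
    rw [hc, neg_add, Real.exp_add]
    field_simp
  rw [hR, hLHS]
  rw [← hfs.tsum_prod (f := fun q : ℕ × ℕ => f q.1 q.2),
    ← (Finset.HasAntidiagonal.sigmaAntidiagonalEquivProd).tsum_eq, Summable.tsum_sigma']
  · refine tsum_congr fun n => ?_
    rw [tsum_fintype, ← Finset.sum_coe_sort]
    rfl
  · intro n
    exact (hasSum_fintype _).summable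
  · exact (Finset.HasAntidiagonal.sigmaAntidiagonalEquivProd.summable_iff
      (f := fun q : ℕ × ℕ => f q.1 q.2)).2 hfs

/-- The explicit formula for powers of a shift operator. -/
theorem Kop_pow {ι : Type} [Fintype ι] (v : ι → ℝ) (x : ι → E) (M : ℕ) (G : E → ℝ) (e : E) :
    (Kop v x ^ M) G e = ∑ i : Fin M → ι, (∏ j, v (i j)) * G (e + ∑ j, x (i j)) := by
  induction M generalizing e with
  | zero => simp
  | succ M ih =>
    rw [pow_succ', Module.End.mul_apply, Kop_apply]
    simp only [ih]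
    rw [← (Fin.consEquiv (fun _ : Fin (M + 1) => ι)).sum_comp, Fintype.sum_prod_type]
    refine Finset.sum_congr rfl fun a _ => ?_
    rw [Finset.mul_sum]
    refine Finset.sum_congr rfl fun i _ => ?_
    simp only [Fin.consEquiv, Equiv.coe_fn_mk, Fin.prod_univ_succ, Fin.sum_univ_succ,
      Fin.cons_zero, Fin.cons_succ]
    rw [mul_assoc, add_assoc]

theorem Top_Kop {ι : Type} [Fintype ι] (m : ℝ) (v : ι → ℝ) (x : ι → E) (G : E → ℝ) (e : E) :
    Top m (Kop v x) G e = ∑' M : ℕ, Real.exp (-m) / (M.factorial : ℝ) *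
      ∑ i : Fin M → ι, (∏ j, v (i j)) * G (e + ∑ j, x (i j)) := by
  unfold Top
  simp only [Kop_pow]

/-- With rate `lam` and a family `(v, x)` (usually of mass one): the Poisson weights appear. -/
theorem Top_smul_Kop {ι : Type} [Fintype ι] (lam : ℝ) (v : ι → ℝ) (x : ι → E) (G : E → ℝ)
    (e : E) :
    Top lam (lam • Kop v x) G e = ∑' M : ℕ, poissonWeight lam M *
      ∑ i : Fin M → ι, (∏ j, v (i j)) * G (e + ∑ j, x (i j)) := by
  unfold Top
  refine tsum_congr fun M => ?_
  rw [smul_pow, LinearMap.smul_apply, Pi.smul_apply, Kop_pow, smul_eq_mul, poissonWeight]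
  ring

/-- Intertwining with an additive map `A` (and a translation `c`). -/
theorem Kop_pow_map {E' : Type} [SeminormedAddCommGroup E'] {ι : Type} [Fintype ι] (v : ι → ℝ)
    (x : ι → E') (A : E' →+ E) (c : E) (M : ℕ) (G : E → ℝ) (e : E') :
    (Kop v (fun i => A (x i)) ^ M) G (A e + c) = (Kop v x ^ M) (fun e' => G (A e' + c)) e := by
  rw [Kop_pow, Kop_pow]
  refine Finset.sum_congr rfl fun i _ => ?_
  rw [map_add, map_sum, add_right_comm]

theorem Top_map {E' : Type} [SeminormedAddCommGroup E'] {ι : Type} [Fintype ι] (m lam : ℝ)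
    (v : ι → ℝ) (x : ι → E') (A : E' →+ E) (c : E) (G : E → ℝ) (e : E') :
    Top m (lam • Kop v (fun i => A (x i))) G (A e + c) =
      Top m (lam • Kop v x) (fun e' => G (A e' + c)) e := by
  unfold Top
  refine tsum_congr fun M => ?_
  rw [smul_pow, smul_pow, LinearMap.smul_apply, LinearMap.smul_apply, Pi.smul_apply,
    Pi.smul_apply, Kop_pow_map]

/-- Changing the rate costs `L |lam - lam'| B`. -/
theorem Top_rate {lam lam' : ℝ} (h : IsShift 1 B K) (hlam : 0 ≤ lam) (hle : lam ≤ lam')
    (hL : 0 ≤ L) (hG : LipG L G) (e : E) :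
    |Top lam' (lam' • K) G e - Top lam (lam • K) G e| ≤ L * ((lam' - lam) * B) := by
  have h1 : IsShift lam (lam * B) (lam • K) := by simpa using h.smul hlam
  have h2 : IsShift (lam' - lam) ((lam' - lam) * B) ((lam' - lam) • K) := by
    simpa using h.smul (sub_nonneg.2 hle)
  have h3 := Top_comp h2 h1 hL hG e
  rw [← add_smul, sub_add_cancel] at h3
  rw [h3]
  exact Top_abs_sub_le h2 hL (Top_lip h1 hL hG) e

end Pois

end Crest.Agent.R141.Pois
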