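import Crest.Agent.R141.Psd

/-!
Row 141 (S0192), Part L, sections 2.3-2.4: deterministic lemmas for the purity theorem.
-/

set_option autoImplicit false

namespace Crest.Agent.R141.Pur

open Finset Crest.Agent.R141

noncomputable section

variable {Ω : Type*} [Fintype Ω] {P : Ω → ℝ} {F : ℕ → Setoid Ω}

theorem eE_mono' (hP : IsProb P) {f g : Ω → ℝ} (h : ∀ a, f a ≤ g a) : eE P f ≤ eE P g :=
  eE_mono hP h

/-- variance of one step. -/
theorem eE_step (hP : IsProb P) (hF : Antitone F) (v : Ω → ℝ) {k : ℕ} (hk : 0 < k) :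
    eE P (fun ω => (cE P (F k) v ω - cE P (F (k - 1)) v ω) ^ 2) =
      eE P (fun ω => (cE P (F k) v ω) ^ 2) - eE P (fun ω => (cE P (F (k - 1)) v ω) ^ 2) := by
  have hle : F k ≤ F (k - 1) := hF (Nat.sub_le k 1)
  have h1 : eE P (fun ω => cE P (F k) v ω * cE P (F (k - 1)) v ω) =
      eE P (fun ω => (cE P (F (k - 1)) v ω) ^ 2) := by
    rw [← eE_cE hP (F (k - 1)) (fun ω => cE P (F k) v ω * cE P (F (k - 1)) v ω)]
    congr 1
    funext ω
    rw [cE_mul_right (cE_meas P (F (k - 1)) v) (cE P (F k) v) ω, cE_tower hP hle]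
    ring
  have h2 : (fun ω => (cE P (F k) v ω - cE P (F (k - 1)) v ω) ^ 2) = fun ω =>
      ((cE P (F k) v ω) ^ 2 + (cE P (F (k - 1)) v ω) ^ 2) -
        2 * (cE P (F k) v ω * cE P (F (k - 1)) v ω) := by
    funext ω; ring
  rw [h2, eE_sub, eE_add, eE_smul, h1]
  ring

/-- telescoping of the variances. -/
theorem var_sum_le (hP : IsProb P) (hF : Antitone F) (v : Ω → ℝ) {κ : ℝ} {a b : ℕ} (hab : a ≤ b)
    (hκ : ∀ ω, |cE P (F b) v ω| ≤ κ) :
    ∑ k ∈ Finset.Ioc a b, eE P (fun ω => (cE P (F k) v ω - cE P (F (k - 1)) v ω) ^ 2) ≤ κ ^ 2 := by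
  have h1 : ∀ k ∈ Finset.Ioc a b, eE P (fun ω => (cE P (F k) v ω - cE P (F (k - 1)) v ω) ^ 2) =
      (fun k => eE P (fun ω => (cE P (F k) v ω) ^ 2)) k -
        (fun k => eE P (fun ω => (cE P (F k) v ω) ^ 2)) (k - 1) := by
    intro k hk
    exact eE_step hP hF v (by have := (Finset.mem_Ioc.1 hk).1; omega)
  rw [Finset.sum_congr rfl h1, sum_Ioc_telescope _ hab]
  have h2 : eE P (fun ω => (cE P (F b) v ω) ^ 2) ≤ κ ^ 2 := by
    rw [← eE_const hP (κ ^ 2)]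
    apply eE_mono hP
    intro ω
    exact sq_le_sq' (by have := (abs_le.1 (hκ ω)).1; linarith) (abs_le.1 (hκ ω)).2
  have h3 : 0 ≤ eE P (fun ω => (cE P (F a) v ω) ^ 2) := eE_nonneg hP (fun ω => sq_nonneg _)
  show eE P (fun ω => (cE P (F b) v ω) ^ 2) - eE P (fun ω => (cE P (F a) v ω) ^ 2) ≤ κ ^ 2
  linarith

/-- weighted Cauchy-Schwarz for double sums. -/
theorem cs_double {B : Type*} [Fintype B] (c : B → ℝ) (y : B → B → ℝ) :
    (∑ b, ∑ b', c b * c b' * y b b') ^ 2 ≤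
      (∑ b, |c b|) ^ 2 * ∑ b, ∑ b', |c b| * |c b'| * y b b' ^ 2 := by
  have h0 : |∑ b, ∑ b', c b * c b' * y b b'| ≤ ∑ p : B × B, |c p.1| * |c p.2| * |y p.1 p.2| := by
    rw [Fintype.sum_prod_type]
    refine (Finset.abs_sum_le_sum_abs _ _).trans (Finset.sum_le_sum fun b _ => ?_)
    refine (Finset.abs_sum_le_sum_abs _ _).trans (Finset.sum_le_sum fun b' _ => ?_)
    rw [abs_mul, abs_mul]
  have h1 : (∑ p : B × B, |c p.1| * |c p.2| * |y p.1 p.2|) ^ 2 ≤
      (∑ p : B × B, |c p.1| * |c p.2|) * ∑ p : B × B, |c p.1| * |c p.2| * y p.1 p.2 ^ 2 := by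
    have := Finset.sum_sq_le_sum_mul_sum_of_sq_eq_mul (Finset.univ : Finset (B × B))
      (f := fun p => |c p.1| * |c p.2|) (g := fun p => |c p.1| * |c p.2| * y p.1 p.2 ^ 2)
      (r := fun p => |c p.1| * |c p.2| * |y p.1 p.2|)
      (fun p _ => by positivity) (fun p _ => by positivity)
      (fun p _ => by rw [← sq_abs (y p.1 p.2)]; ring)
    exact this
  have h2 : (∑ p : B × B, |c p.1| * |c p.2|) = (∑ b, |c b|) ^ 2 := by
    rw [Fintype.sum_prod_type, sq, Finset.sum_mul_sum]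
  rw [h2, Fintype.sum_prod_type (f := fun p : B × B => |c p.1| * |c p.2| * y p.1 p.2 ^ 2)] at h1
  calc (∑ b, ∑ b', c b * c b' * y b b') ^ 2 = |∑ b, ∑ b', c b * c b' * y b b'| ^ 2 := (sq_abs _).symm
    _ ≤ (∑ p : B × B, |c p.1| * |c p.2| * |y p.1 p.2|) ^ 2 := by
      apply pow_le_pow_left₀ (abs_nonneg _) h0
    _ ≤ _ := h1

/-- (2.4) From coordinates to combinations. -/
theorem combo (hP : IsProb P) (hF : Antitone F) {x : ℕ → ℝ} {L k m : ℕ}
    (hkm : k ≤ m) (hmL : m ≤ L) {y0 : ℝ} (hy : 0 < y0) (hx : ∀ l ∈ Finset.Ioc k L, y0 ≤ x l)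
    (hx1 : ∀ l ∈ Finset.Ioc k L, x l ≤ 1)
    {ι B : Type*} [DecidableEq ι] [Fintype B] (U : Finset ι) (v : ι → B → Ω → ℝ)
    (hv : ∀ i b ω, |v i b ω| ≤ 1) (c : B → ℝ) {Q β N : ℝ} (hQ : 0 ≤ Q) (hN : (U.card : ℝ) ≤ N)
    (hβ : ∀ b b', ∑ i ∈ U, ∑ j ∈ U.erase i,
      eE P (fun ω => (Yf P F x L k (v i b) (v j b') ω) ^ 2) ≤ β) :
    ∑ i ∈ U, ∑ j ∈ U, eE P (fun ω => (covR P (F k)
        (cE P (F m) (fun a => ∑ b, (Q * c b) * v i b a))
        (cE P (F m) (fun a => ∑ b, (Q * c b) * v j b a)) ω) ^ 2) ≤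
      (y0 ^ 2)⁻¹ * (Q ^ 4 * (∑ b, |c b|) ^ 4 * β + N * (Q * ∑ b, |c b|) ^ 4) := by
  set C : ℝ := ∑ b, |c b| with hC
  have hC0 : 0 ≤ C := Finset.sum_nonneg fun b _ => abs_nonneg _
  set φ : ι → Ω → ℝ := fun i a => ∑ b, (Q * c b) * v i b a with hφ
  have hφb : ∀ i ω, |φ i ω| ≤ Q * C := by
    intro i ω
    refine (Finset.abs_sum_le_sum_abs _ _).trans ?_
    rw [hC, Finset.mul_sum]
    apply Finset.sum_le_sum
    intro b _
    rw [abs_mul, abs_mul, abs_of_nonneg hQ]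
    calc Q * |c b| * |v i b ω| ≤ Q * |c b| * 1 :=
          mul_le_mul_of_nonneg_left (hv i b ω) (by positivity)
      _ = Q * |c b| := mul_one _
  have hpsd : ∀ ω, y0 ^ 2 * ∑ i ∈ U, ∑ j ∈ U,
      (covR P (F k) (cE P (F m) (φ i)) (cE P (F m) (φ j)) ω) ^ 2 ≤
      ∑ i ∈ U, ∑ j ∈ U, (Yf P F x L k (φ i) (φ j) ω) ^ 2 := fun ω =>
    psd_compare hP hF hkm hmL hy.le hx U φ ω
  have hsum : y0 ^ 2 * ∑ i ∈ U, ∑ j ∈ U, eE P (fun ω => (covR P (F k)
      (cE P (F m) (φ i)) (cE P (F m) (φ j)) ω) ^ 2) ≤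
      ∑ i ∈ U, ∑ j ∈ U, eE P (fun ω => (Yf P F x L k (φ i) (φ j) ω) ^ 2) := by
    have := eE_mono hP hpsd
    rw [eE_smul, eE_sum, eE_sum] at this
    simp only [eE_sum] at this
    exact this
  have hoff : ∀ i j, eE P (fun ω => (Yf P F x L k (φ i) (φ j) ω) ^ 2) ≤
      Q ^ 4 * (C ^ 2 * ∑ b, ∑ b', |c b| * |c b'| *
        eE P (fun ω => (Yf P F x L k (v i b) (v j b') ω) ^ 2)) := by
    intro i j
    have h1 : ∀ ω, (Yf P F x L k (φ i) (φ j) ω) ^ 2 ≤
        Q ^ 4 * (C ^ 2 * ∑ b, ∑ b', |c b| * |c b'| * (Yf P F x L k (v i b) (v j b') ω) ^ 2) := by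
      intro ω
      have h2 : Yf P F x L k (φ i) (φ j) ω =
          Q ^ 2 * ∑ b, ∑ b', c b * c b' * Yf P F x L k (v i b) (v j b') ω := by
        rw [hφ]
        rw [Yf_sum_sum univ univ P F x L k (fun b => Q * c b) (fun b => Q * c b) (v i) (v j) ω,
          Finset.mul_sum]
        apply Finset.sum_congr rfl; intro b _
        rw [Finset.mul_sum]
        apply Finset.sum_congr rfl; intro b' _
        ring
      rw [h2, mul_pow]
      have h3 := cs_double c (fun b b' => Yf P F x L k (v i b) (v j b') ω)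
      have h4 : (Q ^ 2) ^ 2 = Q ^ 4 := by ring
      rw [h4]
      exact mul_le_mul_of_nonneg_left h3 (by positivity)
    have h2 := eE_mono hP h1
    rw [eE_smul, eE_smul, eE_sum] at h2
    simp only [eE_sum, eE_smul] at h2
    exact h2
  have hdiag : ∀ i, eE P (fun ω => (Yf P F x L k (φ i) (φ i) ω) ^ 2) ≤ (Q * C) ^ 4 := by
    intro i
    rw [← eE_const hP ((Q * C) ^ 4)]
    apply eE_mono hP
    intro ω
    have hsq : cE P (F k) (fun a => φ i a ^ 2) ω ≤ (Q * C) ^ 2 := by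
      apply cE_le_of_le hP
      intro a
      exact sq_le_sq' (by have := (abs_le.1 (hφb i a)).1; linarith) (abs_le.1 (hφb i a)).2
    have hY := Yf_abs_le hP hF (fun l hl => hy.le.trans (hx l hl)) hx1 hsq hsq
    calc (Yf P F x L k (φ i) (φ i) ω) ^ 2 ≤ ((Q * C) ^ 2) ^ 2 :=
          sq_le_sq' (by have := (abs_le.1 hY).1; linarith) (abs_le.1 hY).2
      _ = (Q * C) ^ 4 := by ring
  have hβ0 : ∀ i j b b', 0 ≤ eE P (fun ω => (Yf P F x L k (v i b) (v j b') ω) ^ 2) :=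
    fun i j b b' => eE_nonneg hP (fun ω => sq_nonneg _)
  have htot : ∑ i ∈ U, ∑ j ∈ U, eE P (fun ω => (Yf P F x L k (φ i) (φ j) ω) ^ 2) ≤
      Q ^ 4 * C ^ 4 * β + N * (Q * C) ^ 4 := by
    have h1 : ∑ i ∈ U, ∑ j ∈ U, eE P (fun ω => (Yf P F x L k (φ i) (φ j) ω) ^ 2) =
        ∑ i ∈ U, ∑ j ∈ U.erase i, eE P (fun ω => (Yf P F x L k (φ i) (φ j) ω) ^ 2) +
        ∑ i ∈ U, eE P (fun ω => (Yf P F x L k (φ i) (φ i) ω) ^ 2) := by
      rw [← Finset.sum_add_distrib]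
      apply Finset.sum_congr rfl
      intro i hi
      rw [Finset.sum_erase_add _ _ hi]
    rw [h1]
    apply add_le_add
    · calc ∑ i ∈ U, ∑ j ∈ U.erase i, eE P (fun ω => (Yf P F x L k (φ i) (φ j) ω) ^ 2)
          ≤ ∑ i ∈ U, ∑ j ∈ U.erase i, Q ^ 4 * (C ^ 2 * ∑ b, ∑ b', |c b| * |c b'| *
            eE P (fun ω => (Yf P F x L k (v i b) (v j b') ω) ^ 2)) :=
            Finset.sum_le_sum fun i _ => Finset.sum_le_sum fun j _ => hoff i j
        _ = Q ^ 4 * (C ^ 2 * ∑ b, ∑ b', |c b| * |c b'| * ∑ i ∈ U, ∑ j ∈ U.erase i,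
            eE P (fun ω => (Yf P F x L k (v i b) (v j b') ω) ^ 2)) := by
          simp only [← Finset.mul_sum]
          congr 2
          simp only [Finset.mul_sum]
          have e1 : ∀ i ∈ U, ∑ j ∈ U.erase i, ∑ b, ∑ b', |c b| * |c b'| *
              eE P (fun ω => (Yf P F x L k (v i b) (v j b') ω) ^ 2) =
              ∑ b, ∑ b', ∑ j ∈ U.erase i, |c b| * |c b'| *
              eE P (fun ω => (Yf P F x L k (v i b) (v j b') ω) ^ 2) := by
            intro i _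
            rw [Finset.sum_comm]
            apply Finset.sum_congr rfl; intro b _
            rw [Finset.sum_comm]
          rw [Finset.sum_congr rfl e1, Finset.sum_comm]
          apply Finset.sum_congr rfl; intro b _
          rw [Finset.sum_comm]
        _ ≤ Q ^ 4 * (C ^ 2 * ∑ b, ∑ b', |c b| * |c b'| * β) := by
          apply mul_le_mul_of_nonneg_left _ (by positivity)
          apply mul_le_mul_of_nonneg_left _ (by positivity)
          apply Finset.sum_le_sum; intro b _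
          apply Finset.sum_le_sum; intro b' _
          exact mul_le_mul_of_nonneg_left (hβ b b') (by positivity)
        _ = Q ^ 4 * C ^ 4 * β := by
          have : ∑ b, ∑ b', |c b| * |c b'| * β = C ^ 2 * β := by
            rw [hC, sq, Finset.sum_mul_sum, Finset.sum_mul]
            apply Finset.sum_congr rfl; intro b _
            rw [Finset.sum_mul]
          rw [this]; ring
    · calc ∑ i ∈ U, eE P (fun ω => (Yf P F x L k (φ i) (φ i) ω) ^ 2) ≤ ∑ i ∈ U, (Q * C) ^ 4 :=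
            Finset.sum_le_sum fun i _ => hdiag i
        _ = (U.card : ℝ) * (Q * C) ^ 4 := by rw [Finset.sum_const, nsmul_eq_mul]
        _ ≤ N * (Q * C) ^ 4 := mul_le_mul_of_nonneg_right hN (by positivity)
  have hy2 : 0 < y0 ^ 2 := by positivity
  rw [inv_mul_eq_div, le_div_iff₀ hy2, mul_comm]
  exact hsum.trans htot

/-- covariance perturbation. -/
theorem covR_diff (hP : IsProb P) (r : Setoid Ω) {f f' h h' : Ω → ℝ} {δ : ℝ} (hδ0 : 0 ≤ δ)
    (hδ : δ ≤ 1) (hf : ∀ ω, |f ω| ≤ 1) (hf' : ∀ ω, |f' ω| ≤ 1) (hh : ∀ ω, |f ω - h ω| ≤ δ)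
    (hh' : ∀ ω, |f' ω - h' ω| ≤ δ) (ω : Ω) :
    |covR P r f f' ω - covR P r h h' ω| ≤ 6 * δ := by
  have hhb : ∀ ω, |h ω| ≤ 1 + δ := by
    intro ω
    have h1 := abs_le.1 (hf ω)
    have h2 := abs_le.1 (hh ω)
    rw [abs_le]; constructor <;> linarith [h1.1, h1.2, h2.1, h2.2]
  have e1 : |cE P r (fun a => f a * f' a) ω - cE P r (fun a => h a * h' a) ω| ≤ 3 * δ := by
    rw [← cE_sub]
    apply abs_cE_le_of_le hP
    intro a
    have : f a * f' a - h a * h' a = (f a - h a) * f' a + h a * (f' a - h' a) := by ring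
    rw [this]
    calc |(f a - h a) * f' a + h a * (f' a - h' a)|
        ≤ |(f a - h a) * f' a| + |h a * (f' a - h' a)| := abs_add_le _ _
      _ ≤ δ * 1 + (1 + δ) * δ := by
        rw [abs_mul, abs_mul]
        exact add_le_add (mul_le_mul (hh a) (hf' a) (abs_nonneg _) hδ0)
          (mul_le_mul (hhb a) (hh' a) (abs_nonneg _) (by linarith))
      _ ≤ 3 * δ := by nlinarith
  have a1 : |cE P r f ω - cE P r h ω| ≤ δ := by
    rw [← cE_sub]; exact abs_cE_le_of_le hP hh ω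
  have a2 : |cE P r f' ω - cE P r h' ω| ≤ δ := by
    rw [← cE_sub]; exact abs_cE_le_of_le hP hh' ω
  have a3 : |cE P r f' ω| ≤ 1 := abs_cE_le_of_le hP hf' ω
  have a4 : |cE P r h ω| ≤ 1 + δ := abs_cE_le_of_le hP hhb ω
  have e2 : |cE P r f ω * cE P r f' ω - cE P r h ω * cE P r h' ω| ≤ 3 * δ := by
    have : cE P r f ω * cE P r f' ω - cE P r h ω * cE P r h' ω =
        (cE P r f ω - cE P r h ω) * cE P r f' ω + cE P r h ω * (cE P r f' ω - cE P r h' ω) := by ring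
    rw [this]
    calc _ ≤ |(cE P r f ω - cE P r h ω) * cE P r f' ω| +
          |cE P r h ω * (cE P r f' ω - cE P r h' ω)| := abs_add_le _ _
      _ ≤ δ * 1 + (1 + δ) * δ := by
        rw [abs_mul, abs_mul]
        exact add_le_add (mul_le_mul a1 a3 (abs_nonneg _) hδ0)
          (mul_le_mul a4 a2 (abs_nonneg _) (by linarith))
      _ ≤ 3 * δ := by nlinarith
  unfold covR
  have : cE P r (fun a => f a * f' a) ω - cE P r f ω * cE P r f' ω -
      (cE P r (fun a => h a * h' a) ω - cE P r h ω * cE P r h' ω) =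
      (cE P r (fun a => f a * f' a) ω - cE P r (fun a => h a * h' a) ω) -
      (cE P r f ω * cE P r f' ω - cE P r h ω * cE P r h' ω) := by ring
  rw [this]
  calc _ ≤ |cE P r (fun a => f a * f' a) ω - cE P r (fun a => h a * h' a) ω| +
        |cE P r f ω * cE P r f' ω - cE P r h ω * cE P r h' ω| := abs_sub _ _
    _ ≤ 3 * δ + 3 * δ := add_le_add e1 e2
    _ = 6 * δ := by ring

theorem covR_abs_le (hP : IsProb P) (r : Setoid Ω) {f f' : Ω → ℝ} (hf : ∀ ω, |f ω| ≤ 1)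
    (hf' : ∀ ω, |f' ω| ≤ 1) (ω : Ω) : |covR P r f f' ω| ≤ 2 := by
  unfold covR
  have e1 : |cE P r (fun a => f a * f' a) ω| ≤ 1 := by
    apply abs_cE_le_of_le hP
    intro a
    rw [abs_mul]
    calc _ ≤ (1:ℝ) * 1 := mul_le_mul (hf a) (hf' a) (abs_nonneg _) zero_le_one
      _ = 1 := one_mul 1
  have e2 : |cE P r f ω * cE P r f' ω| ≤ 1 := by
    rw [abs_mul]
    calc _ ≤ (1:ℝ) * 1 := mul_le_mul (abs_cE_le_of_le hP hf ω) (abs_cE_le_of_le hP hf' ω)
          (abs_nonneg _) zero_le_one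
      _ = 1 := one_mul 1
  calc _ ≤ |cE P r (fun a => f a * f' a) ω| + |cE P r f ω * cE P r f' ω| := abs_sub _ _
    _ ≤ 1 + 1 := add_le_add e1 e2
    _ = 2 := by norm_num

end

end Crest.Agent.R141.Pur
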