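import Crest.Agent.R141.PurA
import Crest.Agent.R141.CoinSys

/-!
Row 141 (S0192), Part L, section 2.3: purity of coordinates, averaged over the outer randomness.
-/

set_option autoImplicit false

namespace Crest.Agent.R141.Pur

open Finset Crest.Agent.R141

noncomputable section

/-- exchange of a null step with a random coordinate of type `o'`. -/
theorem exch (p : Par) {N : ℕ} (hN : 0 < N) (k : Stp p) (o' : Option (Fin p.nb)) (G : DD p N → ℝ) :
    Ed p N (fun d => if d k = none then
        (N : ℝ)⁻¹ * ∑ j : Fin N, G (Function.update d k (some (j, o'))) else 0) =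
      ((p.nb : ℝ) + 1) * Ed p N (fun d => if (∃ j : Fin N, d k = some (j, o')) then G d else 0) := by
  classical
  set e := Equiv.funSplitAt k (Option (Crd p N)) with he
  have hdw : ∀ (a : Option (Crd p N)) (r : {j : Stp p // j ≠ k} → Option (Crd p N)),
      dw p N (e.symm (a, r)) = dw1 p N a * ∏ j, dw1 p N (r j) := by
    intro a r
    unfold dw
    rw [← Finset.mul_prod_erase Finset.univ _ (Finset.mem_univ k)]
    have h1 : e.symm (a, r) k = a := by simp [e]
    rw [h1]
    congr 1
    have h2 : ∀ j : {j : Stp p // j ≠ k}, e.symm (a, r) j = r j := by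
      intro j
      have := j.2
      simp [e, Equiv.funSplitAt, Equiv.piSplitAt, this]
    rw [Finset.prod_subtype (Finset.univ.erase k) (p := fun j => j ≠ k) (by intro x; simp)
      (fun j => dw1 p N (e.symm (a, r) j))]
    apply Finset.prod_congr rfl
    intro j _
    rw [h2]
  have hk1 : ∀ (a : Option (Crd p N)) (r : {j : Stp p // j ≠ k} → Option (Crd p N)),
      e.symm (a, r) k = a := by intro a r; simp [e]
  have hupd : ∀ (a b : Option (Crd p N)) (r : {j : Stp p // j ≠ k} → Option (Crd p N)),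
      Function.update (e.symm (a, r)) k b = e.symm (b, r) := by
    intro a b r
    funext j
    by_cases hj : j = k
    · subst hj; rw [Function.update_self, hk1]
    · rw [Function.update_of_ne hj]
      simp [e, Equiv.funSplitAt, Equiv.piSplitAt, hj]
  unfold Ed
  rw [← e.symm.sum_comp, ← e.symm.sum_comp, Fintype.sum_prod_type_right,
    Fintype.sum_prod_type_right, Finset.mul_sum]
  apply Finset.sum_congr rfl
  intro r _
  simp only [hdw, hk1, hupd]
  set w := ∏ j, dw1 p N (r j)
  rw [Fintype.sum_option, Fintype.sum_option]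
  have hL : ∑ c : Crd p N, dw1 p N (some c) * w * (if (some c : Option (Crd p N)) = none then
      (N : ℝ)⁻¹ * ∑ j : Fin N, G (e.symm (some (j, o'), r)) else 0) = 0 := by
    apply Finset.sum_eq_zero; intro c _
    simp
  rw [hL, add_zero, if_pos rfl]
  have hR0 : dw1 p N none * w * (if (∃ j : Fin N, (none : Option (Crd p N)) = some (j, o')) then
      G (e.symm (none, r)) else 0) = 0 := by
    rw [if_neg (by simp), mul_zero]
  rw [hR0, zero_add, Fintype.sum_prod_type]
  have hR1 : ∀ j : Fin N, ∑ o : Option (Fin p.nb), dw1 p N (some (j, o)) * w *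
      (if (∃ j' : Fin N, (some (j, o) : Option (Crd p N)) = some (j', o')) then
        G (e.symm (some (j, o), r)) else 0) =
      1 / (2 * ((N : ℝ) * ((p.nb : ℝ) + 1))) * w * G (e.symm (some (j, o'), r)) := by
    intro j
    rw [Finset.sum_eq_single o']
    · rw [if_pos ⟨j, rfl⟩]; rfl
    · intro o _ ho
      rw [if_neg, mul_zero]
      rintro ⟨j', hj'⟩
      apply ho
      have := Option.some.inj hj'
      exact (Prod.ext_iff.1 this).2
    · intro h; exact absurd (Finset.mem_univ _) h
  simp only [hR1]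
  rw [← Finset.mul_sum]
  have hN' : (N : ℝ) ≠ 0 := by positivity
  have hb : ((p.nb : ℝ) + 1) ≠ 0 := by positivity
  show (1 / 2 : ℝ) * w * ((N : ℝ)⁻¹ * ∑ j, G (e.symm (some (j, o'), r))) = _
  field_simp

open scoped Classical in
/-- untouched sites. -/
def Un (p : Par) (N : ℕ) (d : DD p N) : Finset (Fin N) := univ.filter (fun i => ¬ touched p N d i)

theorem mem_Un {p : Par} {N : ℕ} {d : DD p N} {i : Fin N} : i ∈ Un p N d ↔ ¬ touched p N d i := by
  simp [Un]

theorem Un_card_le (p : Par) (N : ℕ) (d : DD p N) : ((Un p N d).card : ℝ) ≤ N := by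
  have := Finset.card_le_univ (Un p N d)
  simp only [Fintype.card_fin] at this
  exact_mod_cast this

theorem Un_update {p : Par} {N : ℕ} {d : DD p N} {k : Stp p} (hk : d k = none) {i j : Fin N}
    {o : Option (Fin p.nb)} (hi : i ∈ Un p N d) (hij : i ≠ j) :
    i ∈ Un p N (Function.update d k (some (j, o))) := by
  rw [mem_Un] at hi ⊢
  rintro ⟨k', o', h⟩
  by_cases hkk : k' = k
  · subst hkk
    rw [Function.update_self] at h
    have := Option.some.inj h
    exact hij (Prod.ext_iff.1 this).1.symm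
  · rw [Function.update_of_ne hkk] at h
    exact hi ⟨k', o', h⟩

/-- the variance of the coordinate `(i,o)` at the coin step `k`. -/
def Wv (p : Par) (N : ℕ) (H : (Fin N → Bool) → ℝ) (k : Stp p) (o : Option (Fin p.nb))
    (d : DD p N) (i : Fin N) : ℝ :=
  eE (PP p N H d) (fun ω => (cE (PP p N H d) ((fil p N).F (p.ct k.1 k.2)) (cv p N (i, o)) ω -
    cE (PP p N H d) ((fil p N).F (p.ct k.1 k.2 - 1)) (cv p N (i, o)) ω) ^ 2)

/-- the impurity of the types `o, o'` at the coin step `k`. -/
def bad (p : Par) (N : ℕ) (H : (Fin N → Bool) → ℝ) (k : Stp p) (o o' : Option (Fin p.nb))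
    (d : DD p N) : ℝ :=
  ((N : ℝ) ^ 2)⁻¹ * ∑ i ∈ Un p N d, ∑ j ∈ (Un p N d).erase i, eE (PP p N H d) (fun ω =>
    (Yf (PP p N H d) (fil p N).F p.xs p.L (p.ct k.1 k.2) (cv p N (i, o)) (cv p N (j, o')) ω) ^ 2)

theorem Wv_nonneg (p : Par) (N : ℕ) (H : (Fin N → Bool) → ℝ) (k : Stp p) (o : Option (Fin p.nb))
    (d : DD p N) (i : Fin N) : 0 ≤ Wv p N H k o d i :=
  eE_nonneg (PP_isProb p N H d) (fun _ => sq_nonneg _)

theorem bad_nonneg (p : Par) (N : ℕ) (H : (Fin N → Bool) → ℝ) (k : Stp p)
    (o o' : Option (Fin p.nb)) (d : DD p N) : 0 ≤ bad p N H k o o' d := by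
  apply mul_nonneg (by positivity)
  apply Finset.sum_nonneg; intro i _
  apply Finset.sum_nonneg; intro j _
  exact eE_nonneg (PP_isProb p N H d) (fun _ => sq_nonneg _)

theorem bad_le_one (p : Par) {N : ℕ} (hN : 0 < N) (H : (Fin N → Bool) → ℝ) (k : Stp p)
    (o o' : Option (Fin p.nb)) (d : DD p N) : bad p N H k o o' d ≤ 1 := by
  have h1 : ∀ i j : Fin N, eE (PP p N H d) (fun ω =>
      (Yf (PP p N H d) (fil p N).F p.xs p.L (p.ct k.1 k.2) (cv p N (i, o)) (cv p N (j, o')) ω) ^ 2)
      ≤ 1 := by
    intro i j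
    rw [← eE_const (PP_isProb p N H d) 1]
    apply eE_mono (PP_isProb p N H d)
    intro ω
    have hsq : ∀ c : Crd p N, cE (PP p N H d) ((fil p N).F (p.ct k.1 k.2))
        (fun a => cv p N c a ^ 2) ω ≤ 1 := by
      intro c
      apply cE_le_of_le (PP_isProb p N H d)
      intro a
      rcases cv_mem p N c a with h | h <;> rw [h] <;> norm_num
    have hY := Yf_abs_le (x := p.xs) (L := p.L) (PP_isProb p N H d) (fil p N).antitone
      (fun l _ => (p.xs_expo.pos l).le) (fun l _ => p.xs_expo.le_one l) (hsq (i, o)) (hsq (j, o'))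
    rw [← sq_abs]
    calc _ ≤ (1:ℝ) ^ 2 := pow_le_pow_left₀ (abs_nonneg _) hY 2
      _ = 1 := one_pow 2
  have hN' : (0 : ℝ) < N := by exact_mod_cast hN
  have h2 : ∑ i ∈ Un p N d, ∑ j ∈ (Un p N d).erase i, eE (PP p N H d) (fun ω =>
      (Yf (PP p N H d) (fil p N).F p.xs p.L (p.ct k.1 k.2) (cv p N (i, o)) (cv p N (j, o')) ω) ^ 2)
      ≤ (N : ℝ) ^ 2 := by
    calc _ ≤ ∑ i ∈ Un p N d, ∑ j ∈ (Un p N d).erase i, (1 : ℝ) :=
          Finset.sum_le_sum fun i _ => Finset.sum_le_sum fun j _ => h1 i j
      _ ≤ ∑ i ∈ Un p N d, (N : ℝ) := by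
          apply Finset.sum_le_sum; intro i _
          rw [Finset.sum_const, nsmul_eq_mul, mul_one]
          calc (((Un p N d).erase i).card : ℝ) ≤ ((Un p N d).card : ℝ) := by
                exact_mod_cast Finset.card_le_card (Finset.erase_subset _ _)
            _ ≤ N := Un_card_le p N d
      _ = (Un p N d).card * (N : ℝ) := by rw [Finset.sum_const, nsmul_eq_mul]
      _ ≤ N * N := mul_le_mul_of_nonneg_right (Un_card_le p N d) hN'.le
      _ = (N : ℝ) ^ 2 := by ring
  unfold bad
  rw [inv_mul_eq_div, div_le_one (by positivity)]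
  exact h2

/-- sum over the coin steps of a cell of the variances. -/
theorem Wv_sum (p : Par) (N : ℕ) (H : (Fin N → Bool) → ℝ) (g : Fin p.nc) (o : Option (Fin p.nb))
    (d : DD p N) (i : Fin N) {κ : ℝ}
    (hκ : ∀ ω, |cE (PP p N H d) ((fil p N).F (p.mt g - 1)) (cv p N (i, o)) ω| ≤ κ) :
    ∑ t : Fin p.T, Wv p N H (g, t) o d i ≤ κ ^ 2 := by
  have hab : (g : ℕ) * (p.T + 1) ≤ p.mt g - 1 := by
    unfold Par.mt
    have : ((g : ℕ) + 1) * (p.T + 1) = (g : ℕ) * (p.T + 1) + (p.T + 1) := by ring
    omega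
  have h := var_sum_le (PP_isProb p N H d) (fil p N).antitone (cv p N (i, o)) hab hκ
  refine le_trans ?_ h
  have hinj : Function.Injective (fun t : Fin p.T => p.ct g t) := by
    intro a b hab
    simp only [Par.ct] at hab
    exact Fin.ext (by omega)
  have himg := Finset.sum_image (s := (univ : Finset (Fin p.T))) (g := fun t : Fin p.T => p.ct g t)
    (f := fun k => eE (PP p N H d) (fun ω =>
      (cE (PP p N H d) ((fil p N).F k) (cv p N (i, o)) ω -
        cE (PP p N H d) ((fil p N).F (k - 1)) (cv p N (i, o)) ω) ^ 2))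
    (fun a _ b _ hab => hinj hab)
  refine le_trans (le_of_eq himg.symm) ?_
  apply Finset.sum_le_sum_of_subset_of_nonneg
  · intro k hk
    rw [Finset.mem_image] at hk
    obtain ⟨t, _, rfl⟩ := hk
    rw [Finset.mem_Ioc]
    have ht := t.2
    have : ((g : ℕ) + 1) * (p.T + 1) = (g : ℕ) * (p.T + 1) + (p.T + 1) := by ring
    unfold Par.ct Par.mt
    constructor <;> omega
  · intro k _ _
    exact eE_nonneg (PP_isProb p N H d) (fun _ => sq_nonneg _)

/-- (2.3): the impurities of a cell are small on average. -/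
theorem badSum (p : Par) {N : ℕ} (hN : 0 < N) (H : (Fin N → Bool) → ℝ) (g : Fin p.nc)
    (o o' : Option (Fin p.nb)) {κ : ℝ}
    (hnoise : ∀ (d : DD p N) (t : Fin p.T) (i j : Fin N), d (g, t) = none → i ≠ j →
      i ∈ Un p N d → j ∈ Un p N d →
      eE (PP p N H d) (fun ω => (Yf (PP p N H d) (fil p N).F p.xs p.L (p.ct g t)
        (cv p N (i, o)) (cv p N (j, o')) ω) ^ 2) ≤
      16 / p.τ ^ 2 * Wv p N H (g, t) o (Function.update d (g, t) (some (j, o'))) i +
        242 * p.τ ^ 2 * κ ^ 4)
    (hdens : ∀ (d : DD p N) (i : Fin N), i ∈ Un p N d →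
      ∀ ω, |cE (PP p N H d) ((fil p N).F (p.mt g - 1)) (cv p N (i, o)) ω| ≤ κ) :
    ∑ t : Fin p.T, Ed p N (fun d => if d (g, t) = none then bad p N H (g, t) o o' d else 0) ≤
      16 / p.τ ^ 2 * (((p.nb : ℝ) + 1) * κ ^ 2) + p.T * (242 * p.τ ^ 2 * κ ^ 4) := by
  classical
  have hN' : (0 : ℝ) < N := by exact_mod_cast hN
  have hτ0 := p.hτ0
  -- the averaged variance
  set G : Fin p.T → DD p N → ℝ := fun t d => (N : ℝ)⁻¹ * ∑ i ∈ Un p N d, Wv p N H (g, t) o d i with hG
  have hG0 : ∀ t d, 0 ≤ G t d := fun t d => mul_nonneg (by positivity)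
    (Finset.sum_nonneg fun i _ => Wv_nonneg p N H (g, t) o d i)
  have hpt : ∀ t (d : DD p N), (if d (g, t) = none then bad p N H (g, t) o o' d else 0) ≤
      16 / p.τ ^ 2 * (if d (g, t) = none then (N : ℝ)⁻¹ *
        ∑ j : Fin N, G t (Function.update d (g, t) (some (j, o'))) else 0) +
      242 * p.τ ^ 2 * κ ^ 4 := by
    intro t d
    by_cases hd : d (g, t) = none
    · rw [if_pos hd, if_pos hd]
      have h1 : bad p N H (g, t) o o' d ≤ ((N : ℝ) ^ 2)⁻¹ * ∑ i ∈ Un p N d, ∑ j ∈ (Un p N d).erase i,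
          (16 / p.τ ^ 2 * Wv p N H (g, t) o (Function.update d (g, t) (some (j, o'))) i +
            242 * p.τ ^ 2 * κ ^ 4) := by
        apply mul_le_mul_of_nonneg_left _ (by positivity)
        apply Finset.sum_le_sum; intro i hi
        apply Finset.sum_le_sum; intro j hj
        rw [Finset.mem_erase] at hj
        exact hnoise d t i j hd (Ne.symm hj.1) hi hj.2
      have h2 : ∑ i ∈ Un p N d, ∑ j ∈ (Un p N d).erase i,
          (16 / p.τ ^ 2 * Wv p N H (g, t) o (Function.update d (g, t) (some (j, o'))) i +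
            242 * p.τ ^ 2 * κ ^ 4) ≤
          16 / p.τ ^ 2 * ∑ j : Fin N, ∑ i ∈ Un p N (Function.update d (g, t) (some (j, o'))),
            Wv p N H (g, t) o (Function.update d (g, t) (some (j, o'))) i +
          (N : ℝ) ^ 2 * (242 * p.τ ^ 2 * κ ^ 4) := by
        simp only [Finset.sum_add_distrib]
        apply add_le_add
        · simp only [← Finset.mul_sum]
          apply mul_le_mul_of_nonneg_left _ (by positivity)
          have e1 : ∑ i ∈ Un p N d, ∑ j ∈ (Un p N d).erase i,
              Wv p N H (g, t) o (Function.update d (g, t) (some (j, o'))) i =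
              ∑ i : Fin N, ∑ j : Fin N, if (i ∈ Un p N d ∧ j ∈ (Un p N d).erase i) then
                Wv p N H (g, t) o (Function.update d (g, t) (some (j, o'))) i else 0 := by
            rw [← Finset.sum_subset (Finset.subset_univ (Un p N d))]
            · apply Finset.sum_congr rfl; intro i hi
              rw [← Finset.sum_subset (Finset.subset_univ ((Un p N d).erase i))]
              · apply Finset.sum_congr rfl; intro j hj
                rw [if_pos ⟨hi, hj⟩]
              · intro j _ hj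
                rw [if_neg (fun h => hj h.2)]
            · intro i _ hi
              apply Finset.sum_eq_zero; intro j _
              rw [if_neg (fun h => hi h.1)]
          rw [e1, Finset.sum_comm]
          apply Finset.sum_le_sum; intro j _
          rw [← Finset.sum_subset (Finset.subset_univ
            (Un p N (Function.update d (g, t) (some (j, o')))))]
          · apply Finset.sum_le_sum; intro i _
            split_ifs
            · exact le_rfl
            · exact Wv_nonneg p N H (g, t) o _ i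
          · intro i _ hi
            rw [if_neg]
            rintro ⟨h3, h4⟩
            rw [Finset.mem_erase] at h4
            exact hi (Un_update hd h3 (Ne.symm h4.1))
        · have hc : 0 ≤ 242 * p.τ ^ 2 * κ ^ 4 := by positivity
          calc ∑ i ∈ Un p N d, ∑ j ∈ (Un p N d).erase i, 242 * p.τ ^ 2 * κ ^ 4
              ≤ ∑ i ∈ Un p N d, (N : ℝ) * (242 * p.τ ^ 2 * κ ^ 4) := by
                apply Finset.sum_le_sum; intro i _
                rw [Finset.sum_const, nsmul_eq_mul]
                apply mul_le_mul_of_nonneg_right _ hc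
                calc (((Un p N d).erase i).card : ℝ) ≤ ((Un p N d).card : ℝ) := by
                      exact_mod_cast Finset.card_le_card (Finset.erase_subset _ _)
                  _ ≤ N := Un_card_le p N d
            _ = (Un p N d).card * ((N : ℝ) * (242 * p.τ ^ 2 * κ ^ 4)) := by
                rw [Finset.sum_const, nsmul_eq_mul]
            _ ≤ N * ((N : ℝ) * (242 * p.τ ^ 2 * κ ^ 4)) :=
                mul_le_mul_of_nonneg_right (Un_card_le p N d) (by positivity)
            _ = (N : ℝ) ^ 2 * (242 * p.τ ^ 2 * κ ^ 4) := by ring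
      refine h1.trans ((mul_le_mul_of_nonneg_left h2 (by positivity)).trans (le_of_eq ?_))
      simp only [hG, ← Finset.mul_sum]
      field_simp
    · rw [if_neg hd, if_neg hd]
      positivity
  have hEd : ∀ t, Ed p N (fun d => if d (g, t) = none then bad p N H (g, t) o o' d else 0) ≤
      16 / p.τ ^ 2 * (((p.nb : ℝ) + 1) * Ed p N (G t)) + 242 * p.τ ^ 2 * κ ^ 4 := by
    intro t
    refine (Ed_mono p N (hpt t)).trans ?_
    rw [Ed_add, Ed_smul, exch p hN (g, t) o' (G t), Ed_const p hN]
    gcongr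
    apply Ed_mono
    intro d
    split_ifs
    · exact le_rfl
    · exact hG0 t d
  have hsumG : ∑ t, Ed p N (G t) ≤ κ ^ 2 := by
    rw [← Ed_sum]
    rw [← Ed_const p hN (κ ^ 2)]
    apply Ed_mono
    intro d
    simp only [hG]
    rw [← Finset.mul_sum, Finset.sum_comm]
    calc (N : ℝ)⁻¹ * ∑ i ∈ Un p N d, ∑ t, Wv p N H (g, t) o d i
        ≤ (N : ℝ)⁻¹ * ∑ i ∈ Un p N d, κ ^ 2 := by
          apply mul_le_mul_of_nonneg_left _ (by positivity)
          apply Finset.sum_le_sum; intro i hi
          exact Wv_sum p N H g o d i (hdens d i hi)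
      _ = (N : ℝ)⁻¹ * ((Un p N d).card * κ ^ 2) := by rw [Finset.sum_const, nsmul_eq_mul]
      _ ≤ (N : ℝ)⁻¹ * (N * κ ^ 2) := by
          apply mul_le_mul_of_nonneg_left _ (by positivity)
          exact mul_le_mul_of_nonneg_right (Un_card_le p N d) (sq_nonneg _)
      _ = κ ^ 2 := by field_simp
  calc ∑ t : Fin p.T, Ed p N (fun d => if d (g, t) = none then bad p N H (g, t) o o' d else 0)
      ≤ ∑ t : Fin p.T, (16 / p.τ ^ 2 * (((p.nb : ℝ) + 1) * Ed p N (G t)) +
        242 * p.τ ^ 2 * κ ^ 4) := Finset.sum_le_sum fun t _ => hEd t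
    _ = 16 / p.τ ^ 2 * (((p.nb : ℝ) + 1) * ∑ t, Ed p N (G t)) +
        p.T * (242 * p.τ ^ 2 * κ ^ 4) := by
      rw [Finset.sum_add_distrib, ← Finset.mul_sum, ← Finset.mul_sum, Finset.sum_const,
        Finset.card_univ, Fintype.card_fin, nsmul_eq_mul]
    _ ≤ _ := by gcongr

end

end Crest.Agent.R141.Pur
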