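import Crest.Agent.R141.SysSym

/-!
Row 141 (S0192), Part L: removal of gadgets and the density bounds (2.2).
-/

set_option autoImplicit false

namespace Crest.Agent.R141.Sym

open Finset Crest.Agent.R141

noncomputable section

variable {p : Par} {N : ℕ}

theorem Qpos (p : Par) : (0 : ℝ) < p.Q := by have := p.hQ; positivity

theorem gval_sv_abs (b : Fin p.nb) (l : Fin p.nc → Fin p.Q) (s : Bool) :
    |gval p b l * sv s| ≤ 1 / 2 := by
  rw [abs_mul, sv_abs, mul_one]; exact gval_abs p b l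

theorem gfac_abs (i : Fin N) (b : Fin p.nb) (ω : Om p N) : |gfac p N i b ω| ≤ Real.log 2 := by
  have h := abs_le.mp (gval_sv_abs (p := p) b (ω.2.1 i b) (ω.1 i))
  unfold gfac
  rw [abs_le]
  constructor
  · rw [← Real.log_inv]
    apply Real.log_le_log (by norm_num)
    linarith [h.1]
  · apply Real.log_le_log (by linarith [h.1])
    linarith [h.2]

theorem exp_gfac (i : Fin N) (b : Fin p.nb) (ω : Om p N) :
    Real.exp (gfac p N i b ω) = 1 + gval p b (ω.2.1 i b) * sv (ω.1 i) := by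
  have h := abs_le.mp (gval_sv_abs (p := p) b (ω.2.1 i b) (ω.1 i))
  unfold gfac
  rw [Real.exp_log (by linarith [h.1])]

theorem gval_of_absent {b : Fin p.nb} {l : Fin p.nc → Fin p.Q} (h : vb p b l = 0) :
    gval p b l = 0 := by
  unfold vb at h
  unfold gval
  split_ifs with h1
  · rw [if_pos h1] at h; exact absurd h one_ne_zero
  · rfl

theorem gfac_of_absent {i : Fin N} {b : Fin p.nb} {ω : Om p N} (h : cv p N (i, some b) ω = 0) :
    gfac p N i b ω = 0 := by
  unfold gfac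
  rw [gval_of_absent h]
  simp

theorem gfac_ge (i : Fin N) (b : Fin p.nb) (ω : Om p N) :
    -(1 : ℝ) * cv p N (i, some b) ω ≤ gfac p N i b ω := by
  rcases cv_mem p N (i, some b) ω with h | h
  · rw [gfac_of_absent h, h]; norm_num
  · rw [h]
    have h1 := (abs_le.mp (gfac_abs i b ω)).1
    have h2 : Real.log 2 ≤ 1 := by
      have := Real.log_two_lt_d9; linarith
    linarith

theorem exp_gfac_le (i : Fin N) (b : Fin p.nb) (ω : Om p N) :
    Real.exp (gfac p N i b ω) ≤ 1 + (1 / 2) * cv p N (i, some b) ω := by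
  rcases cv_mem p N (i, some b) ω with h | h
  · rw [gfac_of_absent h, h]; norm_num
  · rw [h, exp_gfac]
    have h1 := (abs_le.mp (gval_sv_abs (p := p) b (ω.2.1 i b) (ω.1 i))).2
    linarith

/-- free energy of one gadget. -/
theorem A_gfac_abs {P : Om p N → ℝ} (hP : IsProb P) {i : Fin N} {b : Fin p.nb}
    (h : SymP i b (p.lev b) P) {k : ℕ} (hk : k < p.mt (p.lev b)) (ω : Om p N) :
    |A P (fil p N) p.xs (gfac p N i b) k ω| ≤ 1 / p.Q := by
  have hQ := Qpos p
  have hv := cE_vb hP h hk ω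
  rw [abs_le]
  constructor
  · refine le_trans ?_ (cE_le_A hP p.xs_expo.pos _ k ω)
    have h1 := cE_mono' (r := (fil p N).F k) hP (gfac_ge i b) ω
    rw [cE_smul, hv] at h1
    rw [one_div]; linarith
  · refine (A_le_log hP p.xs_expo _ k ω).trans ?_
    have h1 := cE_mono' (r := (fil p N).F k) hP (exp_gfac_le i b) ω
    rw [cE_add, cE_const hP, cE_smul, hv] at h1
    have h2 : 0 < cE P ((fil p N).F k) (fun w => Real.exp (gfac p N i b w)) ω :=
      cE_pos hP (fun _ => Real.exp_pos _) ω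
    have h3 := Real.log_le_sub_one_of_pos h2
    have h4 : (0 : ℝ) ≤ (p.Q : ℝ)⁻¹ := by positivity
    rw [one_div]
    linarith

/-- **Gadget removal**. -/
theorem removal {U : Om p N → ℝ} {i : Fin N} {b : Fin p.nb} (hU : Inv i b (p.lev b) U) {k : ℕ}
    (hk : k < p.mt (p.lev b)) (ω : Om p N) :
    |A (prior p N) (fil p N) p.xs (fun w => U w + gfac p N i b w) k ω -
      A (prior p N) (fil p N) p.xs U k ω| ≤ 1 / p.Q := by
  rw [A_cocycle (prior_isProb p N) p.xs_expo.pos, add_sub_cancel_left]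
  exact A_gfac_abs (tl_isProb (prior_isProb p N) p.xs_expo.pos _)
    (symP_tl (prior_isProb p N) p.xs_expo.pos (symP_prior i b _) hU) hk ω

/-- iterated gadget removal. -/
theorem removals (t : Finset (Fin N × Fin p.nb)) {U : Om p N → ℝ}
    (hU : ∀ c ∈ t, Inv c.1 c.2 (p.lev c.2) U) {k : ℕ}
    (hk : ∀ c ∈ t, k < p.mt (p.lev c.2)) (ω : Om p N) :
    |A (prior p N) (fil p N) p.xs (fun w => U w + ∑ c ∈ t, gfac p N c.1 c.2 w) k ω -
      A (prior p N) (fil p N) p.xs U k ω| ≤ t.card / p.Q := by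
  classical
  induction t using Finset.induction_on with
  | empty => simp
  | insert c t hc ih =>
    have h1 := ih (fun c' hc' => hU c' (Finset.mem_insert_of_mem hc'))
      (fun c' hc' => hk c' (Finset.mem_insert_of_mem hc'))
    have hinv : Inv c.1 c.2 (p.lev c.2) (fun w => U w + ∑ c' ∈ t, gfac p N c'.1 c'.2 w) := by
      refine (hU c (Finset.mem_insert_self _ _)).add (Inv.sum fun c' hc' => Inv.gfac ?_)
      rintro ⟨e1, e2⟩
      exact hc (by rw [← (Prod.ext e1 e2 : c' = c)]; exact hc')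
    have h2 := removal hinv (hk c (Finset.mem_insert_self _ _)) ω
    have e : (fun w => U w + ∑ c' ∈ insert c t, gfac p N c'.1 c'.2 w) =
        fun w => (U w + ∑ c' ∈ t, gfac p N c'.1 c'.2 w) + gfac p N c.1 c.2 w := by
      funext w
      rw [Finset.sum_insert hc]; ring
    rw [e, Finset.card_insert_of_notMem hc]
    push_cast
    rw [abs_le] at *
    have e2 : ((t.card : ℝ) + 1) / p.Q = t.card / p.Q + 1 / p.Q := by rw [add_div]
    rw [e2]
    constructor <;> linarith [h1.1, h1.2, h2.1, h2.2]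

theorem mt_pos (g : ℕ) : 0 < p.mt g := by unfold Par.mt; positivity

/-! ### the system without one gadget -/

/-- log-weight without the gadgets of `t`. -/
def Umin (p : Par) (N : ℕ) (H : (Fin N → Bool) → ℝ) (d : DD p N) (t : Finset (Fin N × Fin p.nb))
    (ω : Om p N) : ℝ :=
  (H ω.1 + ∑ c ∈ tᶜ, gfac p N c.1 c.2 ω) + ∑ k, cfac p N (d k) k ω

theorem UU_eq (H : (Fin N → Bool) → ℝ) (d : DD p N) (t : Finset (Fin N × Fin p.nb)) :
    UU p N H d = fun ω => Umin p N H d t ω + ∑ c ∈ t, gfac p N c.1 c.2 ω := by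
  funext ω
  unfold UU WW Umin
  have h : ∑ i, ∑ b, gfac p N i b ω = ∑ c : Fin N × Fin p.nb, gfac p N c.1 c.2 ω := by
    rw [Fintype.sum_prod_type]
  rw [h, ← Finset.sum_add_sum_compl t (fun c : Fin N × Fin p.nb => gfac p N c.1 c.2 ω)]
  ring

theorem Inv.umin {H : (Fin N → Bool) → ℝ} {d : DD p N} {t : Finset (Fin N × Fin p.nb)}
    {i : Fin N} {b : Fin p.nb} {g : Fin p.nc} (hi : ¬ touched p N d i) (hc : (i, b) ∈ t) :
    Inv i b g (Umin p N H d t) := by
  unfold Umin
  refine ((Inv.spin H).add (Inv.sum fun c' hc' => Inv.gfac ?_)).add (Inv.coins hi)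
  rintro ⟨e1, e2⟩
  rw [Finset.mem_compl] at hc'
  exact hc' (by rw [(Prod.ext e1 e2 : c' = (i, b))]; exact hc)

/-- the law without the gadgets of `t`. -/
def Pmin (p : Par) (N : ℕ) (H : (Fin N → Bool) → ℝ) (d : DD p N) (t : Finset (Fin N × Fin p.nb)) :
    Om p N → ℝ :=
  tl (prior p N) (fil p N) p.xs (Umin p N H d t)

theorem Pmin_isProb (H : (Fin N → Bool) → ℝ) (d : DD p N) (t : Finset (Fin N × Fin p.nb)) :
    IsProb (Pmin p N H d t) := tl_isProb (prior_isProb p N) p.xs_expo.pos _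

theorem symP_Pmin {H : (Fin N → Bool) → ℝ} {d : DD p N} {t : Finset (Fin N × Fin p.nb)}
    {i : Fin N} {b : Fin p.nb} {g : Fin p.nc} (hi : ¬ touched p N d i) (hc : (i, b) ∈ t) :
    SymP i b g (Pmin p N H d t) :=
  symP_tl (prior_isProb p N) p.xs_expo.pos (symP_prior i b g) (Inv.umin hi hc)

theorem PP_eq (H : (Fin N → Bool) → ℝ) (d : DD p N) (t : Finset (Fin N × Fin p.nb)) :
    PP p N H d = tl (Pmin p N H d t) (fil p N) p.xs (fun ω => ∑ c ∈ t, gfac p N c.1 c.2 ω) := by
  unfold PP Pmin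
  rw [← tl_add (prior_isProb p N) p.xs_expo.pos, ← UU_eq H d t]

theorem exp_two_log_two : Real.exp (2 * Real.log 2) = 4 := by
  rw [mul_comm, Real.exp_mul, Real.exp_log (by norm_num)]; norm_num

/-- **density of a gadget** (2.2). -/
theorem density (H : (Fin N → Bool) → ℝ) {d : DD p N} {i : Fin N} (hi : ¬ touched p N d i)
    (b : Fin p.nb) {k : ℕ} (hk : k < p.mt (p.lev b)) (ω : Om p N) :
    cE (PP p N H d) ((fil p N).F k) (cv p N (i, some b)) ω ≤ 4 / p.Q := by
  rw [PP_eq H d {(i, b)}]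
  refine (cE_tl_le (Pmin_isProb _ _ _) p.xs_expo (a := Real.log 2) (fun ω => ?_)
    (cv_nonneg p N _) k ω).trans ?_
  · rw [Finset.sum_singleton]; exact gfac_abs i b ω
  · rw [cE_vb (Pmin_isProb _ _ _) (symP_Pmin hi (Finset.mem_singleton_self _)) hk,
      exp_two_log_two]
    exact le_of_eq (by ring)

/-- **joint density of two gadgets** (2.2). -/
theorem density2 (H : (Fin N → Bool) → ℝ) {d : DD p N} {i j : Fin N} {b b' : Fin p.nb}
    (hij : (i, b) ≠ (j, b')) (hi : ¬ touched p N d i) (hj : ¬ touched p N d j)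
    {k : ℕ} (hk : k < p.mt (p.lev b)) (hk' : k < p.mt (p.lev b')) (ω : Om p N) :
    cE (PP p N H d) ((fil p N).F k) (fun w => cv p N (i, some b) w * cv p N (j, some b') w) ω ≤
      (4 / p.Q) ^ 2 := by
  have hne : ¬ (j = i ∧ b' = b) := by
    rintro ⟨rfl, rfl⟩; exact hij rfl
  rw [PP_eq H d {(i, b), (j, b')}]
  have hm1 : (i, b) ∈ ({(i, b), (j, b')} : Finset (Fin N × Fin p.nb)) := by simp
  have hm2 : (j, b') ∈ ({(i, b), (j, b')} : Finset (Fin N × Fin p.nb)) := by simp
  refine (cE_tl_le (Pmin_isProb _ _ _) p.xs_expo (a := 2 * Real.log 2) (fun ω => ?_)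
    (fun w => mul_nonneg (cv_nonneg p N _ w) (cv_nonneg p N _ w)) k ω).trans ?_
  · rw [Finset.sum_pair hij]
    refine (abs_add_le _ _).trans ?_
    linarith [gfac_abs i b ω, gfac_abs j b' ω]
  · rw [cE_vb_mul (Pmin_isProb _ _ _) (symP_Pmin hi hm1) hk (Inv.vb hne),
      cE_vb (Pmin_isProb _ _ _) (symP_Pmin hj hm2) hk']
    have e : Real.exp (2 * (2 * Real.log 2)) = 16 := by
      have h : (2 : ℝ) * (2 * Real.log 2) = 2 * Real.log 2 + 2 * Real.log 2 := by ring
      rw [h, Real.exp_add, exp_two_log_two]; norm_num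
    rw [e]
    exact le_of_eq (by ring)

end

end Crest.Agent.R141.Sym
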