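import Crest.Agent.R141.PurD
import Crest.Agent.R141.OuterSys2
import Crest.Agent.R141.SysF

/-!
Row 141 (S0192), Part L, section 2.3: instantiation of `badSum` and selection of the observation
steps (helper354).
-/

set_option autoImplicit false

namespace Crest.Agent.R141.Pur

open Finset Crest.Agent.R141

noncomputable section

open scoped Classical in
theorem tot_le_M0 (p : Par) {N : ℕ} (hN : 0 < N) (H : (Fin N → Bool) → ℝ) (k : Stp p)
    (d : DD p N) : tot p N H k d ≤ M0 p := by
  unfold tot M0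
  have h1 := bad_le_one p hN H k none none d
  have h2 : ∑ b, ∑ b2, (if (k.1 ≤ p.lev b ∧ k.1 ≤ p.lev b2) then
      bad p N H k (some b) (some b2) d else 0) ≤ (p.nb : ℝ) ^ 2 := by
    calc _ ≤ ∑ _b : Fin p.nb, ∑ _b2 : Fin p.nb, (1 : ℝ) := by
          refine Finset.sum_le_sum fun b _ => Finset.sum_le_sum fun b2 _ => ?_
          split_ifs
          · exact bad_le_one p hN H k _ _ d
          · exact zero_le_one
      _ = (p.nb : ℝ) ^ 2 := by simp [sq]
  have h3 := mul_le_mul_of_nonneg_left h2 (show (0 : ℝ) ≤ (p.Q : ℝ) ^ 4 by positivity)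
  linarith

theorem RMeas_L (p : Par) (N : ℕ) (f : Om p N → ℝ) : RMeas ((fil p N).F p.L) f := by
  intro a b h
  rw [(fil p N).bot p.L le_rfl] at h
  have h : a = b := h
  rw [h]

/-- the spin coordinates. -/
theorem badSum_none (p : Par) (hτ : p.τ ≤ 1 / 3) {N : ℕ} (hN : 0 < N) (H : (Fin N → Bool) → ℝ)
    (g : Fin p.nc) :
    ∑ t : Fin p.T, Ed p N (fun d => if d (g, t) = none then bad p N H (g, t) none none d else 0) ≤
      16 / p.τ ^ 2 * (((p.nb : ℝ) + 1) * 1 ^ 2) + p.T * (242 * p.τ ^ 2 * 1 ^ 4) := by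
  refine badSum p hN H g none none ?_ ?_
  · intro d t i j hd hij hi hj
    have h := noise_sys p N hτ H d (g, t) hd (i, none) (j, none) (m := p.L) (RMeas_L p N _)
      (κc := 1) (κd := 1) zero_le_one zero_le_one le_rfl
      (fun l _ _ ω => cE_le_of_le (PP_isProb p N H d) (cv_le_one p N _) ω)
      (fun ω => cE_le_of_le (PP_isProb p N H d) (fun a =>
        mul_le_mul (cv_le_one p N _ a) (cv_le_one p N _ a) (cv_nonneg p N _ a) zero_le_one) ω)
      (fun ω => cE_le_of_le (PP_isProb p N H d) (cv_le_one p N _) ω)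
    unfold eE Wv
    refine h.trans (le_of_eq ?_)
    unfold eE
    norm_num
  · intro d i _ ω
    refine abs_cE_le_of_le (PP_isProb p N H d) (fun a => ?_) ω
    rw [abs_of_nonneg (cv_nonneg p N _ a)]
    exact cv_le_one p N _ a

/-- the gadget coordinates of the level of the cell. -/
theorem badSum_some (p : Par) (hτ : p.τ ≤ 1 / 3) (hQ4 : 4 ≤ p.Q) {N : ℕ} (hN : 0 < N)
    (H : (Fin N → Bool) → ℝ) (g : Fin p.nc) (b b2 : Fin p.nb) (hb : g ≤ p.lev b)
    (hb2 : g ≤ p.lev b2) :
    ∑ t : Fin p.T, Ed p N (fun d => if d (g, t) = none then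
      bad p N H (g, t) (some b) (some b2) d else 0) ≤
      16 / p.τ ^ 2 * (((p.nb : ℝ) + 1) * (4 / p.Q) ^ 2) +
        p.T * (242 * p.τ ^ 2 * (4 / p.Q) ^ 4) := by
  have hQpos : (0 : ℝ) < p.Q := Sym.Qpos p
  have hκ0 : (0 : ℝ) ≤ 4 / p.Q := by positivity
  have hκ1 : (4 : ℝ) / p.Q ≤ 1 := by
    rw [div_le_one hQpos]
    exact_mod_cast hQ4
  have hmt : 0 < p.mt g := by unfold Par.mt; positivity
  have hmono : ∀ b' : Fin p.nb, g ≤ p.lev b' → p.mt g ≤ p.mt (p.lev b') := by
    intro b' hb'
    have h1 : (g : ℕ) ≤ (p.lev b' : ℕ) := hb'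
    unfold Par.mt
    exact Nat.mul_le_mul_right _ (by omega)
  have hmb := hmono b hb
  have hmb2 := hmono b2 hb2
  refine badSum p hN H g (some b) (some b2) ?_ ?_
  · intro d t i j hd hij hi hj
    rw [mem_Un] at hi hj
    have hct : p.ct g t < p.mt g := p.ct_lt_mt t.2
    have h := noise_sys p N hτ H d (g, t) hd (i, some b) (j, some b2) (m := p.mt (p.lev b2))
      (cv_meas_some p N j b2 le_rfl)
      (κc := 4 / p.Q) (κd := 4 / p.Q) hκ0 hκ0 hκ1
      (fun l _ hl ω => Sym.density H hj b2 hl ω)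
      (fun ω => by
        have := Sym.density2 H (b := b) (b' := b2) (i := i) (j := j)
          (fun hh => hij (Prod.ext_iff.1 hh).1) hi hj (k := p.ct g t)
          (by omega) (by omega) ω
        rw [sq] at this
        exact this)
      (fun ω => Sym.density H hi b (k := p.ct g t) (by omega) ω)
    unfold eE Wv
    refine h.trans (le_of_eq ?_)
    unfold eE
    ring
  · intro d i hi ω
    rw [mem_Un] at hi
    rw [abs_of_nonneg (cE_nonneg (PP_isProb p N H d) (cv_nonneg p N _) ω)]
    exact Sym.density H hi b (by omega) ω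

open scoped Classical in
/-- selection of good observation steps, one in each cell. -/
theorem selBad (p : Par) (hτ : p.τ ≤ 1 / 3) (hQ4 : 4 ≤ p.Q) {N : ℕ} (hN : 0 < N) (hT : 0 < p.T)
    (H : (Fin N → Bool) → ℝ) :
    ∃ sel : Fin p.nc → DD p N → Fin p.T, ∀ g,
      Ed p N (fun d => if d (g, sel g d) = none then tot p N H (g, sel g d) d else M0 p) ≤
        4 / p.T * (16 / p.τ ^ 2 * (p.nb + 1) * (1 + 16 * p.Q ^ 2 * p.nb ^ 2) + M0 p) +
          4 * (242 * p.τ ^ 2 * (1 + 256 * p.nb ^ 2)) := by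
  have hQpos : (0 : ℝ) < p.Q := Sym.Qpos p
  have hτ0 := p.hτ0
  have hTpos : (0 : ℝ) < p.T := by exact_mod_cast hT
  set S : ℝ := 16 / p.τ ^ 2 * (p.nb + 1) * (1 + 16 * p.Q ^ 2 * p.nb ^ 2) +
    p.T * (242 * p.τ ^ 2 * (1 + 256 * p.nb ^ 2)) with hS
  have hsum : ∀ g : Fin p.nc, ∑ t : Fin p.T,
      Ed p N (fun d => (if d (g, t) = none then tot p N H (g, t) d else 0)) ≤ S := by
    intro g
    have e1 : ∀ t : Fin p.T,
        Ed p N (fun d => (if d (g, t) = none then tot p N H (g, t) d else 0)) =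
        Ed p N (fun d => if d (g, t) = none then bad p N H (g, t) none none d else 0) +
        (p.Q : ℝ) ^ 4 * ∑ b, ∑ b2, (if (g ≤ p.lev b ∧ g ≤ p.lev b2) then
          Ed p N (fun d => if d (g, t) = none then
            bad p N H (g, t) (some b) (some b2) d else 0) else 0) := by
      intro t
      have e2 : ∀ d : DD p N, (if d (g, t) = none then tot p N H (g, t) d else 0) =
          (if d (g, t) = none then bad p N H (g, t) none none d else 0) +
          (p.Q : ℝ) ^ 4 * ∑ b, ∑ b2, (if (g ≤ p.lev b ∧ g ≤ p.lev b2) then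
            (if d (g, t) = none then bad p N H (g, t) (some b) (some b2) d else 0) else 0) := by
        intro d
        unfold tot
        split_ifs with h
        · rfl
        · simp
      simp only [e2]
      rw [Ed_add, Ed_smul, Ed_sum]
      congr 2
      refine Finset.sum_congr rfl fun b _ => ?_
      rw [Ed_sum]
      refine Finset.sum_congr rfl fun b2 _ => ?_
      split_ifs
      · rfl
      · rw [Ed_const p hN]
    simp only [e1]
    rw [Finset.sum_add_distrib, ← Finset.mul_sum, Finset.sum_comm]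
    have h1 := badSum_none p hτ hN H g
    have h2 : ∑ b, ∑ t : Fin p.T, ∑ b2, (if (g ≤ p.lev b ∧ g ≤ p.lev b2) then
          Ed p N (fun d => if d (g, t) = none then
            bad p N H (g, t) (some b) (some b2) d else 0) else 0) ≤
        (p.nb : ℝ) ^ 2 * (16 / p.τ ^ 2 * (((p.nb : ℝ) + 1) * (4 / p.Q) ^ 2) +
        p.T * (242 * p.τ ^ 2 * (4 / p.Q) ^ 4)) := by
      calc _ ≤ ∑ _b : Fin p.nb, ∑ _b2 : Fin p.nb,
            (16 / p.τ ^ 2 * (((p.nb : ℝ) + 1) * (4 / p.Q) ^ 2) +
              p.T * (242 * p.τ ^ 2 * (4 / p.Q) ^ 4)) := by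
            refine Finset.sum_le_sum fun b _ => ?_
            rw [Finset.sum_comm]
            refine Finset.sum_le_sum fun b2 _ => ?_
            by_cases h : g ≤ p.lev b ∧ g ≤ p.lev b2
            · simp only [if_pos h]
              exact badSum_some p hτ hQ4 hN H g b b2 h.1 h.2
            · simp only [if_neg h, Finset.sum_const_zero]
              positivity
        _ = _ := by
            simp only [Finset.sum_const, Finset.card_univ, Fintype.card_fin, nsmul_eq_mul]
            ring
    have h3 := mul_le_mul_of_nonneg_left h2 (show (0 : ℝ) ≤ (p.Q : ℝ) ^ 4 by positivity)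
    refine (add_le_add h1 h3).trans (le_of_eq ?_)
    rw [hS]
    field_simp
    ring
  obtain ⟨sel, hsel⟩ := selection_cell p hN hT (M := M0 p) (S := S) (tot p N H)
    (fun k d => tot_nonneg p N H k d) (fun k d => tot_le_M0 p hN H k d) hsum
  refine ⟨sel, fun g => (hsel g).trans (le_of_eq ?_)⟩
  rw [hS]
  field_simp
  ring

end

end Crest.Agent.R141.Pur
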