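import Crest.Agent.R141.SysCtx
import Crest.Agent.R141.KerS
import Crest.Agent.R141.Psd

/-!
# Row 141, Part L, 3.3: from shape functionals to combinations of gadget coordinates (helper318)
-/

set_option autoImplicit false

namespace Crest.Agent.R141.PurV

open Finset Crest.Agent.R141
open Crest.ProbabilityR.Diluted (spinVal)

noncomputable section

theorem sv_eq_spinVal (b : Bool) : sv b = spinVal b := by
  cases b <;> simp [sv, spinVal]

theorem covS_eq_covR {Ω : Type} [Fintype Ω] (P : Ω → ℝ) (r : Setoid Ω) (f g : Ω → ℝ) (ω : Ω) :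
    KerS.covS P r f g ω = covR P r f g ω := rfl

/-- The shape functionals of `KerS` along the label steps are the ones of the context. -/
theorem VS_eq_VV (p : Par) (N : ℕ) (P : Om p N → ℝ) (hP : IsProb P) (i : Fin N) :
    ∀ (n : ℕ) (s : Clo.Shape n),
    KerS.VS P (fun n => (fil p N).F (p.mt (p.nc - 1 - n))) (fun i ω => ω.1 i) n s i =
      VV p N P hP i n s := by
  intro n
  induction n with
  | zero =>
    intro s
    funext ω
    rw [KerS.VS_zero, VV_zero]
    by_cases h : (show Bool from s) = true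
    · have h' : s.toBool = true := h
      rw [if_pos h, if_pos h', sv_eq_spinVal]
    · have h' : ¬ s.toBool = true := h
      rw [if_neg h, if_neg h']
      rfl
  | succ n ih =>
    intro s
    funext ω
    rw [KerS.VS_succ]
    show _ = VV p N P hP i (n + 1) (show List (Clo.Shape n) from s) ω
    rw [VV_succ]
    congr 1
    apply List.map_congr_left
    intro q _
    rw [ih q]

/-- Approximation of the conditional expectation of a shape functional by combinations of gadget
coordinates. -/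
theorem VV_approx (p : Par) (N : ℕ) (P : Om p N → ℝ) (hP : IsProb P) (i : Fin N) {n : ℕ}
    (hn : n < p.nc) (s : Clo.Shape (n + 1)) (c : Fin p.nb → ℝ) {η C : ℝ}
    (h : ∀ x : Clo.Pt, |Clo.VX (n + 1) s x -
      ∑ b, c b * Clo.BX p.rho p.Q (p.nc - 1 - (p.lev b : ℕ)) (p.tree b) x| ≤ η)
    (hv : ∀ b, c b ≠ 0 → p.nc - 1 - (p.lev b : ℕ) = n)
    (hV : ∀ b ω, |(p.Q : ℝ) * cE P ((fil p N).F (p.mt (p.lev b) - 1)) (cv p N (i, some b)) ω -
      cE P ((fil p N).F (p.mt (p.lev b) - 1))
        (BB p N P hP i (p.nc - 1 - (p.lev b : ℕ)) (p.tree b)) ω| ≤ C / p.Q) (ω : Om p N) :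
    |cE P ((fil p N).F (p.mt (p.nc - 1 - n) - 1)) (VV p N P hP i (n + 1) s) ω -
      cE P ((fil p N).F (p.mt (p.nc - 1 - n) - 1))
        (fun w => ∑ b, ((p.Q : ℝ) * c b) * cv p N (i, some b) w) ω| ≤
      η + (∑ b, |c b|) * C / p.Q := by
  set r := (fil p N).F (p.mt (p.nc - 1 - n) - 1) with hr
  -- pointwise comparison with the `B`-functionals
  have h1 : ∀ w : Om p N, |VV p N P hP i (n + 1) s w -
      ∑ b, c b * BB p N P hP i (p.nc - 1 - (p.lev b : ℕ)) (p.tree b) w| ≤ η :=
    fun w => h ⟨Om p N, ctx p N P hP i, w⟩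
  have h2 : |cE P r (VV p N P hP i (n + 1) s) ω -
      ∑ b, c b * cE P r (BB p N P hP i (p.nc - 1 - (p.lev b : ℕ)) (p.tree b)) ω| ≤ η := by
    have e : ∑ b, c b * cE P r (BB p N P hP i (p.nc - 1 - (p.lev b : ℕ)) (p.tree b)) ω =
        cE P r (fun w => ∑ b, c b * BB p N P hP i (p.nc - 1 - (p.lev b : ℕ)) (p.tree b) w) ω := by
      rw [cE_sum]
      refine Finset.sum_congr rfl fun b _ => ?_
      rw [cE_smul]
    rw [e, ← cE_sub]
    exact abs_cE_le_of_le hP h1 ω
  have h3 : |(∑ b, c b * cE P r (BB p N P hP i (p.nc - 1 - (p.lev b : ℕ)) (p.tree b)) ω) -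
      cE P r (fun w => ∑ b, ((p.Q : ℝ) * c b) * cv p N (i, some b) w) ω| ≤
      (∑ b, |c b|) * C / p.Q := by
    have e : cE P r (fun w => ∑ b, ((p.Q : ℝ) * c b) * cv p N (i, some b) w) ω =
        ∑ b, c b * ((p.Q : ℝ) * cE P r (cv p N (i, some b)) ω) := by
      rw [cE_sum]
      refine Finset.sum_congr rfl fun b _ => ?_
      rw [cE_smul]; ring
    rw [e, ← Finset.sum_sub_distrib, mul_div_assoc, Finset.sum_mul]
    refine (Finset.abs_sum_le_sum_abs _ _).trans (Finset.sum_le_sum fun b _ => ?_)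
    rw [← mul_sub, abs_mul]
    by_cases hb : c b = 0
    · simp [hb]
    · refine mul_le_mul_of_nonneg_left ?_ (abs_nonneg _)
      have hlev : (p.lev b : ℕ) = p.nc - 1 - n := by
        have h4 := hv b hb
        have h5 := (p.lev b).2
        omega
      have h6 := hV b ω
      rw [abs_sub_comm] at h6
      have e2 : r = (fil p N).F (p.mt (p.lev b) - 1) := by rw [hr, hlev]
      rw [e2]
      exact h6
  calc |cE P r (VV p N P hP i (n + 1) s) ω -
      cE P r (fun w => ∑ b, ((p.Q : ℝ) * c b) * cv p N (i, some b) w) ω|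
      ≤ |cE P r (VV p N P hP i (n + 1) s) ω -
        ∑ b, c b * cE P r (BB p N P hP i (p.nc - 1 - (p.lev b : ℕ)) (p.tree b)) ω| +
        |(∑ b, c b * cE P r (BB p N P hP i (p.nc - 1 - (p.lev b : ℕ)) (p.tree b)) ω) -
      cE P r (fun w => ∑ b, ((p.Q : ℝ) * c b) * cv p N (i, some b) w) ω| := abs_sub_le _ _ _
    _ ≤ _ := add_le_add h2 h3

end

end Crest.Agent.R141.PurV
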