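import Crest.Agent.R141.KerS
import Crest.Agent.R141.Fact

/-!
Row 141 (S0192), Part L, 3.2: quiet cells.  Deterministic part, for a fixed finite filtered
probability space.

`st g` is the index of the end of cell `g-1` (= start of cell `g`), `t g` the observation step in
cell `g`: `st g ≤ t g < st (g+1)`.  `c n` is the cell chosen at depth `n`.
-/

set_option autoImplicit false

namespace Crest.Agent.R141.Quiet

open Finset Crest.Agent.R141.KerS
open Crest.Agent.R141.Fact hiding Shape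
open Crest.ProbabilityR.Diluted (spinVal)
open Crest.Agent.R141.Clo (Shape)

noncomputable section

/-! ### L2 lemmas -/

section L2

variable {Ω : Type} [Fintype Ω] {P : Ω → ℝ}

theorem pythag (hP : IsProb P) {r s : Setoid Ω} (h : s ≤ r) (φ : Ω → ℝ) :
    eE P (fun ω => (cE P s φ ω - cE P r φ ω) ^ 2) =
      eE P (fun ω => cE P s φ ω ^ 2) - eE P (fun ω => cE P r φ ω ^ 2) := by
  have h1 : (fun ω => (cE P s φ ω - cE P r φ ω) ^ 2) = fun ω =>
      cE P s φ ω ^ 2 - (2 * (cE P r φ ω * cE P s φ ω) - cE P r φ ω * cE P r φ ω) := by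
    funext ω; ring
  have h2 : eE P (fun ω => cE P r φ ω * cE P s φ ω) = eE P (fun ω => cE P r φ ω ^ 2) := by
    rw [← eE_cE hP r (fun ω => cE P r φ ω * cE P s φ ω)]
    congr 1
    funext ω
    rw [cE_mul_left (cE_meas P r φ), cE_tower hP h, sq]
  have h3 : eE P (fun ω => cE P r φ ω * cE P r φ ω) = eE P (fun ω => cE P r φ ω ^ 2) := by
    congr 1; funext ω; rw [sq]
  rw [h1, eE_sub, eE_sub, eE_smul, h2, h3]
  ring

theorem sq_mono (hP : IsProb P) {r s : Setoid Ω} (h : s ≤ r) (φ : Ω → ℝ) :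
    eE P (fun ω => cE P r φ ω ^ 2) ≤ eE P (fun ω => cE P s φ ω ^ 2) := by
  have h1 := pythag hP h φ
  have h2 : 0 ≤ eE P (fun ω => (cE P s φ ω - cE P r φ ω) ^ 2) :=
    eE_nonneg hP (fun _ => sq_nonneg _)
  linarith

theorem l2_between (hP : IsProb P) {r r' s : Setoid Ω} (h1 : s ≤ r') (h2 : r' ≤ r)
    (φ : Ω → ℝ) :
    eE P (fun ω => (cE P s φ ω - cE P r' φ ω) ^ 2) ≤
      eE P (fun ω => (cE P s φ ω - cE P r φ ω) ^ 2) := by
  rw [pythag hP h1, pythag hP (h1.trans h2)]
  linarith [sq_mono hP h2 φ]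

theorem eE_sq_le (hP : IsProb P) (f : Ω → ℝ) : (eE P f) ^ 2 ≤ eE P (fun ω => f ω ^ 2) := by
  have h : eE P (fun ω => (f ω - eE P f) ^ 2) = eE P (fun ω => f ω ^ 2) - (eE P f) ^ 2 := by
    have h1 : (fun ω => (f ω - eE P f) ^ 2) = fun ω =>
        f ω ^ 2 - ((2 * eE P f) * f ω - (eE P f) ^ 2) := by
      funext ω; ring
    rw [h1, eE_sub, eE_sub, eE_smul, eE_const hP]
    ring
  have h2 : 0 ≤ eE P (fun ω => (f ω - eE P f) ^ 2) := eE_nonneg hP (fun _ => sq_nonneg _)
  linarith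

variable {I : Type} [Fintype I]

theorem avg_sq_le (a : I → ℝ) : (avg a) ^ 2 ≤ avg (fun i => a i ^ 2) := by
  rcases isEmpty_or_nonempty I with hI | hI
  · simp [avg]
  · unfold avg
    have h := sq_sum_le_card_mul_sum_sq (s := (Finset.univ : Finset I)) (f := a)
    have hc : (0 : ℝ) < Fintype.card I := by exact_mod_cast Fintype.card_pos
    rw [Finset.card_univ] at h
    rw [mul_pow]
    calc ((Fintype.card I : ℝ)⁻¹) ^ 2 * (∑ i, a i) ^ 2
        ≤ ((Fintype.card I : ℝ)⁻¹) ^ 2 * ((Fintype.card I : ℝ) * ∑ i, a i ^ 2) :=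
          mul_le_mul_of_nonneg_left h (sq_nonneg _)
      _ = (Fintype.card I : ℝ)⁻¹ * ∑ i, a i ^ 2 := by field_simp

/-- average of L1 norms is at most the square root of the average of squared L2 norms -/
theorem avg_abs_le_sqrt (hP : IsProb P) (f : I → Ω → ℝ) :
    avg (fun i => eE P (fun ω => |f i ω|)) ≤
      Real.sqrt (avg (fun i => eE P (fun ω => f i ω ^ 2))) := by
  apply Real.le_sqrt_of_sq_le
  refine (avg_sq_le _).trans (avg_mono fun i => ?_)
  refine (eE_sq_le hP _).trans (le_of_eq ?_)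
  congr 1
  funext ω
  exact sq_abs _

theorem eE_abs_cE_le (hP : IsProb P) (r : Setoid Ω) (f : Ω → ℝ) :
    eE P (fun ω => |cE P r f ω|) ≤ eE P (fun ω => |f ω|) := by
  rw [← eE_cE hP r (fun ω => |f ω|)]
  exact eE_mono hP (fun ω => cE_abs_le hP f ω)

end L2

/-! ### bounded shapes -/

/-- finitely many shapes: all lists have length at most `M` -/
theorem exists_SSb (M : ℕ) : ∃ SS : (n : ℕ) → Finset (Shape n),
    (∀ s : Shape 0, s ∈ SS 0) ∧
    ∀ n (s : Shape (n + 1)), s ∈ SS (n + 1) ↔ s.toList.length ≤ M ∧ ∀ q ∈ s.toList, q ∈ SS n := by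
  classical
  have hfin : ∀ n, ∀ S : Finset (Shape n),
      {s : Shape (n + 1) | s.toList.length ≤ M ∧ ∀ q ∈ s.toList, q ∈ S}.Finite := by
    intro n S
    have h1 : {l : List S | l.length ≤ M}.Finite := List.finite_length_le S M
    refine (h1.image (fun l : List S =>
      (Shape.ofList (List.map Subtype.val l) : Shape (n + 1)))).subset ?_
    intro s hs
    refine ⟨s.toList.attach.map (fun x => ⟨x.1, hs.2 x.1 x.2⟩), ?_, ?_⟩
    · show (s.toList.attach.map (fun x => (⟨x.1, hs.2 x.1 x.2⟩ : S))).length ≤ M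
      rw [List.length_map, List.length_attach]; exact hs.1
    · show Shape.ofList (List.map Subtype.val
        (List.map (fun x => (⟨x.1, hs.2 x.1 x.2⟩ : S)) s.toList.attach)) = s
      rw [List.map_map]
      have : ((Subtype.val : S → Shape n) ∘
          (fun x : {x // x ∈ s.toList} => (⟨x.1, hs.2 x.1 x.2⟩ : S))) =
          Subtype.val := rfl
      rw [this, List.attach_map_subtype_val]
      rfl
  refine ⟨fun n => Nat.rec (motive := fun n => Finset (Shape n))
    (show Finset (Shape 0) from (Finset.univ : Finset Bool))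
    (fun n S => (hfin n S).toFinset) n, ?_, ?_⟩
  · intro s
    exact Finset.mem_univ (show Bool from s)
  · intro n s
    exact (hfin n _).mem_toFinset

/-- every finite list of shapes is contained in a bounded family -/
theorem exists_bound_shape : ∀ (n : ℕ) (s : Shape n), ∃ M : ℕ, ∀ M' ≥ M,
    ∀ SS : (n : ℕ) → Finset (Shape n),
    (∀ s : Shape 0, s ∈ SS 0) →
    (∀ n (s : Shape (n + 1)), s ∈ SS (n + 1) ↔
      s.toList.length ≤ M' ∧ ∀ q ∈ s.toList, q ∈ SS n) → s ∈ SS n := by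
  intro n
  induction n with
  | zero => intro s; exact ⟨0, fun _ _ SS h _ => h s⟩
  | succ n ih =>
    intro s
    choose Mf hMf using ih
    refine ⟨max s.toList.length ((s.toList.map Mf).sum), fun M' hM' SS h0 h1 => ?_⟩
    rw [h1]
    refine ⟨(le_max_left _ _).trans hM', fun q hq => ?_⟩
    apply hMf q M' _ SS h0 h1
    refine le_trans ?_ ((le_max_right _ _).trans hM')
    exact List.single_le_sum (fun x _ => Nat.zero_le x) _ (List.mem_map_of_mem hq)

/-! ### quiet cells -/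

section cells

variable {Ω I : Type} [Fintype Ω] [Fintype I] {P : Ω → ℝ}

/-- partitions at the ends of the chosen cells -/
def Rm (𝓕 : Filt Ω) (st : ℕ → ℕ) (c : ℕ → ℕ) (n : ℕ) : Setoid Ω := 𝓕.F (st (c n + 1))

/-- partitions at the observation steps of the chosen cells -/
def Rt (𝓕 : Filt Ω) (t : ℕ → ℕ) (c : ℕ → ℕ) (n : ℕ) : Setoid Ω := 𝓕.F (t (c n))

/-- (non)quietness of the cell `g` for the family `φ` -/
def qt (P : Ω → ℝ) (𝓕 : Filt Ω) (st : ℕ → ℕ) (φ : I → Ω → ℝ) (g : ℕ) : ℝ :=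
  avg (fun i => eE P (fun ω =>
    (cE P (𝓕.F (st (g + 1))) (φ i) ω - cE P (𝓕.F (st g)) (φ i) ω) ^ 2))

theorem qt_nonneg (hP : IsProb P) (𝓕 : Filt Ω) (st : ℕ → ℕ) (φ : I → Ω → ℝ) (g : ℕ) :
    0 ≤ qt P 𝓕 st φ g :=
  avg_nonneg fun _ => eE_nonneg hP fun _ => sq_nonneg _

omit [Fintype Ω] in
theorem filt_anti (𝓕 : Filt Ω) {k m : ℕ} (h : k ≤ m) : 𝓕.F m ≤ 𝓕.F k := by
  induction h with
  | refl => exact le_rfl
  | step _ ih => exact (𝓕.anti _).trans ih

theorem sum_qt_le (hP : IsProb P) (𝓕 : Filt Ω) {st : ℕ → ℕ} (hst : Monotone st)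
    {φ : I → Ω → ℝ} (hφ : ∀ i ω, |φ i ω| ≤ 1) {a b : ℕ} (hab : a ≤ b) :
    ∑ g ∈ Ico a b, qt P 𝓕 st φ g ≤ 1 := by
  have h1 : ∀ g, qt P 𝓕 st φ g =
      avg (fun i => eE P (fun ω => cE P (𝓕.F (st (g + 1))) (φ i) ω ^ 2)) -
      avg (fun i => eE P (fun ω => cE P (𝓕.F (st g)) (φ i) ω ^ 2)) := by
    intro g
    unfold qt
    have h2 : ∀ i, eE P (fun ω =>
        (cE P (𝓕.F (st (g + 1))) (φ i) ω - cE P (𝓕.F (st g)) (φ i) ω) ^ 2) =
        eE P (fun ω => cE P (𝓕.F (st (g + 1))) (φ i) ω ^ 2) +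
          (-1) * eE P (fun ω => cE P (𝓕.F (st g)) (φ i) ω ^ 2) := by
      intro i
      rw [pythag hP (filt_anti 𝓕 (hst (Nat.le_succ g)))]
      ring
    simp only [h2]
    rw [avg_add, avg_smul]
    ring
  have htel : ∑ g ∈ Ico a b, qt P 𝓕 st φ g =
      avg (fun i => eE P (fun ω => cE P (𝓕.F (st b)) (φ i) ω ^ 2)) -
      avg (fun i => eE P (fun ω => cE P (𝓕.F (st a)) (φ i) ω ^ 2)) := by
    simp only [h1]
    exact Finset.sum_Ico_sub
      (fun g => avg (fun i => eE P (fun ω => cE P (𝓕.F (st g)) (φ i) ω ^ 2))) hab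
  rw [htel]
  have h2 : 0 ≤ avg (fun i => eE P (fun ω => cE P (𝓕.F (st a)) (φ i) ω ^ 2)) :=
    avg_nonneg fun _ => eE_nonneg hP fun _ => sq_nonneg _
  have h3 : avg (fun i => eE P (fun ω => cE P (𝓕.F (st b)) (φ i) ω ^ 2)) ≤ 1 := by
    rcases isEmpty_or_nonempty I with hI | hI
    · simp [avg]
    · calc _ ≤ avg (fun _ : I => (1 : ℝ)) := avg_mono fun i => by
            rw [← eE_const hP 1]
            apply eE_mono hP
            intro ω
            have := abs_cE_le_of_le hP (r := 𝓕.F (st b)) (hφ i) ω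
            rw [abs_le] at this
            nlinarith
        _ = 1 := avg_const 1
  linarith

/-- choice of one quiet cell in a window -/
theorem exists_cell (hP : IsProb P) (𝓕 : Filt Ω) {st : ℕ → ℕ} (hst : Monotone st)
    {α : Type} (S : Finset α) (φ : α → I → Ω → ℝ) (hφ : ∀ s ∈ S, ∀ i ω, |φ s i ω| ≤ 1)
    (a w : ℕ) (hw : 0 < w) :
    ∃ g, a ≤ g ∧ g < a + w ∧ ∀ s ∈ S, qt P 𝓕 st (φ s) g ≤ (S.card : ℝ) / w := by
  have hne : (Ico a (a + w)).Nonempty := by
    rw [Finset.nonempty_Ico]; omega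
  have h1 : ∑ g ∈ Ico a (a + w), ∑ s ∈ S, qt P 𝓕 st (φ s) g ≤
      ∑ _g ∈ Ico a (a + w), (S.card : ℝ) / w := by
    rw [Finset.sum_comm, Finset.sum_const, Nat.card_Ico]
    have : (w : ℝ) ≠ 0 := by positivity
    have e1 : (a + w - a) • ((S.card : ℝ) / w) = ∑ _s ∈ S, (1 : ℝ) := by
      rw [Nat.add_sub_cancel_left, nsmul_eq_mul, Finset.sum_const, nsmul_eq_mul, mul_one]
      field_simp
    rw [e1]
    exact Finset.sum_le_sum fun s hs => sum_qt_le hP 𝓕 hst (hφ s hs) (Nat.le_add_right a w)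
  obtain ⟨g, hg, hg2⟩ := Finset.exists_le_of_sum_le hne h1
  rw [mem_Ico] at hg
  refine ⟨g, hg.1, hg.2, fun s hs => ?_⟩
  refine le_trans ?_ hg2
  exact Finset.single_le_sum (f := fun s => qt P 𝓕 st (φ s) g)
    (fun s _ => qt_nonneg hP 𝓕 st (φ s) g) hs

/-- choice of all cells, going down -/
theorem exists_cells (hP : IsProb P) (𝓕 : Filt Ω) {st : ℕ → ℕ} (hst : Monotone st)
    (sg : I → Ω → Bool) (SS : (n : ℕ) → Finset (Shape n)) (J w : ℕ) (hw : 0 < w) :
    ∃ c : ℕ → ℕ, (∀ n, n ≤ J → (J - n) * w ≤ c n ∧ c n < (J - n + 1) * w) ∧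
      ∀ n, n ≤ J → ∀ s ∈ SS n, qt P 𝓕 st (VS P (Rm 𝓕 st c) sg n s) (c n) ≤
        ((SS n).card : ℝ) / w := by
  have key : ∀ m, ∃ c : ℕ → ℕ, ∀ n, n < m → n ≤ J →
      ((J - n) * w ≤ c n ∧ c n < (J - n + 1) * w) ∧
      ∀ s ∈ SS n, qt P 𝓕 st (VS P (Rm 𝓕 st c) sg n s) (c n) ≤ ((SS n).card : ℝ) / w := by
    intro m
    induction m with
    | zero => exact ⟨fun _ => 0, fun n hn => absurd hn (by omega)⟩
    | succ m ih =>
      obtain ⟨c, hc⟩ := ih
      obtain ⟨g, hg1, hg2, hg3⟩ := exists_cell hP 𝓕 hst (SS m)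
        (fun s => VS P (Rm 𝓕 st c) sg m s)
        (fun s _ i ω => VS_abs_le hP _ sg s i ω) ((J - m) * w) w hw
      refine ⟨Function.update c m g, fun n hn hJ => ?_⟩
      have hcongr : ∀ n, n ≤ m → ∀ s : Shape n, VS P (Rm 𝓕 st (Function.update c m g)) sg n s =
          VS P (Rm 𝓕 st c) sg n s := by
        intro n hn s
        funext i
        apply VS_congr
        intro k hk
        unfold Rm
        rw [Function.update_of_ne (by omega)]
      rcases Nat.lt_succ_iff_lt_or_eq.mp hn with h | h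
      · rw [Function.update_of_ne (by omega)]
        refine ⟨(hc n h hJ).1, fun s hs => ?_⟩
        rw [hcongr n h.le]
        exact (hc n h hJ).2 s hs
      · subst h
        rw [Function.update_self]
        refine ⟨⟨hg1, ?_⟩, fun s hs => ?_⟩
        · rw [add_mul, one_mul]; exact hg2
        · rw [hcongr n le_rfl]
          exact hg3 s hs
  obtain ⟨c, hc⟩ := key (J + 1)
  exact ⟨c, fun n hn => (hc n (by omega) hn).1, fun n hn => (hc n (by omega) hn).2⟩

theorem list_prod_sub_le {α : Type*} (l : List α) (f g : α → ℝ) (hf : ∀ q ∈ l, |f q| ≤ 1)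
    (hg : ∀ q ∈ l, |g q| ≤ 1) :
    |(l.map f).prod - (l.map g).prod| ≤ (l.map (fun q => |f q - g q|)).sum := by
  induction l with
  | nil => simp
  | cons a l ih =>
    simp only [List.map_cons, List.prod_cons, List.sum_cons]
    have ih' := ih (fun q hq => hf q (by simp [hq])) (fun q hq => hg q (by simp [hq]))
    have e : f a * (l.map f).prod - g a * (l.map g).prod =
        (f a - g a) * (l.map f).prod + g a * ((l.map f).prod - (l.map g).prod) := by ring
    rw [e]
    refine (abs_add_le _ _).trans ?_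
    rw [abs_mul, abs_mul]
    have h1 : |(l.map f).prod| ≤ 1 :=
      list_prod_abs_le_one l f (fun q hq => hf q (by simp [hq]))
    have h2 : |g a| ≤ 1 := hg a (by simp)
    have h3 : |f a - g a| * |(l.map f).prod| ≤ |f a - g a| * 1 :=
      mul_le_mul_of_nonneg_left h1 (abs_nonneg _)
    have h4 : |g a| * |(l.map f).prod - (l.map g).prod| ≤
        1 * |(l.map f).prod - (l.map g).prod| :=
      mul_le_mul_of_nonneg_right h2 (abs_nonneg _)
    linarith

theorem eE_list_sum {α : Type*} (l : List α) (f : α → Ω → ℝ) :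
    eE P (fun ω => (l.map (fun q => f q ω)).sum) = (l.map (fun q => eE P (f q))).sum := by
  induction l with
  | nil => simp [eE]
  | cons a l ih =>
    simp only [List.map_cons, List.sum_cons]
    rw [eE_add, ih]

theorem avg_list_sum {α : Type*} (l : List α) (f : α → I → ℝ) :
    avg (fun i => (l.map (fun q => f q i)).sum) = (l.map (fun q => avg (f q))).sum := by
  induction l with
  | nil => simp [avg]
  | cons a l ih =>
    simp only [List.map_cons, List.sum_cons]
    rw [avg_add, ih]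

theorem list_sum_le_length {α : Type*} (l : List α) (f : α → ℝ) {b : ℝ}
    (h : ∀ q ∈ l, f q ≤ b) : (l.map f).sum ≤ (l.length : ℝ) * b := by
  induction l with
  | nil => simp
  | cons a l ih =>
    simp only [List.map_cons, List.sum_cons, List.length_cons]
    have h1 := h a (by simp)
    have h2 := ih (fun q hq => h q (by simp [hq]))
    push_cast
    linarith

/-- product of conditional expectations: L1 distance -/
theorem avg_prod_sub_le (hP : IsProb P) {n : ℕ} (l : List (Shape n)) (f g : Shape n → I → Ω → ℝ)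
    (hf : ∀ q ∈ l, ∀ i ω, |f q i ω| ≤ 1) (hg : ∀ q ∈ l, ∀ i ω, |g q i ω| ≤ 1) {b : ℝ}
    (hb : ∀ q ∈ l, avg (fun i => eE P (fun ω => |f q i ω - g q i ω|)) ≤ b) :
    avg (fun i => eE P (fun ω => |(l.map (fun q => f q i ω)).prod -
      (l.map (fun q => g q i ω)).prod|)) ≤ (l.length : ℝ) * b := by
  calc avg (fun i => eE P (fun ω => |(l.map (fun q => f q i ω)).prod -
      (l.map (fun q => g q i ω)).prod|))
      ≤ avg (fun i => eE P (fun ω => (l.map (fun q => |f q i ω - g q i ω|)).sum)) :=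
        avg_mono fun i => eE_mono hP fun ω => list_prod_sub_le l (fun q => f q i ω)
          (fun q => g q i ω) (fun q hq => hf q hq i ω) (fun q hq => hg q hq i ω)
    _ = (l.map (fun q => avg (fun i => eE P (fun ω => |f q i ω - g q i ω|)))).sum := by
        have : ∀ i, eE P (fun ω => (l.map (fun q => |f q i ω - g q i ω|)).sum) =
            (l.map (fun q => eE P (fun ω => |f q i ω - g q i ω|))).sum :=
          fun i => eE_list_sum l (fun q ω => |f q i ω - g q i ω|)
        simp only [this]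
        exact avg_list_sum l (fun q i => eE P (fun ω => |f q i ω - g q i ω|))
    _ ≤ (l.length : ℝ) * b := list_sum_le_length l _ hb

/-- constants of the comparison -/
def Bn (M : ℕ) : ℕ → ℝ
  | 0 => 0
  | n + 1 => (M : ℝ) * (Bn M n + 1)

theorem Bn_nonneg (M : ℕ) : ∀ n, 0 ≤ Bn M n
  | 0 => le_rfl
  | n + 1 => by
    unfold Bn
    have := Bn_nonneg M n
    positivity

variable {𝓕 : Filt Ω} {st t : ℕ → ℕ} {sg : I → Ω → Bool} {SS : (n : ℕ) → Finset (Shape n)}
  {M J : ℕ} {c : ℕ → ℕ} {κ : ℝ}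

/-- 3.2: t-version versus m-version of the shape functionals -/
theorem VS_close (hP : IsProb P)
    (ht1 : ∀ g, st g ≤ t g) (ht2 : ∀ g, t g < st (g + 1))
    (hSS : ∀ n (s : Shape (n + 1)), s ∈ SS (n + 1) ↔
      s.toList.length ≤ M ∧ ∀ q ∈ s.toList, q ∈ SS n)
    (hq : ∀ n, n < J → ∀ s ∈ SS n, qt P 𝓕 st (VS P (Rm 𝓕 st c) sg n s) (c n) ≤ κ) :
    ∀ n, n ≤ J → ∀ s ∈ SS n, avg (fun i => eE P (fun ω =>
      |VS P (Rt 𝓕 t c) sg n s i ω - VS P (Rm 𝓕 st c) sg n s i ω|)) ≤ Bn M n * Real.sqrt κ := by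
  intro n
  induction n with
  | zero =>
    intro _ s _
    have : ∀ i ω, VS P (Rt 𝓕 t c) sg 0 s i ω - VS P (Rm 𝓕 st c) sg 0 s i ω = 0 := by
      intro i ω; rw [VS_zero, VS_zero, sub_self]
    simp only [this, abs_zero]
    rw [Bn, zero_mul]
    have : eE P (fun _ => (0 : ℝ)) = 0 := by simp [eE]
    simp only [this]
    simp [avg]
  | succ n ih =>
    intro hn s hs
    rw [hSS] at hs
    simp only [VS_succ]
    have hb : ∀ q ∈ s.toList, avg (fun i => eE P (fun ω =>
        |cE P (Rt 𝓕 t c n) (VS P (Rt 𝓕 t c) sg n q i) ω -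
          cE P (Rm 𝓕 st c n) (VS P (Rm 𝓕 st c) sg n q i) ω|)) ≤ (Bn M n + 1) * Real.sqrt κ := by
      intro q hqq
      have hqS := hs.2 q hqq
      have h1 := ih (by omega) q hqS
      have h2 : avg (fun i => eE P (fun ω =>
          |cE P (Rm 𝓕 st c n) (VS P (Rm 𝓕 st c) sg n q i) ω -
            cE P (Rt 𝓕 t c n) (VS P (Rm 𝓕 st c) sg n q i) ω|)) ≤ Real.sqrt κ := by
        refine (avg_abs_le_sqrt hP _).trans (Real.sqrt_le_sqrt ?_)
        refine le_trans (avg_mono fun i => ?_) (hq n (by omega) q hqS)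
        exact l2_between hP (filt_anti 𝓕 (ht2 (c n)).le) (filt_anti 𝓕 (ht1 (c n))) _
      calc _ ≤ avg (fun i => eE P (fun ω =>
              |VS P (Rt 𝓕 t c) sg n q i ω - VS P (Rm 𝓕 st c) sg n q i ω|) +
            eE P (fun ω => |cE P (Rm 𝓕 st c n) (VS P (Rm 𝓕 st c) sg n q i) ω -
            cE P (Rt 𝓕 t c n) (VS P (Rm 𝓕 st c) sg n q i) ω|)) := by
            apply avg_mono
            intro i
            have e1 := eE_abs_cE_le hP (Rt 𝓕 t c n)
              (fun ω => VS P (Rt 𝓕 t c) sg n q i ω - VS P (Rm 𝓕 st c) sg n q i ω)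
            refine le_trans ?_ (add_le_add_left e1 _)
            rw [← eE_add]
            apply eE_mono hP
            intro ω
            have e2 := cE_sub P (Rt 𝓕 t c n) (VS P (Rt 𝓕 t c) sg n q i)
              (VS P (Rm 𝓕 st c) sg n q i) ω
            rw [e2]
            have e3 := abs_sub_le (cE P (Rt 𝓕 t c n) (VS P (Rt 𝓕 t c) sg n q i) ω)
              (cE P (Rt 𝓕 t c n) (VS P (Rm 𝓕 st c) sg n q i) ω)
              (cE P (Rm 𝓕 st c n) (VS P (Rm 𝓕 st c) sg n q i) ω)
            rw [abs_sub_comm (cE P (Rm 𝓕 st c n) (VS P (Rm 𝓕 st c) sg n q i) ω)]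
            exact e3
        _ = _ := avg_add _ _
        _ ≤ Bn M n * Real.sqrt κ + Real.sqrt κ := add_le_add h1 h2
        _ = (Bn M n + 1) * Real.sqrt κ := by ring
    refine (avg_prod_sub_le hP s.toList _ _
      (fun q _ i ω => abs_cE_le_of_le hP (fun a => VS_abs_le hP _ sg q i a) ω)
      (fun q _ i ω => abs_cE_le_of_le hP (fun a => VS_abs_le hP _ sg q i a) ω) hb).trans ?_
    rw [Bn, mul_assoc]
    apply mul_le_mul_of_nonneg_right _
      (mul_nonneg (by linarith [Bn_nonneg M n]) (Real.sqrt_nonneg _))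
    exact_mod_cast hs.1

/-- 3.2 (second half): the m-version at depth `n+1` is almost measurable before the label step of
its cell. -/
theorem VS_pred (hP : IsProb P) (hst : StrictMono st)
    (hSS : ∀ n (s : Shape (n + 1)), s ∈ SS (n + 1) ↔
      s.toList.length ≤ M ∧ ∀ q ∈ s.toList, q ∈ SS n)
    (hq : ∀ n, n < J → ∀ s ∈ SS n, qt P 𝓕 st (VS P (Rm 𝓕 st c) sg n s) (c n) ≤ κ)
    {n : ℕ} (hn : n < J) {s : Shape (n + 1)} (hs : s ∈ SS (n + 1)) :
    avg (fun i => eE P (fun ω => |VS P (Rm 𝓕 st c) sg (n + 1) s i ω -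
      cE P (𝓕.F (st (c n + 1) - 1)) (VS P (Rm 𝓕 st c) sg (n + 1) s i) ω|)) ≤
      2 * M * Real.sqrt κ := by
  rw [hSS] at hs
  -- the comparison function
  set Y : I → Ω → ℝ := fun i ω =>
    (s.toList.map (fun q : Shape n => cE P (𝓕.F (st (c n))) (VS P (Rm 𝓕 st c) sg n q i) ω)).prod
    with hY
  have hYmeas : ∀ i, RMeas (𝓕.F (st (c n + 1) - 1)) (Y i) := by
    intro i a b hab
    simp only [hY]
    congr 1
    apply List.map_congr_left
    intro q _
    have hle : st (c n) ≤ st (c n + 1) - 1 := by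
      have : st (c n) < st (c n + 1) := hst (Nat.lt_succ_self (c n))
      omega
    exact (cE_meas P (𝓕.F (st (c n))) _).mono (filt_anti 𝓕 hle) a b hab
  have h1 : avg (fun i => eE P (fun ω => |VS P (Rm 𝓕 st c) sg (n + 1) s i ω - Y i ω|)) ≤
      M * Real.sqrt κ := by
    simp only [VS_succ, hY]
    refine (avg_prod_sub_le hP s.toList _ _
      (fun q _ i ω => abs_cE_le_of_le hP (fun a => VS_abs_le hP _ sg q i a) ω)
      (fun q _ i ω => abs_cE_le_of_le hP (fun a => VS_abs_le hP _ sg q i a) ω)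
      (b := Real.sqrt κ) ?_).trans ?_
    · intro q hqq
      refine (avg_abs_le_sqrt hP _).trans (Real.sqrt_le_sqrt ?_)
      exact hq n hn q (hs.2 q hqq)
    · apply mul_le_mul_of_nonneg_right _ (Real.sqrt_nonneg _)
      exact_mod_cast hs.1
  calc _ ≤ avg (fun i => 2 * eE P (fun ω => |VS P (Rm 𝓕 st c) sg (n + 1) s i ω - Y i ω|)) := by
        apply avg_mono
        intro i
        have e1 := eE_abs_cE_le hP (𝓕.F (st (c n + 1) - 1))
          (fun ω => VS P (Rm 𝓕 st c) sg (n + 1) s i ω - Y i ω)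
        have e2 : eE P (fun ω => |VS P (Rm 𝓕 st c) sg (n + 1) s i ω -
            cE P (𝓕.F (st (c n + 1) - 1)) (VS P (Rm 𝓕 st c) sg (n + 1) s i) ω|) ≤
            eE P (fun ω => |VS P (Rm 𝓕 st c) sg (n + 1) s i ω - Y i ω|) +
            eE P (fun ω => |cE P (𝓕.F (st (c n + 1) - 1))
              (fun ω => VS P (Rm 𝓕 st c) sg (n + 1) s i ω - Y i ω) ω|) := by
          rw [← eE_add]
          apply eE_mono hP
          intro ω
          rw [cE_sub, cE_of_meas hP (hYmeas i)]
          have e3 := abs_sub_le (VS P (Rm 𝓕 st c) sg (n + 1) s i ω) (Y i ω)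
            (cE P (𝓕.F (st (c n + 1) - 1)) (VS P (Rm 𝓕 st c) sg (n + 1) s i) ω)
          rw [abs_sub_comm (Y i ω)] at e3
          exact e3
        linarith
    _ = 2 * avg (fun i => eE P (fun ω => |VS P (Rm 𝓕 st c) sg (n + 1) s i ω - Y i ω|)) :=
        avg_smul _ _
    _ ≤ 2 * (M * Real.sqrt κ) := by linarith
    _ = _ := by ring

end cells

end

end Crest.Agent.R141.Quiet
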