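import Crest.Agent.R141.QuietT
import Crest.Agent.R141.Skel31
import Crest.Agent.R141.SkelPm

/-!
Row 141 (S0192), Part L: combination of 3.1 (`Skel31.skeleton_value`), 3.2+3.3
(`Quiet.purity_transfer`) and 3.4+3.5 (`Fact.fact_skel`).
-/

set_option autoImplicit false

namespace Crest.Agent.R141.Sec3

open Finset Crest.Agent.R141.KerS Crest.Agent.R141.Quiet
open Crest.Agent.R141.Fact hiding Shape
open Crest.ProbabilityR.Diluted (spinVal)
open Crest.Agent.R141.Clo (Shape)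

noncomputable section

/-- all shapes of a finite list of lists are bounded by a common `M` -/
theorem exists_common_bound (J : ℕ) (S0 : (m : ℕ) → List (Shape m)) :
    ∃ M : ℕ, ∀ SS : (n : ℕ) → Finset (Shape n),
      (∀ s : Shape 0, s ∈ SS 0) →
      (∀ n (s : Shape (n + 1)), s ∈ SS (n + 1) ↔
        s.toList.length ≤ M ∧ ∀ q ∈ s.toList, q ∈ SS n) →
      ∀ m, m ≤ J → ∀ s ∈ S0 m, s ∈ SS m := by
  choose Mf hMf using exists_bound_shape
  refine ⟨∑ m ∈ range (J + 1), ((S0 m).map (Mf m)).sum, ?_⟩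
  intro SS h0 h1 m hm s hs
  refine hMf m s _ ?_ SS h0 h1
  calc Mf m s ≤ ((S0 m).map (Mf m)).sum :=
        List.single_le_sum (fun x _ => Nat.zero_le x) _ (List.mem_map_of_mem hs)
    _ ≤ _ := Finset.single_le_sum (f := fun m => ((S0 m).map (Mf m)).sum)
        (fun _ _ => Nat.zero_le _) (Finset.mem_range.mpr (by omega))

/-- the exponent estimate -/
theorem expo_close {J w g j : ℕ} (hw : 0 < w) (hj : j ≤ J + 1) (h1 : j * w ≤ g + w)
    (h2 : g < (j + 1) * w) :
    |((g : ℝ) + 1) / ((((J + 1) * w : ℕ) : ℝ) + 1) - (j : ℝ) / ((J : ℝ) + 1)| ≤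
      1 / ((J : ℝ) + 1) := by
  have hJ : (0 : ℝ) < (J : ℝ) + 1 := by positivity
  have hw' : (0 : ℝ) < w := by exact_mod_cast hw
  have h1' : (j : ℝ) * w ≤ g + w := by exact_mod_cast h1
  have h2' : (g : ℝ) + 1 ≤ ((j : ℝ) + 1) * w := by exact_mod_cast h2
  have hjJ : (j : ℝ) ≤ (J : ℝ) + 1 := by exact_mod_cast hj
  push_cast
  have hD : (0 : ℝ) < ((J : ℝ) + 1) * w + 1 := by positivity
  have k1 : ((j : ℝ) - 1) / ((J : ℝ) + 1) ≤ ((g : ℝ) + 1) / (((J : ℝ) + 1) * w + 1) := by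
    rw [div_le_div_iff₀ hJ hD]
    have := mul_le_mul_of_nonneg_right h1' hJ.le
    nlinarith
  have k2 : ((g : ℝ) + 1) / (((J : ℝ) + 1) * w + 1) ≤ ((j : ℝ) + 1) / ((J : ℝ) + 1) := by
    rw [div_le_div_iff₀ hD hJ]
    have := mul_le_mul_of_nonneg_right h2' hJ.le
    have hj0 : (0 : ℝ) ≤ j := Nat.cast_nonneg j
    nlinarith
  rw [sub_div] at k1
  rw [add_div (j : ℝ) 1] at k2
  rw [abs_le]
  constructor <;> linarith

/-- the cell structure of the exponents: cell `g < nc` consists of the steps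
`st g < k ≤ st (g+1)` with exponent `(g+1)/(nc+1)`; the steps after `st nc` have exponent 1. -/
structure Cells (x : ℕ → ℝ) (L nc : ℕ) (st : ℕ → ℕ) : Prop where
  expo : IsExpo x
  mono : StrictMono st
  zero : st 0 = 0
  last : st nc ≤ L
  cell : ∀ g, g < nc → ∀ k, st g < k → k ≤ st (g + 1) → x k = ((g : ℝ) + 1) / ((nc : ℝ) + 1)
  top : ∀ k, st nc < k → k ≤ L → x k = 1

theorem Cells.find {x : ℕ → ℝ} {L nc : ℕ} {st : ℕ → ℕ} (h : Cells x L nc st) {l : ℕ} (hl : 0 < l) :
    ∀ n, l ≤ st n → ∃ g, g < n ∧ st g < l ∧ l ≤ st (g + 1) := by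
  intro n
  induction n with
  | zero => intro hn; rw [h.zero] at hn; omega
  | succ n ih =>
    intro hn
    by_cases h1 : l ≤ st n
    · obtain ⟨g, hg, h2, h3⟩ := ih h1
      exact ⟨g, by omega, h2, h3⟩
    · exact ⟨n, by omega, by omega, hn⟩

/-- window facts for the levels `t (c (J - j))` -/
theorem cells_win {J w L : ℕ} (hw : 0 < w) {x : ℕ → ℝ}
    {st t : ℕ → ℕ} (hC : Cells x L ((J + 1) * w) st) (ht1 : ∀ g, st g ≤ t g)
    (ht2 : ∀ g, t g < st (g + 1)) {c : ℕ → ℕ}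
    (hc : ∀ n, n ≤ J → (J - n) * w ≤ c n ∧ c n < (J - n + 1) * w) :
    Monotone (fun j => t (c (J - j))) ∧ t (c (J - J)) < L ∧
    (∀ l, l ≤ t (c (J - 0)) → x l ≤ 1 / ((J : ℝ) + 1)) ∧
    (∀ j, 1 ≤ j → j ≤ J → ∀ l, t (c (J - (j - 1))) < l → l ≤ t (c (J - j)) →
      |x l - (j : ℝ) / ((J : ℝ) + 1)| ≤ 1 / ((J : ℝ) + 1)) ∧
    (∀ l, t (c (J - J)) < l → l ≤ L → 1 - x l ≤ 1 / ((J : ℝ) + 1)) := by
  have hdec : ∀ m, m + 1 ≤ J → c (m + 1) < c m := by
    intro m hm
    have h1 := (hc (m + 1) hm).2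
    have h2 := (hc m (by omega)).1
    have h3 : J - (m + 1) + 1 = J - m := by omega
    rw [h3] at h1
    omega
  have hcanti : ∀ m n, m ≤ n → n ≤ J → c n ≤ c m := by
    intro m n hmn
    induction hmn with
    | refl => intro _; exact le_rfl
    | @step k hk ih =>
      intro hk2
      have h1 : c (k + 1) < c k := hdec k (by omega)
      have h2 := ih (by omega)
      exact h1.le.trans h2
  have htmono : Monotone t := by
    apply monotone_nat_of_le_succ
    intro g
    have h1 := ht2 g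
    have h2 := ht1 (g + 1)
    omega
  have hclt : ∀ n, n ≤ J → c n < (J + 1) * w := by
    intro n hn
    exact (hc n hn).2.trans_le (Nat.mul_le_mul_right w (by omega))
  have htst : ∀ n, n ≤ J → t (c n) < st ((J + 1) * w) := by
    intro n hn
    exact (ht2 (c n)).trans_le (hC.mono.monotone (by have := hclt n hn; omega))
  have hpos : (0 : ℝ) ≤ 1 / ((J : ℝ) + 1) := by positivity
  refine ⟨?_, ?_, ?_, ?_, ?_⟩
  · intro j j' hjj
    exact htmono (hcanti _ _ (by omega) (by omega))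
  · exact (htst _ (by omega)).trans_le hC.last
  · -- low part
    intro l hl
    have hl' : l ≤ t (c J) := hl
    have key : ∀ g, g < (J + 1) * w → ∀ l, 0 < l → st g < l → l ≤ st (g + 1) → g < w →
        x l ≤ 1 / ((J : ℝ) + 1) := by
      intro g hg l hl0 h1 h2 h3
      rw [hC.cell g hg l h1 h2]
      have := expo_close (J := J) (w := w) (g := g) (j := 0) hw (by omega) (by omega) (by simpa using h3)
      rw [Nat.cast_zero, zero_div, sub_zero] at this
      exact (abs_le.mp this).2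
    have hcw : c J < w := by
      have := (hc J le_rfl).2
      simpa using this
    rcases Nat.eq_zero_or_pos l with h0 | h0
    · subst h0
      have h1 : st 0 < st 1 := hC.mono (by omega)
      rw [hC.zero] at h1
      refine (hC.expo.mono (by omega : 0 ≤ 1)).trans ?_
      exact key 0 (by positivity) 1 (by omega) (by rw [hC.zero]; omega) (by show 1 ≤ st 1; omega) hw
    · obtain ⟨g, hg, h1, h2⟩ := hC.find h0 ((J + 1) * w) (hl'.trans (htst J le_rfl).le)
      refine key g hg l h0 h1 h2 ?_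
      have h3 : st g < st (c J + 1) := by
        have := ht2 (c J)
        omega
      have h4 : g < c J + 1 := hC.mono.lt_iff_lt.mp h3
      omega
  · -- middle part
    intro j hj1 hjJ l hl1 hl2
    have hl1' : t (c (J - (j - 1))) < l := hl1
    have hl2' : l ≤ t (c (J - j)) := hl2
    obtain ⟨g, hg, h1, h2⟩ := hC.find (by omega : 0 < l) ((J + 1) * w)
      (hl2'.trans (htst _ (by omega)).le)
    rw [hC.cell g hg l h1 h2]
    have e1 : st (c (J - (j - 1))) < st (g + 1) := by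
      have := ht1 (c (J - (j - 1)))
      omega
    have e2 : c (J - (j - 1)) < g + 1 := hC.mono.lt_iff_lt.mp e1
    have e3 : st g < st (c (J - j) + 1) := by
      have := ht2 (c (J - j))
      omega
    have e4 : g < c (J - j) + 1 := hC.mono.lt_iff_lt.mp e3
    have w1 := (hc (J - (j - 1)) (by omega)).1
    have w2 := (hc (J - j) (by omega)).2
    have e5 : J - (J - (j - 1)) = j - 1 := by omega
    have e6 : J - (J - j) + 1 = j + 1 := by omega
    rw [e5] at w1
    rw [e6] at w2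
    apply expo_close hw (by omega) _ (by omega)
    obtain ⟨i, rfl⟩ : ∃ i, j = i + 1 := ⟨j - 1, by omega⟩
    rw [Nat.add_sub_cancel] at w1 e2
    rw [add_mul, one_mul]
    omega
  · -- top part
    intro l hl1 hl2
    have hl1' : t (c (J - J)) < l := hl1
    rw [Nat.sub_self] at hl1'
    by_cases hl3 : st ((J + 1) * w) < l
    · rw [hC.top l hl3 hl2, sub_self]; exact hpos
    · obtain ⟨g, hg, h1, h2⟩ := hC.find (by omega : 0 < l) ((J + 1) * w) (by omega)
      rw [hC.cell g hg l h1 h2]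
      have e1 : st (c 0) < st (g + 1) := by
        have := ht1 (c 0)
        omega
      have e2 : c 0 < g + 1 := hC.mono.lt_iff_lt.mp e1
      have w1 := (hc 0 (by omega)).1
      rw [Nat.sub_zero] at w1
      have := expo_close (J := J) (w := w) (g := g) (j := J + 1) hw le_rfl
        (by rw [add_mul, one_mul]; omega)
        (by
          refine hg.trans_le (Nat.mul_le_mul_right w (by omega)))
      have hJ : (0 : ℝ) < (J : ℝ) + 1 := by positivity
      rw [Nat.cast_add, Nat.cast_one, div_self hJ.ne'] at this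
      have := (abs_le.mp this).1
      linarith

section one

variable {Ω : Type} [Fintype Ω] {P : Ω → ℝ} {𝓕 : Filt Ω}

/-- 3.1 for cells in the windows -/
theorem skeleton_cells (hP : IsProb P) {J w : ℕ} (hw : 0 < w) {x : ℕ → ℝ}
    {st t : ℕ → ℕ} (hC : Cells x 𝓕.L ((J + 1) * w) st) (ht1 : ∀ g, st g ≤ t g)
    (ht2 : ∀ g, t g < st (g + 1)) (hF0 : 𝓕.F 0 = ⊤) {c : ℕ → ℕ}
    (hc : ∀ n, n ≤ J → (J - n) * w ≤ c n ∧ c n < (J - n + 1) * w)
    {U : Ω → ℝ} {a : ℝ} (hU : ∀ ω, |U ω| ≤ a) (ω : Ω) :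
    |A P 𝓕 x U 0 ω - eE P (skelA P (fun n => 𝓕.F (t (c (J - (J - n))))) (ySk J) U (J + 1))| ≤
      15 * a ^ 2 * Real.exp (4 * a) * (1 / ((J : ℝ) + 1)) := by
  have hpos : (0 : ℝ) ≤ 1 / ((J : ℝ) + 1) := by positivity
  obtain ⟨h1, h2, h3, h4, h5⟩ := cells_win hw hC ht1 ht2 hc
  exact Skel31.skeleton_value (t := fun j => t (c (J - j))) hP hC.expo hU hpos hF0 h1 h2.le
    h3 h4 h5 ω

end one

/-- **Section 3**: for finitely many site functions, if the averaged total purity number of the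
enriched systems is small, the functional `A_0` is close to the mean of the independent-path
recursion along a skeleton. -/
theorem sec3 {α : Type} [Fintype α] (S : α → Type) [∀ a, Fintype (S a)]
    [∀ a, DecidableEq (S a)] (W0 : (a : α) → (S a → Bool) → ℝ) (hW0 : ∀ a b, 0 < W0 a b)
    (c0 : ℝ) (hc0 : ∀ a b, |Real.log (W0 a b)| ≤ c0) (J : ℕ) (hJ : 1 ≤ J) (ε : ℝ) (hε : 0 < ε) :
    ∃ w : ℕ, 0 < w ∧ ∃ FS : Finset (Σ k, Shape k), (∀ y ∈ FS, 1 ≤ y.1 ∧ y.1 ≤ (J + 1) * w) ∧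
    ∃ η : ℝ, 0 < η ∧
      ∀ (Ω I D : Type) [Fintype Ω] [Fintype I] [Fintype D] (q : D → ℝ) (P : D → Ω → ℝ)
        (𝓕 : Filt Ω) (st : ℕ → ℕ) (t : D → ℕ → ℕ) (x : ℕ → ℝ) (sg : I → Ω → Bool), Nonempty I →
        Cells x 𝓕.L ((J + 1) * w) st → (∀ d g, st g ≤ t d g) → (∀ d g, t d g < st (g + 1)) →
        𝓕.F 0 = ⊤ → (∀ d, 0 ≤ q d) → (∑ d, q d ≤ 1) → (∀ d, IsProb (P d)) →
        (∑ d, q d * totPur (P d) 𝓕 st (t d) sg ((J + 1) * w) FS ≤ η) →
        ∃ c : D → ℕ → ℕ, (∀ d n, n ≤ J → (J - n) * w ≤ c d n ∧ c d n < (J - n + 1) * w) ∧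
          ∀ a, ∑ d, q d * avg (fun i : S a → I =>
            |eE (P d) (A (P d) 𝓕 x (fun ω => Real.log (W0 a (fun l => sg (i l) ω))) 0) -
              ∑ ω, P d ω * Br.thInd (fun m => kerS (P d) (𝓕.F (t d (c d m)))) sg
                (Br.fExp J (Br.mSk J)) (W0 a) i (J + 1) (fun _ => ω)|) ≤
            15 * c0 ^ 2 * Real.exp (4 * c0) * (1 / ((J : ℝ) + 1)) + ε := by
  classical
  obtain ⟨S0, δ, hδ, hS0, hfact⟩ := fact_skel S W0 hW0 c0 hc0 J hJ ε hε
  obtain ⟨M, hM⟩ := exists_common_bound J S0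
  obtain ⟨SS, hSS0, hSS⟩ := exists_SSb M
  have hsub := hM SS hSS0 hSS
  obtain ⟨C, hC0, htr⟩ := purity_transfer J M SS hSS
  -- choice of the window length
  obtain ⟨w, hw1⟩ := exists_nat_gt ((2 * C / δ) ^ 2 + 1)
  have hwR : (0 : ℝ) < w := lt_trans (by positivity) hw1
  have hw : 0 < w := by exact_mod_cast hwR
  have hCw : C / Real.sqrt w ≤ δ / 2 := by
    have h1 : 2 * C / δ ≤ Real.sqrt w := by
      apply Real.le_sqrt_of_sq_le
      linarith
    have h2 : 0 < Real.sqrt w := Real.sqrt_pos.mpr hwR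
    rw [div_le_iff₀ h2]
    rw [div_le_iff₀ hδ] at h1
    nlinarith
  refine ⟨w, hw, FSet J ((J + 1) * w) SS, fun y hy => FSet_height hy, δ / 2, by positivity, ?_⟩
  intro Ω I D _ _ _ q P 𝓕 st t x sg hI hC ht1 ht2 hF0 hq hq1 hP hpur
  choose c1 hc1 hc2 using fun d => htr w hw Ω I hI (P d) (hP d) 𝓕 st (t d) hC.mono
    (ht1 d) (ht2 d) sg
  -- clipped cells
  refine ⟨fun d n => c1 d (J - (J - n)), ?_, ?_⟩
  · intro d n hn
    show (J - n) * w ≤ c1 d (J - (J - n)) ∧ c1 d (J - (J - n)) < (J - n + 1) * w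
    have : J - (J - n) = n := by omega
    rw [this]
    exact hc1 d n hn
  intro a
  have hpure : ∀ m, ∀ s ∈ S0 m, ∑ d, q d * ∑ ω, P d ω *
      avgCov (kerS (P d) (𝓕.F (t d (c1 d (J - (J - m)))))) ω
        (VS (P d) (fun m => 𝓕.F (t d (c1 d (J - (J - m))))) sg m s) ≤ δ := by
    intro m s hs
    have hm : m ≤ J := by
      by_contra hcon
      rw [hS0 m (by omega)] at hs
      exact absurd hs (List.not_mem_nil)
    have hterm : ∀ d, ∑ ω, P d ω *
        avgCov (kerS (P d) (𝓕.F (t d (c1 d (J - (J - m)))))) ω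
        (VS (P d) (fun m => 𝓕.F (t d (c1 d (J - (J - m))))) sg m s) ≤
        totPur (P d) 𝓕 st (t d) sg ((J + 1) * w) (FSet J ((J + 1) * w) SS) + δ / 2 := by
      intro d
      have h1 := hc2 d m hm s (hsub m hm s hs)
      have e1 : VS (P d) (fun m => 𝓕.F (t d (c1 d (J - (J - m))))) sg m s =
          VS (P d) (Rt 𝓕 (t d) (c1 d)) sg m s := by
        funext i
        apply VS_congr
        intro k hk
        show 𝓕.F (t d (c1 d (J - (J - k)))) = 𝓕.F (t d (c1 d k))
        have : J - (J - k) = k := by omega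
        rw [this]
      have e2 : J - (J - m) = m := by omega
      rw [e1, e2]
      have h2 : pur (P d) (𝓕.F (t d (c1 d m))) (VS (P d) (Rt 𝓕 (t d) (c1 d)) sg m s) ≤
          totPur (P d) 𝓕 st (t d) sg ((J + 1) * w) (FSet J ((J + 1) * w) SS) + δ / 2 := by
        linarith
      exact h2
    calc _ ≤ ∑ d, q d *
          (totPur (P d) 𝓕 st (t d) sg ((J + 1) * w) (FSet J ((J + 1) * w) SS) + δ / 2) :=
          Finset.sum_le_sum fun d _ => mul_le_mul_of_nonneg_left (hterm d) (hq d)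
      _ = ∑ d, q d * totPur (P d) 𝓕 st (t d) sg ((J + 1) * w) (FSet J ((J + 1) * w) SS) +
          (∑ d, q d) * (δ / 2) := by
          rw [Finset.sum_mul, ← Finset.sum_add_distrib]
          exact Finset.sum_congr rfl fun _ _ => by ring
      _ ≤ δ / 2 + 1 * (δ / 2) := by
          refine add_le_add hpur (mul_le_mul_of_nonneg_right hq1 (by positivity))
      _ = δ := by ring
  have hmain := hfact Ω I D q P (fun d m => 𝓕.F (t d (c1 d (J - (J - m))))) sg hI hq hq1 hP
    hpure a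
  -- combine
  have hE : 0 ≤ 15 * c0 ^ 2 * Real.exp (4 * c0) * (1 / ((J : ℝ) + 1)) := by positivity
  have hterm : ∀ d, avg (fun i : S a → I =>
      |eE (P d) (A (P d) 𝓕 x (fun ω => Real.log (W0 a (fun l => sg (i l) ω))) 0) -
        ∑ ω, P d ω * Br.thInd (fun m => kerS (P d) (𝓕.F (t d (c1 d (J - (J - m)))))) sg
          (Br.fExp J (Br.mSk J)) (W0 a) i (J + 1) (fun _ => ω)|) ≤
      15 * c0 ^ 2 * Real.exp (4 * c0) * (1 / ((J : ℝ) + 1)) +
      avg (fun i : S a → I => ∑ ω, P d ω *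
          |skelA (P d) (fun m => 𝓕.F (t d (c1 d (J - (J - m))))) (ySk J)
            (fun ω => Real.log (W0 a (fun l => sg (i l) ω))) (J + 1) ω -
            Br.thInd (fun m => kerS (P d) (𝓕.F (t d (c1 d (J - (J - m)))))) sg
              (Br.fExp J (Br.mSk J)) (W0 a) i (J + 1) (fun _ => ω)|) := by
    intro d
    have hne : Nonempty (S a → I) := ⟨fun _ => Classical.choice hI⟩
    rw [← avg_const (I := S a → I) (15 * c0 ^ 2 * Real.exp (4 * c0) * (1 / ((J : ℝ) + 1))),
      ← avg_add]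
    apply avg_mono
    intro i
    have h1 : ∀ ω, |A (P d) 𝓕 x (fun ω => Real.log (W0 a (fun l => sg (i l) ω))) 0 ω -
        eE (P d) (skelA (P d) (fun m => 𝓕.F (t d (c1 d (J - (J - m))))) (ySk J)
          (fun ω => Real.log (W0 a (fun l => sg (i l) ω))) (J + 1))| ≤
        15 * c0 ^ 2 * Real.exp (4 * c0) * (1 / ((J : ℝ) + 1)) := fun ω =>
      skeleton_cells (hP d) hw hC (ht1 d) (ht2 d) hF0 (hc1 d) (fun ω => hc0 a _) ω
    have h2 : |eE (P d) (A (P d) 𝓕 x (fun ω => Real.log (W0 a (fun l => sg (i l) ω))) 0) -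
        eE (P d) (skelA (P d) (fun m => 𝓕.F (t d (c1 d (J - (J - m))))) (ySk J)
          (fun ω => Real.log (W0 a (fun l => sg (i l) ω))) (J + 1))| ≤
        15 * c0 ^ 2 * Real.exp (4 * c0) * (1 / ((J : ℝ) + 1)) := by
      have e1 : eE (P d) (A (P d) 𝓕 x (fun ω => Real.log (W0 a (fun l => sg (i l) ω))) 0) -
          eE (P d) (skelA (P d) (fun m => 𝓕.F (t d (c1 d (J - (J - m))))) (ySk J)
          (fun ω => Real.log (W0 a (fun l => sg (i l) ω))) (J + 1)) =
          eE (P d) (fun ω => A (P d) 𝓕 x (fun ω => Real.log (W0 a (fun l => sg (i l) ω))) 0 ω -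
          eE (P d) (skelA (P d) (fun m => 𝓕.F (t d (c1 d (J - (J - m))))) (ySk J)
          (fun ω => Real.log (W0 a (fun l => sg (i l) ω))) (J + 1))) := by
        rw [eE_sub, eE_const (hP d)]
      rw [e1]
      refine (eE_abs_le (hP d) _).trans ?_
      rw [← eE_const (hP d) (15 * c0 ^ 2 * Real.exp (4 * c0) * (1 / ((J : ℝ) + 1)))]
      exact eE_mono (hP d) h1
    have h3 : |eE (P d) (skelA (P d) (fun m => 𝓕.F (t d (c1 d (J - (J - m))))) (ySk J)
          (fun ω => Real.log (W0 a (fun l => sg (i l) ω))) (J + 1)) -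
        ∑ ω, P d ω * Br.thInd (fun m => kerS (P d) (𝓕.F (t d (c1 d (J - (J - m)))))) sg
          (Br.fExp J (Br.mSk J)) (W0 a) i (J + 1) (fun _ => ω)| ≤
        ∑ ω, P d ω *
          |skelA (P d) (fun m => 𝓕.F (t d (c1 d (J - (J - m))))) (ySk J)
            (fun ω => Real.log (W0 a (fun l => sg (i l) ω))) (J + 1) ω -
            Br.thInd (fun m => kerS (P d) (𝓕.F (t d (c1 d (J - (J - m)))))) sg
              (Br.fExp J (Br.mSk J)) (W0 a) i (J + 1) (fun _ => ω)| := by
      unfold eE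
      rw [← Finset.sum_sub_distrib]
      refine (Finset.abs_sum_le_sum_abs _ _).trans (Finset.sum_le_sum fun ω _ => ?_)
      rw [← mul_sub, abs_mul, abs_of_pos ((hP d).pos ω)]
    exact (abs_sub_le _ _ _).trans (add_le_add h2 h3)
  calc _ ≤ ∑ d, q d * (15 * c0 ^ 2 * Real.exp (4 * c0) * (1 / ((J : ℝ) + 1)) +
      avg (fun i : S a → I => ∑ ω, P d ω *
          |skelA (P d) (fun m => 𝓕.F (t d (c1 d (J - (J - m))))) (ySk J)
            (fun ω => Real.log (W0 a (fun l => sg (i l) ω))) (J + 1) ω -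
            Br.thInd (fun m => kerS (P d) (𝓕.F (t d (c1 d (J - (J - m)))))) sg
              (Br.fExp J (Br.mSk J)) (W0 a) i (J + 1) (fun _ => ω)|)) :=
        Finset.sum_le_sum fun d _ => mul_le_mul_of_nonneg_left (hterm d) (hq d)
    _ = (∑ d, q d) * (15 * c0 ^ 2 * Real.exp (4 * c0) * (1 / ((J : ℝ) + 1))) +
        ∑ d, q d * avg (fun i : S a → I => ∑ ω, P d ω *
          |skelA (P d) (fun m => 𝓕.F (t d (c1 d (J - (J - m))))) (ySk J)
            (fun ω => Real.log (W0 a (fun l => sg (i l) ω))) (J + 1) ω -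
            Br.thInd (fun m => kerS (P d) (𝓕.F (t d (c1 d (J - (J - m)))))) sg
              (Br.fExp J (Br.mSk J)) (W0 a) i (J + 1) (fun _ => ω)|) := by
        rw [Finset.sum_mul, ← Finset.sum_add_distrib]
        exact Finset.sum_congr rfl fun _ _ => by ring
    _ ≤ 1 * (15 * c0 ^ 2 * Real.exp (4 * c0) * (1 / ((J : ℝ) + 1))) + ε :=
        add_le_add (mul_le_mul_of_nonneg_right hq1 hE) hmain
    _ = _ := by ring

end

end Crest.Agent.R141.Sec3
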