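import Crest.Agent.R141.ExpChange
import Crest.Agent.R141.KerS

/-!
Row 141 (S0192), Part L, 3.1: replacement of the exponents by the skeleton exponents
`m_j = j/(J+1)` and comparison of `A_0` with the nested functional `Theta` of depth `J+1`.

Depth index: `τ 0 > τ 1 > ... > τ J` are the observation steps (`τ n = t_{J-n}`).
-/

set_option autoImplicit false

namespace Crest.Agent.R141.Skel

open Finset Crest.Agent.R141.Fact Crest.Agent.R141.KerS Crest.Agent.R141.Exch
open Crest.ProbabilityR.Diluted (spinVal)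

noncomputable section

/-- the nonlinearities of the skeleton: `s ^ ((J-n)/(J-n+1))` for `n < J`, `(J+1) log s` for
`n = J`. -/
def fS (J n : ℕ) (s : ℝ) : ℝ :=
  if n < J then s ^ (((J : ℝ) - n) / ((J : ℝ) - n + 1)) else ((J : ℝ) + 1) * Real.log s

/-- number of observation steps before `l` -/
def cnt (J : ℕ) (τ : ℕ → ℕ) (l : ℕ) : ℕ := ((range (J + 1)).filter (fun n => τ n < l)).card

/-- the skeleton exponents as a sequence along the filtration -/
def xS (J : ℕ) (τ : ℕ → ℕ) (l : ℕ) : ℝ := (max (cnt J τ l) 1 : ℕ) / ((J : ℝ) + 1)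

theorem cnt_mono (J : ℕ) (τ : ℕ → ℕ) : Monotone (cnt J τ) := by
  intro a b h
  apply Finset.card_le_card
  intro n hn
  rw [mem_filter] at hn ⊢
  exact ⟨hn.1, by omega⟩

theorem cnt_le (J : ℕ) (τ : ℕ → ℕ) (l : ℕ) : cnt J τ l ≤ J + 1 := by
  unfold cnt
  calc _ ≤ (range (J + 1)).card := Finset.card_filter_le _ _
    _ = J + 1 := card_range _

theorem isExpo_xS (J : ℕ) (τ : ℕ → ℕ) : IsExpo (xS J τ) where
  pos k := by
    unfold xS
    have : (0 : ℝ) < (max (cnt J τ k) 1 : ℕ) := by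
      exact_mod_cast lt_of_lt_of_le Nat.zero_lt_one (le_max_right _ _)
    positivity
  mono := by
    intro a b h
    unfold xS
    apply div_le_div_of_nonneg_right _ (by positivity)
    exact_mod_cast max_le_max (cnt_mono J τ h) le_rfl
  le_one k := by
    unfold xS
    rw [div_le_one (by positivity)]
    have h1 : max (cnt J τ k) 1 ≤ J + 1 := max_le (cnt_le J τ k) (by omega)
    exact_mod_cast h1

variable {J : ℕ} {τ : ℕ → ℕ}

theorem tau_anti (hτ : ∀ n, n < J → τ (n + 1) < τ n) {i j : ℕ} (hij : i ≤ j) (hj : j ≤ J) :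
    τ j ≤ τ i := by
  induction hij with
  | refl => exact le_rfl
  | @step m hm ih => exact (hτ m (by omega)).le.trans (ih (by omega))

theorem cnt_top (hτ : ∀ n, n < J → τ (n + 1) < τ n) {l : ℕ} (hl : τ 0 < l) :
    cnt J τ l = J + 1 := by
  unfold cnt
  rw [Finset.filter_true_of_mem, card_range]
  intro n hn
  rw [mem_range] at hn
  have := tau_anti hτ (Nat.zero_le n) (by omega)
  omega

theorem cnt_mid (hτ : ∀ n, n < J → τ (n + 1) < τ n) {n l : ℕ} (hn : n < J)
    (h1 : τ (n + 1) < l) (h2 : l ≤ τ n) : cnt J τ l = J - n := by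
  unfold cnt
  have : (range (J + 1)).filter (fun i => τ i < l) = Ico (n + 1) (J + 1) := by
    ext i
    rw [mem_filter, mem_range, mem_Ico]
    constructor
    · rintro ⟨hi, hi2⟩
      refine ⟨?_, hi⟩
      by_contra hcon
      have := tau_anti hτ (i := i) (j := n) (by omega) (by omega)
      omega
    · rintro ⟨hi, hi2⟩
      refine ⟨hi2, ?_⟩
      have := tau_anti hτ hi (by omega)
      omega
  rw [this, Nat.card_Ico]
  omega

theorem xS_top (hτ : ∀ n, n < J → τ (n + 1) < τ n) {l : ℕ} (hl : τ 0 < l) :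
    xS J τ l = 1 := by
  unfold xS
  rw [cnt_top hτ hl, max_eq_left (by omega)]
  push_cast
  rw [div_self (by positivity)]

theorem xS_mid (hτ : ∀ n, n < J → τ (n + 1) < τ n) {n l : ℕ} (hn : n < J)
    (h1 : τ (n + 1) < l) (h2 : l ≤ τ n) : xS J τ l = ((J : ℝ) - n) / ((J : ℝ) + 1) := by
  unfold xS
  rw [cnt_mid hτ hn h1 h2, max_eq_left (by omega), Nat.cast_sub hn.le]

variable {Ω I : Type} [Fintype Ω] {ns : ℕ} {P : Ω → ℝ} {𝓕 : Filt Ω}

/-- the skeleton functional in closed form -/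
theorem Theta_eq (hP : IsProb P) (hτ : ∀ n, n < J → τ (n + 1) < τ n)
    (sg : I → Ω → Bool) (W0 : (Fin ns → Bool) → ℝ) (i : Fin ns → I) (U : Ω → ℝ)
    (hU : ∀ ω, W0 (fun l => sg (i l) ω) = Real.exp (U ω)) :
    (∀ n, n < J → ∀ ω, Theta (fun n => kerS P (𝓕.F (τ n))) sg W0 (fS J) (n + 1) i ω =
      Real.exp ((((J : ℝ) - n) / ((J : ℝ) + 1)) * A P 𝓕 (xS J τ) U (τ n) ω)) ∧
    ∀ ω, Theta (fun n => kerS P (𝓕.F (τ n))) sg W0 (fS J) (J + 1) i ω =
      A P 𝓕 (xS J τ) U (τ J) ω := by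
  have hx := isExpo_xS J τ
  set T := Theta (fun n => kerS P (𝓕.F (τ n))) sg W0 (fS J) with hT
  have hsucc : ∀ n ω, T (n + 1) i ω = fS J n (cE P (𝓕.F (τ n)) (T n i) ω) := by
    intro n ω
    have : T (n + 1) i ω = fS J n (Ek (kerS P (𝓕.F (τ n))) (T n i) ω) := rfl
    rw [this, Ek_kerS]
  have htop : ∀ ω, cE P (𝓕.F (τ 0)) (T 0 i) ω = Real.exp (A P 𝓕 (xS J τ) U (τ 0) ω) := by
    intro ω
    have h0 : T 0 i = fun ω => Real.exp (U ω) := by
      funext ω
      exact hU ω
    have h1 := A_collapse (𝓕 := 𝓕) hP hx.pos one_pos U (k := τ 0) (l := max 𝓕.L (τ 0))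
      (le_max_right _ _) (fun j hj _ => xS_top hτ hj) ω
    rw [A_of_ge U (le_max_left _ _)] at h1
    have h2 := exp_pm hP (𝓕.F (τ 0)) one_pos U ω
    rw [h1, h0]
    rw [one_mul] at h2
    rw [h2]
    simp only [one_mul]
  have hmid : ∀ n, n < J → ∀ ω, cE P (𝓕.F (τ (n + 1))) (fun w => Real.exp
      ((((J : ℝ) - n) / ((J : ℝ) + 1)) * A P 𝓕 (xS J τ) U (τ n) w)) ω =
      Real.exp ((((J : ℝ) - n) / ((J : ℝ) + 1)) * A P 𝓕 (xS J τ) U (τ (n + 1)) ω) := by
    intro n hn ω
    have hpos : 0 < ((J : ℝ) - n) / ((J : ℝ) + 1) := by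
      have : (n : ℝ) < J := by exact_mod_cast hn
      apply div_pos (by linarith) (by positivity)
    have h1 := A_collapse (𝓕 := 𝓕) hP hx.pos hpos U (k := τ (n + 1)) (l := τ n)
      (hτ n hn).le (fun j hj hj' => xS_mid hτ hn hj hj') ω
    rw [h1, exp_pm hP _ hpos]
  -- the recursion
  have hrec : ∀ n, n < J → ∀ ω, T (n + 1) i ω =
      Real.exp ((((J : ℝ) - n) / ((J : ℝ) + 1)) * A P 𝓕 (xS J τ) U (τ n) ω) := by
    intro n
    induction n with
    | zero =>
      intro hn ω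
      rw [hsucc, htop]
      unfold fS
      rw [if_pos hn, ← Real.exp_mul]
      congr 1
      push_cast
      rw [sub_zero]; ring
    | succ n ih =>
      intro hn ω
      rw [hsucc]
      have h1 : T (n + 1) i = fun w => Real.exp
          ((((J : ℝ) - n) / ((J : ℝ) + 1)) * A P 𝓕 (xS J τ) U (τ n) w) := by
        funext w
        exact ih (by omega) w
      rw [h1, hmid n (by omega)]
      unfold fS
      rw [if_pos hn, ← Real.exp_mul]
      congr 1
      have hn1 : (n : ℝ) + 1 < J := by exact_mod_cast hn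
      have hne : (J : ℝ) - (n + 1) + 1 ≠ 0 := by linarith
      push_cast
      have e1 : (J : ℝ) - (n + 1) + 1 = (J : ℝ) - n := by ring
      rw [e1]
      have hne' : (J : ℝ) - n ≠ 0 := by rw [← e1]; exact hne
      field_simp
  refine ⟨hrec, ?_⟩
  intro ω
  rw [hsucc]
  rcases Nat.eq_zero_or_pos J with hJ | hJ
  · subst hJ
    rw [htop]
    unfold fS
    simp
  · obtain ⟨n, rfl⟩ : ∃ n, J = n + 1 := ⟨J - 1, by omega⟩
    have h1 : T (n + 1) i = fun w => Real.exp
        (((((n + 1 : ℕ) : ℝ) - n) / (((n + 1 : ℕ) : ℝ) + 1)) *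
          A P 𝓕 (xS (n + 1) τ) U (τ n) w) := by
      funext w
      exact hrec n (by omega) w
    rw [h1, hmid n (by omega)]
    unfold fS
    rw [if_neg (lt_irrefl _), Real.log_exp]
    push_cast
    have e1 : (n : ℝ) + 1 - n = 1 := by ring
    rw [e1]
    field_simp

/-- 3.1 SKELETON VALUE: `A_0` versus the mean of the skeleton functional. -/
theorem skeleton_value (hP : IsProb P) {x : ℕ → ℝ} (hx : IsExpo x) {a δ : ℝ} {U : Ω → ℝ}
    (hUa : ∀ ω, |U ω| ≤ a) (hτ : ∀ n, n < J → τ (n + 1) < τ n) (hδ : 0 ≤ δ)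
    (hlow : ∀ l, l ≤ τ J → x l ≤ δ)
    (hmid : ∀ n, n < J → ∀ l, τ (n + 1) < l → l ≤ τ n →
      |x l - ((J : ℝ) - n) / ((J : ℝ) + 1)| ≤ δ)
    (htop : ∀ l, τ 0 < l → |x l - 1| ≤ δ)
    (sg : I → Ω → Bool) (W0 : (Fin ns → Bool) → ℝ) (i : Fin ns → I)
    (hU : ∀ ω, W0 (fun l => sg (i l) ω) = Real.exp (U ω)) :
    |eE P (A P 𝓕 x U 0) -
      eE P (Theta (fun n => kerS P (𝓕.F (τ n))) sg W0 (fS J) (J + 1) i)| ≤
      15 * a ^ 2 * Real.exp (4 * a) * δ := by
  have hx' := isExpo_xS J τ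
  have h1 := A_low (𝓕 := 𝓕) hP hx hUa (Nat.zero_le (τ J)) hlow hδ
  have hclose : ∀ k, τ J < k → |x k - xS J τ k| ≤ δ := by
    intro k hk
    rcases lt_or_ge (τ 0) k with h0 | h0
    · rw [xS_top hτ h0]; exact htop k h0
    · -- find the block
      have : ∃ n, n < J ∧ τ (n + 1) < k ∧ k ≤ τ n := by
        by_contra hcon
        push Not at hcon
        have : ∀ n, n ≤ J → k ≤ τ n := by
          intro n
          induction n with
          | zero => intro _; exact h0
          | succ n ih =>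
            intro hn
            by_contra hlt
            have h2 := hcon n (by omega) (by omega)
            have h3 := ih (by omega)
            omega
        have := this J le_rfl
        omega
      obtain ⟨n, hn, h2, h3⟩ := this
      rw [xS_mid hτ hn h2 h3]
      exact hmid n hn k h2 h3
  have h2 := expChange_abs (𝓕 := 𝓕) hP hx hx' hUa (k₀ := τ J) hclose hδ
  have h3 : |eE P (A P 𝓕 x U (τ J)) - eE P (A P 𝓕 (xS J τ) U (τ J))| ≤
      10 * a ^ 2 * Real.exp (4 * a) * δ := by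
    rw [← eE_sub]
    exact (eE_abs_le hP _).trans h2
  have h4 : Theta (fun n => kerS P (𝓕.F (τ n))) sg W0 (fS J) (J + 1) i =
      A P 𝓕 (xS J τ) U (τ J) := funext (Theta_eq hP hτ sg W0 i U hU).2
  rw [h4]
  have h5 : 5 * a ^ 2 * Real.exp (2 * a) * δ ≤ 5 * a ^ 2 * Real.exp (4 * a) * δ := by
    rcases isEmpty_or_nonempty Ω with hE | ⟨⟨ω⟩⟩
    · exfalso
      have := hP.sum
      simp at this
    · have ha : 0 ≤ a := (abs_nonneg _).trans (hUa ω)
      have : Real.exp (2 * a) ≤ Real.exp (4 * a) := Real.exp_le_exp.mpr (by linarith)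
      gcongr
  have h6 := abs_sub_le (eE P (A P 𝓕 x U 0)) (eE P (A P 𝓕 x U (τ J)))
    (eE P (A P 𝓕 (xS J τ) U (τ J)))
  linarith

end

end Crest.Agent.R141.Skel
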