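import Crest.Agent.R141.Sys
import Crest.Agent.R141.HierM

/-!
Row 141 (S0192), Part L, section 2: the elementary coordinates of the enriched system are
independent (`IC` instances for the prior), for all sites / gadgets / coins, and the projection
from the `N+1`-system to the `N`-system.
-/

set_option autoImplicit false

namespace Crest.Agent.R141

namespace SysIC

open Finset

noncomputable section

/-- uniform weights -/
def unif (Λ : Type) [Fintype Λ] : Λ → ℝ := fun _ => (Fintype.card Λ : ℝ)⁻¹

theorem unif_isProb (Λ : Type) [Fintype Λ] [Nonempty Λ] : IsProb (unif Λ) := by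
  have h : (0 : ℝ) < (Fintype.card Λ : ℝ) := by exact_mod_cast Fintype.card_pos
  constructor
  · intro _; exact inv_pos.2 h
  · simp only [unif, Finset.sum_const, Finset.card_univ, nsmul_eq_mul]
    exact mul_inv_cancel₀ h.ne'

theorem unif_eE (Λ : Type) [Fintype Λ] (f : Λ → ℝ) :
    eE (unif Λ) f = (Fintype.card Λ : ℝ)⁻¹ * ∑ c, f c := by
  unfold eE unif; rw [Finset.mul_sum]

/-- labels of one site: revealed coordinates. -/
def labRel (p : Par) (k : ℕ) (l l' : Fin p.nb → Fin p.nc → Fin p.Q) : Prop :=
  ∀ (b : Fin p.nb) (g : Fin p.nc), p.mt g ≤ k → l b g = l' b g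

def labF (p : Par) (k : ℕ) : Setoid (Fin p.nb → Fin p.nc → Fin p.Q) :=
  ⟨labRel p k, ⟨fun _ _ _ _ => rfl, fun h b g hg => (h b g hg).symm,
    fun h h' b g hg => (h b g hg).trans (h' b g hg)⟩⟩

/-- labels of one gadget: revealed coordinates. -/
def gadRel (p : Par) (k : ℕ) (l l' : Fin p.nc → Fin p.Q) : Prop :=
  ∀ (g : Fin p.nc), p.mt g ≤ k → l g = l' g

def gadF (p : Par) (k : ℕ) : Setoid (Fin p.nc → Fin p.Q) :=
  ⟨gadRel p k, ⟨fun _ _ _ => rfl, fun h g hg => (h g hg).symm,
    fun h h' g hg => (h g hg).trans (h' g hg)⟩⟩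

/-- a coordinate revealed at step `m`. -/
def stepF (Λ : Type) (m k : ℕ) : Setoid Λ := if m ≤ k then ⊥ else ⊤

theorem stepF_iff {Λ : Type} {m k : ℕ} {a b : Λ} : stepF Λ m k a b ↔ (m ≤ k → a = b) := by
  unfold stepF
  by_cases h : m ≤ k
  · rw [if_pos h]
    exact ⟨fun h' _ => h', fun h' => h' h⟩
  · rw [if_neg h]
    exact ⟨fun _ h' => absurd h' h, fun _ => trivial⟩

variable (p : Par) (N : ℕ)

/-- the label block of the site `i`. -/
def labUpd (i : Fin N) (ω : Om p N) (c : Fin p.nb → Fin p.nc → Fin p.Q) : Om p N :=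
  (ω.1, Function.update ω.2.1 i c, ω.2.2)

theorem ic_lab (i : Fin N) : IC (prior p N) (fil p N).F (fun ω => ω.2.1 i) (labUpd p N i)
    (unif (Fin p.nb → Fin p.nc → Fin p.Q)) (labF p) where
  get_upd ω c := by simp [labUpd]
  upd_get ω := by simp [labUpd]
  upd_upd ω c c' := by simp [labUpd]
  prob ω c := rfl
  rel k ω ω' c := by
    constructor
    · intro h
      have h : frel p N k ω ω' := h
      refine ⟨⟨fun j b g hg => ?_, h.2.1, h.2.2⟩, fun b g hg => h.1 i b g hg⟩
      show Function.update ω.2.1 i c j b g = Function.update ω'.2.1 i c j b g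
      by_cases hj : j = i
      · subst hj; simp
      · simp only [Function.update_of_ne hj]; exact h.1 j b g hg
    · rintro ⟨h, h'⟩
      have h : frel p N k (labUpd p N i ω c) (labUpd p N i ω' c) := h
      refine ⟨fun j b g hg => ?_, h.2.1, h.2.2⟩
      by_cases hj : j = i
      · subst hj; exact h' b g hg
      · have := h.1 j b g hg
        simpa [labUpd, Function.update_of_ne hj] using this

/-- the labels of one gadget `(i,b)`. -/
def gadUpd (i : Fin N) (b : Fin p.nb) (ω : Om p N) (c : Fin p.nc → Fin p.Q) : Om p N :=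
  (ω.1, Function.update ω.2.1 i (Function.update (ω.2.1 i) b c), ω.2.2)

theorem ic_gad (i : Fin N) (b : Fin p.nb) :
    IC (prior p N) (fil p N).F (fun ω => ω.2.1 i b) (gadUpd p N i b)
      (unif (Fin p.nc → Fin p.Q)) (gadF p) where
  get_upd ω c := by simp [gadUpd]
  upd_get ω := by simp [gadUpd]
  upd_upd ω c c' := by simp [gadUpd]
  prob ω c := rfl
  rel k ω ω' c := by
    constructor
    · intro h
      have h : frel p N k ω ω' := h
      refine ⟨⟨fun j b' g hg => ?_, h.2.1, h.2.2⟩, fun g hg => h.1 i b g hg⟩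
      show Function.update ω.2.1 i (Function.update (ω.2.1 i) b c) j b' g =
        Function.update ω'.2.1 i (Function.update (ω'.2.1 i) b c) j b' g
      by_cases hj : j = i
      · subst hj
        by_cases hb : b' = b
        · subst hb; simp
        · simp only [Function.update_self, Function.update_of_ne hb]; exact h.1 j b' g hg
      · simp only [Function.update_of_ne hj]; exact h.1 j b' g hg
    · rintro ⟨h, h'⟩
      have h : frel p N k (gadUpd p N i b ω c) (gadUpd p N i b ω' c) := h
      refine ⟨fun j b' g hg => ?_, h.2.1, h.2.2⟩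
      by_cases hj : j = i
      · subst hj
        by_cases hb : b' = b
        · subst hb; exact h' g hg
        · have := h.1 j b' g hg
          simpa [gadUpd, Function.update_self, Function.update_of_ne hb] using this
      · have := h.1 j b' g hg
        simpa [gadUpd, Function.update_of_ne hj] using this

/-- the coin `k`. -/
def coinUpd (s : Stp p) (ω : Om p N) (c : Bool) : Om p N :=
  (ω.1, ω.2.1, Function.update ω.2.2 s.1 (Function.update (ω.2.2 s.1) s.2 c))

theorem ic_coin (s : Stp p) :
    IC (prior p N) (fil p N).F (fun ω => ω.2.2 s.1 s.2) (coinUpd p N s)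
      (unif Bool) (stepF Bool (p.ct s.1 s.2)) where
  get_upd ω c := by simp [coinUpd]
  upd_get ω := by simp [coinUpd]
  upd_upd ω c c' := by simp [coinUpd]
  prob ω c := rfl
  rel k ω ω' c := by
    rw [stepF_iff]
    constructor
    · intro h
      have h : frel p N k ω ω' := h
      refine ⟨⟨h.1, fun g t hg => ?_, h.2.2⟩, fun hk => h.2.1 s.1 s.2 hk⟩
      show Function.update ω.2.2 s.1 (Function.update (ω.2.2 s.1) s.2 c) g t =
        Function.update ω'.2.2 s.1 (Function.update (ω'.2.2 s.1) s.2 c) g t
      by_cases hj : g = s.1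
      · subst hj
        by_cases hb : t = s.2
        · subst hb; simp
        · simp only [Function.update_self, Function.update_of_ne hb]; exact h.2.1 s.1 t hg
      · simp only [Function.update_of_ne hj]; exact h.2.1 g t hg
    · rintro ⟨h, h'⟩
      have h : frel p N k (coinUpd p N s ω c) (coinUpd p N s ω' c) := h
      refine ⟨h.1, fun g t hg => ?_, h.2.2⟩
      by_cases hj : g = s.1
      · subst hj
        by_cases hb : t = s.2
        · subst hb; exact h' hg
        · have := h.2.1 s.1 t hg
          simpa [coinUpd, Function.update_self, Function.update_of_ne hb] using this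
      · have := h.2.1 g t hg
        simpa [coinUpd, Function.update_of_ne hj] using this

/-- the spin `i`. -/
def spinUpd (i : Fin N) (ω : Om p N) (c : Bool) : Om p N :=
  (Function.update ω.1 i c, ω.2)

theorem ic_spin (i : Fin N) :
    IC (prior p N) (fil p N).F (fun ω => ω.1 i) (spinUpd p N i)
      (unif Bool) (stepF Bool p.L) where
  get_upd ω c := by simp [spinUpd]
  upd_get ω := by simp [spinUpd]
  upd_upd ω c c' := by simp [spinUpd]
  prob ω c := rfl
  rel k ω ω' c := by
    rw [stepF_iff]
    constructor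
    · intro h
      have h : frel p N k ω ω' := h
      refine ⟨⟨h.1, h.2.1, fun hk => ?_⟩, fun hk => by rw [h.2.2 hk]⟩
      show Function.update ω.1 i c = Function.update ω'.1 i c
      rw [h.2.2 hk]
    · rintro ⟨h, h'⟩
      have h : frel p N k (spinUpd p N i ω c) (spinUpd p N i ω' c) := h
      refine ⟨h.1, h.2.1, fun hk => ?_⟩
      have h1 : Function.update ω.1 i c = Function.update ω'.1 i c := h.2.2 hk
      funext j
      by_cases hj : j = i
      · subst hj; exact h' hk
      · have := congrFun h1 j
        simpa [Function.update_of_ne hj] using this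

/-! ### the projection `N+1 → N` -/

/-- forget the last site. -/
def proj (ω : Om p (N + 1)) : Om p N :=
  (fun i => ω.1 i.castSucc, fun i => ω.2.1 i.castSucc, ω.2.2)

/-- the data of one site. -/
abbrev SD (p : Par) : Type := Bool × (Fin p.nb → Fin p.nc → Fin p.Q)

/-- splitting off the last site. -/
def eqvLast : Om p (N + 1) ≃ Om p N × SD p where
  toFun ω := (proj p N ω, (ω.1 (Fin.last N), ω.2.1 (Fin.last N)))
  invFun z := ((Fin.snoc z.1.1 z.2.1 : Fin (N + 1) → Bool),
    (Fin.snoc z.1.2.1 z.2.2 : Fin (N + 1) → Fin p.nb → Fin p.nc → Fin p.Q), z.1.2.2)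
  left_inv ω := by
    refine Prod.ext ?_ (Prod.ext ?_ rfl)
    · exact Fin.snoc_init_self (α := fun _ => Bool) ω.1
    · exact Fin.snoc_init_self (α := fun _ => Fin p.nb → Fin p.nc → Fin p.Q) ω.2.1
  right_inv z := by
    obtain ⟨⟨s, l, c⟩, ε, l'⟩ := z
    simp [proj]

theorem card_Om_succ : (Fintype.card (Om p (N + 1)) : ℝ) =
    (Fintype.card (Om p N) : ℝ) * (Fintype.card (SD p) : ℝ) := by
  rw [← Nat.cast_mul, ← Fintype.card_prod]
  exact_mod_cast Fintype.card_congr (eqvLast p N)

/-- conditional expectations of functions of the first `N` sites. -/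
theorem cE_proj_last (k : ℕ) (f : Om p N → ℝ) (ω : Om p (N + 1)) :
    cE (prior p (N + 1)) ((fil p (N + 1)).F k) (fun w => f (proj p N w)) ω =
      cE (prior p N) ((fil p N).F k) f (proj p N ω) := by
  classical
  -- relation on the last site
  let g : SD p → SD p → Prop := fun a b => labRel p k a.2 b.2 ∧ (p.L ≤ k → a.1 = b.1)
  have hrel : ∀ w w' : Om p (N + 1), (fil p (N + 1)).F k w w' ↔
      ((fil p N).F k (proj p N w) (proj p N w') ∧
        g (w.1 (Fin.last N), w.2.1 (Fin.last N)) (w'.1 (Fin.last N), w'.2.1 (Fin.last N))) := by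
    intro w w'
    constructor
    · intro h
      have h : frel p (N + 1) k w w' := h
      refine ⟨⟨fun i b g hg => h.1 i.castSucc b g hg, h.2.1, fun hk => ?_⟩,
        fun b g hg => h.1 (Fin.last N) b g hg, fun hk => ?_⟩
      · show (fun i : Fin N => w.1 i.castSucc) = fun i : Fin N => w'.1 i.castSucc
        rw [h.2.2 hk]
      · show w.1 (Fin.last N) = w'.1 (Fin.last N)
        rw [h.2.2 hk]
    · rintro ⟨h, h1, h2⟩
      have h : frel p N k (proj p N w) (proj p N w') := h
      refine ⟨fun i b g hg => ?_, h.2.1, fun hk => ?_⟩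
      · refine Fin.lastCases ?_ (fun j => ?_) i
        · exact h1 b g hg
        · exact h.1 j b g hg
      · funext i
        refine Fin.lastCases ?_ (fun j => ?_) i
        · exact h2 hk
        · exact congrFun (h.2.2 hk) j
  have key : ∀ u : Om p N → ℝ, (∑ w : Om p (N + 1), if (fil p (N + 1)).F k ω w then
      prior p (N + 1) w * u (proj p N w) else 0) =
      (∑ w : Om p N, if (fil p N).F k (proj p N ω) w then prior p N w * u w else 0) *
        ((∑ z : SD p, if g (ω.1 (Fin.last N), ω.2.1 (Fin.last N)) z then (1 : ℝ) else 0) *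
          (Fintype.card (SD p) : ℝ)⁻¹) := by
    intro u
    rw [Finset.sum_mul, ← Equiv.sum_comp (eqvLast p N).symm, Fintype.sum_prod_type]
    refine Finset.sum_congr rfl fun w _ => ?_
    rw [Finset.sum_mul, Finset.mul_sum]
    refine Finset.sum_congr rfl fun z _ => ?_
    have h1 : (eqvLast p N) ((eqvLast p N).symm (w, z)) = (w, z) :=
      Equiv.apply_symm_apply _ _
    have h2 : proj p N ((eqvLast p N).symm (w, z)) = w := congrArg Prod.fst h1
    have h3 : (((eqvLast p N).symm (w, z)).1 (Fin.last N),
        ((eqvLast p N).symm (w, z)).2.1 (Fin.last N)) = z := congrArg Prod.snd h1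
    have h4 := hrel ω ((eqvLast p N).symm (w, z))
    rw [h2, h3] at h4
    rw [h2]
    have h5 : prior p (N + 1) ((eqvLast p N).symm (w, z)) =
        prior p N w * (Fintype.card (SD p) : ℝ)⁻¹ := by
      unfold prior
      rw [card_Om_succ, mul_inv]
    rw [h5]
    by_cases ha : (fil p N).F k (proj p N ω) w
    · by_cases hb : g (ω.1 (Fin.last N), ω.2.1 (Fin.last N)) z
      · have hc := h4.mpr ⟨ha, hb⟩
        simp only [ha, hb, hc, if_true]; ring
      · have hc : ¬ (fil p (N + 1)).F k ω ((eqvLast p N).symm (w, z)) :=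
          fun h => hb (h4.mp h).2
        simp [hb, hc]
    · have hc : ¬ (fil p (N + 1)).F k ω ((eqvLast p N).symm (w, z)) :=
        fun h => ha (h4.mp h).1
      simp [ha, hc]
  have hpos : 0 < ((∑ z : SD p, if g (ω.1 (Fin.last N), ω.2.1 (Fin.last N)) z then (1 : ℝ)
      else 0) * (Fintype.card (SD p) : ℝ)⁻¹) := by
    apply mul_pos
    · apply Finset.sum_pos'
      · intro z _; split_ifs <;> norm_num
      · refine ⟨(ω.1 (Fin.last N), ω.2.1 (Fin.last N)), Finset.mem_univ _, ?_⟩
        have : g (ω.1 (Fin.last N), ω.2.1 (Fin.last N)) (ω.1 (Fin.last N), ω.2.1 (Fin.last N)) :=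
          ⟨fun _ _ _ => rfl, fun _ => rfl⟩
        simp [this]
    · have : Nonempty (SD p) := ⟨(true, fun _ _ => p.z)⟩
      have : (0 : ℝ) < (Fintype.card (SD p) : ℝ) := by exact_mod_cast Fintype.card_pos
      exact inv_pos.mpr this
  have k1 := key f
  have k2 := key (fun _ => 1)
  simp only [mul_one] at k2
  rw [cE_eq_ite, cE_eq_ite, k1, k2, mul_div_mul_right _ _ hpos.ne']

end

end SysIC

end Crest.Agent.R141
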