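import Crest.Agent.R141.Sys

/-!
Row 141 (S0192), Part L: symmetries (relabelling of the gadget labels) of the enriched system and
the resulting independence statements.
-/

set_option autoImplicit false

namespace Crest.Agent.R141.Sym

open Finset Crest.Agent.R141

noncomputable section

section Abs

variable {Ω : Type*} [Fintype Ω] {P : Ω → ℝ} {𝓕 : Filt Ω} {x : ℕ → ℝ} {φ : Ω ≃ Ω}

/-- a symmetry of the weights and of the filtration -/
structure IsSym (P : Ω → ℝ) (𝓕 : Filt Ω) (φ : Ω ≃ Ω) : Prop where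
  law : ∀ ω, P (φ ω) = P ω
  rel : ∀ k ω ω', 𝓕.F k (φ ω) (φ ω') ↔ 𝓕.F k ω ω'

open scoped Classical in
omit [Fintype Ω] in
theorem sum_cls [Fintype Ω] (h : IsSym P 𝓕 φ) (k : ℕ) (g : Ω → ℝ) (ω : Ω) :
    ∑ a ∈ univ.filter (fun a => 𝓕.F k ω a), g (φ a) =
      ∑ a ∈ univ.filter (fun a => 𝓕.F k (φ ω) a), g a := by
  refine Finset.sum_equiv φ (fun a => ?_) (fun a _ => rfl)
  simp only [mem_filter, mem_univ, true_and]
  exact (h.rel k ω a).symm

theorem cE_comp (h : IsSym P 𝓕 φ) (k : ℕ) (f : Ω → ℝ) (ω : Ω) :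
    cE P (𝓕.F k) (fun a => f (φ a)) ω = cE P (𝓕.F k) f (φ ω) := by
  classical
  unfold cE
  rw [← sum_cls h k (fun a => P a * f a) ω, ← sum_cls h k P ω]
  simp only [h.law]

theorem A_comp (hP : IsProb P) (hx : ∀ k, 0 < x k) (h : IsSym P 𝓕 φ) (U : Ω → ℝ) (k : ℕ) :
    ∀ ω, A P 𝓕 x (fun a => U (φ a)) k ω = A P 𝓕 x U k (φ ω) := by
  refine back_induction 𝓕
    (Q := fun k => ∀ ω, A P 𝓕 x (fun a => U (φ a)) k ω = A P 𝓕 x U k (φ ω)) ?_ ?_ k
  · intro k hk ω; rw [A_of_ge _ hk, A_of_ge _ hk]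
  · intro k ih ω
    rw [A_step hP hx _ k, A_step hP hx U k]
    unfold pm
    rw [← cE_comp h k (fun a => Real.exp (x (k + 1) * A P 𝓕 x U (k + 1) a)) ω]
    congr 3
    funext a
    rw [ih a]

theorem A_inv (hP : IsProb P) (hx : ∀ k, 0 < x k) (h : IsSym P 𝓕 φ) {U : Ω → ℝ}
    (hU : ∀ ω, U (φ ω) = U ω) (k : ℕ) (ω : Ω) : A P 𝓕 x U k (φ ω) = A P 𝓕 x U k ω := by
  rw [← A_comp hP hx h U k ω]
  congr 1
  funext a; exact hU a

theorem tl_sym (hP : IsProb P) (hx : ∀ k, 0 < x k) (h : IsSym P 𝓕 φ) {U : Ω → ℝ}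
    (hU : ∀ ω, U (φ ω) = U ω) : IsSym (tl P 𝓕 x U) 𝓕 φ := by
  refine ⟨fun ω => ?_, h.rel⟩
  unfold tl S
  rw [h.law]
  congr 2
  refine Finset.sum_congr rfl fun l _ => ?_
  rw [A_inv hP hx h hU, A_inv hP hx h hU]

theorem cE_inv_cls (h : IsSym P 𝓕 φ) {k : ℕ} (hk : ∀ ω, 𝓕.F k ω (φ ω)) (f : Ω → ℝ) (ω : Ω) :
    cE P (𝓕.F k) (fun a => f (φ a)) ω = cE P (𝓕.F k) f ω := by
  rw [cE_comp h, ← cE_meas P (𝓕.F k) f ω (φ ω) (hk ω)]

theorem cE_inv (h : IsSym P 𝓕 φ) (k : ℕ) {f : Ω → ℝ} (hf : ∀ ω, f (φ ω) = f ω) (ω : Ω) :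
    cE P (𝓕.F k) f (φ ω) = cE P (𝓕.F k) f ω := by
  rw [← cE_comp h]
  congr 1
  funext a; exact hf a

end Abs

variable (p : Par) (N : ℕ)

/-- relabelling of all labels. -/
def rl (Pm : Fin N → Fin p.nb → Fin p.nc → Equiv.Perm (Fin p.Q)) : Om p N ≃ Om p N :=
  Equiv.prodCongr (Equiv.refl _) (Equiv.prodCongr
    (Equiv.piCongrRight fun i => Equiv.piCongrRight fun b => Equiv.piCongrRight fun g => Pm i b g)
    (Equiv.refl _))

theorem rl_fst (Pm : Fin N → Fin p.nb → Fin p.nc → Equiv.Perm (Fin p.Q)) (ω : Om p N) :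
    (rl p N Pm ω).1 = ω.1 := rfl

theorem rl_lab (Pm : Fin N → Fin p.nb → Fin p.nc → Equiv.Perm (Fin p.Q)) (ω : Om p N)
    (i : Fin N) (b : Fin p.nb) (g : Fin p.nc) :
    (rl p N Pm ω).2.1 i b g = Pm i b g (ω.2.1 i b g) := rfl

theorem rl_coin (Pm : Fin N → Fin p.nb → Fin p.nc → Equiv.Perm (Fin p.Q)) (ω : Om p N) :
    (rl p N Pm ω).2.2 = ω.2.2 := rfl

theorem rl_sym (Pm : Fin N → Fin p.nb → Fin p.nc → Equiv.Perm (Fin p.Q)) :
    IsSym (prior p N) (fil p N) (rl p N Pm) := by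
  refine ⟨fun ω => rfl, fun k ω ω' => ?_⟩
  rw [fil_rel, fil_rel]
  unfold frel
  constructor
  · rintro ⟨h1, h2, h3⟩
    refine ⟨fun i b g hg => ?_, h2, h3⟩
    have := h1 i b g hg
    rw [rl_lab, rl_lab] at this
    exact (Pm i b g).injective this
  · rintro ⟨h1, h2, h3⟩
    refine ⟨fun i b g hg => ?_, h2, h3⟩
    rw [rl_lab, rl_lab, h1 i b g hg]

/-- relabelling of one label. -/
def rl1 (i : Fin N) (b : Fin p.nb) (g : Fin p.nc) (π : Equiv.Perm (Fin p.Q)) : Om p N ≃ Om p N :=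
  rl p N (fun i' b' g' => if i' = i ∧ b' = b ∧ g' = g then π else 1)

variable {p N}

theorem rl1_fst (i : Fin N) (b : Fin p.nb) (g : Fin p.nc) (π : Equiv.Perm (Fin p.Q)) (ω : Om p N) :
    (rl1 p N i b g π ω).1 = ω.1 := rfl

theorem rl1_coin (i : Fin N) (b : Fin p.nb) (g : Fin p.nc) (π : Equiv.Perm (Fin p.Q))
    (ω : Om p N) : (rl1 p N i b g π ω).2.2 = ω.2.2 := rfl

theorem rl1_same (i : Fin N) (b : Fin p.nb) (g : Fin p.nc) (π : Equiv.Perm (Fin p.Q))
    (ω : Om p N) : (rl1 p N i b g π ω).2.1 i b g = π (ω.2.1 i b g) := by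
  unfold rl1; rw [rl_lab]; simp

theorem rl1_ne (i : Fin N) (b : Fin p.nb) (g : Fin p.nc) (π : Equiv.Perm (Fin p.Q))
    (ω : Om p N) {i' : Fin N} {b' : Fin p.nb} {g' : Fin p.nc} (h : ¬ (i' = i ∧ b' = b ∧ g' = g)) :
    (rl1 p N i b g π ω).2.1 i' b' g' = ω.2.1 i' b' g' := by
  unfold rl1; rw [rl_lab, if_neg h]; rfl

/-- the labels of another gadget do not change. -/
theorem rl1_ne' (i : Fin N) (b : Fin p.nb) (g : Fin p.nc) (π : Equiv.Perm (Fin p.Q))
    (ω : Om p N) {i' : Fin N} {b' : Fin p.nb} (h : ¬ (i' = i ∧ b' = b)) :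
    (rl1 p N i b g π ω).2.1 i' b' = ω.2.1 i' b' := by
  funext g'
  exact rl1_ne i b g π ω (fun h' => h ⟨h'.1, h'.2.1⟩)

theorem rl1_sym (i : Fin N) (b : Fin p.nb) (g : Fin p.nc) (π : Equiv.Perm (Fin p.Q)) :
    IsSym (prior p N) (fil p N) (rl1 p N i b g π) := rl_sym p N _

theorem rl1_cls (i : Fin N) (b : Fin p.nb) (g : Fin p.nc) (π : Equiv.Perm (Fin p.Q))
    {k : ℕ} (hk : k < p.mt g) (ω : Om p N) : (fil p N).F k ω (rl1 p N i b g π ω) := by
  rw [fil_rel]
  refine ⟨fun i' b' g' hg' => ?_, fun _ _ _ => rfl, fun _ => rfl⟩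
  rw [rl1_ne]
  rintro ⟨-, -, rfl⟩
  omega

/-- invariance under relabelling of the label `(i,b,g)`. -/
def Inv (i : Fin N) (b : Fin p.nb) (g : Fin p.nc) (f : Om p N → ℝ) : Prop :=
  ∀ (π : Equiv.Perm (Fin p.Q)) (ω : Om p N), f (rl1 p N i b g π ω) = f ω

/-- weights whose law is invariant under relabelling of the label `(i,b,g)`. -/
def SymP (i : Fin N) (b : Fin p.nb) (g : Fin p.nc) (P : Om p N → ℝ) : Prop :=
  ∀ π : Equiv.Perm (Fin p.Q), IsSym P (fil p N) (rl1 p N i b g π)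

theorem symP_prior (i : Fin N) (b : Fin p.nb) (g : Fin p.nc) : SymP i b g (prior p N) :=
  fun π => rl1_sym i b g π

theorem symP_tl {P : Om p N → ℝ} {x : ℕ → ℝ} (hP : IsProb P) (hx : ∀ k, 0 < x k) {i : Fin N}
    {b : Fin p.nb} {g : Fin p.nc} (h : SymP i b g P) {U : Om p N → ℝ} (hU : Inv i b g U) :
    SymP i b g (tl P (fil p N) x U) :=
  fun π => tl_sym hP hx (h π) (hU π)

theorem Inv.add {i : Fin N} {b : Fin p.nb} {g : Fin p.nc} {f f' : Om p N → ℝ}
    (h : Inv i b g f) (h' : Inv i b g f') : Inv i b g (fun ω => f ω + f' ω) :=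
  fun π ω => by simp only [h π ω, h' π ω]

theorem Inv.mul {i : Fin N} {b : Fin p.nb} {g : Fin p.nc} {f f' : Om p N → ℝ}
    (h : Inv i b g f) (h' : Inv i b g f') : Inv i b g (fun ω => f ω * f' ω) :=
  fun π ω => by simp only [h π ω, h' π ω]

theorem Inv.comp {i : Fin N} {b : Fin p.nb} {g : Fin p.nc} {f : Om p N → ℝ}
    (h : Inv i b g f) (F : ℝ → ℝ) : Inv i b g (fun ω => F (f ω)) :=
  fun π ω => by simp only [h π ω]

theorem Inv.sum {i : Fin N} {b : Fin p.nb} {g : Fin p.nc} {ι : Type*} {s : Finset ι}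
    {f : ι → Om p N → ℝ} (h : ∀ a ∈ s, Inv i b g (f a)) : Inv i b g (fun ω => ∑ a ∈ s, f a ω) :=
  fun π ω => Finset.sum_congr rfl fun a ha => h a ha π ω

theorem Inv.const {i : Fin N} {b : Fin p.nb} {g : Fin p.nc} (c : ℝ) :
    Inv (p := p) (N := N) i b g (fun _ => c) := fun _ _ => rfl

theorem Inv.spin {i : Fin N} {b : Fin p.nb} {g : Fin p.nc} (H : (Fin N → Bool) → ℝ) :
    Inv (p := p) (N := N) i b g (fun ω => H ω.1) := fun _ _ => rfl

theorem Inv.cE {i : Fin N} {b : Fin p.nb} {g : Fin p.nc} {P f : Om p N → ℝ}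
    (h : SymP i b g P) (hf : Inv i b g f) (k : ℕ) : Inv i b g (R141.cE P ((fil p N).F k) f) :=
  fun π ω => cE_inv (h π) k (hf π) ω

/-- the labels of another gadget are invariant. -/
theorem Inv.lab {i : Fin N} {b : Fin p.nb} {g : Fin p.nc} {i' : Fin N} {b' : Fin p.nb}
    (h : ¬ (i' = i ∧ b' = b)) (F : (Fin p.nc → Fin p.Q) → (Fin N → Bool) →
      (Fin p.nc → Fin p.T → Bool) → ℝ) :
    Inv (p := p) (N := N) i b g (fun ω => F (ω.2.1 i' b') ω.1 ω.2.2) := by
  intro π ω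
  simp only [rl1_ne' i b g π ω h]
  rfl

theorem Inv.gfac {i : Fin N} {b : Fin p.nb} {g : Fin p.nc} {i' : Fin N} {b' : Fin p.nb}
    (h : ¬ (i' = i ∧ b' = b)) : Inv i b g (R141.gfac p N i' b') :=
  Inv.lab h (fun l s _ => Real.log (1 + gval p b' l * sv (s i')))

theorem Inv.vb {i : Fin N} {b : Fin p.nb} {g : Fin p.nc} {i' : Fin N} {b' : Fin p.nb}
    (h : ¬ (i' = i ∧ b' = b)) : Inv i b g (cv p N (i', some b')) :=
  Inv.lab h (fun l _ _ => R141.vb p b' l)

theorem Inv.cfac {i : Fin N} {b : Fin p.nb} {g : Fin p.nc} {o : Option (Crd p N)}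
    (h : ∀ o', o ≠ some (i, o')) (k : Stp p) : Inv i b g (R141.cfac p N o k) := by
  intro π ω
  rcases o with _ | c
  · rfl
  · have key : cv p N c (rl1 p N i b g π ω) = cv p N c ω := by
      rcases c with ⟨i', _ | b'⟩
      · rfl
      · refine Inv.vb (fun h' => h (some b') ?_) π ω
        rw [h'.1]
    unfold R141.cfac
    rw [rl1_coin]
    simp only []
    rw [key]

theorem Inv.cfacd {i : Fin N} {b : Fin p.nb} {g : Fin p.nc} {d : DD p N}
    (h : ¬ touched p N d i) (k : Stp p) : Inv i b g (R141.cfac p N (d k) k) :=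
  Inv.cfac (fun o' ho => h ⟨k, o', ho⟩) k

/-- the enrichment of the other gadgets. -/
theorem Inv.coins {i : Fin N} {b : Fin p.nb} {g : Fin p.nc} {d : DD p N}
    (h : ¬ touched p N d i) : Inv i b g (fun ω => ∑ k, R141.cfac p N (d k) k ω) :=
  Inv.sum fun k _ => Inv.cfacd h k

/-- **Independence of a label**: the label `(i,b,g)` is uniform and independent of invariant
functions, given the past before its step. -/
theorem cE_label {P : Om p N → ℝ} (_hP : IsProb P) {i : Fin N} {b : Fin p.nb} {g : Fin p.nc}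
    (h : SymP i b g P) {k : ℕ} (hk : k < p.mt g) (F : Fin p.Q → Om p N → ℝ)
    (hF : ∀ q, Inv i b g (F q)) (ω : Om p N) :
    cE P ((fil p N).F k) (fun a => F (a.2.1 i b g) a) ω =
      (p.Q : ℝ)⁻¹ * ∑ q, cE P ((fil p N).F k) (F q) ω := by
  have hQ : (0 : ℝ) < p.Q := by have := p.hQ; positivity
  have e1 : (fun a : Om p N => F (a.2.1 i b g) a) =
      fun a => ∑ q, (if a.2.1 i b g = q then 1 else 0) * F q a := by
    funext a
    rw [Finset.sum_eq_single (a.2.1 i b g)]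
    · simp
    · intro q _ hq; rw [if_neg (Ne.symm hq), zero_mul]
    · intro h; exact absurd (Finset.mem_univ _) h
  -- each indicator has the same conditional expectation
  have e2 : ∀ q q' : Fin p.Q, cE P ((fil p N).F k)
      (fun a => (if a.2.1 i b g = q' then (1:ℝ) else 0) * F q a) ω =
      cE P ((fil p N).F k) (fun a => (if a.2.1 i b g = q then (1:ℝ) else 0) * F q a) ω := by
    intro q q'
    rw [← cE_inv_cls (h (Equiv.swap q q')) (fun ω => rl1_cls i b g _ hk ω)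
      (fun a => (if a.2.1 i b g = q then (1:ℝ) else 0) * F q a) ω]
    congr 1
    funext a
    rw [rl1_same, hF q]
    congr 1
    have : (Equiv.swap q q' (a.2.1 i b g) = q) ↔ (a.2.1 i b g = q') := by
      constructor
      · intro h'
        have := congrArg (Equiv.swap q q') h'
        rw [Equiv.swap_apply_self, Equiv.swap_apply_left] at this
        exact this
      · intro h'; rw [h', Equiv.swap_apply_right]
    simp only [this]
  have e3 : ∀ q : Fin p.Q, cE P ((fil p N).F k)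
      (fun a => (if a.2.1 i b g = q then (1:ℝ) else 0) * F q a) ω =
      (p.Q : ℝ)⁻¹ * cE P ((fil p N).F k) (F q) ω := by
    intro q
    have h1 : cE P ((fil p N).F k) (F q) ω = ∑ q' : Fin p.Q, cE P ((fil p N).F k)
      (fun a => (if a.2.1 i b g = q' then (1:ℝ) else 0) * F q a) ω := by
      rw [← cE_sum]
      congr 1
      funext a
      rw [← Finset.sum_mul]
      simp
    have h2 : ∑ q' : Fin p.Q, cE P ((fil p N).F k)
      (fun a => (if a.2.1 i b g = q' then (1:ℝ) else 0) * F q a) ω = (p.Q : ℝ) *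
        cE P ((fil p N).F k) (fun a => (if a.2.1 i b g = q then (1:ℝ) else 0) * F q a) ω := by
      rw [Finset.sum_congr rfl (fun q' _ => e2 q q')]
      simp
    rw [h1, h2, ← mul_assoc, inv_mul_cancel₀ hQ.ne', one_mul]
  rw [e1, cE_sum, Finset.mul_sum]
  exact Finset.sum_congr rfl fun q _ => e3 q

/-- the presence indicator times an invariant function. -/
theorem cE_vb_mul {P : Om p N → ℝ} (hP : IsProb P) {i : Fin N} {b : Fin p.nb}
    (h : SymP i b (p.lev b) P) {k : ℕ} (hk : k < p.mt (p.lev b)) {f : Om p N → ℝ}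
    (hf : Inv i b (p.lev b) f) (ω : Om p N) :
    cE P ((fil p N).F k) (fun a => cv p N (i, some b) a * f a) ω =
      (p.Q : ℝ)⁻¹ * cE P ((fil p N).F k) f ω := by
  have h1 := cE_label hP h hk (fun q a => (if q = p.z then (1:ℝ) else 0) * f a)
    (fun q => (Inv.const _).mul hf) ω
  have e : (fun a : Om p N => cv p N (i, some b) a * f a) =
      fun a => (if a.2.1 i b (p.lev b) = p.z then (1:ℝ) else 0) * f a := by
    funext a; rfl
  rw [e, h1]
  congr 1
  rw [Finset.sum_eq_single p.z]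
  · simp
  · intro q _ hq
    simp only [if_neg hq, zero_mul]
    exact cE_const hP _ 0 ω
  · intro h'; exact absurd (Finset.mem_univ _) h'

theorem cE_vb {P : Om p N → ℝ} (hP : IsProb P) {i : Fin N} {b : Fin p.nb}
    (h : SymP i b (p.lev b) P) {k : ℕ} (hk : k < p.mt (p.lev b)) (ω : Om p N) :
    cE P ((fil p N).F k) (cv p N (i, some b)) ω = (p.Q : ℝ)⁻¹ := by
  have := cE_vb_mul hP h hk (f := fun _ => 1) (Inv.const 1) ω
  simp only [mul_one] at this
  rw [cE_const hP, mul_one] at this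
  exact this

end

end Crest.Agent.R141.Sym
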