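import Crest.Agent.R141.TreeFour

set_option autoImplicit false
open MeasureTheory Filter Topology Set

namespace Crest.Agent.R141.Tree

variable {L : Type*} {r : ℕ} [Fintype L]

/-- one-level integral, for fixed lower structure `K'` -/
noncomputable def FF (φ : ℝ → ℝ) (m : Fin (r + 1) → ℝ)
    (W : (L → Fin (r + 1 + 1) → unitInterval) → ℝ) (k : ℕ) (K' : Fin r → ℕ) : ℝ :=
  ∫ u0, ∫ ξ, φ (Zs (Zw r (Fin.tail m) K' (consW W u0)) (m 0) k ξ)
    ∂(noise (JL L r K') k) ∂(rootLaw L)

noncomputable def II (φ : ℝ → ℝ) (r : ℕ) (m : Fin r → ℝ) (K : Fin r → ℕ)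
    (W : (L → Fin (r + 1) → unitInterval) → ℝ) : ℝ :=
  ∫ p, φ (Zw r m K W p) ∂(JL L r K)

lemma II_cons (m : Fin (r + 1) → ℝ) {k : ℕ} {K' : Fin r → ℕ}
    {W : (L → Fin (r + 1 + 1) → unitInterval) → ℝ} (hW : Measurable W) {φ : ℝ → ℝ}
    (hφ : Measurable φ)
    (hint : Integrable (fun p => φ (Zw (r + 1) m (Fin.cons k K') W p)) (JL L (r + 1) (Fin.cons k K'))) :
    II φ (r + 1) m (Fin.cons k K') W = FF φ m W k K' := by
  unfold II
  rw [integral_JL_succ m _ hW hφ hint]
  change FF φ m W ((Fin.cons k K' : Fin (r + 1) → ℕ) 0)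
    (Fin.tail (Fin.cons k K' : Fin (r + 1) → ℕ)) = _
  rw [Fin.cons_zero, Fin.tail_cons]

section

variable {c C : ℝ} {W : (L → Fin (r + 1 + 1) → unitInterval) → ℝ} {m : Fin (r + 1) → ℝ}
  {K' : Fin r → ℕ}

omit [Fintype L] in
lemma measurable_Zs_joint (hW : Measurable W) (k : ℕ) :
    Measurable (fun x : (L → unitInterval) × (Fin k → unitInterval ×
      (NT r K' × (L → Leaf r K' → Fin (r + 1) → unitInterval))) =>
      Zs (Zw r (Fin.tail m) K' (consW W x.1)) (m 0) k x.2) := by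
  unfold Zs
  refine Finset.measurable_sum _ (fun a _ => ?_)
  refine Measurable.mul ?_ ?_
  · exact (measurable_wgt _ _).comp (measurable_subtype_coe.comp
      (measurable_fst.comp ((measurable_pi_apply a).comp measurable_snd)))
  · have h := measurable_Zw (Fin.tail m) K' (W := fun u0 : L → unitInterval => consW W u0)
      (measurable_consW hW)
    have h2 : Measurable (fun x : (L → unitInterval) × (Fin k → unitInterval ×
      (NT r K' × (L → Leaf r K' → Fin (r + 1) → unitInterval))) => (x.1, (x.2 a).2)) :=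
      measurable_fst.prodMk (measurable_snd.comp ((measurable_pi_apply a).comp measurable_snd))
    exact h.comp h2

lemma Zs_mono {Ω : Type*} {S S' : Ω → ℝ} (h : ∀ ω, S ω ≤ S' ω) (m : ℝ) {k : ℕ} (hk : 0 < k)
    (ξ : Fin k → unitInterval × Ω) : Zs S m k ξ ≤ Zs S' m k ξ := by
  unfold Zs
  exact Finset.sum_le_sum (fun a _ => mul_le_mul_of_nonneg_left (h _) (wgt_pos m hk _).le)

lemma Zs_smul {Ω : Type*} (S : Ω → ℝ) (b m : ℝ) (k : ℕ)
    (ξ : Fin k → unitInterval × Ω) : Zs (fun ω => b * S ω) m k ξ = b * Zs S m k ξ := by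
  unfold Zs
  rw [Finset.mul_sum]
  exact Finset.sum_congr rfl (fun a _ => by ring)

omit [Fintype L] in
lemma Zs_Zw_le (hWC : ∀ u, W u ≤ C) (hK' : ∀ i, 0 < K' i) {k : ℕ} (hk : 0 < k)
    (u0 : L → unitInterval) (ξ : Fin k → unitInterval ×
      (NT r K' × (L → Leaf r K' → Fin (r + 1) → unitInterval))) :
    Zs (Zw r (Fin.tail m) K' (consW W u0)) (m 0) k ξ
      ≤ C * Zs (Zw r (Fin.tail m) K' (fun _ => 1)) (m 0) k ξ := by
  rw [← Zs_smul]
  exact Zs_mono (fun ω => Zw_le (fun u => hWC _) _ K' hK' ω) _ hk ξ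

omit [Fintype L] in
lemma le_Zs_Zw (hcW : ∀ u, c ≤ W u) (hK' : ∀ i, 0 < K' i) {k : ℕ} (hk : 0 < k)
    (u0 : L → unitInterval) (ξ : Fin k → unitInterval ×
      (NT r K' × (L → Leaf r K' → Fin (r + 1) → unitInterval))) :
    c * Zs (Zw r (Fin.tail m) K' (fun _ => 1)) (m 0) k ξ
      ≤ Zs (Zw r (Fin.tail m) K' (consW W u0)) (m 0) k ξ := by
  rw [← Zs_smul]
  exact Zs_mono (fun ω => Zw_ge (fun u => hcW _) _ K' hK' ω) _ hk ξ

lemma tendsto_FF_rpow (hW : Measurable W) (hc : 0 < c) (hcW : ∀ u, c ≤ W u)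
    (hWC : ∀ u, W u ≤ C) (hmono : StrictMono m) (hm : ∀ i, 0 < m i ∧ m i < 1)
    (hK' : ∀ i, 0 < K' i) {q : ℝ} (hq : 0 < q) (hqm : q < m 0) :
    Tendsto (fun k : ℕ => FF (fun x => x ^ q) m W k K') atTop
      (𝓝 (∫ u0, GA (m 0) q (II (fun x => x ^ (m 0)) r (Fin.tail m) K' (consW W u0))
        ∂(rootLaw L))) := by
  have hC : 0 < C := hc.trans_le ((hcW (fun _ _ => 0)).trans (hWC _))
  have hmono' : StrictMono (Fin.tail m) := hmono.comp (Fin.strictMono_succ)
  have hm' : ∀ i, 0 < Fin.tail m i ∧ Fin.tail m i < 1 := fun i => hm i.succ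
  have hlt : ∀ i, m 0 < Fin.tail m i := fun i => hmono (Fin.succ_pos i)
  have hlow := lowV_pos r (Fin.tail m) K' hK'
  have hone := integrable_Zw_one_rpow (L := L) r (Fin.tail m) hmono' hm' K' hK' (m 0) (hm 0).1 hlt
  have hSone := measurable_Zw' (L := L) (Fin.tail m) K' (W := fun _ => 1) measurable_const
  have hTone := tendsto_Zs_rpow (JL L r K') hSone hlow (Zw_one_ge _ _ hK') (hm 0).1 (hm 0).2 hone hq hqm
  obtain ⟨M, hM⟩ := hTone.bddAbove_range
  have hM' : ∀ k, ∫ ξ, Zs (Zw r (Fin.tail m) K' (fun _ => 1)) (m 0) k ξ ^ q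
      ∂(noise (JL L r K') k) ≤ M := fun k => hM ⟨k, rfl⟩
  unfold FF
  rw [← tendsto_add_atTop_iff_nat 1]
  refine tendsto_integral_of_dominated_convergence (fun _ => C ^ q * M) (fun k => ?_)
    (integrable_const _) (fun k => Filter.Eventually.of_forall (fun u0 => ?_))
    (Filter.Eventually.of_forall (fun u0 => ?_))
  · have h := measurable_Zs_joint (K' := K') (m := m) hW (k + 1)
    have h2 : Measurable (Function.uncurry (fun (u0 : L → unitInterval) ξ =>
      Zs (Zw r (Fin.tail m) K' (consW W u0)) (m 0) (k + 1) ξ ^ q)) := h.pow_const q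
    exact (h2.stronglyMeasurable.integral_prod_right' (ν := noise (JL L r K') (k + 1))).aestronglyMeasurable
  · have hk := Nat.succ_pos k
    have hpos : ∀ ξ, 0 ≤ Zs (Zw r (Fin.tail m) K' (consW W u0)) (m 0) (k + 1) ξ := fun ξ =>
      (Zs_pos (mul_pos hc hlow) (Zw_lower hc (fun u => hcW _) _ K' hK') (m 0) hk ξ).le
    have hpos1 : ∀ ξ, 0 ≤ Zs (Zw (L := L) r (Fin.tail m) K' (fun _ => 1)) (m 0) (k + 1) ξ := fun ξ =>
      (Zs_pos hlow (Zw_one_ge _ _ hK') (m 0) hk ξ).le
    rw [Real.norm_of_nonneg (integral_nonneg (fun ξ => Real.rpow_nonneg (hpos ξ) _))]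
    calc _ ≤ ∫ ξ, C ^ q * Zs (Zw r (Fin.tail m) K' (fun _ => 1)) (m 0) (k + 1) ξ ^ q
          ∂(noise (JL L r K') (k + 1)) := by
          refine integral_mono_of_nonneg (Filter.Eventually.of_forall
            (fun ξ => Real.rpow_nonneg (hpos ξ) _)) ?_ (Filter.Eventually.of_forall (fun ξ => ?_))
          · exact (integrable_Zs_rpow (JL L r K') hSone hlow (Zw_one_ge _ _ hK') (hm 0).1 (hm 0).2
              hone hq hqm hk).const_mul _
          · simp only
            rw [← Real.mul_rpow hC.le (hpos1 ξ)]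
            exact Real.rpow_le_rpow (hpos ξ) (Zs_Zw_le hWC hK' hk u0 ξ) hq.le
      _ ≤ C ^ q * M := by
          rw [integral_const_mul]
          exact mul_le_mul_of_nonneg_left (hM' _) (Real.rpow_nonneg hC.le _)
  · have h := tendsto_Zs_rpow (JL L r K') (measurable_Zw' (Fin.tail m) K' (measurable_consW' hW u0))
      (mul_pos hc hlow) (Zw_lower hc (fun u => hcW _) _ K' hK') (hm 0).1 (hm 0).2
      (integrable_Zw_rpow (measurable_consW' hW u0) hc (fun u => hcW _) (fun u => hWC _) hmono' hm'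
        hK' (hm 0).1 hlt) hq hqm
    exact h.comp (tendsto_add_atTop_nat 1)

lemma tendsto_FF_log (hW : Measurable W) (hc : 0 < c) (hcW : ∀ u, c ≤ W u)
    (hWC : ∀ u, W u ≤ C) (hmono : StrictMono m) (hm : ∀ i, 0 < m i ∧ m i < 1)
    (hK' : ∀ i, 0 < K' i) :
    Tendsto (fun k : ℕ => FF Real.log m W k K') atTop
      (𝓝 (∫ u0, GB (m 0) (II (fun x => x ^ (m 0)) r (Fin.tail m) K' (consW W u0))
        ∂(rootLaw L))) := by
  have hC : 0 < C := hc.trans_le ((hcW (fun _ _ => 0)).trans (hWC _))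
  have hmono' : StrictMono (Fin.tail m) := hmono.comp (Fin.strictMono_succ)
  have hm' : ∀ i, 0 < Fin.tail m i ∧ Fin.tail m i < 1 := fun i => hm i.succ
  have hlt : ∀ i, m 0 < Fin.tail m i := fun i => hmono (Fin.succ_pos i)
  have hlow := lowV_pos r (Fin.tail m) K' hK'
  have hone := integrable_Zw_one_rpow (L := L) r (Fin.tail m) hmono' hm' K' hK' (m 0) (hm 0).1 hlt
  have hSone := measurable_Zw' (L := L) (Fin.tail m) K' (W := fun _ => 1) measurable_const
  have hTone := tendsto_log_Zs (JL L r K') hSone hlow (Zw_one_ge _ _ hK') (hm 0).1 (hm 0).2 hone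
  obtain ⟨M, hM⟩ := hTone.bddAbove_range
  obtain ⟨M2, hM2⟩ := hTone.bddBelow_range
  have hM' : ∀ k, ∫ ξ, Real.log (Zs (Zw r (Fin.tail m) K' (fun _ => 1)) (m 0) k ξ)
      ∂(noise (JL L r K') k) ≤ M := fun k => hM ⟨k, rfl⟩
  have hM2' : ∀ k, M2 ≤ ∫ ξ, Real.log (Zs (Zw r (Fin.tail m) K' (fun _ => 1)) (m 0) k ξ)
      ∂(noise (JL L r K') k) := fun k => hM2 ⟨k, rfl⟩
  unfold FF
  rw [← tendsto_add_atTop_iff_nat 1]
  refine tendsto_integral_of_dominated_convergence
    (fun _ => max (Real.log C + M) (-(Real.log c + M2))) (fun k => ?_)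
    (integrable_const _) (fun k => Filter.Eventually.of_forall (fun u0 => ?_))
    (Filter.Eventually.of_forall (fun u0 => ?_))
  · have h := measurable_Zs_joint (K' := K') (m := m) hW (k + 1)
    have h2 : Measurable (Function.uncurry (fun (u0 : L → unitInterval) ξ =>
      Real.log (Zs (Zw r (Fin.tail m) K' (consW W u0)) (m 0) (k + 1) ξ))) := h.log
    exact (h2.stronglyMeasurable.integral_prod_right' (ν := noise (JL L r K') (k + 1))).aestronglyMeasurable
  · have hk := Nat.succ_pos k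
    have hpos : ∀ ξ, 0 < Zs (Zw r (Fin.tail m) K' (consW W u0)) (m 0) (k + 1) ξ := fun ξ =>
      (Zs_pos (mul_pos hc hlow) (Zw_lower hc (fun u => hcW _) _ K' hK') (m 0) hk ξ)
    have hpos1 : ∀ ξ, 0 < Zs (Zw (L := L) r (Fin.tail m) K' (fun _ => 1)) (m 0) (k + 1) ξ := fun ξ =>
      (Zs_pos hlow (Zw_one_ge _ _ hK') (m 0) hk ξ)
    have hi1 := integrable_log_Zs (JL L r K') hSone hlow (Zw_one_ge _ _ hK') (hm 0).1 (hm 0).2 hone hk
    have hi := integrable_log_Zs (JL L r K')
      (measurable_Zw' (Fin.tail m) K' (measurable_consW' hW u0))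
      (mul_pos hc hlow) (Zw_lower hc (fun u => hcW _) _ K' hK') (hm 0).1 (hm 0).2
      (integrable_Zw_rpow (measurable_consW' hW u0) hc (fun u => hcW _) (fun u => hWC _) hmono' hm'
        hK' (hm 0).1 hlt) hk
    have hup : ∫ ξ, Real.log (Zs (Zw r (Fin.tail m) K' (consW W u0)) (m 0) (k + 1) ξ)
        ∂(noise (JL L r K') (k + 1)) ≤ Real.log C + M := by
      calc _ ≤ ∫ ξ, (Real.log C + Real.log (Zs (Zw r (Fin.tail m) K' (fun _ => 1)) (m 0) (k + 1) ξ))
            ∂(noise (JL L r K') (k + 1)) := by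
            refine integral_mono hi ((integrable_const _).add hi1) (fun ξ => ?_)
            simp only
            rw [← Real.log_mul hC.ne' (hpos1 ξ).ne']
            exact Real.log_le_log (hpos ξ) (Zs_Zw_le hWC hK' hk u0 ξ)
        _ ≤ _ := by
            rw [integral_add (integrable_const _) hi1]
            have := hM' (k + 1)
            simp only [integral_const, probReal_univ, one_smul]
            linarith
    have hdn : Real.log c + M2 ≤ ∫ ξ, Real.log (Zs (Zw r (Fin.tail m) K' (consW W u0)) (m 0) (k + 1) ξ)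
        ∂(noise (JL L r K') (k + 1)) := by
      calc _ ≤ ∫ ξ, (Real.log c + Real.log (Zs (Zw r (Fin.tail m) K' (fun _ => 1)) (m 0) (k + 1) ξ))
            ∂(noise (JL L r K') (k + 1)) := by
            rw [integral_add (integrable_const _) hi1]
            have := hM2' (k + 1)
            simp only [integral_const, probReal_univ, one_smul]
            linarith
        _ ≤ _ := by
            refine integral_mono ((integrable_const _).add hi1) hi (fun ξ => ?_)
            simp only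
            rw [← Real.log_mul hc.ne' (hpos1 ξ).ne']
            exact Real.log_le_log (mul_pos hc (hpos1 ξ)) (le_Zs_Zw hcW hK' hk u0 ξ)
    rw [Real.norm_eq_abs, abs_le]
    have h1 := le_max_left (Real.log C + M) (-(Real.log c + M2))
    have h2 := le_max_right (Real.log C + M) (-(Real.log c + M2))
    constructor <;> linarith
  · have h := tendsto_log_Zs (JL L r K') (measurable_Zw' (Fin.tail m) K' (measurable_consW' hW u0))
      (mul_pos hc hlow) (Zw_lower hc (fun u => hcW _) _ K' hK') (hm 0).1 (hm 0).2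
      (integrable_Zw_rpow (measurable_consW' hW u0) hc (fun u => hcW _) (fun u => hWC _) hmono' hm'
        hK' (hm 0).1 hlt)
    exact h.comp (tendsto_add_atTop_nat 1)

end

/-! ## ratios -/

section ratio

variable {c C : ℝ} {W : (L → Fin (r + 1) → unitInterval) → ℝ} {m : Fin r → ℝ}
  {K : Fin r → ℕ}

/-- normalised `q`-th moment -/
noncomputable def RR (q : ℝ) (r : ℕ) (m : Fin r → ℝ) (K : Fin r → ℕ)
    (W : (L → Fin (r + 1) → unitInterval) → ℝ) : ℝ :=
  II (fun x => x ^ q) r m K W / II (fun x => x ^ q) r m K (fun _ : L → Fin (r + 1) → unitInterval => 1)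

/-- normalised log -/
noncomputable def DD (r : ℕ) (m : Fin r → ℝ) (K : Fin r → ℕ)
    (W : (L → Fin (r + 1) → unitInterval) → ℝ) : ℝ :=
  II Real.log r m K W - II Real.log r m K (fun _ : L → Fin (r + 1) → unitInterval => 1)

lemma II_one_pos (hmono : StrictMono m) (hm : ∀ i, 0 < m i ∧ m i < 1)
    (hK : ∀ i, 0 < K i) {q : ℝ} (hq : 0 < q) (hqm : ∀ i, q < m i) :
    0 < II (fun x => x ^ q) r m K (fun _ : L → Fin (r + 1) → unitInterval => 1) := by
  unfold II
  have hi := integrable_Zw_one_rpow (L := L) r m hmono hm K hK q hq hqm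
  have hlow := lowV_pos r m K hK
  calc 0 < lowV r m K ^ q := Real.rpow_pos_of_pos hlow _
    _ = ∫ _p, lowV r m K ^ q ∂(JL L r K) := by simp
    _ ≤ _ := by
      refine integral_mono (integrable_const _) hi (fun p => ?_)
      exact Real.rpow_le_rpow hlow.le (Zw_one_ge m K hK p) hq.le

lemma le_RR (hW : Measurable W) (hc : 0 < c) (hcW : ∀ u, c ≤ W u)
    (hWC : ∀ u, W u ≤ C) (hmono : StrictMono m) (hm : ∀ i, 0 < m i ∧ m i < 1)
    (hK : ∀ i, 0 < K i) {q : ℝ} (hq : 0 < q) (hqm : ∀ i, q < m i) :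
    c ^ q ≤ RR q r m K W := by
  unfold RR
  rw [le_div_iff₀ (II_one_pos hmono hm hK hq hqm)]
  unfold II
  rw [← integral_const_mul]
  refine integral_mono ((integrable_Zw_one_rpow (L := L) r m hmono hm K hK q hq hqm).const_mul _)
    (integrable_Zw_rpow hW hc hcW hWC hmono hm hK hq hqm) (fun p => ?_)
  exact le_Zw_rpow hc hcW hK hq p

lemma RR_le (hW : Measurable W) (hc : 0 < c) (hcW : ∀ u, c ≤ W u)
    (hWC : ∀ u, W u ≤ C) (hmono : StrictMono m) (hm : ∀ i, 0 < m i ∧ m i < 1)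
    (hK : ∀ i, 0 < K i) {q : ℝ} (hq : 0 < q) (hqm : ∀ i, q < m i) :
    RR q r m K W ≤ C ^ q := by
  have hC : 0 < C := hc.trans_le ((hcW (fun _ _ => 0)).trans (hWC _))
  unfold RR
  rw [div_le_iff₀ (II_one_pos hmono hm hK hq hqm)]
  unfold II
  rw [← integral_const_mul]
  refine integral_mono (integrable_Zw_rpow hW hc hcW hWC hmono hm hK hq hqm)
    ((integrable_Zw_one_rpow (L := L) r m hmono hm K hK q hq hqm).const_mul _) (fun p => ?_)
  exact Zw_rpow_le hc hcW hWC hC.le hK hq p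

lemma II_pos (hW : Measurable W) (hc : 0 < c) (hcW : ∀ u, c ≤ W u)
    (hWC : ∀ u, W u ≤ C) (hmono : StrictMono m) (hm : ∀ i, 0 < m i ∧ m i < 1)
    (hK : ∀ i, 0 < K i) {q : ℝ} (hq : 0 < q) (hqm : ∀ i, q < m i) :
    0 < II (fun x => x ^ q) r m K W := by
  have h1 := le_RR hW hc hcW hWC hmono hm hK hq hqm
  have h2 := II_one_pos (L := L) hmono hm hK hq hqm
  unfold RR at h1
  rw [le_div_iff₀ h2] at h1
  exact lt_of_lt_of_le (mul_pos (Real.rpow_pos_of_pos hc _) h2) h1

end ratio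

section step

variable {c C : ℝ} {W : (L → Fin (r + 1 + 1) → unitInterval) → ℝ} {m : Fin (r + 1) → ℝ}
  {K' : Fin r → ℕ}

lemma aesm_RR (hW : Measurable W) (q : ℝ) (m : Fin r → ℝ) :
    Measurable (fun u0 : L → unitInterval => RR q r m K' (consW W u0)) := by
  unfold RR II
  refine Measurable.div_const ?_ _
  have h := measurable_Zw m K' (W := fun u0 : L → unitInterval => consW W u0)
      (measurable_consW hW)
  have h2 : Measurable (Function.uncurry (fun (u0 : L → unitInterval) p =>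
    Zw r m K' (consW W u0) p ^ q)) := h.pow_const q
  exact (h2.stronglyMeasurable.integral_prod_right' (ν := JL L r K')).measurable

lemma tendsto_RR_succ (hW : Measurable W) (hc : 0 < c) (hcW : ∀ u, c ≤ W u)
    (hWC : ∀ u, W u ≤ C) (hmono : StrictMono m) (hm : ∀ i, 0 < m i ∧ m i < 1)
    (hK' : ∀ i, 0 < K' i) {q : ℝ} (hq : 0 < q) (hqm : q < m 0) :
    Tendsto (fun k : ℕ => RR q (r + 1) m (Fin.cons k K') W) atTop
      (𝓝 (∫ u0, (RR (m 0) r (Fin.tail m) K' (consW W u0)) ^ (q / m 0) ∂(rootLaw L))) := by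
  have hmono' : StrictMono (Fin.tail m) := hmono.comp (Fin.strictMono_succ)
  have hm' : ∀ i, 0 < Fin.tail m i ∧ Fin.tail m i < 1 := fun i => hm i.succ
  have hlt : ∀ i, m 0 < Fin.tail m i := fun i => hmono (Fin.succ_pos i)
  have hqm' : ∀ i, q < m i := fun i => by
    refine lt_of_lt_of_le hqm (hmono.monotone (Fin.zero_le i))
  have h1 := tendsto_FF_rpow hW hc hcW hWC hmono hm hK' hq hqm
  have h2 := tendsto_FF_rpow (L := L) (W := fun _ => 1) measurable_const zero_lt_one
    (fun _ => le_rfl) (fun _ => le_rfl) hmono hm hK' hq hqm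
  have hcons : ∀ u0 : L → unitInterval, consW (fun _ : L → Fin (r + 1 + 1) → unitInterval => (1:ℝ)) u0
      = fun _ => 1 := fun u0 => rfl
  simp_rw [hcons] at h2
  rw [integral_const, probReal_univ, one_smul] at h2
  set B1 := II (fun x => x ^ (m 0)) r (Fin.tail m) K' (fun _ : L → Fin (r + 1) → unitInterval => 1)
    with hB1
  have hB1pos : 0 < B1 := II_one_pos hmono' hm' hK' (hm 0).1 hlt
  have hGA1 : 0 < GA (m 0) q B1 := by
    rw [GA_eq (hm 0).1 (hm 0).2 hq hqm hB1pos]
    exact mul_pos (Real.rpow_pos_of_pos hB1pos _) (GA_pos (hm 0).1 (hm 0).2 hq hqm)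
  have h3 := h1.div h2 hGA1.ne'
  have hlim : (∫ u0, GA (m 0) q (II (fun x => x ^ (m 0)) r (Fin.tail m) K' (consW W u0))
        ∂(rootLaw L)) / GA (m 0) q B1
      = ∫ u0, (RR (m 0) r (Fin.tail m) K' (consW W u0)) ^ (q / m 0) ∂(rootLaw L) := by
    rw [← integral_div]
    refine integral_congr_ae (Filter.Eventually.of_forall (fun u0 => ?_))
    simp only
    have hpos := II_pos (measurable_consW' hW u0) hc (fun u => hcW _) (fun u => hWC _) hmono' hm'
        hK' (hm 0).1 hlt
    rw [GA_eq (hm 0).1 (hm 0).2 hq hqm hB1pos, GA_eq (hm 0).1 (hm 0).2 hq hqm hpos]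
    unfold RR
    rw [← hB1, Real.div_rpow hpos.le hB1pos.le]
    have := GA_pos (hm 0).1 (hm 0).2 hq hqm
    have h5 : 0 < B1 ^ (q / m 0) := Real.rpow_pos_of_pos hB1pos _
    field_simp
  rw [hlim] at h3
  refine h3.congr' ?_
  filter_upwards [eventually_gt_atTop 0] with k hk
  have hK : ∀ i, 0 < (Fin.cons k K' : Fin (r + 1) → ℕ) i := by
    intro i
    refine Fin.cases ?_ (fun j => ?_) i
    · simpa using hk
    · simpa using hK' j
  have e1 := II_cons (φ := fun x => x ^ q) m (k := k) (K' := K') hW (by fun_prop)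
    (integrable_Zw_rpow hW hc hcW hWC hmono hm hK hq hqm')
  have e2 := II_cons (φ := fun x => x ^ q) m (k := k) (K' := K')
    (W := fun _ : L → Fin (r + 1 + 1) → unitInterval => (1:ℝ)) measurable_const (by fun_prop)
    (integrable_Zw_one_rpow (L := L) (r + 1) m hmono hm _ hK q hq hqm')
  unfold RR
  rw [e1, e2]
  rfl

lemma tendsto_DD_succ (hW : Measurable W) (hc : 0 < c) (hcW : ∀ u, c ≤ W u)
    (hWC : ∀ u, W u ≤ C) (hmono : StrictMono m) (hm : ∀ i, 0 < m i ∧ m i < 1)
    (hK' : ∀ i, 0 < K' i) :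
    Tendsto (fun k : ℕ => DD (r + 1) m (Fin.cons k K') W) atTop
      (𝓝 (∫ u0, (1 / m 0) * Real.log (RR (m 0) r (Fin.tail m) K' (consW W u0)) ∂(rootLaw L))) := by
  have hmono' : StrictMono (Fin.tail m) := hmono.comp (Fin.strictMono_succ)
  have hm' : ∀ i, 0 < Fin.tail m i ∧ Fin.tail m i < 1 := fun i => hm i.succ
  have hlt : ∀ i, m 0 < Fin.tail m i := fun i => hmono (Fin.succ_pos i)
  have h1 := tendsto_FF_log hW hc hcW hWC hmono hm hK'
  have h2 := tendsto_FF_log (L := L) (W := fun _ => 1) measurable_const zero_lt_one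
    (fun _ => le_rfl) (fun _ => le_rfl) hmono hm hK'
  have hcons : ∀ u0 : L → unitInterval, consW (fun _ : L → Fin (r + 1 + 1) → unitInterval => (1:ℝ)) u0
      = fun _ => 1 := fun u0 => rfl
  simp_rw [hcons] at h2
  rw [integral_const, probReal_univ, one_smul] at h2
  set B1 := II (fun x => x ^ (m 0)) r (Fin.tail m) K' (fun _ : L → Fin (r + 1) → unitInterval => 1)
    with hB1
  have hB1pos : 0 < B1 := II_one_pos hmono' hm' hK' (hm 0).1 hlt
  have hpos : ∀ u0, 0 < II (fun x => x ^ (m 0)) r (Fin.tail m) K' (consW W u0) := fun u0 =>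
    II_pos (measurable_consW' hW u0) hc (fun u => hcW _) (fun u => hWC _) hmono' hm' hK' (hm 0).1 hlt
  have h3 := h1.sub h2
  have hGB : ∀ u0, GB (m 0) (II (fun x => x ^ (m 0)) r (Fin.tail m) K' (consW W u0))
      = (1 / m 0) * Real.log (RR (m 0) r (Fin.tail m) K' (consW W u0)) + GB (m 0) B1 := by
    intro u0
    rw [GB_eq (hm 0).1 (hm 0).2 hB1pos, GB_eq (hm 0).1 (hm 0).2 (hpos u0)]
    unfold RR
    rw [← hB1, Real.log_div (hpos u0).ne' hB1pos.ne']
    ring
  have hRb : ∀ u0, c ^ (m 0) ≤ RR (m 0) r (Fin.tail m) K' (consW W u0) := fun u0 =>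
    le_RR (measurable_consW' hW u0) hc (fun u => hcW _) (fun u => hWC _) hmono' hm' hK' (hm 0).1 hlt
  have hRb2 : ∀ u0, RR (m 0) r (Fin.tail m) K' (consW W u0) ≤ C ^ (m 0) := fun u0 =>
    RR_le (measurable_consW' hW u0) hc (fun u => hcW _) (fun u => hWC _) hmono' hm' hK' (hm 0).1 hlt
  have hlogint : Integrable (fun u0 => (1 / m 0) *
      Real.log (RR (m 0) r (Fin.tail m) K' (consW W u0))) (rootLaw L) := by
    refine Integrable.const_mul ?_ _
    have hmeas := aesm_RR (K' := K') hW (m 0) (Fin.tail m)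
    refine Integrable.mono' (g := fun _ => max (Real.log (C ^ (m 0))) (-Real.log (c ^ (m 0))))
      (integrable_const _) hmeas.log.aestronglyMeasurable (Filter.Eventually.of_forall (fun u0 => ?_))
    have hcm : 0 < c ^ (m 0) := Real.rpow_pos_of_pos hc _
    have a1 := Real.log_le_log hcm (hRb u0)
    have a2 := Real.log_le_log (hcm.trans_le (hRb u0)) (hRb2 u0)
    rw [Real.norm_eq_abs, abs_le]
    have b1 := le_max_left (Real.log (C ^ (m 0))) (-Real.log (c ^ (m 0)))
    have b2 := le_max_right (Real.log (C ^ (m 0))) (-Real.log (c ^ (m 0)))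
    constructor <;> linarith
  have hlim : (∫ u0, GB (m 0) (II (fun x => x ^ (m 0)) r (Fin.tail m) K' (consW W u0))
        ∂(rootLaw L)) - GB (m 0) B1
      = ∫ u0, (1 / m 0) * Real.log (RR (m 0) r (Fin.tail m) K' (consW W u0)) ∂(rootLaw L) := by
    simp_rw [hGB]
    rw [integral_add hlogint (integrable_const _)]
    simp
  rw [hlim] at h3
  refine h3.congr' ?_
  filter_upwards [eventually_gt_atTop 0] with k hk
  have hK : ∀ i, 0 < (Fin.cons k K' : Fin (r + 1) → ℕ) i := by
    intro i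
    refine Fin.cases ?_ (fun j => ?_) i
    · simpa using hk
    · simpa using hK' j
  have e1 := II_cons (φ := Real.log) m (k := k) (K' := K') hW Real.measurable_log
    (integrable_Zw_log hW hc hcW hWC hmono hm hK)
  have e2 := II_cons (φ := Real.log) m (k := k) (K' := K')
    (W := fun _ : L → Fin (r + 1 + 1) → unitInterval => (1:ℝ)) measurable_const Real.measurable_log
    (integrable_Zw_one_log (L := L) (r + 1) m hmono hm _ hK)
  unfold DD
  rw [e1, e2]

end step

end Crest.Agent.R141.Tree
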