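import Crest.Agent.R141.TreeThree

set_option autoImplicit false
open MeasureTheory Filter Topology Set

namespace Crest.Agent.R141.Tree

/-! ## lower bounds, measurability, integrability -/

lemma V_pos : (r : ℕ) → (m : Fin r → ℝ) → (K : Fin r → ℕ) → (∀ i, 0 < K i) → (ξ : NT r K) →
    (a : Leaf r K) → 0 < V r m K ξ a
  | 0, _, _, _, _, _ => by simp [V]
  | r + 1, m, K, hK, ξ, a => by
    have h := V_pos r (Fin.tail m) (Fin.tail K) (fun i => hK i.succ) (ξ a.1).2 a.2
    exact mul_pos (wgt_pos _ (hK 0) _) h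

/-- a leaf -/
def leaf0 : (r : ℕ) → (K : Fin r → ℕ) → (∀ i, 0 < K i) → Leaf r K
  | 0, _, _ => ()
  | r + 1, K, hK => (⟨0, hK 0⟩, leaf0 r (Fin.tail K) (fun i => hK i.succ))

/-- lower bound for the weights -/
noncomputable def lowV : (r : ℕ) → (m : Fin r → ℝ) → (K : Fin r → ℕ) → ℝ
  | 0, _, _ => 1
  | r + 1, m, K => ((K 0 : ℕ) : ℝ) ^ (-1 / (m 0)) * lowV r (Fin.tail m) (Fin.tail K)

lemma lowV_pos : (r : ℕ) → (m : Fin r → ℝ) → (K : Fin r → ℕ) → (∀ i, 0 < K i) → 0 < lowV r m K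
  | 0, _, _, _ => by simp [lowV]
  | r + 1, m, K, hK => by
    have h := lowV_pos r (Fin.tail m) (Fin.tail K) (fun i => hK i.succ)
    have : (0:ℝ) < K 0 := by exact_mod_cast hK 0
    unfold lowV
    positivity

lemma lowV_le : (r : ℕ) → (m : Fin r → ℝ) → (K : Fin r → ℕ) → (∀ i, 0 < K i) → (ξ : NT r K) →
    (a : Leaf r K) → lowV r m K ≤ V r m K ξ a
  | 0, _, _, _, _, _ => by simp [V, lowV]
  | r + 1, m, K, hK, ξ, a => by
    have h := lowV_le r (Fin.tail m) (Fin.tail K) (fun i => hK i.succ) (ξ a.1).2 a.2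
    have h0 := lowV_pos r (Fin.tail m) (Fin.tail K) (fun i => hK i.succ)
    exact mul_le_mul (wgt_ge _ _ _) h h0.le (wgt_pos _ (hK 0) _).le

variable {L : Type*} {r : ℕ}

/-- the sum of the weights as a `Zw` -/
lemma Zw_one (m : Fin r → ℝ) (K : Fin r → ℕ)
    (p : NT r K × (L → Leaf r K → Fin (r + 1) → unitInterval)) :
    Zw r m K (fun _ => 1) p = ∑ a, V r m K p.1 a := by
  simp [Zw]

lemma Zw_one_ge (m : Fin r → ℝ) (K : Fin r → ℕ) (hK : ∀ i, 0 < K i)
    (p : NT r K × (L → Leaf r K → Fin (r + 1) → unitInterval)) :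
    lowV r m K ≤ Zw r m K (fun _ => 1) p := by
  rw [Zw_one]
  refine le_trans (lowV_le r m K hK p.1 (leaf0 r K hK)) ?_
  exact Finset.single_le_sum (fun a _ => (V_pos r m K hK p.1 a).le) (Finset.mem_univ _)

lemma Zw_ge {c : ℝ} {W : (L → Fin (r + 1) → unitInterval) → ℝ} (hcW : ∀ u, c ≤ W u)
    (m : Fin r → ℝ) (K : Fin r → ℕ) (hK : ∀ i, 0 < K i)
    (p : NT r K × (L → Leaf r K → Fin (r + 1) → unitInterval)) :
    c * Zw r m K (fun _ => 1) p ≤ Zw r m K W p := by
  unfold Zw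
  rw [Finset.mul_sum]
  refine Finset.sum_le_sum (fun a _ => ?_)
  have := V_pos r m K hK p.1 a
  have h2 := hcW (fun ω => p.2 ω a)
  nlinarith

lemma Zw_le {C : ℝ} {W : (L → Fin (r + 1) → unitInterval) → ℝ} (hWC : ∀ u, W u ≤ C)
    (m : Fin r → ℝ) (K : Fin r → ℕ) (hK : ∀ i, 0 < K i)
    (p : NT r K × (L → Leaf r K → Fin (r + 1) → unitInterval)) :
    Zw r m K W p ≤ C * Zw r m K (fun _ => 1) p := by
  unfold Zw
  rw [Finset.mul_sum]
  refine Finset.sum_le_sum (fun a _ => ?_)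
  have := V_pos r m K hK p.1 a
  have h2 := hWC (fun ω => p.2 ω a)
  nlinarith

lemma Zw_lower {c : ℝ} (hc : 0 < c) {W : (L → Fin (r + 1) → unitInterval) → ℝ}
    (hcW : ∀ u, c ≤ W u) (m : Fin r → ℝ) (K : Fin r → ℕ) (hK : ∀ i, 0 < K i)
    (p : NT r K × (L → Leaf r K → Fin (r + 1) → unitInterval)) :
    c * lowV r m K ≤ Zw r m K W p :=
  (mul_le_mul_of_nonneg_left (Zw_one_ge m K hK p) hc.le).trans (Zw_ge hcW m K hK p)

lemma measurable_Zw {Ξ : Type*} [MeasurableSpace Ξ] (m : Fin r → ℝ) (K : Fin r → ℕ)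
    {W : Ξ → (L → Fin (r + 1) → unitInterval) → ℝ}
    (hW : Measurable (Function.uncurry W)) :
    Measurable (fun x : Ξ × (NT r K × (L → Leaf r K → Fin (r + 1) → unitInterval)) =>
      Zw r m K (W x.1) x.2) := by
  unfold Zw
  refine Finset.measurable_sum _ (fun a _ => ?_)
  refine Measurable.mul ?_ ?_
  · exact (measurable_V r m K a).comp (measurable_fst.comp measurable_snd)
  · refine hW.comp (measurable_fst.prodMk ?_)
    refine measurable_pi_iff.mpr (fun ω => ?_)
    exact (measurable_pi_apply a).comp ((measurable_pi_apply ω).comp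
      (measurable_snd.comp measurable_snd))

lemma measurable_Zw' (m : Fin r → ℝ) (K : Fin r → ℕ)
    {W : (L → Fin (r + 1) → unitInterval) → ℝ} (hW : Measurable W) :
    Measurable (Zw r m K W) := by
  have h := measurable_Zw (Ξ := Unit) m K (W := fun _ => W) (hW.comp measurable_snd)
  exact h.comp ((measurable_const (a := ())).prodMk measurable_id)

lemma measurable_consW {W : (L → Fin (r + 1 + 1) → unitInterval) → ℝ} (hW : Measurable W) :
    Measurable (Function.uncurry (consW W)) := by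
  have h : Measurable (fun (p : (L → unitInterval) × (L → Fin (r + 1) → unitInterval)) (ω : L) =>
      (Fin.cons (p.1 ω) (p.2 ω) : Fin (r + 1 + 1) → unitInterval)) := by
    refine measurable_pi_iff.mpr (fun ω => ?_)
    have h1 : Measurable (fun p : (L → unitInterval) × (L → Fin (r + 1) → unitInterval) =>
        (p.1 ω, p.2 ω)) :=
      ((measurable_pi_apply ω).comp measurable_fst).prodMk
        ((measurable_pi_apply ω).comp measurable_snd)
    exact measurable_cons.comp h1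
  exact hW.comp h

lemma measurable_consW' {W : (L → Fin (r + 1 + 1) → unitInterval) → ℝ} (hW : Measurable W)
    (u0 : L → unitInterval) : Measurable (consW W u0) :=
  (measurable_consW hW).comp (measurable_const.prodMk measurable_id)

variable [Fintype L]

/-- law of the level-0 uniforms -/
noncomputable abbrev rootLaw (L : Type*) [Fintype L] : Measure (L → unitInterval) :=
  Measure.pi fun _ : L => (volume : Measure unitInterval)

/-- structure of the integrals -/
lemma integral_JL_succ (m : Fin (r + 1) → ℝ) (K : Fin (r + 1) → ℕ)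
    {W : (L → Fin (r + 1 + 1) → unitInterval) → ℝ} (hW : Measurable W) {φ : ℝ → ℝ}
    (hφ : Measurable φ) (hint : Integrable (fun p => φ (Zw (r + 1) m K W p)) (JL L (r + 1) K)) :
    ∫ p, φ (Zw (r + 1) m K W p) ∂(JL L (r + 1) K)
      = ∫ u0, ∫ ξ, φ (Zs (Zw r (Fin.tail m) (Fin.tail K) (consW W u0)) (m 0) (K 0) ξ)
          ∂(noise (JL L r (Fin.tail K)) (K 0)) ∂(rootLaw L) := by
  have hmp := mp_Theta (L := L) r K
  have hm : Measurable (fun p => φ (Zw (r + 1) m K W p)) := hφ.comp (measurable_Zw' m K hW)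
  have h1 : ∫ p, φ (Zw (r + 1) m K W p) ∂(JL L (r + 1) K)
      = ∫ q, φ (Zw (r + 1) m K W (Theta r K q)) ∂((rootLaw L).prod
        (noise (JL L r (Fin.tail K)) (K 0))) := by
    rw [← hmp.map_eq, integral_map hmp.measurable.aemeasurable hm.aestronglyMeasurable]
  have h2 : Integrable (fun q => φ (Zw (r + 1) m K W (Theta r K q))) ((rootLaw L).prod
        (noise (JL L r (Fin.tail K)) (K 0))) :=
    hmp.integrable_comp_of_integrable hint
  rw [h1, integral_prod _ h2]
  simp_rw [Zw_Theta]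

lemma integrable_JL_succ (m : Fin (r + 1) → ℝ) (K : Fin (r + 1) → ℕ)
    {φ : ℝ → ℝ} (hφ : Measurable φ)
    (hint : Integrable (fun ξ => φ (Zs (Zw r (Fin.tail m) (Fin.tail K) (fun _ => 1)) (m 0) (K 0) ξ))
      (noise (JL L r (Fin.tail K)) (K 0))) :
    Integrable (fun p => φ (Zw (r + 1) m K (fun _ => 1) p)) (JL L (r + 1) K) := by
  have hmp := mp_Theta (L := L) r K
  have hm : Measurable (fun p => φ (Zw (L := L) (r + 1) m K (fun _ => 1) p)) :=
    hφ.comp (measurable_Zw' m K measurable_const)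
  rw [← hmp.integrable_comp hm.aestronglyMeasurable]
  have : (fun p => φ (Zw (L := L) (r + 1) m K (fun _ => 1) p)) ∘ Theta (L := L) r K
      = fun q => φ (Zs (Zw r (Fin.tail m) (Fin.tail K) (fun _ => 1)) (m 0) (K 0) q.2) := by
    funext q
    simp only [Function.comp]
    rw [Zw_Theta]
    rfl
  rw [this]
  exact hint.comp_snd _

omit [Fintype L] in
lemma Zw_zero_one (m : Fin 0 → ℝ) (K : Fin 0 → ℕ)
    (p : NT 0 K × (L → Leaf 0 K → Fin (0 + 1) → unitInterval)) :
    Zw 0 m K (fun _ => 1) p = 1 := by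
  rw [Zw_one]
  exact Finset.sum_const (1:ℝ) |>.trans (by simp [Finset.card_univ]; rfl)

lemma integrable_Zw_one_rpow : (r : ℕ) → (m : Fin r → ℝ) → StrictMono m →
    (∀ i, 0 < m i ∧ m i < 1) → (K : Fin r → ℕ) → (∀ i, 0 < K i) → (q : ℝ) → 0 < q →
    (∀ i, q < m i) →
    Integrable (fun p => Zw r m K (fun _ => 1) p ^ q) (JL L r K)
  | 0, m, _, _, K, _, q, _, _ => by
    simp_rw [Zw_zero_one]
    exact integrable_const _
  | r + 1, m, hmono, hm, K, hK, q, hq, hqm => by
    have ih := integrable_Zw_one_rpow r (Fin.tail m) (hmono.comp (Fin.strictMono_succ))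
      (fun i => hm i.succ) (Fin.tail K) (fun i => hK i.succ) (m 0) (hm 0).1
      (fun i => hmono (Fin.succ_pos i))
    refine integrable_JL_succ m K (φ := fun x => x ^ q) (by fun_prop) ?_
    exact integrable_Zs_rpow (JL L r (Fin.tail K)) (measurable_Zw' _ _ measurable_const)
      (lowV_pos r (Fin.tail m) (Fin.tail K) (fun i => hK i.succ))
      (Zw_one_ge _ _ (fun i => hK i.succ)) (hm 0).1 (hm 0).2 ih hq (hqm 0) (hK 0)

lemma integrable_Zw_one_log : (r : ℕ) → (m : Fin r → ℝ) → StrictMono m →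
    (∀ i, 0 < m i ∧ m i < 1) → (K : Fin r → ℕ) → (∀ i, 0 < K i) →
    Integrable (fun p => Real.log (Zw r m K (fun _ => 1) p)) (JL L r K)
  | 0, m, _, _, K, _ => by
    simp_rw [Zw_zero_one]
    exact integrable_const _
  | r + 1, m, hmono, hm, K, hK => by
    have ih := integrable_Zw_one_rpow (L := L) r (Fin.tail m) (hmono.comp (Fin.strictMono_succ))
      (fun i => hm i.succ) (Fin.tail K) (fun i => hK i.succ) (m 0) (hm 0).1
      (fun i => hmono (Fin.succ_pos i))
    refine integrable_JL_succ m K (φ := Real.log) Real.measurable_log ?_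
    exact integrable_log_Zs (JL L r (Fin.tail K)) (measurable_Zw' _ _ measurable_const)
      (lowV_pos r (Fin.tail m) (Fin.tail K) (fun i => hK i.succ))
      (Zw_one_ge _ _ (fun i => hK i.succ)) (hm 0).1 (hm 0).2 ih (hK 0)

section bounds

variable {c C : ℝ} {W : (L → Fin (r + 1) → unitInterval) → ℝ} {m : Fin r → ℝ} {K : Fin r → ℕ}

omit [Fintype L] in
lemma Zw_pos (hc : 0 < c) (hcW : ∀ u, c ≤ W u) (hK : ∀ i, 0 < K i)
    (p : NT r K × (L → Leaf r K → Fin (r + 1) → unitInterval)) : 0 < Zw r m K W p :=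
  lt_of_lt_of_le (mul_pos hc (lowV_pos r m K hK)) (Zw_lower hc hcW m K hK p)

omit [Fintype L] in
lemma Zw_one_pos (hK : ∀ i, 0 < K i)
    (p : NT r K × (L → Leaf r K → Fin (r + 1) → unitInterval)) : 0 < Zw r m K (fun _ => 1) p :=
  lt_of_lt_of_le (lowV_pos r m K hK) (Zw_one_ge m K hK p)

omit [Fintype L] in
lemma Zw_rpow_le (hc : 0 < c) (hcW : ∀ u, c ≤ W u) (hWC : ∀ u, W u ≤ C) (hC : 0 ≤ C)
    (hK : ∀ i, 0 < K i) {q : ℝ} (hq : 0 < q)
    (p : NT r K × (L → Leaf r K → Fin (r + 1) → unitInterval)) :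
    Zw r m K W p ^ q ≤ C ^ q * Zw r m K (fun _ => 1) p ^ q := by
  rw [← Real.mul_rpow hC (Zw_one_pos hK p).le]
  exact Real.rpow_le_rpow (Zw_pos hc hcW hK p).le (Zw_le hWC m K hK p) hq.le

omit [Fintype L] in
lemma le_Zw_rpow (hc : 0 < c) (hcW : ∀ u, c ≤ W u)
    (hK : ∀ i, 0 < K i) {q : ℝ} (hq : 0 < q)
    (p : NT r K × (L → Leaf r K → Fin (r + 1) → unitInterval)) :
    c ^ q * Zw r m K (fun _ => 1) p ^ q ≤ Zw r m K W p ^ q := by
  rw [← Real.mul_rpow hc.le (Zw_one_pos hK p).le]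
  exact Real.rpow_le_rpow (mul_nonneg hc.le (Zw_one_pos hK p).le) (Zw_ge hcW m K hK p) hq.le

omit [Fintype L] in
lemma Zw_log_le (hc : 0 < c) (hcW : ∀ u, c ≤ W u) (hWC : ∀ u, W u ≤ C) (hC : 0 < C)
    (hK : ∀ i, 0 < K i)
    (p : NT r K × (L → Leaf r K → Fin (r + 1) → unitInterval)) :
    Real.log (Zw r m K W p) ≤ Real.log C + Real.log (Zw r m K (fun _ => 1) p) := by
  rw [← Real.log_mul hC.ne' (Zw_one_pos hK p).ne']
  exact Real.log_le_log (Zw_pos hc hcW hK p) (Zw_le hWC m K hK p)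

omit [Fintype L] in
lemma le_Zw_log (hc : 0 < c) (hcW : ∀ u, c ≤ W u)
    (hK : ∀ i, 0 < K i)
    (p : NT r K × (L → Leaf r K → Fin (r + 1) → unitInterval)) :
    Real.log c + Real.log (Zw r m K (fun _ => 1) p) ≤ Real.log (Zw r m K W p) := by
  rw [← Real.log_mul hc.ne' (Zw_one_pos hK p).ne']
  exact Real.log_le_log (mul_pos hc (Zw_one_pos hK p)) (Zw_ge hcW m K hK p)

lemma integrable_Zw_rpow (hW : Measurable W) (hc : 0 < c) (hcW : ∀ u, c ≤ W u)
    (hWC : ∀ u, W u ≤ C) (hmono : StrictMono m) (hm : ∀ i, 0 < m i ∧ m i < 1)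
    (hK : ∀ i, 0 < K i) {q : ℝ} (hq : 0 < q) (hqm : ∀ i, q < m i) :
    Integrable (fun p => Zw r m K W p ^ q) (JL L r K) := by
  have hC : 0 ≤ C := hc.le.trans ((hcW (fun _ _ => 0)).trans (hWC _))
  have hmeas := measurable_Zw' m K hW
  refine Integrable.mono' ((integrable_Zw_one_rpow r m hmono hm K hK q hq hqm).const_mul (C ^ q))
    (by fun_prop : Measurable (fun p => Zw r m K W p ^ q)).aestronglyMeasurable
    (Filter.Eventually.of_forall (fun p => ?_))
  rw [Real.norm_of_nonneg (Real.rpow_nonneg (Zw_pos hc hcW hK p).le _)]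
  exact Zw_rpow_le hc hcW hWC hC hK hq p

lemma integrable_Zw_log (hW : Measurable W) (hc : 0 < c) (hcW : ∀ u, c ≤ W u)
    (hWC : ∀ u, W u ≤ C) (hmono : StrictMono m) (hm : ∀ i, 0 < m i ∧ m i < 1)
    (hK : ∀ i, 0 < K i) :
    Integrable (fun p => Real.log (Zw r m K W p)) (JL L r K) := by
  have hC : 0 < C := hc.trans_le ((hcW (fun _ _ => 0)).trans (hWC _))
  have hmeas := measurable_Zw' m K hW
  refine Integrable.mono' ((((integrable_Zw_one_log r m hmono hm K hK).abs).add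
    (integrable_const |Real.log c|)).add (integrable_const |Real.log C|))
    (by fun_prop : Measurable (fun p => Real.log (Zw r m K W p))).aestronglyMeasurable
    (Filter.Eventually.of_forall (fun p => ?_))
  have h1 := Zw_log_le (m := m) hc hcW hWC hC hK p
  have h2 := le_Zw_log (m := m) hc hcW hK p
  simp only [Pi.add_apply]
  rw [Real.norm_eq_abs, abs_le]
  have h3 := neg_abs_le (Real.log c)
  have h4 := le_abs_self (Real.log C)
  have h5 := neg_abs_le (Real.log (Zw r m K (fun _ => 1) p))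
  have h6 := le_abs_self (Real.log (Zw r m K (fun _ => 1) p))
  have h7 := abs_nonneg (Real.log c)
  have h8 := abs_nonneg (Real.log C)
  constructor <;> linarith

end bounds

end Crest.Agent.R141.Tree
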