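import Mathlib

set_option autoImplicit false
open MeasureTheory Filter Topology Set

namespace Crest.Agent.R141.Tree

/-- the heavy tailed weight `(k s)^{-1/m}` (made bounded below everywhere) -/
noncomputable def wgt (m : ℝ) (k : ℕ) (s : ℝ) : ℝ :=
  max ((k : ℝ) ^ (-1 / m)) (((k : ℝ) * s) ^ (-1 / m))

lemma wgt_pos (m : ℝ) {k : ℕ} (hk : 0 < k) (s : ℝ) : 0 < wgt m k s :=
  lt_of_lt_of_le (Real.rpow_pos_of_pos (by exact_mod_cast hk) _) (le_max_left _ _)

lemma wgt_ge (m : ℝ) (k : ℕ) (s : ℝ) : (k : ℝ) ^ (-1 / m) ≤ wgt m k s := le_max_left _ _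

lemma wgt_eq {m : ℝ} (hm : 0 < m) {k : ℕ} (hk : 0 < k) {s : ℝ} (hs : 0 < s) (hs1 : s ≤ 1) :
    wgt m k s = ((k : ℝ) * s) ^ (-1 / m) := by
  have hk' : (0 : ℝ) < k := by exact_mod_cast hk
  refine max_eq_right ?_
  apply Real.rpow_le_rpow_of_nonpos (by positivity) (by nlinarith)
  exact (div_neg_of_neg_of_pos (by norm_num) hm).le

lemma measurable_wgt (m : ℝ) (k : ℕ) : Measurable (wgt m k) := by
  unfold wgt
  fun_prop

/-- `1 - exp (-τ w^{-1/m})` -/
noncomputable def e1 (m τ w : ℝ) : ℝ := 1 - Real.exp (-(τ * w ^ (-1 / m)))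

lemma measurable_e1 (m τ : ℝ) : Measurable (e1 m τ) := by
  unfold e1; fun_prop

lemma e1_nonneg {m τ w : ℝ} (hτ : 0 ≤ τ) (hw : 0 ≤ w) : 0 ≤ e1 m τ w := by
  unfold e1
  have : 0 ≤ τ * w ^ (-1 / m) := mul_nonneg hτ (Real.rpow_nonneg hw _)
  have := Real.exp_le_one_iff.mpr (neg_nonpos.mpr this)
  linarith

lemma e1_le_one (m τ w : ℝ) : e1 m τ w ≤ 1 := by
  unfold e1
  have := Real.exp_pos (-(τ * w ^ (-1 / m)))
  linarith

lemma e1_le {m τ w : ℝ} : e1 m τ w ≤ τ * w ^ (-1 / m) := by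
  unfold e1
  have := Real.add_one_le_exp (-(τ * w ^ (-1 / m)))
  linarith

lemma integrableOn_e1 {m τ : ℝ} (hm : 0 < m) (hm1 : m < 1) (hτ : 0 ≤ τ) :
    IntegrableOn (e1 m τ) (Ioi 0) := by
  have h1 : IntegrableOn (e1 m τ) (Ioc 0 1) := by
    have : IntegrableOn (fun _ : ℝ => (1 : ℝ)) (Ioc (0 : ℝ) 1) := by
      simp [integrableOn_const_iff]
    refine Integrable.mono' this (measurable_e1 m τ).aestronglyMeasurable ?_
    filter_upwards [ae_restrict_mem measurableSet_Ioc] with w hw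
    rw [Real.norm_of_nonneg (e1_nonneg hτ hw.1.le)]
    exact e1_le_one _ _ _
  have h2 : IntegrableOn (e1 m τ) (Ioi 1) := by
    have hlt : -1 / m < -1 := by
      rw [div_lt_iff₀ hm]; linarith
    have := (integrableOn_Ioi_rpow_of_lt hlt (zero_lt_one)).const_mul τ
    refine Integrable.mono' this (measurable_e1 m τ).aestronglyMeasurable ?_
    filter_upwards [ae_restrict_mem measurableSet_Ioi] with w hw
    have hw0 : (0 : ℝ) ≤ w := le_trans zero_le_one (le_of_lt hw)
    rw [Real.norm_of_nonneg (e1_nonneg hτ hw0)]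
    exact e1_le
  have : Ioi (0 : ℝ) = Ioc 0 1 ∪ Ioi 1 := by
    rw [Ioc_union_Ioi_eq_Ioi zero_le_one]
  rw [this]
  exact h1.union h2

noncomputable def cst (m : ℝ) : ℝ := ∫ w in Ioi (0 : ℝ), e1 m 1 w

lemma cst_nonneg (m : ℝ) : 0 ≤ cst m :=
  setIntegral_nonneg measurableSet_Ioi (fun _ hw => e1_nonneg zero_le_one (le_of_lt hw))

lemma integral_e1 {m τ : ℝ} (hm : 0 < m) (hτ : 0 < τ) :
    ∫ w in Ioi (0 : ℝ), e1 m τ w = τ ^ m * cst m := by
  have hb : 0 < τ ^ m := Real.rpow_pos_of_pos hτ m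
  have h := integral_comp_mul_left_Ioi (e1 m τ) 0 hb
  rw [mul_zero] at h
  have h2 : ∫ x in Ioi (0 : ℝ), e1 m τ (τ ^ m * x) = cst m := by
    unfold cst
    refine setIntegral_congr_fun measurableSet_Ioi (fun x hx => ?_)
    have hx' : 0 < x := hx
    have : (τ ^ m * x) ^ (-1 / m) = τ⁻¹ * x ^ (-1 / m) := by
      rw [Real.mul_rpow hb.le hx'.le, ← Real.rpow_mul hτ.le]
      congr 1
      rw [show m * (-1 / m) = -1 by field_simp, Real.rpow_neg_one]
    simp only [e1, this]
    congr 3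
    field_simp
  rw [h2] at h
  rw [h, smul_eq_mul]
  field_simp

/-- truncated integral -/
noncomputable def A (m : ℝ) (k : ℕ) (τ : ℝ) : ℝ := ∫ w in Ioc (0 : ℝ) k, e1 m τ w

lemma A_nonneg (m : ℝ) (k : ℕ) {τ : ℝ} (hτ : 0 ≤ τ) : 0 ≤ A m k τ :=
  setIntegral_nonneg measurableSet_Ioc (fun _ hw => e1_nonneg hτ hw.1.le)

lemma A_le {m τ : ℝ} (hm : 0 < m) (hm1 : m < 1) (k : ℕ) (hτ : 0 < τ) :
    A m k τ ≤ τ ^ m * cst m := by
  rw [← integral_e1 hm hτ]
  refine setIntegral_mono_set (integrableOn_e1 hm hm1 hτ.le) ?_ ?_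
  · filter_upwards [ae_restrict_mem measurableSet_Ioi] with w hw
    exact e1_nonneg hτ.le (le_of_lt hw)
  · exact Filter.Eventually.of_forall (fun w hw => hw.1)

lemma A_tendsto {m τ : ℝ} (hm : 0 < m) (hm1 : m < 1) (hτ : 0 < τ) :
    Tendsto (fun k : ℕ => A m k τ) atTop (𝓝 (τ ^ m * cst m)) := by
  rw [← integral_e1 hm hτ]
  have := intervalIntegral_tendsto_integral_Ioi 0 (integrableOn_e1 hm hm1 hτ.le)
    tendsto_natCast_atTop_atTop
  refine this.congr (fun k => ?_)
  rw [intervalIntegral.integral_of_le (Nat.cast_nonneg k)]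
  rfl

lemma integral_unit (f : ℝ → ℝ) :
    ∫ s : unitInterval, f (s : ℝ) = ∫ s in (0 : ℝ)..1, f s := by
  rw [intervalIntegral.integral_of_le zero_le_one, ← integral_Icc_eq_integral_Ioc]
  exact integral_subtype_comap measurableSet_Icc f

lemma integral_wgt {m τ : ℝ} (hm : 0 < m) {k : ℕ} (hk : 0 < k) :
    (k : ℝ) * ∫ s : unitInterval, (1 - Real.exp (-(τ * wgt m k (s : ℝ)))) = A m k τ := by
  have hk' : (0 : ℝ) < k := by exact_mod_cast hk
  rw [integral_unit (fun s => 1 - Real.exp (-(τ * wgt m k s)))]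
  have h1 : ∫ s in (0 : ℝ)..1, (1 - Real.exp (-(τ * wgt m k s)))
      = ∫ s in (0 : ℝ)..1, e1 m τ ((k : ℝ) * s) := by
    refine intervalIntegral.integral_congr_ae ?_
    refine Filter.Eventually.of_forall (fun s hs => ?_)
    rw [uIoc_of_le zero_le_one] at hs
    rw [wgt_eq hm hk hs.1 hs.2]
    rfl
  rw [h1, intervalIntegral.integral_comp_mul_left (fun w => e1 m τ w) hk'.ne', mul_zero, mul_one,
    smul_eq_mul, mul_inv_cancel_left₀ hk'.ne', intervalIntegral.integral_of_le hk'.le]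
  rfl

section oneLevel

variable {Ω : Type*} [MeasurableSpace Ω] (P : Measure Ω) [IsProbabilityMeasure P] (S : Ω → ℝ)

/-- one-child Laplace transform -/
noncomputable def ell (m : ℝ) (k : ℕ) (t : ℝ) : ℝ :=
  ∫ x : unitInterval × Ω, Real.exp (-(t * (wgt m k (x.1 : ℝ) * S x.2)))
    ∂((volume : Measure unitInterval).prod P)

/-- the one-level sum -/
noncomputable def Zs (m : ℝ) (k : ℕ) (ξ : Fin k → unitInterval × Ω) : ℝ :=
  ∑ a, wgt m k ((ξ a).1 : ℝ) * S (ξ a).2

/-- the law of the noise of one level -/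
noncomputable abbrev noise (k : ℕ) : Measure (Fin k → unitInterval × Ω) :=
  Measure.pi (fun _ : Fin k => (volume : Measure unitInterval).prod P)

noncomputable def Lap (m : ℝ) (k : ℕ) (t : ℝ) : ℝ :=
  ∫ ξ, Real.exp (-(t * Zs S m k ξ)) ∂(noise P k)

variable {S}

lemma measurable_Zs (hS : Measurable S) (m : ℝ) (k : ℕ) : Measurable (Zs S m k) := by
  unfold Zs
  refine Finset.measurable_sum _ (fun a _ => ?_)
  refine Measurable.mul ?_ ?_
  · exact (measurable_wgt m k).comp (measurable_subtype_coe.comp (measurable_fst.comp (measurable_pi_apply a)))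
  · exact hS.comp (measurable_snd.comp (measurable_pi_apply a))

lemma Lap_eq (m : ℝ) (k : ℕ) (t : ℝ) : Lap P S m k t = ell P S m k t ^ k := by
  unfold Lap ell noise
  have : ∀ ξ : Fin k → unitInterval × Ω, Real.exp (-(t * Zs S m k ξ))
      = ∏ a, Real.exp (-(t * (wgt m k ((ξ a).1 : ℝ) * S (ξ a).2))) := by
    intro ξ
    rw [← Real.exp_sum, Zs, Finset.mul_sum, Finset.sum_neg_distrib]
  simp_rw [this]
  rw [integral_fintype_prod_eq_prod (fun (_ : Fin k) (x : unitInterval × Ω) =>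
    Real.exp (-(t * (wgt m k (x.1 : ℝ) * S x.2))))]
  simp

variable {c : ℝ}

omit [MeasurableSpace Ω] in
lemma Zs_pos (hc : 0 < c) (hSc : ∀ ω, c ≤ S ω) (m : ℝ) {k : ℕ} (hk : 0 < k)
    (ξ : Fin k → unitInterval × Ω) : 0 < Zs S m k ξ := by
  unfold Zs
  have : Nonempty (Fin k) := ⟨⟨0, hk⟩⟩
  refine Finset.sum_pos (fun a _ => mul_pos (wgt_pos m hk _) (hc.trans_le (hSc _))) Finset.univ_nonempty

lemma measurable_kern (hS : Measurable S) (m : ℝ) (k : ℕ) (t : ℝ) :
    Measurable (fun x : unitInterval × Ω => Real.exp (-(t * (wgt m k (x.1 : ℝ) * S x.2)))) := by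
  have h1 : Measurable (fun x : unitInterval × Ω => wgt m k (x.1 : ℝ)) :=
    (measurable_wgt m k).comp (measurable_subtype_coe.comp measurable_fst)
  have h2 : Measurable (fun x : unitInterval × Ω => S x.2) := hS.comp measurable_snd
  exact Real.measurable_exp.comp ((measurable_const.mul (h1.mul h2)).neg)

lemma integrable_kern (hS : Measurable S) (hc : 0 < c) (hSc : ∀ ω, c ≤ S ω) {m : ℝ}
    {k : ℕ} (hk : 0 < k) {t : ℝ} (ht : 0 ≤ t) :
    Integrable (fun x : unitInterval × Ω =>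
      Real.exp (-(t * (wgt m k (x.1 : ℝ) * S x.2)))) ((volume : Measure unitInterval).prod P) := by
  refine Integrable.mono' (integrable_const (1 : ℝ)) (measurable_kern hS m k t).aestronglyMeasurable ?_
  refine Filter.Eventually.of_forall (fun x => ?_)
  rw [Real.norm_of_nonneg (Real.exp_pos _).le, Real.exp_le_one_iff, neg_nonpos]
  exact mul_nonneg ht (mul_nonneg (wgt_pos m hk _).le (hc.le.trans (hSc _)))

lemma one_sub_ell (hS : Measurable S) (hc : 0 < c) (hSc : ∀ ω, c ≤ S ω) {m : ℝ} (hm : 0 < m)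
    {k : ℕ} (hk : 0 < k) {t : ℝ} (ht : 0 ≤ t) :
    (k : ℝ) * (1 - ell P S m k t) = ∫ ω, A m k (t * S ω) ∂P := by
  unfold ell
  have hint := integrable_kern P hS hc hSc (m := m) hk ht
  have h1 : (1 : ℝ) - ∫ x : unitInterval × Ω, Real.exp (-(t * (wgt m k (x.1 : ℝ) * S x.2)))
      ∂((volume : Measure unitInterval).prod P)
      = ∫ x : unitInterval × Ω, (1 - Real.exp (-(t * (wgt m k (x.1 : ℝ) * S x.2))))
      ∂((volume : Measure unitInterval).prod P) := by
    rw [integral_sub (integrable_const _) hint]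
    simp
  have h2 := integral_prod_symm (μ := (volume : Measure unitInterval)) (ν := P)
    (fun x : unitInterval × Ω => (1 - Real.exp (-(t * (wgt m k (x.1 : ℝ) * S x.2)))))
    ((integrable_const _).sub hint)
  rw [h1, h2, ← integral_const_mul]
  refine integral_congr_ae (Filter.Eventually.of_forall (fun ω => ?_))
  simp only
  rw [← integral_wgt hm hk]
  congr 1
  refine integral_congr_ae (Filter.Eventually.of_forall (fun s => ?_))
  simp only
  congr 3
  ring

lemma measurable_A (m : ℝ) (k : ℕ) : Measurable (A m k) := by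
  unfold A
  have : Measurable (Function.uncurry (fun τ w : ℝ => e1 m τ w)) := by
    unfold e1 Function.uncurry
    fun_prop
  exact (this.stronglyMeasurable.integral_prod_right (ν := volume.restrict (Ioc (0:ℝ) k))).measurable

lemma A_mono {m : ℝ} (k : ℕ) {τ τ' : ℝ} (hτ : 0 ≤ τ) (h : τ ≤ τ') : A m k τ ≤ A m k τ' := by
  have hint : ∀ x : ℝ, 0 ≤ x → IntegrableOn (e1 m x) (Ioc 0 (k:ℝ)) := by
    intro x hx
    refine Integrable.mono' (g := fun _ => (1:ℝ)) (by simp [integrable_const_iff])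
      (measurable_e1 m x).aestronglyMeasurable ?_
    filter_upwards [ae_restrict_mem measurableSet_Ioc] with w hw
    rw [Real.norm_of_nonneg (e1_nonneg hx hw.1.le)]
    exact e1_le_one _ _ _
  refine setIntegral_mono_on (hint τ hτ) (hint τ' (hτ.trans h)) measurableSet_Ioc (fun w hw => ?_)
  unfold e1
  have hw' : (0:ℝ) ≤ w ^ (-1 / m) := Real.rpow_nonneg hw.1.le _
  have : Real.exp (-(τ' * w ^ (-1 / m))) ≤ Real.exp (-(τ * w ^ (-1 / m))) := by
    apply Real.exp_le_exp.mpr
    have := mul_le_mul_of_nonneg_right h hw'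
    linarith
  linarith

/-- the constant `∫ S^m` times everything -/
noncomputable def Bm (m : ℝ) (S : Ω → ℝ) : ℝ := ∫ ω, S ω ^ m ∂P

lemma one_sub_ell_le (hS : Measurable S) (hc : 0 < c) (hSc : ∀ ω, c ≤ S ω) {m : ℝ} (hm : 0 < m)
    (hm1 : m < 1) (hB : Integrable (fun ω => S ω ^ m) P) {k : ℕ} (hk : 0 < k) {t : ℝ} (ht : 0 < t) :
    (k : ℝ) * (1 - ell P S m k t) ≤ cst m * Bm P m S * t ^ m := by
  rw [one_sub_ell P hS hc hSc hm hk ht.le]
  have hle : ∀ ω, A m k (t * S ω) ≤ (cst m * t ^ m) * S ω ^ m := by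
    intro ω
    have hS0 : 0 < S ω := hc.trans_le (hSc ω)
    refine (A_le hm hm1 k (mul_pos ht hS0)).trans (le_of_eq ?_)
    rw [Real.mul_rpow ht.le hS0.le]; ring
  have hi := hB.const_mul (cst m * t ^ m)
  have : ∫ ω, A m k (t * S ω) ∂P ≤ ∫ ω, (cst m * t ^ m) * S ω ^ m ∂P := by
    refine integral_mono_of_nonneg (Filter.Eventually.of_forall (fun ω => ?_)) hi
      (Filter.Eventually.of_forall hle)
    exact A_nonneg m k (mul_nonneg ht.le (hc.le.trans (hSc ω)))
  refine this.trans (le_of_eq ?_)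
  rw [integral_const_mul]
  unfold Bm; ring

lemma tendsto_ell (hS : Measurable S) (hc : 0 < c) (hSc : ∀ ω, c ≤ S ω) {m : ℝ} (hm : 0 < m)
    (hm1 : m < 1) (hB : Integrable (fun ω => S ω ^ m) P) {t : ℝ} (ht : 0 < t) :
    Tendsto (fun k : ℕ => (k : ℝ) * (1 - ell P S m k t)) atTop
      (𝓝 (cst m * Bm P m S * t ^ m)) := by
  have h : Tendsto (fun k : ℕ => ∫ ω, A m k (t * S ω) ∂P) atTop
      (𝓝 (∫ ω, (cst m * t ^ m) * S ω ^ m ∂P)) := by
    refine tendsto_integral_of_dominated_convergence (fun ω => (cst m * t ^ m) * S ω ^ m)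
      (fun k => ((measurable_A m k).comp (measurable_const.mul hS)).aestronglyMeasurable)
      (hB.const_mul _) (fun k => Filter.Eventually.of_forall (fun ω => ?_))
      (Filter.Eventually.of_forall (fun ω => ?_))
    · have hS0 : 0 < S ω := hc.trans_le (hSc ω)
      rw [Real.norm_of_nonneg (A_nonneg m k (mul_nonneg ht.le hS0.le))]
      refine (A_le hm hm1 k (mul_pos ht hS0)).trans (le_of_eq ?_)
      rw [Real.mul_rpow ht.le hS0.le]; ring
    · have hS0 : 0 < S ω := hc.trans_le (hSc ω)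
      have := A_tendsto hm hm1 (mul_pos ht hS0)
      rw [Real.mul_rpow ht.le hS0.le] at this
      rw [show cst m * t ^ m * S ω ^ m = t ^ m * S ω ^ m * cst m by ring]
      exact this
  rw [integral_const_mul] at h
  have e : cst m * Bm P m S * t ^ m = cst m * t ^ m * ∫ ω, S ω ^ m ∂P := by unfold Bm; ring
  rw [e]
  refine h.congr' ?_
  filter_upwards [eventually_gt_atTop 0] with k hk
  rw [one_sub_ell P hS hc hSc hm hk ht.le]

lemma ell_nonneg (m : ℝ) (k : ℕ) (t : ℝ) : 0 ≤ ell P S m k t :=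
  integral_nonneg (fun _ => (Real.exp_pos _).le)

lemma ell_le_one (hS : Measurable S) (hc : 0 < c) (hSc : ∀ ω, c ≤ S ω) {m : ℝ}
    {k : ℕ} (hk : 0 < k) {t : ℝ} (ht : 0 ≤ t) : ell P S m k t ≤ 1 := by
  unfold ell
  calc _ ≤ ∫ _x : unitInterval × Ω, (1:ℝ) ∂((volume : Measure unitInterval).prod P) := by
        refine integral_mono (integrable_kern P hS hc hSc hk ht) (integrable_const _) (fun x => ?_)
        simp only
        rw [Real.exp_le_one_iff, neg_nonpos]
        exact mul_nonneg ht (mul_nonneg (wgt_pos m hk _).le (hc.le.trans (hSc _)))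
    _ = 1 := by simp

lemma Lap_nonneg (m : ℝ) (k : ℕ) (t : ℝ) : 0 ≤ Lap P S m k t := by
  rw [Lap_eq]; exact pow_nonneg (ell_nonneg P m k t) k

lemma Lap_le_one (hS : Measurable S) (hc : 0 < c) (hSc : ∀ ω, c ≤ S ω) {m : ℝ}
    {k : ℕ} (hk : 0 < k) {t : ℝ} (ht : 0 ≤ t) : Lap P S m k t ≤ 1 := by
  rw [Lap_eq]; exact pow_le_one₀ (ell_nonneg P m k t) (ell_le_one P hS hc hSc hk ht)

lemma one_sub_Lap_le (hS : Measurable S) (hc : 0 < c) (hSc : ∀ ω, c ≤ S ω) {m : ℝ} (hm : 0 < m)
    (hm1 : m < 1) (hB : Integrable (fun ω => S ω ^ m) P) {k : ℕ} (hk : 0 < k) {t : ℝ} (ht : 0 < t) :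
    1 - Lap P S m k t ≤ cst m * Bm P m S * t ^ m := by
  refine le_trans ?_ (one_sub_ell_le P hS hc hSc hm hm1 hB hk ht)
  rw [Lap_eq]
  have h0 := ell_nonneg P (S := S) m k t
  have := one_add_mul_le_pow (a := -(1 - ell P S m k t)) (by linarith) k
  rw [show 1 + -(1 - ell P S m k t) = ell P S m k t by ring] at this
  linarith

lemma tendsto_Lap (hS : Measurable S) (hc : 0 < c) (hSc : ∀ ω, c ≤ S ω) {m : ℝ} (hm : 0 < m)
    (hm1 : m < 1) (hB : Integrable (fun ω => S ω ^ m) P) {t : ℝ} (ht : 0 < t) :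
    Tendsto (fun k : ℕ => Lap P S m k t) atTop
      (𝓝 (Real.exp (-(cst m * Bm P m S * t ^ m)))) := by
  have h := (tendsto_ell P hS hc hSc hm hm1 hB ht).neg
  have h2 : Tendsto (fun k : ℕ => (k : ℝ) * (-(1 - ell P S m k t))) atTop
      (𝓝 (-(cst m * Bm P m S * t ^ m))) := by
    refine h.congr (fun k => by ring)
  have h3 := Real.tendsto_one_add_pow_exp_of_tendsto h2
  refine h3.congr (fun k => ?_)
  rw [Lap_eq]; congr 1; ring

lemma exp_neg_le_inv {x : ℝ} (hx : 0 < x) : Real.exp (-x) ≤ x⁻¹ := by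
  rw [Real.exp_neg]
  refine inv_anti₀ hx ?_
  have := Real.add_one_le_exp x
  linarith

/-- decay at infinity, uniform in `k` -/
lemma Lap_decay (hS : Measurable S) (hc : 0 < c) (hSc : ∀ ω, c ≤ S ω) {m : ℝ} (hm : 0 < m)
    (hm1 : m < 1) {k : ℕ} (hk : 0 < k) {t : ℝ} (ht : 1 ≤ t * c) :
    Lap P S m k t ≤ 2 * (t * c) ^ (-(m / 2)) := by
  set τ := t * c with hτdef
  have hτ0 : 0 < τ := lt_of_lt_of_le one_pos ht
  have ht0 : 0 < t := by
    by_contra hcon
    push Not at hcon
    have : t * c ≤ 0 := mul_nonpos_of_nonpos_of_nonneg hcon hc.le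
    linarith
  set y := τ ^ (m / 2) with hy
  have hy0 : 0 < y := Real.rpow_pos_of_pos hτ0 _
  have hyinv : τ ^ (-(m / 2)) = y⁻¹ := by rw [Real.rpow_neg hτ0.le]
  have hk' : (0:ℝ) < k := by exact_mod_cast hk
  have hysqrt : y ^ (-1 / m) = τ ^ (-(1/2) : ℝ) := by
    rw [hy, ← Real.rpow_mul hτ0.le]; congr 1; field_simp
  have hmul : τ * τ ^ (-(1/2) : ℝ) = τ ^ ((1/2) : ℝ) := by
    nth_rewrite 1 [← Real.rpow_one τ]
    rw [← Real.rpow_add hτ0]; norm_num
  have hs0 : 0 < τ ^ ((1/2) : ℝ) := Real.rpow_pos_of_pos hτ0 _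
  have hs1 : 1 ≤ τ ^ ((1/2) : ℝ) := Real.one_le_rpow ht (by norm_num)
  rw [hyinv]
  rcases le_or_gt (k : ℝ) y with hky | hky
  · -- small k
    have hell : ell P S m k t ≤ Real.exp (-(τ ^ ((1/2) : ℝ))) := by
      unfold ell
      calc _ ≤ ∫ _x : unitInterval × Ω, Real.exp (-(τ ^ ((1/2) : ℝ)))
              ∂((volume : Measure unitInterval).prod P) := by
            refine integral_mono (integrable_kern P hS hc hSc hk ht0.le) (integrable_const _)
              (fun x => ?_)
            simp only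
            apply Real.exp_le_exp.mpr
            rw [neg_le_neg_iff, ← hmul, ← hysqrt, hτdef]
            have h1 : y ^ (-1 / m) ≤ wgt m k (x.1 : ℝ) := by
              refine le_trans ?_ (wgt_ge m k _)
              apply Real.rpow_le_rpow_of_nonpos hk' hky
              exact (div_neg_of_neg_of_pos (by norm_num) hm).le
            have h2 : 0 ≤ y ^ (-1 / m) := Real.rpow_nonneg hy0.le _
            have h3 := hSc x.2
            calc t * c * y ^ (-1 / m) = t * (y ^ (-1 / m) * c) := by ring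
              _ ≤ t * (wgt m k (x.1 : ℝ) * S x.2) := by
                refine mul_le_mul_of_nonneg_left ?_ ht0.le
                exact mul_le_mul h1 h3 hc.le (h2.trans h1)
        _ = _ := by simp
    rw [Lap_eq]
    have h1 : ell P S m k t ^ k ≤ ell P S m k t :=
      pow_le_of_le_one (ell_nonneg P m k t) (ell_le_one P hS hc hSc hk ht0.le) hk.ne'
    have h2 := exp_neg_le_inv hs0
    have h3 : (τ ^ ((1/2) : ℝ))⁻¹ ≤ y⁻¹ := by
      refine inv_anti₀ hy0 ?_
      exact Real.rpow_le_rpow_of_exponent_le ht (by linarith)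
    have h4 : 0 < y⁻¹ := inv_pos.mpr hy0
    linarith
  · -- large k
    have hA : y / 2 ≤ (k : ℝ) * (1 - ell P S m k t) := by
      rw [one_sub_ell P hS hc hSc hm hk ht0.le]
      have h1 : A m k τ ≤ ∫ ω, A m k (t * S ω) ∂P := by
        have : ∫ _ω, A m k τ ∂P = A m k τ := by simp
        rw [← this]
        refine integral_mono_of_nonneg (Filter.Eventually.of_forall (fun _ => A_nonneg m k hτ0.le)) ?_
          (Filter.Eventually.of_forall (fun ω => A_mono k hτ0.le (mul_le_mul_of_nonneg_left (hSc ω) ht0.le)))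
        refine Integrable.mono' (integrable_const (k : ℝ))
          ((measurable_A m k).comp (measurable_const.mul hS)).aestronglyMeasurable
          (Filter.Eventually.of_forall (fun ω => ?_))
        have h0 : 0 ≤ t * S ω := mul_nonneg ht0.le (hc.le.trans (hSc ω))
        rw [Real.norm_of_nonneg (A_nonneg m k h0)]
        unfold A
        calc _ ≤ ∫ _w in Ioc (0:ℝ) k, (1:ℝ) := by
              refine setIntegral_mono_on ?_ (by simp [integrable_const_iff]) measurableSet_Ioc
                (fun w _ => e1_le_one _ _ _)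
              refine Integrable.mono' (g := fun _ => (1:ℝ)) (by simp [integrable_const_iff])
                (measurable_e1 m _).aestronglyMeasurable ?_
              filter_upwards [ae_restrict_mem measurableSet_Ioc] with w hw
              rw [Real.norm_of_nonneg (e1_nonneg h0 hw.1.le)]
              exact e1_le_one _ _ _
          _ = k := by simp
      refine le_trans ?_ h1
      have hint : ∀ b : ℝ, IntegrableOn (e1 m τ) (Ioc 0 b) := by
        intro b
        refine Integrable.mono' (g := fun _ => (1:ℝ)) (by simp [integrable_const_iff])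
          (measurable_e1 m _).aestronglyMeasurable ?_
        filter_upwards [ae_restrict_mem measurableSet_Ioc] with w hw
        rw [Real.norm_of_nonneg (e1_nonneg hτ0.le hw.1.le)]
        exact e1_le_one _ _ _
      have h2 : ∫ w in Ioc (0:ℝ) y, e1 m τ w ≤ A m k τ := by
        refine setIntegral_mono_set (hint k) ?_ ?_
        · filter_upwards [ae_restrict_mem measurableSet_Ioc] with w hw
          exact e1_nonneg hτ0.le hw.1.le
        · exact Filter.Eventually.of_forall (fun w hw => ⟨hw.1, hw.2.trans hky.le⟩)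
      refine le_trans ?_ h2
      have h3 : ∫ _w in Ioc (0:ℝ) y, (1/2 : ℝ) = y / 2 := by
        simp [hy0.le]; ring
      rw [← h3]
      refine setIntegral_mono_on (by simp [integrable_const_iff]) (hint y) measurableSet_Ioc
        (fun w hw => ?_)
      unfold e1
      have h4 : y ^ (-1 / m) ≤ w ^ (-1 / m) := by
        apply Real.rpow_le_rpow_of_nonpos hw.1 hw.2
        exact (div_neg_of_neg_of_pos (by norm_num) hm).le
      have h5 : (1:ℝ) ≤ τ * w ^ (-1 / m) := by
        calc (1:ℝ) ≤ τ ^ ((1/2) : ℝ) := hs1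
          _ = τ * y ^ (-1 / m) := by rw [hysqrt, hmul]
          _ ≤ _ := mul_le_mul_of_nonneg_left h4 hτ0.le
      have h6 : Real.exp (-(τ * w ^ (-1 / m))) ≤ Real.exp (-1) :=
        Real.exp_le_exp.mpr (by linarith)
      have h7 : Real.exp (-1) < 1/2 := by
        have := Real.exp_one_gt_d9
        rw [Real.exp_neg, inv_lt_comm₀ (Real.exp_pos 1) (by norm_num)]
        linarith
      linarith
    rw [Lap_eq]
    have h1 : ell P S m k t ≤ Real.exp (-(1 - ell P S m k t)) := by
      have := Real.one_sub_le_exp_neg (1 - ell P S m k t)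
      linarith
    calc ell P S m k t ^ k ≤ Real.exp (-(1 - ell P S m k t)) ^ k :=
          pow_le_pow_left₀ (ell_nonneg P m k t) h1 k
      _ = Real.exp (-((k:ℝ) * (1 - ell P S m k t))) := by
          rw [← Real.exp_nat_mul]; congr 1; ring
      _ ≤ Real.exp (-(y / 2)) := Real.exp_le_exp.mpr (by linarith)
      _ ≤ (y / 2)⁻¹ := exp_neg_le_inv (by positivity)
      _ = 2 * y⁻¹ := by field_simp

end oneLevel

end Crest.Agent.R141.Tree
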