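import Crest.Agent.R141.TreeFive

set_option autoImplicit false
open MeasureTheory Filter Topology Set

namespace Crest.Agent.R141

/-- composition of an iterated limit with a continuous function -/
theorem IterTendsto.comp_continuous {r : ℕ} {f : (Fin r → ℕ) → ℝ} {ℓ : ℝ} {φ : ℝ → ℝ}
    (hφ : Continuous φ) (h : IterTendsto r f ℓ) :
    IterTendsto r (fun K => φ (f K)) (φ ℓ) := by
  induction r generalizing ℓ with
  | zero =>
    simp only [IterTendsto] at h ⊢
    rw [h]
  | succ r ih =>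
    obtain ⟨g, hg, hgl⟩ := h
    exact ⟨fun K => φ (g K), fun K hK => (hφ.tendsto _).comp (hg K hK), ih hgl⟩

namespace Tree

variable {L : Type*} {r : ℕ} [Fintype L]

/-- nested power means, as a function of the level-0 uniforms -/
noncomputable def PM : (r : ℕ) → (m : Fin r → ℝ) → (W : (L → Fin (r + 1) → unitInterval) → ℝ) →
    (L → unitInterval) → ℝ
  | 0, _, W, u0 => W (fun ω _ => u0 ω)
  | r + 1, m, W, u0 => (∫ u1, (PM r (Fin.tail m) (consW W u0) u1) ^ (m 0) ∂(rootLaw L)) ^ (1 / m 0)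

lemma PM_succ (r : ℕ) (m : Fin (r + 1) → ℝ) (W : (L → Fin (r + 1 + 1) → unitInterval) → ℝ)
    (u0 : L → unitInterval) : PM (r + 1) m W u0
      = (∫ u1, (PM r (Fin.tail m) (consW W u0) u1) ^ (m 0) ∂(rootLaw L)) ^ (1 / m 0) := rfl

lemma II_zero (φ : ℝ → ℝ) (hφ : Measurable φ) (m : Fin 0 → ℝ) (K : Fin 0 → ℕ)
    {W : (L → Fin (0 + 1) → unitInterval) → ℝ} (hW : Measurable W) :
    II φ 0 m K W = ∫ u0, φ (W (fun ω _ => u0 ω)) ∂(rootLaw L) := by
  have hZ : ∀ p : NT 0 K × (L → Leaf 0 K → Fin (0 + 1) → unitInterval),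
      Zw 0 m K W p = W (fun ω => p.2 ω ()) := by
    intro p
    unfold Zw
    have : ∀ f : Leaf 0 K → ℝ, ∑ a, f a = f () := fun f =>
      Fintype.sum_unique (ι := Unit) f
    rw [this]
    simp [V]
  unfold II
  simp_rw [hZ]
  have hm1 : Measurable (fun u : unitInterval => fun (_ : Leaf 0 K) (_ : Fin (0 + 1)) => u) :=
    measurable_pi_iff.mpr fun _ => measurable_pi_iff.mpr fun _ => measurable_id
  have hP : (Measure.pi fun _ : L => PLaw 0 K) = (rootLaw L).map
      (fun u0 ω => (fun (_ : Leaf 0 K) (_ : Fin (0 + 1)) => u0 ω)) := by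
    have : ∀ i : L, SigmaFinite ((volume : Measure unitInterval).map
      (fun u : unitInterval => fun (_ : Leaf 0 K) (_ : Fin (0 + 1)) => u)) := fun _ => by
      have := PLaw.prob 0 K
      change SigmaFinite (PLaw 0 K)
      infer_instance
    rw [rootLaw, Measure.pi_map_pi (μ := fun _ : L => (volume : Measure unitInterval))
      (f := fun _ u => fun (_ : Leaf 0 K) (_ : Fin (0 + 1)) => u) (fun _ => hm1.aemeasurable)]
    rfl
  have hmeas : Measurable (fun y : L → Leaf 0 K → Fin (0 + 1) → unitInterval =>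
      φ (W (fun ω => y ω ()))) := by
    refine hφ.comp (hW.comp (measurable_pi_iff.mpr fun ω => ?_))
    exact (measurable_pi_apply (() : Unit)).comp (measurable_pi_apply ω)
  unfold JL
  have h1 : ∫ p : NT 0 K × (L → Leaf 0 K → Fin (0 + 1) → unitInterval), φ (W (fun ω => p.2 ω ()))
      ∂((NLaw 0 K).prod (Measure.pi fun _ : L => PLaw 0 K))
      = ∫ y, φ (W (fun ω => y ω ())) ∂(Measure.pi fun _ : L => PLaw 0 K) := by
    have := integral_fun_snd (μ := NLaw 0 K) (ν := Measure.pi fun _ : L => PLaw 0 K)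
      (fun y : L → Leaf 0 K → Fin (0 + 1) → unitInterval => φ (W (fun ω => y ω ())))
    rw [this]
    simp
  rw [h1, hP, integral_map _ hmeas.aestronglyMeasurable]
  exact (measurable_pi_iff.mpr fun ω => hm1.comp (measurable_pi_apply ω)).aemeasurable

lemma PM_nonneg : (r : ℕ) → (m : Fin r → ℝ) → 
    (W : (L → Fin (r + 1) → unitInterval) → ℝ) → (∀ u, 0 ≤ W u) → ∀ u0, 0 ≤ PM r m W u0
  | 0, _, W, h, u0 => h _
  | r + 1, m, W, h, u0 => by
    unfold PM
    refine Real.rpow_nonneg (integral_nonneg (fun u1 => ?_)) _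
    exact Real.rpow_nonneg (PM_nonneg r (Fin.tail m) (consW W u0) (fun u => h _) u1) _

theorem iter_RR : (r : ℕ) → (m : Fin r → ℝ) → StrictMono m → (∀ i, 0 < m i ∧ m i < 1) →
    (W : (L → Fin (r + 1) → unitInterval) → ℝ) → Measurable W → (c C : ℝ) → 0 < c →
    (∀ u, c ≤ W u) → (∀ u, W u ≤ C) → (q : ℝ) → 0 < q → (∀ i, q < m i) →
    IterTendsto r (fun K => RR q r m K W) (∫ u0, PM r m W u0 ^ q ∂(rootLaw L))
  | 0, m, _, _, W, hW, c, C, hc, hcW, hWC, q, hq, _ => by
    simp only [IterTendsto]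
    unfold RR
    rw [II_zero _ (by fun_prop) m _ hW, II_zero _ (by fun_prop) m _ measurable_const]
    simp [PM]
  | r + 1, m, hmono, hm, W, hW, c, C, hc, hcW, hWC, q, hq, hqm => by
    have hmono' : StrictMono (Fin.tail m) := hmono.comp (Fin.strictMono_succ)
    have hm' : ∀ i, 0 < Fin.tail m i ∧ Fin.tail m i < 1 := fun i => hm i.succ
    have hlt : ∀ i, m 0 < Fin.tail m i := fun i => hmono (Fin.succ_pos i)
    have hC : 0 < C := hc.trans_le ((hcW (fun _ _ => 0)).trans (hWC _))
    refine ⟨fun K' => ∫ u0, (RR (m 0) r (Fin.tail m) K' (consW W u0)) ^ (q / m 0) ∂(rootLaw L),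
      fun K' hK' => tendsto_RR_succ hW hc hcW hWC hmono hm hK' hq (hqm 0), ?_⟩
    have hval : ∀ u0 : L → unitInterval, PM (r + 1) m W u0 ^ q
        = (∫ u1, (PM r (Fin.tail m) (consW W u0) u1) ^ (m 0) ∂(rootLaw L)) ^ (q / m 0) := by
      intro u0
      rw [PM_succ, ← Real.rpow_mul (integral_nonneg (fun u1 => Real.rpow_nonneg
        (PM_nonneg r (Fin.tail m) (consW W u0) (fun u => hc.le.trans (hcW _)) u1) _)),
        one_div_mul_eq_div]
    simp_rw [hval]
    refine IterTendsto.integral (B := fun _ => (C ^ (m 0)) ^ (q / m 0)) (fun K' hK' => ?_)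
      (integrable_const _) (fun K' hK' => Filter.Eventually.of_forall (fun u0 => ?_))
      (Filter.Eventually.of_forall (fun u0 => ?_))
    · exact ((aesm_RR (K' := K') hW (m 0) (Fin.tail m)).pow_const _).aestronglyMeasurable
    · have h1 := le_RR (K := K') (measurable_consW' hW u0) hc (fun u => hcW _) (fun u => hWC _)
        hmono' hm' hK' (hm 0).1 hlt
      have h2 := RR_le (K := K') (measurable_consW' hW u0) hc (fun u => hcW _) (fun u => hWC _)
        hmono' hm' hK' (hm 0).1 hlt
      have h0 : 0 ≤ RR (m 0) r (Fin.tail m) K' (consW W u0) := (Real.rpow_nonneg hc.le _).trans h1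
      rw [abs_of_nonneg (Real.rpow_nonneg h0 _)]
      exact Real.rpow_le_rpow h0 h2 (div_pos hq (hm 0).1).le
    · have ih := iter_RR r (Fin.tail m) hmono' hm' (consW W u0) (measurable_consW' hW u0) c C hc
        (fun u => hcW _) (fun u => hWC _) (m 0) (hm 0).1 hlt
      exact IterTendsto.comp_continuous
        (φ := fun x => x ^ (q / m 0)) (Real.continuous_rpow_const (div_pos hq (hm 0).1).le) ih

theorem iter_DD : (r : ℕ) → (m : Fin r → ℝ) → StrictMono m → (∀ i, 0 < m i ∧ m i < 1) →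
    (W : (L → Fin (r + 1) → unitInterval) → ℝ) → Measurable W → (c C : ℝ) → 0 < c →
    (∀ u, c ≤ W u) → (∀ u, W u ≤ C) →
    IterTendsto r (fun K => DD r m K W) (∫ u0, Real.log (PM r m W u0) ∂(rootLaw L))
  | 0, m, _, _, W, hW, c, C, hc, hcW, hWC => by
    simp only [IterTendsto]
    unfold DD
    rw [II_zero _ Real.measurable_log m _ hW, II_zero _ Real.measurable_log m _ measurable_const]
    simp [PM]
  | r + 1, m, hmono, hm, W, hW, c, C, hc, hcW, hWC => by
    have hmono' : StrictMono (Fin.tail m) := hmono.comp (Fin.strictMono_succ)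
    have hm' : ∀ i, 0 < Fin.tail m i ∧ Fin.tail m i < 1 := fun i => hm i.succ
    have hlt : ∀ i, m 0 < Fin.tail m i := fun i => hmono (Fin.succ_pos i)
    have hC : 0 < C := hc.trans_le ((hcW (fun _ _ => 0)).trans (hWC _))
    have hcm : 0 < c ^ (m 0) := Real.rpow_pos_of_pos hc _
    refine ⟨fun K' => ∫ u0, (1 / m 0) * Real.log (RR (m 0) r (Fin.tail m) K' (consW W u0))
      ∂(rootLaw L), fun K' hK' => tendsto_DD_succ hW hc hcW hWC hmono hm hK', ?_⟩
    have ih : ∀ u0 : L → unitInterval, IterTendsto r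
        (fun K' => RR (m 0) r (Fin.tail m) K' (consW W u0))
        (∫ u1, (PM r (Fin.tail m) (consW W u0) u1) ^ (m 0) ∂(rootLaw L)) := fun u0 =>
      iter_RR r (Fin.tail m) hmono' hm' (consW W u0) (measurable_consW' hW u0) c C hc
        (fun u => hcW _) (fun u => hWC _) (m 0) (hm 0).1 hlt
    have hRlow : ∀ (u0 : L → unitInterval) (K' : Fin r → ℕ), (∀ i, 0 < K' i) →
        c ^ (m 0) ≤ RR (m 0) r (Fin.tail m) K' (consW W u0) := fun u0 K' hK' =>
      le_RR (K := K') (measurable_consW' hW u0) hc (fun u => hcW _) (fun u => hWC _)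
        hmono' hm' hK' (hm 0).1 hlt
    have hRup : ∀ (u0 : L → unitInterval) (K' : Fin r → ℕ), (∀ i, 0 < K' i) →
        RR (m 0) r (Fin.tail m) K' (consW W u0) ≤ C ^ (m 0) := fun u0 K' hK' =>
      RR_le (K := K') (measurable_consW' hW u0) hc (fun u => hcW _) (fun u => hWC _)
        hmono' hm' hK' (hm 0).1 hlt
    have hllow : ∀ u0 : L → unitInterval,
        c ^ (m 0) ≤ ∫ u1, (PM r (Fin.tail m) (consW W u0) u1) ^ (m 0) ∂(rootLaw L) := fun u0 =>
      IterTendsto.le (IterTendsto.const r _) (ih u0) (fun K' hK' => hRlow u0 K' hK')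
    have hval : ∀ u0 : L → unitInterval, Real.log (PM (r + 1) m W u0)
        = (1 / m 0) * Real.log (∫ u1, (PM r (Fin.tail m) (consW W u0) u1) ^ (m 0) ∂(rootLaw L)) := by
      intro u0
      rw [PM_succ, Real.log_rpow (hcm.trans_le (hllow u0))]
    simp_rw [hval]
    refine IterTendsto.integral (B := fun _ => (1 / m 0) *
      max (Real.log (C ^ (m 0))) (-Real.log (c ^ (m 0)))) (fun K' hK' => ?_)
      (integrable_const _) (fun K' hK' => Filter.Eventually.of_forall (fun u0 => ?_))
      (Filter.Eventually.of_forall (fun u0 => ?_))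
    · exact ((aesm_RR (K' := K') hW (m 0) (Fin.tail m)).log.const_mul _).aestronglyMeasurable
    · have h0 : 0 < 1 / m 0 := one_div_pos.mpr (hm 0).1
      rw [abs_mul, abs_of_pos h0]
      refine mul_le_mul_of_nonneg_left ?_ h0.le
      have a1 := Real.log_le_log hcm (hRlow u0 K' hK')
      have a2 := Real.log_le_log (hcm.trans_le (hRlow u0 K' hK')) (hRup u0 K' hK')
      rw [abs_le]
      have b1 := le_max_left (Real.log (C ^ (m 0))) (-Real.log (c ^ (m 0)))
      have b2 := le_max_right (Real.log (C ^ (m 0))) (-Real.log (c ^ (m 0)))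
      constructor <;> linarith
    · have hφ : Continuous (fun x : ℝ => (1 / m 0) * Real.log (max (c ^ (m 0)) x)) := by
        refine continuous_const.mul (Continuous.log (by fun_prop) (fun x => ?_))
        exact (lt_of_lt_of_le hcm (le_max_left _ _)).ne'
      have h := IterTendsto.comp_continuous hφ (ih u0)
      rw [max_eq_right (hllow u0)] at h
      refine h.congr (fun K' hK' => ?_)
      rw [max_eq_right (hRlow u0 K' hK')]

end Tree

end Crest.Agent.R141
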