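import Crest.Agent.R141.TreeTwo
import Crest.Agent.R141.UDefs

set_option autoImplicit false
open MeasureTheory Filter Topology Set

namespace Crest.Agent.R141.Tree

/-! ## measure preserving shuffles -/

section shuffle

variable {κ L X : Type*} [Fintype κ] [Fintype L] [MeasurableSpace X] (μ : Measure X)
  [IsProbabilityMeasure μ]

lemma mp_uncurry : MeasurePreserving (fun (f : κ → L → X) (p : κ × L) => f p.1 p.2)
    (Measure.pi fun _ : κ => Measure.pi fun _ : L => μ) (Measure.pi fun _ : κ × L => μ) := by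
  refine ⟨by fun_prop, ?_⟩
  have h := Measure.infinitePi_map_curry_symm (fun (_ : κ) (_ : L) => μ)
  simp only [Measure.infinitePi_eq_pi] at h
  rw [← h]
  rfl

lemma mp_curry : MeasurePreserving (fun (g : κ × L → X) (k : κ) (l : L) => g (k, l))
    (Measure.pi fun _ : κ × L => μ) (Measure.pi fun _ : κ => Measure.pi fun _ : L => μ) := by
  refine ⟨by fun_prop, ?_⟩
  have h := Measure.infinitePi_map_curry (fun (_ : κ) (_ : L) => μ)
  simp only [Measure.infinitePi_eq_pi] at h
  rw [← h]
  rfl

lemma mp_swap : MeasurePreserving (fun (g : κ × L → X) (p : L × κ) => g (p.2, p.1))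
    (Measure.pi fun _ : κ × L => μ) (Measure.pi fun _ : L × κ => μ) := by
  refine ⟨by fun_prop, ?_⟩
  refine (Measure.pi_eq (fun s hs => ?_)).symm
  rw [Measure.map_apply (by fun_prop) (MeasurableSet.univ_pi hs)]
  have : (fun (g : κ × L → X) (p : L × κ) => g (p.2, p.1)) ⁻¹' (Set.univ.pi s)
      = Set.univ.pi (fun q : κ × L => s (q.2, q.1)) := by
    ext g
    simp only [Set.mem_preimage, Set.mem_pi, Set.mem_univ, true_implies, Prod.forall]
    exact ⟨fun h a b => h b a, fun h a b => h b a⟩
  rw [this, Measure.pi_pi]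
  exact Fintype.prod_equiv (Equiv.prodComm κ L) _ _ (fun q => rfl)

lemma mp_flip : MeasurePreserving (fun (f : κ → L → X) (l : L) (k : κ) => f k l)
    (Measure.pi fun _ : κ => Measure.pi fun _ : L => μ)
    (Measure.pi fun _ : L => Measure.pi fun _ : κ => μ) :=
  ((mp_curry (κ := L) (L := κ) μ).comp (mp_swap μ)).comp (mp_uncurry μ)

end shuffle

section shuffle2

variable {κ L I A J PL : Type*} [Fintype κ] [Fintype L] [MeasurableSpace I] [MeasurableSpace A]
  [MeasurableSpace J] [MeasurableSpace PL] (μI : Measure I) (μA : Measure A) (μJ : Measure J)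
  (μP : Measure PL)
  [IsProbabilityMeasure μI] [IsProbabilityMeasure μA] [IsProbabilityMeasure μJ]
  [IsProbabilityMeasure μP]

lemma mp_shuffle : MeasurePreserving
    (fun p : (L → I) × (κ → J × (A × (L → PL))) =>
      ((fun a => ((p.2 a).1, (p.2 a).2.1)), (fun ω => (p.1 ω, fun a => (p.2 a).2.2 ω))))
    ((Measure.pi fun _ : L => μI).prod
      (Measure.pi fun _ : κ => μJ.prod (μA.prod (Measure.pi fun _ : L => μP))))
    ((Measure.pi fun _ : κ => μJ.prod μA).prod
      (Measure.pi fun _ : L => μI.prod (Measure.pi fun _ : κ => μP))) := by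
  -- step 1: reassociate inside
  have h1 : MeasurePreserving
      (fun (ξ : κ → J × (A × (L → PL))) a => (((ξ a).1, (ξ a).2.1), (ξ a).2.2))
      (Measure.pi fun _ : κ => μJ.prod (μA.prod (Measure.pi fun _ : L => μP)))
      (Measure.pi fun _ : κ => (μJ.prod μA).prod (Measure.pi fun _ : L => μP)) := by
    refine measurePreserving_pi _ _ (f := fun (_ : κ) (x : J × (A × (L → PL))) =>
      ((x.1, x.2.1), x.2.2)) (fun _ => ?_)
    exact (measurePreserving_prodAssoc μJ μA (Measure.pi fun _ : L => μP)).symm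
  -- step 2: split
  have h2 := measurePreserving_arrowProdEquivProdArrow (J × A) (L → PL) κ
    (fun _ => μJ.prod μA) (fun _ => Measure.pi fun _ : L => μP)
  -- step 3: flip
  have h3 := (MeasurePreserving.id (Measure.pi fun _ : κ => μJ.prod μA)).prod
    (mp_flip (κ := κ) (L := L) μP)
  have h123 := (h3.comp h2).comp h1
  -- step 4: with the roots
  have h4 := (MeasurePreserving.id (Measure.pi fun _ : L => μI)).prod h123
  -- step 5: (a,(b,c)) -> (b,(a,c))
  have h5 : MeasurePreserving
      (fun p : (L → I) × ((κ → J × A) × (L → κ → PL)) => (p.2.1, (p.1, p.2.2)))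
      ((Measure.pi fun _ : L => μI).prod ((Measure.pi fun _ : κ => μJ.prod μA).prod
        (Measure.pi fun _ : L => Measure.pi fun _ : κ => μP)))
      ((Measure.pi fun _ : κ => μJ.prod μA).prod ((Measure.pi fun _ : L => μI).prod
        (Measure.pi fun _ : L => Measure.pi fun _ : κ => μP))) := by
    have ha := (measurePreserving_prodAssoc (Measure.pi fun _ : L => μI)
      (Measure.pi fun _ : κ => μJ.prod μA)
      (Measure.pi fun _ : L => Measure.pi fun _ : κ => μP)).symm
    have hb := (Measure.measurePreserving_swap (μ := Measure.pi fun _ : L => μI)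
      (ν := Measure.pi fun _ : κ => μJ.prod μA)).prod
      (MeasurePreserving.id (Measure.pi fun _ : L => Measure.pi fun _ : κ => μP))
    have hc := (measurePreserving_prodAssoc (Measure.pi fun _ : κ => μJ.prod μA)
      (Measure.pi fun _ : L => μI)
      (Measure.pi fun _ : L => Measure.pi fun _ : κ => μP))
    exact (hc.comp hb).comp ha
  -- step 6: join
  have h6 := (MeasurePreserving.id (Measure.pi fun _ : κ => μJ.prod μA)).prod
    (measurePreserving_arrowProdEquivProdArrow I (κ → PL) L
    (fun _ => μI) (fun _ => Measure.pi fun _ : κ => μP)).symm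
  exact (h6.comp h5).comp h4

end shuffle2

/-! ## the tree -/

/-- leaves of the tree with branching numbers `K` -/
def Leaf : (r : ℕ) → (Fin r → ℕ) → Type
  | 0, _ => Unit
  | r + 1, K => Fin (K 0) × Leaf r (Fin.tail K)

instance Leaf.fintype : (r : ℕ) → (K : Fin r → ℕ) → Fintype (Leaf r K)
  | 0, _ => inferInstanceAs (Fintype Unit)
  | r + 1, K =>
    letI := Leaf.fintype r (Fin.tail K)
    inferInstanceAs (Fintype (Fin (K 0) × Leaf r (Fin.tail K)))

/-- the randomness behind the weights -/
def NT : (r : ℕ) → (Fin r → ℕ) → Type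
  | 0, _ => Unit
  | r + 1, K => Fin (K 0) → unitInterval × NT r (Fin.tail K)

instance NT.ms : (r : ℕ) → (K : Fin r → ℕ) → MeasurableSpace (NT r K)
  | 0, _ => inferInstanceAs (MeasurableSpace Unit)
  | r + 1, K =>
    letI := NT.ms r (Fin.tail K)
    inferInstanceAs (MeasurableSpace (Fin (K 0) → unitInterval × NT r (Fin.tail K)))

noncomputable def NLaw : (r : ℕ) → (K : Fin r → ℕ) → Measure (NT r K)
  | 0, _ => (Measure.dirac () : Measure Unit)
  | r + 1, K =>
    Measure.pi (fun _ : Fin (K 0) => (volume : Measure unitInterval).prod (NLaw r (Fin.tail K)))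

instance NLaw.prob : (r : ℕ) → (K : Fin r → ℕ) → IsProbabilityMeasure (NLaw r K)
  | 0, _ => inferInstanceAs (IsProbabilityMeasure (Measure.dirac () : Measure Unit))
  | r + 1, K =>
    haveI := NLaw.prob r (Fin.tail K)
    inferInstanceAs (IsProbabilityMeasure (Measure.pi (fun _ : Fin (K 0) =>
      (volume : Measure unitInterval).prod (NLaw r (Fin.tail K)))))

/-- the weights -/
noncomputable def V : (r : ℕ) → (m : Fin r → ℝ) → (K : Fin r → ℕ) → NT r K → Leaf r K → ℝ
  | 0, _, _, _, _ => 1
  | r + 1, m, K, ξ, a =>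
    wgt (m 0) (K 0) (ξ a.1).1 * V r (Fin.tail m) (Fin.tail K) (ξ a.1).2 a.2

lemma measurable_V : (r : ℕ) → (m : Fin r → ℝ) → (K : Fin r → ℕ) → (a : Leaf r K) →
    Measurable (fun ξ => V r m K ξ a)
  | 0, _, _, _ => measurable_const
  | r + 1, m, K, a => by
    have h := measurable_V r (Fin.tail m) (Fin.tail K) a.2
    have h1 : Measurable (fun ξ : Fin (K 0) → unitInterval × NT r (Fin.tail K) =>
        wgt (m 0) (K 0) (ξ a.1).1) :=
      (measurable_wgt _ _).comp (measurable_subtype_coe.comp (measurable_fst.comp (measurable_pi_apply _)))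
    have h2 : Measurable (fun ξ : Fin (K 0) → unitInterval × NT r (Fin.tail K) =>
        V r (Fin.tail m) (Fin.tail K) (ξ a.1).2 a.2) :=
      h.comp (measurable_snd.comp (measurable_pi_apply _))
    exact h1.mul h2

/-- law of the array leaf ↦ path, for one label -/
noncomputable def PLaw : (r : ℕ) → (K : Fin r → ℕ) → Measure (Leaf r K → Fin (r + 1) → unitInterval)
  | 0, _ => (volume : Measure unitInterval).map (fun u _ _ => u)
  | r + 1, K => ((volume : Measure unitInterval).prod
      (Measure.pi (fun _ : Fin (K 0) => PLaw r (Fin.tail K)))).map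
        (fun ξ => fun a : Fin (K 0) × Leaf r (Fin.tail K) =>
          (Fin.cons ξ.1 (ξ.2 a.1 a.2) : Fin (r + 1 + 1) → unitInterval))

lemma measurable_cons {n : ℕ} : Measurable (fun p : unitInterval × (Fin n → unitInterval) =>
    (Fin.cons p.1 p.2 : Fin (n + 1) → unitInterval)) := by
  refine measurable_pi_iff.mpr (fun i => ?_)
  refine Fin.cases ?_ (fun j => ?_) i
  · simpa using measurable_fst
  · simp only [Fin.cons_succ]
    exact (measurable_pi_apply j).comp measurable_snd

/-- the gluing map of `PLaw` -/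
def pmap (r : ℕ) (K : Fin (r + 1) → ℕ)
    (ξ : unitInterval × (Fin (K 0) → Leaf r (Fin.tail K) → Fin (r + 1) → unitInterval)) :
    Leaf (r + 1) K → Fin (r + 1 + 1) → unitInterval :=
  fun a : Fin (K 0) × Leaf r (Fin.tail K) =>
          (Fin.cons ξ.1 (ξ.2 a.1 a.2) : Fin (r + 1 + 1) → unitInterval)

lemma measurable_pmap (r : ℕ) (K : Fin (r + 1) → ℕ) : Measurable (pmap r K) := by
  refine measurable_pi_iff.mpr (fun a => ?_)
  exact measurable_cons.comp (measurable_fst.prodMk
    ((measurable_pi_apply a.2).comp ((measurable_pi_apply a.1).comp measurable_snd)))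

lemma PLaw_succ (r : ℕ) (K : Fin (r + 1) → ℕ) : PLaw (r + 1) K
    = ((volume : Measure unitInterval).prod
      (Measure.pi (fun _ : Fin (K 0) => PLaw r (Fin.tail K)))).map (pmap r K) := rfl

instance PLaw.prob : (r : ℕ) → (K : Fin r → ℕ) → IsProbabilityMeasure (PLaw r K)
  | 0, _ => by
    unfold PLaw
    refine Measure.isProbabilityMeasure_map ?_
    exact (measurable_pi_iff.mpr fun _ => measurable_pi_iff.mpr fun _ => measurable_id).aemeasurable
  | r + 1, K => by
    have := PLaw.prob r (Fin.tail K)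
    rw [PLaw_succ]
    exact Measure.isProbabilityMeasure_map (measurable_pmap r K).aemeasurable

section JL

variable (L : Type*) [Fintype L]

/-- joint law of the weights and of the labels -/
noncomputable def JL (r : ℕ) (K : Fin r → ℕ) :
    Measure (NT r K × (L → Leaf r K → Fin (r + 1) → unitInterval)) :=
  (NLaw r K).prod (Measure.pi fun _ : L => PLaw r K)

instance (r : ℕ) (K : Fin r → ℕ) : IsProbabilityMeasure (JL L r K) := by
  unfold JL; infer_instance

variable {L}

/-- the weighted sum over the leaves -/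
noncomputable def Zw (r : ℕ) (m : Fin r → ℝ) (K : Fin r → ℕ)
    (W : (L → Fin (r + 1) → unitInterval) → ℝ)
    (p : NT r K × (L → Leaf r K → Fin (r + 1) → unitInterval)) : ℝ :=
  ∑ a, V r m K p.1 a * W (fun ω => p.2 ω a)

/-- fix the level-0 uniforms -/
def consW {r : ℕ} (W : (L → Fin (r + 1 + 1) → unitInterval) → ℝ) (u0 : L → unitInterval)
    (u : L → Fin (r + 1) → unitInterval) : ℝ :=
  W (fun ω => Fin.cons (u0 ω) (u ω))

/-- the gluing map -/
def Theta (r : ℕ) (K : Fin (r + 1) → ℕ)
    (p : (L → unitInterval) × (Fin (K 0) → unitInterval ×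
      (NT r (Fin.tail K) × (L → Leaf r (Fin.tail K) → Fin (r + 1) → unitInterval)))) :
    NT (r + 1) K × (L → Leaf (r + 1) K → Fin (r + 1 + 1) → unitInterval) :=
  (fun a => ((p.2 a).1, (p.2 a).2.1), fun ω => pmap r K (p.1 ω, fun a => (p.2 a).2.2 ω))

lemma mp_Theta (r : ℕ) (K : Fin (r + 1) → ℕ) : MeasurePreserving (Theta (L := L) r K)
    ((Measure.pi fun _ : L => (volume : Measure unitInterval)).prod
      (noise (JL L r (Fin.tail K)) (K 0))) (JL L (r + 1) K) := by
  have h1 := mp_shuffle (κ := Fin (K 0)) (L := L) (volume : Measure unitInterval)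
    (NLaw r (Fin.tail K)) (volume : Measure unitInterval) (PLaw r (Fin.tail K))
  have h2 : MeasurePreserving (pmap r K) ((volume : Measure unitInterval).prod
      (Measure.pi (fun _ : Fin (K 0) => PLaw r (Fin.tail K)))) (PLaw (r + 1) K) :=
    (measurable_pmap r K).measurePreserving _
  have h3 := measurePreserving_pi (fun _ : L => (volume : Measure unitInterval).prod
      (Measure.pi (fun _ : Fin (K 0) => PLaw r (Fin.tail K)))) (fun _ => PLaw (r + 1) K)
      (f := fun _ => pmap r K) (fun _ => h2)
  have h4 := (MeasurePreserving.id (NLaw (r + 1) K)).prod h3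
  exact h4.comp h1

omit [Fintype L] in
lemma Zw_Theta (r : ℕ) (m : Fin (r + 1) → ℝ) (K : Fin (r + 1) → ℕ)
    (W : (L → Fin (r + 1 + 1) → unitInterval) → ℝ)
    (p : (L → unitInterval) × (Fin (K 0) → unitInterval ×
      (NT r (Fin.tail K) × (L → Leaf r (Fin.tail K) → Fin (r + 1) → unitInterval)))) :
    Zw (r + 1) m K W (Theta r K p)
      = Zs (Zw r (Fin.tail m) (Fin.tail K) (consW W p.1)) (m 0) (K 0) p.2 := by
  unfold Zw Zs
  have : ∀ f : Leaf (r + 1) K → ℝ, ∑ a, f a
      = ∑ a : Fin (K 0), ∑ b : Leaf r (Fin.tail K), f (a, b) := by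
    intro f
    exact Fintype.sum_prod_type (f := (f : Fin (K 0) × Leaf r (Fin.tail K) → ℝ))
  rw [this]
  refine Finset.sum_congr rfl (fun a _ => ?_)
  rw [Finset.mul_sum]
  refine Finset.sum_congr rfl (fun b _ => ?_)
  rw [← mul_assoc]
  rfl

end JL

end Crest.Agent.R141.Tree
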