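import Crest.Agent.R141.TreeOne

set_option autoImplicit false
open MeasureTheory Filter Topology Set

namespace Crest.Agent.R141.Tree

/-! ## dominating functions -/

noncomputable def domA (K m q t : ℝ) : ℝ := if t ≤ 1 then K * t ^ (m - 1 - q) else t ^ (-1 - q)

lemma integrableOn_domA {K m q : ℝ} (hq : 0 < q) (hqm : q < m) :
    IntegrableOn (domA K m q) (Ioi 0) := by
  have h1 : IntegrableOn (domA K m q) (Ioc 0 1) := by
    have : IntegrableOn (fun t : ℝ => K * t ^ (m - 1 - q)) (Ioc 0 1) := by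
      have h := (intervalIntegral.intervalIntegrable_rpow' (a := 0) (b := 1)
        (r := m - 1 - q) (by linarith)).const_mul K
      rwa [intervalIntegrable_iff_integrableOn_Ioc_of_le zero_le_one] at h
    refine this.congr_fun (fun t ht => ?_) measurableSet_Ioc
    simp [domA, ht.2]
  have h2 : IntegrableOn (domA K m q) (Ioi 1) := by
    have : IntegrableOn (fun t : ℝ => t ^ (-1 - q)) (Ioi 1) :=
      integrableOn_Ioi_rpow_of_lt (by linarith) zero_lt_one
    refine this.congr_fun (fun t ht => ?_) measurableSet_Ioi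
    have : ¬ t ≤ 1 := not_le.mpr ht
    simp [domA, this]
  have : Ioi (0 : ℝ) = Ioc 0 1 ∪ Ioi 1 := by
    rw [Ioc_union_Ioi_eq_Ioi zero_le_one]
  rw [this]
  exact h1.union h2

lemma le_domA {K m q t h : ℝ} (ht : 0 < t) (h0 : h ≤ 1) (h1 : h ≤ K * t ^ m) :
    h * t ^ (-1 - q) ≤ domA K m q t := by
  unfold domA
  have hp : 0 ≤ t ^ (-1 - q) := Real.rpow_nonneg ht.le _
  split_ifs with hle
  · calc h * t ^ (-1 - q) ≤ K * t ^ m * t ^ (-1 - q) := mul_le_mul_of_nonneg_right h1 hp
      _ = K * t ^ (m - 1 - q) := by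
        rw [mul_assoc, ← Real.rpow_add ht]; congr 2; ring
  · calc h * t ^ (-1 - q) ≤ 1 * t ^ (-1 - q) := mul_le_mul_of_nonneg_right h0 hp
      _ = _ := one_mul _

/-- the kernel `(1 - e^{-tz}) t^{-1-q}` -/
noncomputable def kA (q z t : ℝ) : ℝ := (1 - Real.exp (-(t * z))) * t ^ (-1 - q)

noncomputable def Dq (q : ℝ) : ℝ := ∫ t in Ioi (0:ℝ), kA q 1 t

lemma one_sub_exp_nonneg {x : ℝ} (hx : 0 ≤ x) : 0 ≤ 1 - Real.exp (-x) := by
  have := Real.exp_le_one_iff.mpr (neg_nonpos.mpr hx)
  linarith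

lemma one_sub_exp_le (x : ℝ) : 1 - Real.exp (-x) ≤ x := by
  have := Real.add_one_le_exp (-x)
  linarith

lemma one_sub_exp_le_one (x : ℝ) : 1 - Real.exp (-x) ≤ 1 := by
  have := Real.exp_pos (-x)
  linarith

lemma kA_nonneg {q z t : ℝ} (hz : 0 ≤ z) (ht : 0 ≤ t) : 0 ≤ kA q z t :=
  mul_nonneg (one_sub_exp_nonneg (mul_nonneg ht hz)) (Real.rpow_nonneg ht _)

lemma measurable_kA (q z : ℝ) : Measurable (kA q z) := by
  unfold kA; fun_prop

lemma integrableOn_kA {q z : ℝ} (hq : 0 < q) (hq1 : q < 1) (hz : 0 ≤ z) :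
    IntegrableOn (kA q z) (Ioi 0) := by
  refine Integrable.mono' (integrableOn_domA (K := z) hq hq1)
    (measurable_kA q z).aestronglyMeasurable ?_
  filter_upwards [ae_restrict_mem measurableSet_Ioi] with t ht
  have ht' : (0:ℝ) < t := ht
  rw [Real.norm_of_nonneg (kA_nonneg hz ht'.le)]
  refine le_domA ht' (one_sub_exp_le_one _) ?_
  rw [Real.rpow_one, mul_comm z t]
  exact one_sub_exp_le _

lemma Dq_pos {q : ℝ} (hq : 0 < q) (hq1 : q < 1) : 0 < Dq q := by
  unfold Dq
  have hint := integrableOn_kA hq hq1 zero_le_one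
  rw [setIntegral_pos_iff_support_of_nonneg_ae ?_ hint]
  · have : Function.support (kA q 1) ∩ Ioi 0 = Ioi 0 := by
      ext t
      simp only [mem_inter_iff, Function.mem_support, mem_Ioi, and_iff_right_iff_imp]
      intro ht
      have h1 : Real.exp (-(t * 1)) < 1 := by
        rw [Real.exp_lt_one_iff]; linarith
      have h2 : 0 < t ^ (-1 - q) := Real.rpow_pos_of_pos ht _
      exact (mul_pos (by linarith) h2).ne'
    rw [this]
    simp
  · filter_upwards [ae_restrict_mem measurableSet_Ioi] with t ht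
    exact kA_nonneg zero_le_one (le_of_lt ht)

lemma integral_kA {q z : ℝ} (hq : 0 < q) (hz : 0 ≤ z) :
    ∫ t in Ioi (0:ℝ), kA q z t = z ^ q * Dq q := by
  rcases hz.eq_or_lt with rfl | hz
  · simp [kA, Real.zero_rpow hq.ne']
  · have h := integral_comp_mul_left_Ioi (kA q 1) 0 hz
    rw [mul_zero] at h
    have h2 : ∫ x in Ioi (0 : ℝ), kA q 1 (z * x) = z ^ (-1 - q) * ∫ t in Ioi (0:ℝ), kA q z t := by
      rw [← integral_const_mul]
      refine setIntegral_congr_fun measurableSet_Ioi (fun x hx => ?_)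
      have hx' : (0:ℝ) < x := hx
      simp only [kA]
      rw [Real.mul_rpow hz.le hx'.le, mul_one, mul_comm z x]
      ring
    rw [h2, smul_eq_mul] at h
    have h3 : z ^ (-1 - q) = z⁻¹ * (z ^ q)⁻¹ := by
      rw [← Real.rpow_neg hz.le, ← Real.rpow_neg_one z, ← Real.rpow_add hz]
      congr 1
    rw [h3] at h
    have hz1 : z ≠ 0 := hz.ne'
    have hz2 : z ^ q ≠ 0 := (Real.rpow_pos_of_pos hz q).ne'
    have h4 : (z⁻¹ * (z ^ q)⁻¹) * ∫ t in Ioi (0:ℝ), kA q z t
        = (z⁻¹ * (z ^ q)⁻¹) * (z ^ q * Dq q) := by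
      rw [h]; unfold Dq; field_simp
    exact mul_left_cancel₀ (by positivity) h4

/-! ## the logarithmic kernel -/

noncomputable def kB (z t : ℝ) : ℝ := t⁻¹ * (Real.exp (-t) - Real.exp (-(t * z)))

lemma measurable_kB (z : ℝ) : Measurable (kB z) := by
  unfold kB; fun_prop

/-- dominating function for the log case -/
noncomputable def domB (K m c t : ℝ) : ℝ :=
  if t * c ≤ 1 then 1 + K * t ^ (m - 1) else t⁻¹ * (t⁻¹ + 2 * (t * c) ^ (-(m / 2)))

lemma integrableOn_domB {K m c : ℝ} (hm : 0 < m) (hc : 0 < c) :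
    IntegrableOn (domB K m c) (Ioi 0) := by
  have hT : 0 < 1 / c := by positivity
  have h1 : IntegrableOn (domB K m c) (Ioc 0 (1 / c)) := by
    have : IntegrableOn (fun t : ℝ => 1 + K * t ^ (m - 1)) (Ioc 0 (1 / c)) := by
      have h := (intervalIntegral.intervalIntegrable_rpow' (a := 0) (b := 1 / c)
        (r := m - 1) (by linarith)).const_mul K
      have h' := (_root_.intervalIntegrable_const (μ := volume) (a := 0) (b := 1 / c) (c := (1:ℝ))).add h
      rwa [intervalIntegrable_iff_integrableOn_Ioc_of_le hT.le] at h'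
    refine this.congr_fun (fun t ht => ?_) measurableSet_Ioc
    have : t * c ≤ 1 := by
      have := ht.2
      rwa [le_div_iff₀ hc] at this
    simp [domB, this]
  have h2 : IntegrableOn (domB K m c) (Ioi (1 / c)) := by
    have ha : IntegrableOn (fun t : ℝ => t ^ (-2 : ℝ)) (Ioi (1 / c)) :=
      integrableOn_Ioi_rpow_of_lt (by norm_num) hT
    have hb : IntegrableOn (fun t : ℝ => (2 * c ^ (-(m / 2))) * t ^ (-1 - m / 2)) (Ioi (1 / c)) :=
      (integrableOn_Ioi_rpow_of_lt (by linarith) hT).const_mul _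
    refine (ha.add hb).congr_fun (fun t ht => ?_) measurableSet_Ioi
    have ht0 : 0 < t := hT.trans ht
    have : ¬ t * c ≤ 1 := by
      have : 1 / c < t := ht
      rw [div_lt_iff₀ hc] at this
      exact not_le.mpr this
    simp only [domB, this, Pi.add_apply, if_false]
    rw [Real.mul_rpow ht0.le hc.le, show (-1 - m / 2 : ℝ) = -1 + -(m / 2) by ring,
      Real.rpow_add ht0, Real.rpow_neg_one, show (-2 : ℝ) = -1 + -1 by norm_num,
      Real.rpow_add ht0, Real.rpow_neg_one]
    ring
  have : Ioi (0 : ℝ) = Ioc 0 (1 / c) ∪ Ioi (1 / c) := by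
    rw [Ioc_union_Ioi_eq_Ioi hT.le]
  rw [this]
  exact h1.union h2

/-- if `a, b ∈ [0,1]` are the values at `t` of two Laplace transforms -/
lemma le_domB' {K m c t a b x : ℝ} (ht : 0 < t) (ha1 : a ≤ t⁻¹) (ha : 1 - a ≤ t)
    (hb1 : 1 ≤ t * c → b ≤ 2 * (t * c) ^ (-(m / 2))) (hb : 1 - b ≤ K * t ^ m)
    (hx1 : x ≤ (1 - a) + (1 - b)) (hx2 : x ≤ a + b) :
    t⁻¹ * x ≤ domB K m c t := by
  have hti : 0 < t⁻¹ := inv_pos.mpr ht
  unfold domB
  split_ifs with h
  · have h1 : x ≤ t + K * t ^ m := by linarith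
    calc t⁻¹ * x ≤ t⁻¹ * (t + K * t ^ m) := mul_le_mul_of_nonneg_left h1 hti.le
      _ = 1 + K * t ^ (m - 1) := by
        rw [Real.rpow_sub ht, Real.rpow_one]; field_simp
  · push Not at h
    have h1 : x ≤ t⁻¹ + 2 * (t * c) ^ (-(m / 2)) := by
      have := hb1 h.le
      linarith
    exact mul_le_mul_of_nonneg_left h1 hti.le

lemma le_domB {K m c t a b : ℝ} (ht : 0 < t) (ha1 : a ≤ t⁻¹) (ha : 1 - a ≤ t)
    (hb1 : 1 ≤ t * c → b ≤ 2 * (t * c) ^ (-(m / 2))) (hb : 1 - b ≤ K * t ^ m)
    (ha0 : 0 ≤ a) (hb0 : 0 ≤ b) (ha2 : a ≤ 1) (hb2 : b ≤ 1) :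
    t⁻¹ * |a - b| ≤ domB K m c t := by
  refine le_domB' ht ha1 ha hb1 hb ?_ ?_ <;> rw [abs_le] <;> constructor <;> linarith

lemma kB_le {z t : ℝ} (hz : 0 < z) (ht : 0 < t) : |kB z t| ≤ domB z 1 z t := by
  have hti : 0 < t⁻¹ := inv_pos.mpr ht
  unfold kB
  rw [abs_mul, abs_of_pos hti]
  refine le_domB ht (exp_neg_le_inv ht) (one_sub_exp_le t) (fun h => ?_) ?_ (Real.exp_pos _).le
    (Real.exp_pos _).le (Real.exp_le_one_iff.mpr (by linarith))
    (Real.exp_le_one_iff.mpr (by have := mul_pos ht hz; linarith))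
  · have h1 := exp_neg_le_inv (mul_pos ht hz)
    have h2 : (t * z)⁻¹ ≤ (t * z) ^ (-(1 / 2) : ℝ) := by
      rw [← Real.rpow_neg_one]
      exact Real.rpow_le_rpow_of_exponent_le h (by norm_num)
    have h3 : 0 ≤ (t * z) ^ (-(1 / 2) : ℝ) := Real.rpow_nonneg (mul_pos ht hz).le _
    linarith
  · rw [Real.rpow_one, mul_comm z t]
    exact one_sub_exp_le _

lemma integrableOn_kB {z : ℝ} (hz : 0 < z) : IntegrableOn (kB z) (Ioi 0) := by
  refine Integrable.mono' (integrableOn_domB (K := z) (m := 1) zero_lt_one hz)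
    (measurable_kB z).aestronglyMeasurable ?_
  filter_upwards [ae_restrict_mem measurableSet_Ioi] with t ht
  exact kB_le hz ht

lemma integral_kB {z : ℝ} (hz : 0 < z) : ∫ t in Ioi (0:ℝ), kB z t = Real.log z := by
  have hf : Continuous (fun t : ℝ => Real.exp (-t)) := by fun_prop
  have hL : Tendsto (fun t : ℝ => Real.exp (-t)) (𝓝[>] 0) (𝓝 1) := by
    have := hf.tendsto 0
    simp only [neg_zero, Real.exp_zero] at this
    exact this.mono_left nhdsWithin_le_nhds
  have hR : Tendsto (fun t : ℝ => Real.exp (-t)) atTop (𝓝 0) := Real.tendsto_exp_neg_atTop_nhds_zero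
  have heq : ∀ x : ℝ, x⁻¹ • (Real.exp (-(1 * x)) - Real.exp (-(z * x))) = kB z x := by
    intro x
    simp [kB, mul_comm z x]
  have h := Frullani.integral_Ioi_eq (f := fun t : ℝ => Real.exp (-t)) (a := 1) (b := z)
    (hf.locallyIntegrable.locallyIntegrableOn _) zero_lt_one hz hL hR
    (by simp_rw [heq]; exact integrableOn_kB hz)
  simp_rw [heq] at h
  rw [h]; simp

section oneLevel

variable {Ω : Type*} [MeasurableSpace Ω] (P : Measure Ω) [IsProbabilityMeasure P] {S : Ω → ℝ}
variable {c : ℝ}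

/-- limit of the `q`-th moments as a function of `B` -/
noncomputable def GA (m q B : ℝ) : ℝ :=
  (Dq q)⁻¹ * ∫ t in Ioi (0:ℝ), (1 - Real.exp (-(cst m * B * t ^ m))) * t ^ (-1 - q)

noncomputable def GB (m B : ℝ) : ℝ :=
  ∫ t in Ioi (0:ℝ), t⁻¹ * (Real.exp (-t) - Real.exp (-(cst m * B * t ^ m)))

omit [IsProbabilityMeasure P] in
lemma Bm_nonneg (hc : 0 < c) (hSc : ∀ ω, c ≤ S ω) (m : ℝ) : 0 ≤ Bm P m S :=
  integral_nonneg (fun ω => Real.rpow_nonneg (hc.le.trans (hSc ω)) m)

lemma integrable_expZs (hS : Measurable S) (hc : 0 < c) (hSc : ∀ ω, c ≤ S ω) {m : ℝ}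
    {k : ℕ} (hk : 0 < k) {t : ℝ} (ht : 0 ≤ t) :
    Integrable (fun ξ => Real.exp (-(t * Zs S m k ξ))) (noise P k) := by
  refine Integrable.mono' (integrable_const (1 : ℝ)) ?_ ?_
  · have := measurable_Zs hS m k
    exact (by fun_prop : Measurable (fun ξ => Real.exp (-(t * Zs S m k ξ)))).aestronglyMeasurable
  · refine Filter.Eventually.of_forall (fun ξ => ?_)
    rw [Real.norm_of_nonneg (Real.exp_pos _).le, Real.exp_le_one_iff, neg_nonpos]
    exact mul_nonneg ht (Zs_pos hc hSc m hk ξ).le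

lemma measurable_Lap (hS : Measurable S) (m : ℝ) (k : ℕ) : Measurable (Lap P S m k) := by
  have hmeas : Measurable (Function.uncurry
      (fun (ξ : Fin k → unitInterval × Ω) (t : ℝ) => Real.exp (-(t * Zs S m k ξ)))) := by
    have := measurable_Zs hS m k
    unfold Function.uncurry
    fun_prop
  exact hmeas.stronglyMeasurable.integral_prod_left'.measurable

lemma integrable_uncurry_kA (hS : Measurable S) (hc : 0 < c) (hSc : ∀ ω, c ≤ S ω) {m : ℝ}
    (hm : 0 < m) (hm1 : m < 1) (hB : Integrable (fun ω => S ω ^ m) P) {q : ℝ} (hq : 0 < q)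
    (hqm : q < m) {k : ℕ} (hk : 0 < k) :
    Integrable (Function.uncurry (fun (ξ : Fin k → unitInterval × Ω) t => kA q (Zs S m k ξ) t))
      ((noise P k).prod (volume.restrict (Ioi (0:ℝ)))) := by
  have hmeas : Measurable (Function.uncurry
      (fun (ξ : Fin k → unitInterval × Ω) (t : ℝ) => kA q (Zs S m k ξ) t)) := by
    have := measurable_Zs hS m k
    unfold kA Function.uncurry
    fun_prop
  rw [integrable_prod_iff' hmeas.aestronglyMeasurable]
  have key : ∀ t : ℝ, 0 < t → ∫ ξ, ‖kA q (Zs S m k ξ) t‖ ∂(noise P k)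
      = (1 - Lap P S m k t) * t ^ (-1 - q) := by
    intro t ht
    have : ∀ ξ, ‖kA q (Zs S m k ξ) t‖ = (1 - Real.exp (-(t * Zs S m k ξ))) * t ^ (-1 - q) := by
      intro ξ
      rw [Real.norm_of_nonneg (kA_nonneg (Zs_pos hc hSc m hk ξ).le ht.le)]; rfl
    simp_rw [this]
    rw [integral_mul_const, integral_sub (integrable_const _) (integrable_expZs P hS hc hSc hk ht.le)]
    simp [Lap]
  constructor
  · filter_upwards [ae_restrict_mem measurableSet_Ioi] with t ht
    have ht' : (0:ℝ) < t := ht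
    simp only [Function.uncurry]
    unfold kA
    exact ((integrable_const _).sub (integrable_expZs P hS hc hSc hk ht'.le)).mul_const _
  · refine Integrable.mono' (integrableOn_domA (K := cst m * Bm P m S) hq hqm) ?_ ?_
    · exact (hmeas.norm.stronglyMeasurable.integral_prod_left').aestronglyMeasurable
    · filter_upwards [ae_restrict_mem measurableSet_Ioi] with t ht
      have ht' : (0:ℝ) < t := ht
      simp only [Function.uncurry]
      rw [key t ht', Real.norm_of_nonneg (mul_nonneg (by linarith [Lap_le_one P hS hc hSc (m := m) hk ht'.le])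
        (Real.rpow_nonneg ht'.le _))]
      refine le_domA ht' (by linarith [Lap_nonneg P (S := S) m k t]) ?_
      exact one_sub_Lap_le P hS hc hSc hm hm1 hB hk ht'

lemma integrable_Zs_rpow (hS : Measurable S) (hc : 0 < c) (hSc : ∀ ω, c ≤ S ω) {m : ℝ}
    (hm : 0 < m) (hm1 : m < 1) (hB : Integrable (fun ω => S ω ^ m) P) {q : ℝ} (hq : 0 < q)
    (hqm : q < m) {k : ℕ} (hk : 0 < k) :
    Integrable (fun ξ => Zs S m k ξ ^ q) (noise P k) := by
  have h := (integrable_uncurry_kA P hS hc hSc hm hm1 hB hq hqm hk).integral_prod_left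
  have hD := Dq_pos hq (hqm.trans hm1)
  have h2 : Integrable (fun ξ => Zs S m k ξ ^ q * Dq q) (noise P k) := by
    refine h.congr (Filter.Eventually.of_forall (fun ξ => ?_))
    simp only [Function.uncurry]
    exact integral_kA hq (Zs_pos hc hSc m hk ξ).le
  exact (integrable_mul_const_iff (IsUnit.mk0 _ hD.ne') _).mp h2

lemma integral_Zs_rpow (hS : Measurable S) (hc : 0 < c) (hSc : ∀ ω, c ≤ S ω) {m : ℝ}
    (hm : 0 < m) (hm1 : m < 1) (hB : Integrable (fun ω => S ω ^ m) P) {q : ℝ} (hq : 0 < q)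
    (hqm : q < m) {k : ℕ} (hk : 0 < k) :
    ∫ ξ, Zs S m k ξ ^ q ∂(noise P k)
      = (Dq q)⁻¹ * ∫ t in Ioi (0:ℝ), (1 - Lap P S m k t) * t ^ (-1 - q) := by
  have hD := Dq_pos hq (hqm.trans hm1)
  have hsw := integral_integral_swap (integrable_uncurry_kA P hS hc hSc hm hm1 hB hq hqm hk)
  have h1 : ∫ ξ, Zs S m k ξ ^ q * Dq q ∂(noise P k)
      = ∫ t in Ioi (0:ℝ), (1 - Lap P S m k t) * t ^ (-1 - q) := by
    calc _ = ∫ ξ, (∫ t in Ioi (0:ℝ), kA q (Zs S m k ξ) t) ∂(noise P k) := by
          refine integral_congr_ae (Filter.Eventually.of_forall (fun ξ => ?_))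
          exact (integral_kA hq (Zs_pos hc hSc m hk ξ).le).symm
      _ = _ := by
          rw [hsw]
          refine setIntegral_congr_fun measurableSet_Ioi (fun t ht => ?_)
          have ht' : (0:ℝ) < t := ht
          simp only [kA]
          rw [integral_mul_const, integral_sub (integrable_const _)
            (integrable_expZs P hS hc hSc hk ht'.le)]
          simp [Lap]
  rw [← h1, integral_mul_const]
  field_simp

lemma tendsto_Zs_rpow (hS : Measurable S) (hc : 0 < c) (hSc : ∀ ω, c ≤ S ω) {m : ℝ}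
    (hm : 0 < m) (hm1 : m < 1) (hB : Integrable (fun ω => S ω ^ m) P) {q : ℝ} (hq : 0 < q)
    (hqm : q < m) :
    Tendsto (fun k : ℕ => ∫ ξ, Zs S m k ξ ^ q ∂(noise P k)) atTop (𝓝 (GA m q (Bm P m S))) := by
  have h : Tendsto (fun k : ℕ => ∫ t in Ioi (0:ℝ), (1 - Lap P S m (k + 1) t) * t ^ (-1 - q)) atTop
      (𝓝 (∫ t in Ioi (0:ℝ), (1 - Real.exp (-(cst m * Bm P m S * t ^ m))) * t ^ (-1 - q))) := by
    refine tendsto_integral_of_dominated_convergence (domA (cst m * Bm P m S) m q) (fun k => ?_)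
      (integrableOn_domA hq hqm) (fun k => ?_) ?_
    · have := measurable_Lap P hS m (k + 1)
      exact (by fun_prop : Measurable (fun t : ℝ =>
        (1 - Lap P S m (k + 1) t) * t ^ (-1 - q))).aestronglyMeasurable
    · filter_upwards [ae_restrict_mem measurableSet_Ioi] with t ht
      have ht' : (0:ℝ) < t := ht
      rw [Real.norm_of_nonneg (mul_nonneg (by
        linarith [Lap_le_one P hS hc hSc (m := m) (Nat.succ_pos k) ht'.le])
        (Real.rpow_nonneg ht'.le _))]
      refine le_domA ht' (by linarith [Lap_nonneg P (S := S) m (k + 1) t]) ?_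
      exact one_sub_Lap_le P hS hc hSc hm hm1 hB (Nat.succ_pos k) ht'
    · filter_upwards [ae_restrict_mem measurableSet_Ioi] with t ht
      have ht' : (0:ℝ) < t := ht
      exact ((tendsto_const_nhds.sub ((tendsto_Lap P hS hc hSc hm hm1 hB ht').comp
        (tendsto_add_atTop_nat 1))).mul_const _)
  rw [← tendsto_add_atTop_iff_nat 1]
  refine (h.const_mul (Dq q)⁻¹).congr (fun k => ?_)
  rw [integral_Zs_rpow P hS hc hSc hm hm1 hB hq hqm (Nat.succ_pos k)]

lemma integrable_uncurry_kB (hS : Measurable S) (hc : 0 < c) (hSc : ∀ ω, c ≤ S ω) {m : ℝ}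
    (hm : 0 < m) (hm1 : m < 1) (hB : Integrable (fun ω => S ω ^ m) P) {k : ℕ} (hk : 0 < k) :
    Integrable (Function.uncurry (fun (ξ : Fin k → unitInterval × Ω) t => kB (Zs S m k ξ) t))
      ((noise P k).prod (volume.restrict (Ioi (0:ℝ)))) := by
  have hmeas : Measurable (Function.uncurry
      (fun (ξ : Fin k → unitInterval × Ω) (t : ℝ) => kB (Zs S m k ξ) t)) := by
    have := measurable_Zs hS m k
    unfold kB Function.uncurry
    fun_prop
  rw [integrable_prod_iff' hmeas.aestronglyMeasurable]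
  have hi : ∀ t : ℝ, 0 < t → Integrable (fun ξ => kB (Zs S m k ξ) t) (noise P k) := by
    intro t ht
    unfold kB
    exact ((integrable_const _).sub (integrable_expZs P hS hc hSc hk ht.le)).const_mul _
  constructor
  · filter_upwards [ae_restrict_mem measurableSet_Ioi] with t ht
    exact hi t ht
  · refine Integrable.mono' (integrableOn_domB (K := cst m * Bm P m S) hm hc) ?_ ?_
    · exact (hmeas.norm.stronglyMeasurable.integral_prod_left').aestronglyMeasurable
    · filter_upwards [ae_restrict_mem measurableSet_Ioi] with t ht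
      have ht' : (0:ℝ) < t := ht
      simp only [Function.uncurry]
      rw [Real.norm_of_nonneg (integral_nonneg (fun _ => norm_nonneg _))]
      have e1 : ∀ ξ, ‖kB (Zs S m k ξ) t‖ = t⁻¹ * |Real.exp (-t) - Real.exp (-(t * Zs S m k ξ))| := by
        intro ξ
        unfold kB
        rw [Real.norm_eq_abs, abs_mul, abs_of_pos (inv_pos.mpr ht')]
      simp_rw [e1]
      rw [integral_const_mul]
      have hexp := integrable_expZs P hS hc hSc (m := m) hk ht'.le
      have hab : Integrable (fun ξ => |Real.exp (-t) - Real.exp (-(t * Zs S m k ξ))|) (noise P k) :=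
        ((integrable_const _).sub hexp).abs
      have hle1 : Real.exp (-t) ≤ 1 := Real.exp_le_one_iff.mpr (by linarith)
      have hle2 : ∀ ξ, Real.exp (-(t * Zs S m k ξ)) ≤ 1 := fun ξ => by
        rw [Real.exp_le_one_iff, neg_nonpos]
        exact mul_nonneg ht'.le (Zs_pos hc hSc m hk ξ).le
      refine le_domB' (a := Real.exp (-t)) (b := Lap P S m k t) ht' (exp_neg_le_inv ht')
        (one_sub_exp_le t) (fun h => Lap_decay P hS hc hSc hm hm1 hk h)
        (one_sub_Lap_le P hS hc hSc hm hm1 hB hk ht') ?_ ?_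
      · calc _ ≤ ∫ ξ, ((1 - Real.exp (-t)) + (1 - Real.exp (-(t * Zs S m k ξ)))) ∂(noise P k) := by
              refine integral_mono hab ((integrable_const _).add ((integrable_const _).sub hexp))
                (fun ξ => ?_)
              have h2 := hle2 ξ
              simp only
              rw [abs_le]; constructor <;> linarith
          _ = _ := by
              have hexp1 : Integrable (fun ξ => 1 - Real.exp (-(t * Zs S m k ξ))) (noise P k) :=
                (integrable_const _).sub hexp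
              rw [integral_add (integrable_const _) hexp1,
                integral_sub (integrable_const _) hexp]
              simp [Lap]
      · calc _ ≤ ∫ ξ, (Real.exp (-t) + Real.exp (-(t * Zs S m k ξ))) ∂(noise P k) := by
              refine integral_mono hab ((integrable_const _).add hexp) (fun ξ => ?_)
              have h2 := Real.exp_pos (-(t * Zs S m k ξ))
              have h3 := Real.exp_pos (-t)
              simp only
              rw [abs_le]; constructor <;> linarith
          _ = _ := by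
              rw [integral_add (integrable_const _) hexp]
              simp [Lap]

lemma integrable_log_Zs (hS : Measurable S) (hc : 0 < c) (hSc : ∀ ω, c ≤ S ω) {m : ℝ}
    (hm : 0 < m) (hm1 : m < 1) (hB : Integrable (fun ω => S ω ^ m) P) {k : ℕ} (hk : 0 < k) :
    Integrable (fun ξ => Real.log (Zs S m k ξ)) (noise P k) := by
  refine (integrable_uncurry_kB P hS hc hSc hm hm1 hB hk).integral_prod_left.congr
    (Filter.Eventually.of_forall (fun ξ => ?_))
  simp only [Function.uncurry]
  exact integral_kB (Zs_pos hc hSc m hk ξ)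

lemma integral_log_Zs (hS : Measurable S) (hc : 0 < c) (hSc : ∀ ω, c ≤ S ω) {m : ℝ}
    (hm : 0 < m) (hm1 : m < 1) (hB : Integrable (fun ω => S ω ^ m) P) {k : ℕ} (hk : 0 < k) :
    ∫ ξ, Real.log (Zs S m k ξ) ∂(noise P k)
      = ∫ t in Ioi (0:ℝ), t⁻¹ * (Real.exp (-t) - Lap P S m k t) := by
  have hsw := integral_integral_swap (integrable_uncurry_kB P hS hc hSc hm hm1 hB hk)
  calc _ = ∫ ξ, (∫ t in Ioi (0:ℝ), kB (Zs S m k ξ) t) ∂(noise P k) := by
        refine integral_congr_ae (Filter.Eventually.of_forall (fun ξ => ?_))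
        exact (integral_kB (Zs_pos hc hSc m hk ξ)).symm
    _ = _ := by
        rw [hsw]
        refine setIntegral_congr_fun measurableSet_Ioi (fun t ht => ?_)
        have ht' : (0:ℝ) < t := ht
        simp only [kB]
        rw [integral_const_mul, integral_sub (integrable_const _)
          (integrable_expZs P hS hc hSc hk ht'.le)]
        simp [Lap]

lemma tendsto_log_Zs (hS : Measurable S) (hc : 0 < c) (hSc : ∀ ω, c ≤ S ω) {m : ℝ}
    (hm : 0 < m) (hm1 : m < 1) (hB : Integrable (fun ω => S ω ^ m) P) :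
    Tendsto (fun k : ℕ => ∫ ξ, Real.log (Zs S m k ξ) ∂(noise P k)) atTop
      (𝓝 (GB m (Bm P m S))) := by
  have h : Tendsto (fun k : ℕ => ∫ t in Ioi (0:ℝ), t⁻¹ * (Real.exp (-t) - Lap P S m (k + 1) t)) atTop
      (𝓝 (∫ t in Ioi (0:ℝ), t⁻¹ * (Real.exp (-t) - Real.exp (-(cst m * Bm P m S * t ^ m))))) := by
    refine tendsto_integral_of_dominated_convergence (domB (cst m * Bm P m S) m c) (fun k => ?_)
      (integrableOn_domB hm hc) (fun k => ?_) ?_
    · have := measurable_Lap P hS m (k + 1)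
      exact (by fun_prop : Measurable (fun t : ℝ =>
        t⁻¹ * (Real.exp (-t) - Lap P S m (k + 1) t))).aestronglyMeasurable
    · filter_upwards [ae_restrict_mem measurableSet_Ioi] with t ht
      have ht' : (0:ℝ) < t := ht
      rw [norm_mul, Real.norm_of_nonneg (inv_nonneg.mpr ht'.le), Real.norm_eq_abs]
      exact le_domB ht' (exp_neg_le_inv ht') (one_sub_exp_le t)
        (fun h => Lap_decay P hS hc hSc hm hm1 (Nat.succ_pos k) h)
        (one_sub_Lap_le P hS hc hSc hm hm1 hB (Nat.succ_pos k) ht') (Real.exp_pos _).le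
        (Lap_nonneg P m (k + 1) t) (Real.exp_le_one_iff.mpr (by linarith))
        (Lap_le_one P hS hc hSc (Nat.succ_pos k) ht'.le)
    · filter_upwards [ae_restrict_mem measurableSet_Ioi] with t ht
      have ht' : (0:ℝ) < t := ht
      exact ((tendsto_const_nhds.sub ((tendsto_Lap P hS hc hSc hm hm1 hB ht').comp
        (tendsto_add_atTop_nat 1))).const_mul _)
  rw [← tendsto_add_atTop_iff_nat 1]
  refine h.congr (fun k => ?_)
  rw [integral_log_Zs P hS hc hSc hm hm1 hB (Nat.succ_pos k)]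

end oneLevel

/-! ## dependence on `B` -/

lemma Zs_const (b m : ℝ) (k : ℕ) (ξ : Fin k → unitInterval × Unit) :
    Zs (fun _ : Unit => b) m k ξ = b * Zs (fun _ : Unit => (1:ℝ)) m k ξ := by
  unfold Zs
  rw [Finset.mul_sum]
  exact Finset.sum_congr rfl (fun a _ => by ring)

lemma Bm_const (b m : ℝ) : Bm (Measure.dirac ()) m (fun _ : Unit => b) = b ^ m := by
  simp [Bm]

lemma GA_rpow {m : ℝ} (hm : 0 < m) (hm1 : m < 1) {q : ℝ} (hq : 0 < q) (hqm : q < m) {b : ℝ}
    (hb : 0 < b) : GA m q (b ^ m) = b ^ q * GA m q 1 := by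
  have h1 := tendsto_Zs_rpow (Measure.dirac ()) (S := fun _ : Unit => b) measurable_const hb
    (fun _ => le_rfl) hm hm1 (integrable_const _) hq hqm
  have h2 := tendsto_Zs_rpow (Measure.dirac ()) (S := fun _ : Unit => (1:ℝ)) measurable_const one_pos
    (fun _ => le_rfl) hm hm1 (integrable_const _) hq hqm
  rw [Bm_const] at h1 h2
  rw [Real.one_rpow] at h2
  refine tendsto_nhds_unique (h1.congr' ?_) (h2.const_mul (b ^ q))
  filter_upwards [eventually_gt_atTop 0] with k hk
  rw [← integral_const_mul]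
  refine integral_congr_ae (Filter.Eventually.of_forall (fun ξ => ?_))
  simp only
  rw [Zs_const, Real.mul_rpow hb.le (Zs_pos one_pos (fun _ => le_rfl) m hk ξ).le]

lemma GB_rpow {m : ℝ} (hm : 0 < m) (hm1 : m < 1) {b : ℝ} (hb : 0 < b) :
    GB m (b ^ m) = Real.log b + GB m 1 := by
  have h1 := tendsto_log_Zs (Measure.dirac ()) (S := fun _ : Unit => b) measurable_const hb
    (fun _ => le_rfl) hm hm1 (integrable_const _)
  have h2 := tendsto_log_Zs (Measure.dirac ()) (S := fun _ : Unit => (1:ℝ)) measurable_const one_pos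
    (fun _ => le_rfl) hm hm1 (integrable_const _)
  rw [Bm_const] at h1 h2
  rw [Real.one_rpow] at h2
  refine tendsto_nhds_unique (h1.congr' ?_) (h2.const_add (Real.log b))
  filter_upwards [eventually_gt_atTop 0] with k hk
  have hi := integrable_log_Zs (Measure.dirac ()) (S := fun _ : Unit => (1:ℝ)) measurable_const one_pos
    (fun _ => le_rfl) hm hm1 (integrable_const _) hk
  have : Real.log b = ∫ _ξ, Real.log b ∂(noise (Measure.dirac ()) k) := by simp
  rw [this, ← integral_add (integrable_const _) hi]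
  refine integral_congr_ae (Filter.Eventually.of_forall (fun ξ => ?_))
  simp only
  rw [Zs_const, Real.log_mul hb.ne' (Zs_pos one_pos (fun _ => le_rfl) m hk ξ).ne']

lemma GA_eq {m : ℝ} (hm : 0 < m) (hm1 : m < 1) {q : ℝ} (hq : 0 < q) (hqm : q < m) {B : ℝ}
    (hB : 0 < B) : GA m q B = B ^ (q / m) * GA m q 1 := by
  have h := GA_rpow hm hm1 hq hqm (Real.rpow_pos_of_pos hB (1 / m))
  rw [← Real.rpow_mul hB.le, ← Real.rpow_mul hB.le, one_div_mul_cancel hm.ne', Real.rpow_one,
    one_div_mul_eq_div] at h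
  exact h

lemma GB_eq {m : ℝ} (hm : 0 < m) (hm1 : m < 1) {B : ℝ}
    (hB : 0 < B) : GB m B = (1 / m) * Real.log B + GB m 1 := by
  have h := GB_rpow hm hm1 (Real.rpow_pos_of_pos hB (1 / m))
  rw [← Real.rpow_mul hB.le, one_div_mul_cancel hm.ne', Real.rpow_one, Real.log_rpow hB] at h
  exact h

lemma cst_pos {m : ℝ} (hm : 0 < m) (hm1 : m < 1) : 0 < cst m := by
  unfold cst
  have hint := integrableOn_e1 hm hm1 zero_le_one
  rw [setIntegral_pos_iff_support_of_nonneg_ae ?_ hint]
  · have : Function.support (e1 m 1) ∩ Ioi 0 = Ioi 0 := by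
      ext t
      simp only [mem_inter_iff, Function.mem_support, mem_Ioi, and_iff_right_iff_imp]
      intro ht
      unfold e1
      have h2 : 0 < t ^ (-1 / m) := Real.rpow_pos_of_pos ht _
      have h1 : Real.exp (-(1 * t ^ (-1 / m))) < 1 := by
        rw [Real.exp_lt_one_iff]; linarith
      exact (by linarith : (0:ℝ) < 1 - Real.exp (-(1 * t ^ (-1 / m)))).ne'
    rw [this]
    simp
  · filter_upwards [ae_restrict_mem measurableSet_Ioi] with t ht
    exact e1_nonneg zero_le_one (le_of_lt ht)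

lemma GA_pos {m : ℝ} (hm : 0 < m) (hm1 : m < 1) {q : ℝ} (hq : 0 < q) (hqm : q < m) :
    0 < GA m q 1 := by
  unfold GA
  refine mul_pos (inv_pos.mpr (Dq_pos hq (hqm.trans hm1))) ?_
  have hK := cst_pos hm hm1
  have hnn : ∀ t : ℝ, 0 < t → 0 ≤ (1 - Real.exp (-(cst m * 1 * t ^ m))) * t ^ (-1 - q) := by
    intro t ht
    have h1 : 0 ≤ t ^ m := Real.rpow_nonneg ht.le _
    exact mul_nonneg (one_sub_exp_nonneg (by positivity)) (Real.rpow_nonneg ht.le _)
  have hint : IntegrableOn (fun t : ℝ => (1 - Real.exp (-(cst m * 1 * t ^ m))) * t ^ (-1 - q))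
      (Ioi 0) := by
    refine Integrable.mono' (integrableOn_domA (K := cst m * 1) hq hqm) ?_ ?_
    · exact (by fun_prop : Measurable (fun t : ℝ =>
        (1 - Real.exp (-(cst m * 1 * t ^ m))) * t ^ (-1 - q))).aestronglyMeasurable
    · filter_upwards [ae_restrict_mem measurableSet_Ioi] with t ht
      have ht' : (0:ℝ) < t := ht
      rw [Real.norm_of_nonneg (hnn t ht')]
      exact le_domA ht' (one_sub_exp_le_one _) (one_sub_exp_le _)
  rw [setIntegral_pos_iff_support_of_nonneg_ae ?_ hint]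
  · have : Function.support (fun t : ℝ => (1 - Real.exp (-(cst m * 1 * t ^ m))) * t ^ (-1 - q))
        ∩ Ioi 0 = Ioi 0 := by
      ext t
      simp only [mem_inter_iff, Function.mem_support, mem_Ioi, and_iff_right_iff_imp]
      intro ht
      have h2 : 0 < t ^ m := Real.rpow_pos_of_pos ht _
      have h1 : Real.exp (-(cst m * 1 * t ^ m)) < 1 := by
        rw [Real.exp_lt_one_iff, neg_lt_zero]; positivity
      have h3 : 0 < t ^ (-1 - q) := Real.rpow_pos_of_pos ht _
      exact (mul_pos (by linarith) h3).ne'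
    rw [this]
    simp
  · filter_upwards [ae_restrict_mem measurableSet_Ioi] with t ht
    exact hnn t ht

end Crest.Agent.R141.Tree
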