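import Crest.Agent.R141.Red0
import Crest.Agent.R141.RedBasic
import Crest.Agent.R141.UDefs

/-!
R141, Part U: frozen statements of the two product identities used in the final assembly.
-/

set_option autoImplicit false

namespace Crest.Agent.R141

open MeasureTheory Crest.ProbabilityR.Diluted

/-- The product of `K` edges of the cavity fields as a function of the labels. -/
noncomputable def Wedge {p K r : ℕ} (X : (Fin (r + 1) → unitInterval) → ℝ)
    (θs : Fin K → Inter p) (u : Fin K × Fin p → Fin (r + 1) → unitInterval) : ℝ :=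
  ∏ j, edgeTerm (θs j) (fun ℓ => X (u (j, ℓ)))

/-- The product over the `N` sites, `t j` is the site of the event `j`. -/
noncomputable def Wsite {p N M r : ℕ} (X : (Fin (r + 1) → unitInterval) → ℝ)
    (hs : Fin N → ℝ) (θs : Fin M → Inter p) (t : Fin M → Fin N)
    (u : Fin M × Fin (p - 1) → Fin (r + 1) → unitInterval) : ℝ :=
  ∏ i, ∑ ε : Bool, Real.exp (hs i * spinVal ε +
    ∑ j ∈ Finset.univ.filter (fun j => t j = i),
      siteMessage (θs j) (fun ℓ => X (u (j, ℓ))) ε)

/-- The `k`-th coefficient of the site part of the trial functional (with `log 2`). -/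
noncomputable def sitePhi (p : ℕ) (μ : Measure (Inter p)) (ν : Measure ℝ)
    (r : ℕ) (m : Fin r → ℝ) (X : (Fin (r + 1) → unitInterval) → ℝ) (k : ℕ) : ℝ :=
  Real.log 2 + ∫ θs, ∫ h, ∫ u, Real.log (powerMeans m
          (fun u' : (Fin k × Fin (p - 1)) → Fin (r + 1) → unitInterval =>
            siteTerm h θs (fun j ℓ => X (u' (j, ℓ)))) u)
        ∂(uniformArrays (Fin k × Fin (p - 1)) r) ∂ν ∂(Measure.pi fun _ : Fin k => μ)

/-- U4-edges. -/
def EdgeId (p : ℕ) (μ : Measure (Inter p)) (r : ℕ) (m : Fin r → ℝ)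
    (X : (Fin (r + 1) → unitInterval) → ℝ) : Prop :=
  ∀ K : ℕ, ∫ θs, ∫ u, Real.log (powerMeans m (Wedge (K := K) (p := p) X θs) u)
      ∂(uniformArrays (Fin K × Fin p) r) ∂(Measure.pi fun _ : Fin K => μ) =
    K * edgeFun p μ r m X

/-- U4-sites. -/
def SiteId (p : ℕ) (μ : Measure (Inter p)) (ν : Measure ℝ) (r : ℕ) (m : Fin r → ℝ)
    (X : (Fin (r + 1) → unitInterval) → ℝ) : Prop :=
  ∀ (N M : ℕ) (t : Fin M → Fin N),
    ∫ θs, ∫ hs, ∫ u, Real.log (powerMeans m (Wsite X hs θs t) u)
      ∂(uniformArrays (Fin M × Fin (p - 1)) r) ∂(Measure.pi fun _ : Fin N => ν)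
      ∂(Measure.pi fun _ : Fin M => μ) =
    ∑ i : Fin N, sitePhi p μ ν r m X (Fintype.card {j // t j = i})

end Crest.Agent.R141
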