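import Crest.Agent.R141.UDefs
import Crest.Agent.R141.RedBasic

/-!
R141, Part U: the tree functional with parameters: bounds, measurability, Fubini.
-/

set_option autoImplicit false

namespace Crest.Agent.R141.U

open MeasureTheory Filter Topology Crest.ProbabilityR.Diluted

section

variable {A Y L Z : Type} [Fintype A] [Nonempty A] [Fintype L] [MeasurableSpace Y]
  [MeasurableSpace Z] (Q : Measure (A → Y)) [IsProbabilityMeasure Q]
  (W : Z → (L → Y) → ℝ)

/-- The integrand of `treeF` with a parameter. -/
noncomputable def DD (v : A → ℝ) (z : Z) : ℝ :=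
  (∫ y, Real.log (∑ a, v a * W z (fun ω => y ω a)) ∂(Measure.pi fun _ : L => Q)) -
    Real.log (∑ a, v a)

theorem treeF_eq_DD (V : Measure (A → ℝ)) (z : Z) :
    treeF V Q (W z) = ∫ v, DD Q W v z ∂V := rfl

/-- elementary bound. -/
theorem abs_log_sum_mul_sub_le {w : A → ℝ} {v : A → ℝ} (hv : ∀ a, 0 < v a) (hw : ∀ a, 0 < w a)
    {B : ℝ} (hB : ∀ a, |Real.log (w a)| ≤ B) :
    |Real.log (∑ a, v a * w a) - Real.log (∑ a, v a)| ≤ B := by
  have h1 := Red.abs_log_sum_exp_le v hv (fun a => Real.log (w a)) (fun _ => 0) B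
    (fun a => by simpa using hB a)
  simp only [Real.exp_zero, mul_one] at h1
  have h2 : ∀ a, Real.exp (Real.log (w a)) = w a := fun a => Real.exp_log (hw a)
  simpa only [h2] using h1

variable (hW : Measurable (fun q : Z × (L → Y) => W q.1 q.2)) (hpos : ∀ z u, 0 < W z u)
  {B : Z → ℝ} (hB : ∀ z u, |Real.log (W z u)| ≤ B z)

include hW in
theorem measurable_log_sum : Measurable (fun q : ((A → ℝ) × Z) × (L → A → Y) =>
    Real.log (∑ a, q.1.1 a * W q.1.2 (fun ω => q.2 ω a))) := by
  refine Real.measurable_log.comp (Finset.measurable_sum _ fun a _ => ?_)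
  refine Measurable.mul ((measurable_pi_apply a).comp (measurable_fst.comp measurable_fst)) ?_
  refine hW.comp (Measurable.prodMk (measurable_snd.comp measurable_fst) ?_)
  exact measurable_pi_lambda _ fun ω =>
    (measurable_pi_apply a).comp ((measurable_pi_apply ω).comp measurable_snd)

include hW in
theorem measurable_DD : Measurable (fun q : (A → ℝ) × Z => DD Q W q.1 q.2) := by
  unfold DD
  refine Measurable.sub ?_ ?_
  · exact ((measurable_log_sum (A := A) W hW).stronglyMeasurable.integral_prod_right'
      (ν := Measure.pi fun _ : L => Q)).measurable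
  · exact Real.measurable_log.comp
      (Finset.measurable_sum _ fun a _ => (measurable_pi_apply a).comp measurable_fst)

include hW hpos hB in
theorem integrable_log_sum (v : A → ℝ) (hv : ∀ a, 0 < v a) (z : Z) :
    Integrable (fun y : L → A → Y => Real.log (∑ a, v a * W z (fun ω => y ω a)))
      (Measure.pi fun _ : L => Q) := by
  have hm : Measurable (fun y : L → A → Y => Real.log (∑ a, v a * W z (fun ω => y ω a))) :=
    (measurable_log_sum (A := A) W hW).comp
      ((measurable_const (a := ((v, z) : (A → ℝ) × Z))).prodMk measurable_id)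
  refine Integrable.of_bound hm.aestronglyMeasurable (B z + |Real.log (∑ a, v a)|)
    (Eventually.of_forall fun y => ?_)
  have h1 := abs_log_sum_mul_sub_le (w := fun a => W z (fun ω => y ω a)) hv
    (fun a => hpos z _) (fun a => hB z _)
  have h2 := abs_add_le (Real.log (∑ a, v a * W z (fun ω => y ω a)) - Real.log (∑ a, v a))
    (Real.log (∑ a, v a))
  rw [sub_add_cancel] at h2
  rw [Real.norm_eq_abs]
  linarith

include hW hpos hB in
theorem abs_DD_le (v : A → ℝ) (hv : ∀ a, 0 < v a) (z : Z) : |DD Q W v z| ≤ B z := by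
  unfold DD
  have h1 : (∫ y, Real.log (∑ a, v a * W z (fun ω => y ω a)) ∂(Measure.pi fun _ : L => Q)) -
      Real.log (∑ a, v a) = ∫ y : L → A → Y, (Real.log (∑ a, v a * W z (fun ω => y ω a)) -
        Real.log (∑ a, v a)) ∂(Measure.pi fun _ : L => Q) := by
    rw [integral_sub (integrable_log_sum Q W hW hpos hB v hv z) (integrable_const _)]
    simp
  rw [h1]
  have h2 := norm_integral_le_of_norm_le_const (μ := Measure.pi fun _ : L => Q) (C := B z)
    (f := fun y : L → A → Y => (Real.log (∑ a, v a * W z (fun ω => y ω a)) -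
        Real.log (∑ a, v a)))
    (Eventually.of_forall fun y => by
      rw [Real.norm_eq_abs]
      exact abs_log_sum_mul_sub_le (w := fun a => W z (fun ω => y ω a)) hv
        (fun a => hpos z _) (fun a => hB z _))
  simpa using h2

variable (V : Measure (A → ℝ)) [IsProbabilityMeasure V] (hV : ∀ᵐ v ∂V, ∀ a, 0 < v a)
  (ρ : Measure Z) [IsProbabilityMeasure ρ] (hBi : Integrable B ρ)

include hW hpos hB hV in
theorem abs_treeF_le (z : Z) : |treeF V Q (W z)| ≤ B z := by
  rw [treeF_eq_DD, ← Real.norm_eq_abs]
  have h := norm_integral_le_of_norm_le_const (μ := V) (C := B z) (f := fun v => DD Q W v z) (by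
    filter_upwards [hV] with v hv
    rw [Real.norm_eq_abs]
    exact abs_DD_le Q W hW hpos hB v hv z)
  simpa using h

include hW in
theorem measurable_treeF : Measurable (fun z => treeF V Q (W z)) := by
  simp only [treeF_eq_DD]
  have h1 : Measurable (fun q : Z × (A → ℝ) => DD Q W q.2 q.1) :=
    (measurable_DD Q W hW).comp measurable_swap
  exact (h1.stronglyMeasurable.integral_prod_right' (ν := V)).measurable

include hW hpos hB hV hBi in
theorem integrable_DD : Integrable (fun q : (A → ℝ) × Z => DD Q W q.1 q.2) (V.prod ρ) := by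
  refine Integrable.mono' (hBi.comp_snd V) (measurable_DD Q W hW).aestronglyMeasurable ?_
  have hV' : ∀ᵐ z ∂(V.prod ρ), ∀ a, 0 < z.1 a := Measure.quasiMeasurePreserving_fst.ae hV
  filter_upwards [hV'] with q hq
  rw [Real.norm_eq_abs]
  exact abs_DD_le Q W hW hpos hB q.1 hq q.2

include hW hpos hB hV hBi in
theorem integral_DD_swap : ∫ v, ∫ z, DD Q W v z ∂ρ ∂V = ∫ z, treeF V Q (W z) ∂ρ :=
  integral_integral_swap (integrable_DD Q W hW hpos hB V hV ρ hBi)

end

end Crest.Agent.R141.U
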