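import Crest.Agent.R141.USeq
import Crest.Agent.R141.UTree
import Crest.Agent.R141.UStmt
import Crest.Agent.R141.RedP

/-!
R141, Part U: assembly of the upper bound, given the tree limit and the two product identities.
-/

set_option autoImplicit false

namespace Crest.Agent.R141.U

open MeasureTheory Filter Topology Crest.ProbabilityR.Diluted
open scoped NNReal ENNReal

/-- The tree limit (U3), as a proposition. -/
def TreeLimit {r : ℕ} (m : Fin r → ℝ) : Prop :=
  ∃ (Leaf : (Fin r → ℕ) → Type) (_ : ∀ K, Fintype (Leaf K))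
    (V : ∀ K, Measure (Leaf K → ℝ))
    (Q : ∀ K, Measure (Leaf K → Fin (r + 1) → unitInterval)),
    (∀ K : Fin r → ℕ, (∀ i, 0 < K i) → Nonempty (Leaf K) ∧ IsProbabilityMeasure (V K) ∧
      IsProbabilityMeasure (Q K) ∧ ∀ᵐ v ∂(V K), ∀ a, 0 < v a) ∧
    ∀ (L : Type) [Fintype L] (W : (L → Fin (r + 1) → unitInterval) → ℝ), Measurable W →
      ∀ c C : ℝ, 0 < c → (∀ u, c ≤ W u) → (∀ u, W u ≤ C) →
        IterTendsto r (fun K => treeF (V K) (Q K) W)
          (∫ u, Real.log (powerMeans m W u) ∂(uniformArrays L r))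

section

variable {p : ℕ} {μ : Measure (Inter p)} [IsProbabilityMeasure μ]
  (hμ : Integrable (fun θ => supNorm θ) μ)
  (ν : Measure ℝ) [IsProbabilityMeasure ν] (hν : Integrable (fun x : ℝ => x) ν)
  {N : ℕ}

theorem measurable_avgLP' (j : ℕ) : Measurable
    (fun z : (Fin j → Inter p) × (Fin N → ℝ) => Red.avgLP N z) :=
  (Red.continuous_avgLP N).measurable

include hμ hν in
theorem integrable_avgLP (j : ℕ) : Integrable
    (fun z : (Fin j → Inter p) × (Fin N → ℝ) => Red.avgLP N z)
    ((Measure.pi fun _ : Fin j => μ).prod (Measure.pi fun _ : Fin N => ν)) :=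
  Red.integrable_of_bound μ ν (Red.continuous_avgLP N).measurable (N * Real.log 2) hμ hν.abs
    (Red.abs_avgLP_le N)

include hμ hν in
theorem integral_Apart (j : ℕ) :
    ∫ hs : Fin N → ℝ, Apart p μ hs j ∂(Measure.pi fun _ => ν) = Red.lpInt p μ ν N j := by
  have h := integrable_avgLP hμ ν hν (N := N) j
  exact (integral_integral_swap (f := fun (θs : Fin j → Inter p) (hs : Fin N → ℝ) =>
    Red.avgLP N (θs, hs)) h).symm

include hμ hν in
theorem integrable_Apart (j : ℕ) :
    Integrable (fun hs : Fin N → ℝ => Apart p μ hs j) (Measure.pi fun _ => ν) := by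
  have h := integrable_avgLP hμ ν hν (N := N) j
  exact h.integral_prod_right

variable {r : ℕ} {X : (Fin (r + 1) → unitInterval) → ℝ} (hX : Measurable X)
  {A : Type} [Fintype A] [Nonempty A]
  (Q : Measure (A → Fin (r + 1) → unitInterval)) [IsProbabilityMeasure Q]
  (V : Measure (A → ℝ)) [IsProbabilityMeasure V] (hV : ∀ᵐ v ∂V, ∀ a, 0 < v a)

/-- The message of a leaf. -/
def xX (X : (Fin (r + 1) → unitInterval) → ℝ) (y : A → Fin (r + 1) → unitInterval) (a : A) : ℝ :=
  X (y a)

omit [Fintype A] [Nonempty A] in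
include hX in
theorem xX_meas (a : A) : Measurable fun y : A → Fin (r + 1) → unitInterval => xX X y a :=
  hX.comp (measurable_pi_apply a)

/-- supNorm bound for the edges. -/
noncomputable def Bk (k : ℕ) (θs : Fin k → Inter p) : ℝ := ∑ j, supNorm (θs j)

include hμ in
theorem integrable_Bk (k : ℕ) : Integrable (fun θs : Fin k → Inter p => Bk k θs)
    (Measure.pi fun _ => μ) := Red.integrable_sum_eval μ hμ

include hμ hX in
theorem Bpart_sub (v : A → ℝ) (hv : ∀ a, 0 < v a) (k : ℕ) :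
    Bpart p μ Q (xX X) v k - Real.log (∑ a, v a) =
      ∫ θs : Fin k → Inter p, DD Q (fun θs => Wedge (p := p) (K := k) X θs) v θs
        ∂(Measure.pi fun _ => μ) := by
  unfold DD
  rw [integral_sub, integral_const]
  · simp only [probReal_univ, one_smul]
    rfl
  · have h1 : Measurable (fun q : ((A → ℝ) × (Fin k → Inter p)) ×
        (Fin k × Fin p → A → Fin (r + 1) → unitInterval) =>
        Real.log (∑ a, q.1.1 a * Wedge (p := p) X q.1.2 (fun ω => q.2 ω a))) :=
      measurable_log_sum (A := A) (fun θs => Wedge (p := p) (K := k) X θs) (UBd.measurable_Wedge hX)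
    have h2 := (h1.stronglyMeasurable.integral_prod_right'
      (ν := Measure.pi fun _ : Fin k × Fin p => Q)).measurable
    have h3 := h2.comp (measurable_prodMk_left (x := v))
    refine Integrable.mono' ((integrable_Bk hμ k).add (integrable_const (|Real.log (∑ a, v a)|)))
      h3.aestronglyMeasurable (Eventually.of_forall fun θs => ?_)
    have h4 := abs_DD_le Q (fun θs => Wedge (p := p) (K := k) X θs) (UBd.measurable_Wedge hX)
      (UBd.Wedge_pos X) (UBd.abs_log_Wedge_le X) v hv θs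
    unfold DD at h4
    have h5 := abs_add_le ((∫ y, Real.log (∑ a, v a * Wedge (p := p) X θs (fun ω => y ω a))
      ∂(Measure.pi fun _ : Fin k × Fin p => Q)) - Real.log (∑ a, v a)) (Real.log (∑ a, v a))
    rw [sub_add_cancel] at h5
    rw [Real.norm_eq_abs]
    exact h5.trans (add_le_add h4 le_rfl)
  · exact integrable_const _

include hμ hX hV in
theorem integral_Bpart (k : ℕ) :
    ∫ v, (Bpart p μ Q (xX X) v k - Real.log (∑ a, v a)) ∂V =
      ∫ θs : Fin k → Inter p, treeF V Q (Wedge (p := p) X θs) ∂(Measure.pi fun _ => μ) := by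
  rw [← integral_DD_swap Q (fun θs => Wedge (p := p) (K := k) X θs) (UBd.measurable_Wedge hX)
    (UBd.Wedge_pos X) (UBd.abs_log_Wedge_le X) V hV (Measure.pi fun _ => μ) (integrable_Bk hμ k)]
  refine integral_congr_ae ?_
  filter_upwards [hV] with v hv
  exact Bpart_sub hμ hX Q v hv k

include hμ hX hV in
theorem integrable_Bpart (k : ℕ) :
    Integrable (fun v => Bpart p μ Q (xX X) v k - Real.log (∑ a, v a)) V := by
  have h := (integrable_DD Q (fun θs => Wedge (p := p) (K := k) X θs) (UBd.measurable_Wedge hX)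
    (UBd.Wedge_pos X) (UBd.abs_log_Wedge_le X) V hV (Measure.pi fun _ => μ)
    (integrable_Bk hμ k)).integral_prod_left
  refine h.congr ?_
  filter_upwards [hV] with v hv
  exact (Bpart_sub hμ hX Q v hv k).symm

/-! ### the site side -/

/-- bound for the sites. -/
noncomputable def Bn (N n : ℕ) (z : (Fin n → Inter p) × (Fin N → ℝ)) : ℝ :=
  N * Real.log 2 + (∑ i, |z.2 i| + ∑ j, supNorm (z.1 j))

include hμ hν in
theorem integrable_Bn (n : ℕ) : Integrable (Bn (p := p) N n)
    ((Measure.pi fun _ : Fin n => μ).prod (Measure.pi fun _ : Fin N => ν)) := by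
  refine (integrable_const _).add (Integrable.add ?_ ?_)
  · exact (Red.integrable_sum_eval ν hν.abs).comp_snd _
  · exact (Red.integrable_sum_eval μ hμ).comp_fst _

/-- the site functions. -/
noncomputable def Wt (X : (Fin (r + 1) → unitInterval) → ℝ) (n : ℕ) (t : Fin n → Fin N)
    (z : (Fin n → Inter p) × (Fin N → ℝ)) :
    (Fin n × Fin (p - 1) → Fin (r + 1) → unitInterval) → ℝ := Wsite X z.2 z.1 t

include hX in
theorem Wt_meas (n : ℕ) (t : Fin n → Fin N) : Measurable
    (fun q : ((Fin n → Inter p) × (Fin N → ℝ)) ×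
      (Fin n × Fin (p - 1) → Fin (r + 1) → unitInterval) => Wt X n t q.1 q.2) :=
  UBd.measurable_Wsite hX t

theorem Wt_pos (X : (Fin (r + 1) → unitInterval) → ℝ) (n : ℕ) (t : Fin n → Fin N)
    (z : (Fin n → Inter p) × (Fin N → ℝ))
    (u : Fin n × Fin (p - 1) → Fin (r + 1) → unitInterval) : 0 < Wt X n t z u :=
  UBd.Wsite_pos X z.2 z.1 t u

theorem Wt_bd (X : (Fin (r + 1) → unitInterval) → ℝ) (n : ℕ) (t : Fin n → Fin N)
    (z : (Fin n → Inter p) × (Fin N → ℝ))
    (u : Fin n × Fin (p - 1) → Fin (r + 1) → unitInterval) :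
    |Real.log (Wt X n t z u)| ≤ Bn N n z := UBd.abs_log_Wsite_le X z.2 z.1 t u

include hμ hX hν in
theorem integrable_DDz (v : A → ℝ) (hv : ∀ a, 0 < v a) (n : ℕ) (t : Fin n → Fin N) :
    Integrable (fun z => DD Q (Wt (p := p) X n t) v z)
      ((Measure.pi fun _ : Fin n => μ).prod (Measure.pi fun _ : Fin N => ν)) := by
  refine Integrable.mono' (integrable_Bn hμ ν hν n)
    ((measurable_DD Q (Wt (p := p) X n t) (Wt_meas hX n t)).comp
      (measurable_prodMk_left (x := v))).aestronglyMeasurable (Eventually.of_forall fun z => ?_)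
  rw [Real.norm_eq_abs]
  exact abs_DD_le Q _ (Wt_meas hX n t) (Wt_pos X n t) (Wt_bd X n t) v hv z

include hμ hX in
theorem integrable_DDθ (v : A → ℝ) (hv : ∀ a, 0 < v a) (n : ℕ) (t : Fin n → Fin N)
    (hs : Fin N → ℝ) :
    Integrable (fun θs : Fin n → Inter p => DD Q (Wt (p := p) X n t) v (θs, hs))
      (Measure.pi fun _ : Fin n => μ) := by
  refine Integrable.mono' (g := fun θs : Fin n → Inter p => Bn N n (θs, hs)) ?_
    ((measurable_DD Q (Wt (p := p) X n t) (Wt_meas hX n t)).comp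
      ((measurable_const (a := v)).prodMk (measurable_prodMk_right (y := hs)))).aestronglyMeasurable
      (Eventually.of_forall fun θs => ?_)
  · have h1 : Integrable (fun θs : Fin n → Inter p => ∑ j, supNorm (θs j))
        (Measure.pi fun _ => μ) := Red.integrable_sum_eval μ hμ
    unfold Bn
    exact (integrable_const (N * Real.log 2)).add ((integrable_const (∑ i, |hs i|)).add h1)
  · rw [Real.norm_eq_abs]
    exact abs_DD_le Q _ (Wt_meas hX n t) (Wt_pos X n t) (Wt_bd X n t) v hv _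

include hμ hX in
theorem Cpart_sub (v : A → ℝ) (hv : ∀ a, 0 < v a) (hs : Fin N → ℝ) (hN : 0 < N) (n : ℕ) :
    Cpart p μ Q (xX X) v hs n - Real.log (∑ a, v a) =
      (Fintype.card (Fin n → Fin N) : ℝ)⁻¹ * ∑ t : Fin n → Fin N,
        ∫ θs : Fin n → Inter p, DD Q (Wt (p := p) X n t) v (θs, hs)
          ∂(Measure.pi fun _ => μ) := by
  haveI : Nonempty (Fin N) := ⟨⟨0, hN⟩⟩
  have hcard : (Fintype.card (Fin n → Fin N) : ℝ) ≠ 0 := by
    exact_mod_cast Fintype.card_ne_zero
  have h1 : ∀ θs : Fin n → Inter p, (∫ y, ((Fintype.card (Fin n → Fin N) : ℝ)⁻¹ *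
      ∑ t : Fin n → Fin N, Real.log (∑ a, v a * ∏ i, ∑ ε : Bool, Real.exp (hs i * spinVal ε +
      ∑ j ∈ Finset.univ.filter (fun j => t j = i),
        siteMessage (θs j) (fun ℓ => xX X (y (j, ℓ)) a) ε)))
      ∂(Measure.pi fun _ : Fin n × Fin (p - 1) => Q)) =
      ((Fintype.card (Fin n → Fin N) : ℝ)⁻¹ *
      ∑ t : Fin n → Fin N, (DD Q (Wt (p := p) X n t) v (θs, hs) + Real.log (∑ a, v a))) := by
    intro θs
    rw [integral_const_mul]
    congr 1
    have h2 := integral_finsetSum (μ := Measure.pi fun _ : Fin n × Fin (p - 1) => Q)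
      (Finset.univ : Finset (Fin n → Fin N))
      (f := fun t y => Real.log (∑ a, v a * Wt X n t (θs, hs) (fun ω => y ω a)))
      (fun t _ => integrable_log_sum Q _ (Wt_meas hX n t) (Wt_pos X n t) (Wt_bd X n t) v hv _)
    refine h2.trans (Finset.sum_congr rfl fun t _ => ?_)
    unfold DD
    rw [sub_add_cancel]
  unfold Cpart
  simp only [h1]
  rw [integral_const_mul, integral_finsetSum (Finset.univ : Finset (Fin n → Fin N))
    (f := fun t (θs : Fin n → Inter p) => DD Q (Wt (p := p) X n t) v (θs, hs) +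
      Real.log (∑ a, v a)) (fun t _ =>
    (integrable_DDθ hμ hX Q v hv n t hs).add (integrable_const (Real.log (∑ a, v a))))]
  have h3 : ∀ t : Fin n → Fin N, ∫ θs : Fin n → Inter p,
      (DD Q (Wt (p := p) X n t) v (θs, hs) + Real.log (∑ a, v a)) ∂(Measure.pi fun _ => μ) =
      (∫ θs : Fin n → Inter p, DD Q (Wt (p := p) X n t) v (θs, hs) ∂(Measure.pi fun _ => μ)) +
        Real.log (∑ a, v a) := by
    intro t
    rw [integral_add (integrable_DDθ hμ hX Q v hv n t hs) (integrable_const _)]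
    simp
  simp only [h3]
  rw [Finset.sum_add_distrib, Finset.sum_const, Finset.card_univ, nsmul_eq_mul, mul_add,
    ← mul_assoc, inv_mul_cancel₀ hcard, one_mul, add_sub_cancel_right]

/-- the integrated site part. -/
noncomputable def Cint (X : (Fin (r + 1) → unitInterval) → ℝ)
    (μ : Measure (Inter p)) (N n : ℕ) : ℝ :=
  (Fintype.card (Fin n → Fin N) : ℝ)⁻¹ * ∑ t : Fin n → Fin N,
    ∫ z, treeF V Q (Wt (p := p) X n t z)
      ∂((Measure.pi fun _ : Fin n => μ).prod (Measure.pi fun _ : Fin N => ν))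

include hμ hX hV hν in
theorem aInt_two (hN : 0 < N) (n : ℕ) :
    aInt hμ hN Q (xX X) (xX_meas hX) V ν 0 0 n = Cint ν Q V X μ N n := by
  unfold aInt Cint
  rw [integral_prod _ (integrable_aSeq hμ hN Q (xX X) (xX_meas hX) V hV ν hν 0 0 n)]
  have h1 : ∀ᵐ v ∂V, (∫ hs : Fin N → ℝ, (aSeq hμ hN Q (xX X) (xX_meas hX) v hs 0 0 n -
      Real.log (∑ a, v a)) ∂(Measure.pi fun _ => ν)) =
      (Fintype.card (Fin n → Fin N) : ℝ)⁻¹ * ∑ t : Fin n → Fin N,
        ∫ z, DD Q (Wt (p := p) X n t) v z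
          ∂((Measure.pi fun _ : Fin n => μ).prod (Measure.pi fun _ : Fin N => ν)) := by
    filter_upwards [hV] with v hv
    have h2 : ∀ hs : Fin N → ℝ, aSeq hμ hN Q (xX X) (xX_meas hX) v hs 0 0 n -
      Real.log (∑ a, v a) = (Fintype.card (Fin n → Fin N) : ℝ)⁻¹ * ∑ t : Fin n → Fin N,
        ∫ θs : Fin n → Inter p, DD Q (Wt (p := p) X n t) v (θs, hs)
          ∂(Measure.pi fun _ => μ) := by
      intro hs
      rw [aSeq_two hμ hN Q (xX X) (xX_meas hX) v hv hs n]
      exact Cpart_sub hμ hX Q v hv hs hN n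
    simp only [h2]
    rw [integral_const_mul, integral_finsetSum]
    · congr 1
      refine Finset.sum_congr rfl fun t _ => ?_
      exact (integral_prod_symm _ (integrable_DDz hμ ν hν hX Q v hv n t)).symm
    · intro t _
      exact (integrable_DDz hμ ν hν hX Q v hv n t).integral_prod_right
  rw [integral_congr_ae h1, integral_const_mul, integral_finsetSum]
  · congr 1
    refine Finset.sum_congr rfl fun t _ => ?_
    exact integral_DD_swap Q _ (Wt_meas hX n t) (Wt_pos X n t) (Wt_bd X n t) V hV _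
      (integrable_Bn hμ ν hν n)
  · intro t _
    exact (integrable_DD Q _ (Wt_meas hX n t) (Wt_pos X n t) (Wt_bd X n t) V hV _
      (integrable_Bn hμ ν hν n)).integral_prod_left

include hμ hX hV hν in
theorem aInt_zero (hN : 0 < N) (j k : ℕ) :
    aInt hμ hN Q (xX X) (xX_meas hX) V ν j k 0 = Red.lpInt p μ ν N j +
      ∫ θs : Fin k → Inter p, treeF V Q (Wedge (p := p) X θs) ∂(Measure.pi fun _ => μ) := by
  have hV' : ∀ᵐ z ∂(V.prod (Measure.pi fun _ : Fin N => ν)), ∀ a, 0 < z.1 a :=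
    Measure.quasiMeasurePreserving_fst.ae hV
  have hA := integrable_Apart hμ ν hν (N := N) j
  have hB := integrable_Bpart hμ hX Q V hV k
  have h1 : aInt hμ hN Q (xX X) (xX_meas hX) V ν j k 0 =
      ∫ z : (A → ℝ) × (Fin N → ℝ), (Apart p μ z.2 j +
        (Bpart p μ Q (xX X) z.1 k - Real.log (∑ a, z.1 a)))
        ∂(V.prod (Measure.pi fun _ : Fin N => ν)) := by
    unfold aInt
    refine integral_congr_ae ?_
    filter_upwards [hV'] with z hz
    rw [aSeq_zero hμ hN Q (xX X) (xX_meas hX) z.1 hz z.2 j k]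
    ring
  rw [h1, integral_add (hA.comp_snd V) (hB.comp_fst _), integral_fun_snd
    (μ := V) (ν := Measure.pi fun _ : Fin N => ν) (fun hs : Fin N → ℝ => Apart p μ hs j),
    integral_fun_fst (μ := V) (ν := Measure.pi fun _ : Fin N => ν)
      (fun v : A → ℝ => Bpart p μ Q (xX X) v k - Real.log (∑ a, v a)),
    integral_Apart hμ ν hν, integral_Bpart hμ hX Q V hV]
  simp

include hμ hX hV hν in
/-- The tree inequality, for a finite tree. -/
theorem tree_ineq (hN : 0 < N) (hp : 1 ≤ p) (hKI : KIProp p μ) {α : ℝ} (hα : 0 ≤ α) :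
    (∑' j, poissonWeight (α * N) j * Red.lpInt p μ ν N j) +
      (∑' k, poissonWeight (α * (p - 1) * N) k *
        ∫ θs : Fin k → Inter p, treeF V Q (Wedge (p := p) X θs) ∂(Measure.pi fun _ => μ)) ≤
    ∑' n, poissonWeight (α * p * N) n * Cint ν Q V X μ N n := by
  have hp0 : (1 : ℝ) ≤ p := by exact_mod_cast hp
  have hpp : (0 : ℝ) < p := by linarith
  set c := ∫ θ, supNorm θ ∂μ with hc
  have hc0 : 0 ≤ c := integral_nonneg fun θ => Red.supNorm_nonneg θ
  have hx0 : 0 ≤ ∫ x, |x| ∂ν := integral_nonneg fun x => abs_nonneg x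
  have hl2 : 0 ≤ Real.log 2 := Real.log_nonneg one_le_two
  have hNr : (0 : ℝ) ≤ N := Nat.cast_nonneg N
  set C := N * Real.log 2 + N * (∫ x, |x| ∂ν) + c with hC
  have hA : ∀ j : ℕ, |Red.lpInt p μ ν N j| ≤ C * (1 + j) := by
    intro j
    refine (Red.abs_lpInt_le μ ν hμ hν N j).trans ?_
    have hj : (0 : ℝ) ≤ j := Nat.cast_nonneg j
    nlinarith [mul_nonneg hNr hl2, mul_nonneg hNr hx0, mul_nonneg (mul_nonneg hNr hl2) hj,
      mul_nonneg (mul_nonneg hNr hx0) hj]
  have hB : ∀ k : ℕ, |∫ θs : Fin k → Inter p, treeF V Q (Wedge (p := p) X θs)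
      ∂(Measure.pi fun _ => μ)| ≤ C * (1 + k) := by
    intro k
    have h1 : |∫ θs : Fin k → Inter p, treeF V Q (Wedge (p := p) X θs)
        ∂(Measure.pi fun _ => μ)| ≤ ∫ θs : Fin k → Inter p, Bk k θs ∂(Measure.pi fun _ => μ) := by
      rw [← Real.norm_eq_abs]
      refine norm_integral_le_of_norm_le (integrable_Bk hμ k) (Eventually.of_forall fun θs => ?_)
      exact abs_treeF_le Q _ (UBd.measurable_Wedge hX) (UBd.Wedge_pos X) (UBd.abs_log_Wedge_le X)
        V hV θs
    refine h1.trans ?_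
    unfold Bk
    rw [Red.integral_sum_eval μ hμ, Fintype.card_fin]
    have hj : (0 : ℝ) ≤ k := Nat.cast_nonneg k
    nlinarith [mul_nonneg hNr hl2, mul_nonneg hNr hx0, mul_nonneg (mul_nonneg hNr hl2) hj,
      mul_nonneg (mul_nonneg hNr hx0) hj]
  have hD : ∀ n : ℕ, |aInt hμ hN Q (xX X) (xX_meas hX) V ν 0 0 n| ≤ C * (1 + n) := by
    intro n
    refine (aInt_bound hμ hN Q (xX X) (xX_meas hX) V hV ν hν 0 0 n).trans ?_
    have hj : (0 : ℝ) ≤ n := Nat.cast_nonneg n
    push_cast
    nlinarith [mul_nonneg hNr hl2, mul_nonneg hNr hx0, mul_nonneg (mul_nonneg hNr hl2) hj,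
      mul_nonneg (mul_nonneg hNr hx0) hj]
  have hfin := UPois.hybrid_poisson_add (lam := α * p * N) (q := 1 / (p : ℝ)) (C := C)
    (by positivity) (by positivity) (by rw [div_le_one hpp]; exact hp0)
    (fun j k l => aInt hμ hN Q (xX X) (xX_meas hX) V ν j k l)
    (aInt_step hμ hN Q (xX X) (xX_meas hX) V hV ν hν hp hKI)
    (aInt_zero hμ ν hν hX Q V hV hN) hA hB hD
  have e1 : α * p * N * (1 / (p : ℝ)) = α * N := by field_simp
  have e2 : α * p * N * (1 - 1 / (p : ℝ)) = α * (p - 1) * N := by field_simp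
  rw [e1, e2] at hfin
  refine hfin.trans (le_of_eq (tsum_congr fun n => ?_))
  rw [aInt_two hμ ν hν hX Q V hV hN]

end

end Crest.Agent.R141.U
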