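import Crest.Agent.R141.Red1
import Crest.Agent.R141.RedBasic
import Crest.Agent.R141.UStmt

/-!
R141, Part U: bounds and joint measurability of `powerMeans` (helper585), on helper494's `Red1`.

* `abs_log_powerMeans_le` : `|log W| ≤ B` everywhere implies `|log (powerMeans m W u)| ≤ B`.
* `measurable_powerMeans_param` : joint measurability in a parameter.
* `abs_integral_log_powerMeans_le` : the same bound for the integral over the arrays.
* `measurable_integral_log_powerMeans`, `aestronglyMeasurable_…` : measurability in the parameter of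
  the integral over the arrays.
* joint measurability of `edgeTerm`, `siteMessage`, `siteTerm` along `X`.
-/

set_option autoImplicit false

namespace Crest.Agent.R141.UBd

open MeasureTheory Crest.ProbabilityR.Diluted Crest.Agent.R141 Crest.Agent.R141.Red

variable {L : Type*} [Fintype L] {r : ℕ}

theorem exp_neg_le_of_abs_log_le {x B : ℝ} (hx : 0 < x) (h : |Real.log x| ≤ B) :
    Real.exp (-B) ≤ x ∧ x ≤ Real.exp B := by
  have h1 := abs_le.1 h
  constructor
  · calc Real.exp (-B) ≤ Real.exp (Real.log x) := Real.exp_le_exp.2 h1.1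
      _ = x := Real.exp_log hx
  · calc x = Real.exp (Real.log x) := (Real.exp_log hx).symm
      _ ≤ Real.exp B := Real.exp_le_exp.2 h1.2

theorem abs_log_le_of_mem {x B : ℝ} (h1 : Real.exp (-B) ≤ x) (h2 : x ≤ Real.exp B) :
    |Real.log x| ≤ B := by
  have hx : 0 < x := (Real.exp_pos _).trans_le h1
  rw [abs_le]
  constructor
  · have := Real.log_le_log (Real.exp_pos _) h1
    rwa [Real.log_exp] at this
  · have := Real.log_le_log hx h2
    rwa [Real.log_exp] at this

/-- bounds on `powerMeans` from a bound on `|log W|`. -/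
theorem powerMeans_mem {m : Fin r → ℝ} (hm : ∀ d, 0 < m d) {B : ℝ}
    {W : (L → Fin (r + 1) → unitInterval) → ℝ} (hW : Measurable W) (hpos : ∀ u, 0 < W u)
    (hB : ∀ u, |Real.log (W u)| ≤ B) (u : L → Fin (r + 1) → unitInterval) :
    Real.exp (-B) ≤ powerMeans m W u ∧ powerMeans m W u ≤ Real.exp B := by
  have h1 : ∀ u, Real.exp (-B) ≤ W u := fun u => (exp_neg_le_of_abs_log_le (hpos u) (hB u)).1
  have h2 : ∀ u, W u ≤ Real.exp B := fun u => (exp_neg_le_of_abs_log_le (hpos u) (hB u)).2
  exact ⟨le_powerMeans hm (Real.exp_pos _) hW h1 h2 u, powerMeans_le hm (Real.exp_pos _) hW h1 h2 u⟩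

theorem powerMeans_pos {m : Fin r → ℝ} (hm : ∀ d, 0 < m d) {B : ℝ}
    {W : (L → Fin (r + 1) → unitInterval) → ℝ} (hW : Measurable W) (hpos : ∀ u, 0 < W u)
    (hB : ∀ u, |Real.log (W u)| ≤ B) (u : L → Fin (r + 1) → unitInterval) :
    0 < powerMeans m W u :=
  (Real.exp_pos _).trans_le (powerMeans_mem hm hW hpos hB u).1

/-- `|log W| ≤ B` everywhere implies `|log (powerMeans m W u)| ≤ B`. -/
theorem abs_log_powerMeans_le {m : Fin r → ℝ} (hm : ∀ d, 0 < m d) {B : ℝ}
    {W : (L → Fin (r + 1) → unitInterval) → ℝ} (hW : Measurable W) (hpos : ∀ u, 0 < W u)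
    (hB : ∀ u, |Real.log (W u)| ≤ B) (u : L → Fin (r + 1) → unitInterval) :
    |Real.log (powerMeans m W u)| ≤ B :=
  abs_log_le_of_mem (powerMeans_mem hm hW hpos hB u).1 (powerMeans_mem hm hW hpos hB u).2

instance : IsProbabilityMeasure (uniformArrays L r) := by
  unfold uniformArrays; infer_instance

/-- integrability of `log (powerMeans m W)` over the arrays. -/
theorem integrable_log_powerMeans' {m : Fin r → ℝ} (hm : ∀ d, 0 < m d) {B : ℝ}
    {W : (L → Fin (r + 1) → unitInterval) → ℝ} (hW : Measurable W) (hpos : ∀ u, 0 < W u)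
    (hB : ∀ u, |Real.log (W u)| ≤ B) :
    Integrable (fun u => Real.log (powerMeans m W u)) (uniformArrays L r) := by
  refine Integrable.of_bound
    (Real.measurable_log.comp (measurable_powerMeans' hW)).aestronglyMeasurable B
    (Filter.Eventually.of_forall fun u => ?_)
  rw [Real.norm_eq_abs]
  exact abs_log_powerMeans_le hm hW hpos hB u

theorem abs_integral_log_powerMeans_le {m : Fin r → ℝ} (hm : ∀ d, 0 < m d) {B : ℝ}
    {W : (L → Fin (r + 1) → unitInterval) → ℝ} (hW : Measurable W) (hpos : ∀ u, 0 < W u)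
    (hB : ∀ u, |Real.log (W u)| ≤ B) :
    |∫ u, Real.log (powerMeans m W u) ∂(uniformArrays L r)| ≤ B := by
  have h := norm_integral_le_of_norm_le_const (μ := uniformArrays L r) (C := B)
    (f := fun u => Real.log (powerMeans m W u))
    (Filter.Eventually.of_forall fun u => by
      rw [Real.norm_eq_abs]; exact abs_log_powerMeans_le hm hW hpos hB u)
  simpa [Real.norm_eq_abs] using h

/-! ### joint measurability in a parameter -/

theorem measurable_pmStep_param {Z : Type*} [MeasurableSpace Z] {m : ℝ} {lvl : Fin (r + 1)}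
    {W : Z → (L → Fin (r + 1) → unitInterval) → ℝ}
    (hW : Measurable (fun q : Z × (L → Fin (r + 1) → unitInterval) => W q.1 q.2)) :
    Measurable (fun q : Z × (L → Fin (r + 1) → unitInterval) => pmStep m lvl (W q.1) q.2) := by
  have hmap : Measurable (fun q : (Z × (L → Fin (r + 1) → unitInterval)) × (L → unitInterval) =>
      (q.1.1, upd lvl q.1.2 q.2)) :=
    (measurable_fst.comp measurable_fst).prodMk ((measurable_upd lvl).comp
      ((measurable_snd.comp measurable_fst).prodMk measurable_snd))
  have h1 : StronglyMeasurable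
      (fun q : (Z × (L → Fin (r + 1) → unitInterval)) × (L → unitInterval) =>
        (W q.1.1 (upd lvl q.1.2 q.2)) ^ m) :=
    ((hW.comp hmap).pow_const m).stronglyMeasurable
  have h2 := h1.integral_prod_right'
    (ν := (Measure.pi fun _ : L => (volume : Measure unitInterval)))
  have h3 : (fun q : Z × (L → Fin (r + 1) → unitInterval) => pmStep m lvl (W q.1) q.2) =
      fun q => (∫ v : L → unitInterval, (W q.1 (upd lvl q.2 v)) ^ m
      ∂(Measure.pi fun _ : L => (volume : Measure unitInterval))) ^ (1 / m) := by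
    funext q
    rw [pmStep_def]
  rw [h3]
  exact h2.measurable.pow_const _

/-- joint measurability of `powerMeans` in a parameter and the array. -/
theorem measurable_powerMeans_param {Z : Type*} [MeasurableSpace Z] {m : Fin r → ℝ}
    {W : Z → (L → Fin (r + 1) → unitInterval) → ℝ}
    (hW : Measurable (fun q : Z × (L → Fin (r + 1) → unitInterval) => W q.1 q.2)) :
    Measurable (fun q : Z × (L → Fin (r + 1) → unitInterval) => powerMeans m (W q.1) q.2) := by
  simp only [powerMeans_eq_pmList]
  induction (List.finRange r) with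
  | nil => exact hW
  | cons d l ih => exact measurable_pmStep_param (W := fun z => pmList m l (W z)) ih

theorem measurable_log_powerMeans_param {Z : Type*} [MeasurableSpace Z] {m : Fin r → ℝ}
    {W : Z → (L → Fin (r + 1) → unitInterval) → ℝ}
    (hW : Measurable (fun q : Z × (L → Fin (r + 1) → unitInterval) => W q.1 q.2)) :
    Measurable (fun q : Z × (L → Fin (r + 1) → unitInterval) =>
      Real.log (powerMeans m (W q.1) q.2)) :=
  Real.measurable_log.comp (measurable_powerMeans_param hW)

/-- measurability in the parameter of the integral over the arrays. -/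
theorem measurable_integral_log_powerMeans {Z : Type*} [MeasurableSpace Z] {m : Fin r → ℝ}
    {W : Z → (L → Fin (r + 1) → unitInterval) → ℝ}
    (hW : Measurable (fun q : Z × (L → Fin (r + 1) → unitInterval) => W q.1 q.2)) :
    Measurable (fun z => ∫ u, Real.log (powerMeans m (W z) u) ∂(uniformArrays L r)) :=
  ((measurable_log_powerMeans_param hW).stronglyMeasurable.integral_prod_right'
    (ν := uniformArrays L r)).measurable

/-! ### joint measurability of the terms -/

theorem continuous_edgeTerm_joint {p : ℕ} :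
    Continuous (fun q : Inter p × (Fin p → ℝ) => edgeTerm q.1 q.2) := by
  unfold edgeTerm
  refine continuous_finsetSum _ fun s _ => ?_
  refine Continuous.mul ?_ ?_
  · exact Real.continuous_exp.comp ((continuous_apply s).comp continuous_fst)
  · exact continuous_finsetProd _ fun ℓ _ =>
      (continuous_tilt (s ℓ)).comp ((continuous_apply ℓ).comp continuous_snd)

theorem continuous_siteMessage_joint {p : ℕ} (ε : Bool) :
    Continuous (fun q : Inter p × (Fin (p - 1) → ℝ) => siteMessage q.1 q.2 ε) := by
  unfold siteMessage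
  refine Continuous.log ?_ fun q => ?_
  · refine continuous_finsetSum _ fun s _ => ?_
    refine Continuous.mul ?_ ?_
    · exact Real.continuous_exp.comp ((continuous_apply _).comp continuous_fst)
    · exact continuous_finsetProd _ fun ℓ _ =>
        (continuous_tilt (s ℓ)).comp ((continuous_apply ℓ).comp continuous_snd)
  · exact (Finset.sum_pos (fun s _ => mul_pos (Real.exp_pos _) (tilt_prod_pos q.2 s))
      Finset.univ_nonempty).ne'

theorem Wedge_pos {p K : ℕ} (X : (Fin (r + 1) → unitInterval) → ℝ) (θs : Fin K → Inter p)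
    (u : Fin K × Fin p → Fin (r + 1) → unitInterval) : 0 < Wedge X θs u :=
  Finset.prod_pos fun _ _ => edgeTerm_pos _ _

theorem abs_log_Wedge_le {p K : ℕ} (X : (Fin (r + 1) → unitInterval) → ℝ) (θs : Fin K → Inter p)
    (u : Fin K × Fin p → Fin (r + 1) → unitInterval) :
    |Real.log (Wedge X θs u)| ≤ ∑ j, supNorm (θs j) := by
  unfold Wedge
  rw [Real.log_prod fun j _ => (edgeTerm_pos _ _).ne']
  refine (Finset.abs_sum_le_sum_abs _ _).trans (Finset.sum_le_sum fun j _ => ?_)
  exact abs_log_edgeTerm_le _ _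

theorem measurable_Wedge {p K : ℕ} {X : (Fin (r + 1) → unitInterval) → ℝ} (hX : Measurable X) :
    Measurable (fun q : (Fin K → Inter p) × (Fin K × Fin p → Fin (r + 1) → unitInterval) =>
      Wedge X q.1 q.2) := by
  unfold Wedge
  refine Finset.measurable_prod _ fun j _ => ?_
  refine continuous_edgeTerm_joint.measurable.comp (Measurable.prodMk ?_ ?_)
  · exact (measurable_pi_apply j).comp measurable_fst
  · exact measurable_pi_lambda _ fun ℓ =>
      hX.comp ((measurable_pi_apply (j, ℓ)).comp measurable_snd)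

/-- one site factor is positive. -/
theorem siteSum_pos {M : ℕ} (h : ℝ) (s : Finset (Fin M)) (g : Fin M → Bool → ℝ) :
    0 < ∑ ε : Bool, Real.exp (h * spinVal ε + ∑ j ∈ s, g j ε) :=
  Finset.sum_pos (fun _ _ => Real.exp_pos _) Finset.univ_nonempty

/-- one site factor: bound of the logarithm. -/
theorem abs_log_siteSum_le {M : ℕ} (h : ℝ) (s : Finset (Fin M)) (g : Fin M → Bool → ℝ)
    (c : Fin M → ℝ) (hg : ∀ j ε, |g j ε| ≤ c j) :
    |Real.log (∑ ε : Bool, Real.exp (h * spinVal ε + ∑ j ∈ s, g j ε))| ≤
      Real.log 2 + (|h| + ∑ j ∈ s, c j) := by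
  set B := |h| + ∑ j ∈ s, c j with hB
  have hbound : ∀ ε : Bool, |h * spinVal ε + ∑ j ∈ s, g j ε| ≤ B := by
    intro ε
    refine (abs_add_le _ _).trans (add_le_add ?_ ?_)
    · rw [abs_mul, abs_spinVal, mul_one]
    · exact (Finset.abs_sum_le_sum_abs _ _).trans (Finset.sum_le_sum fun j _ => hg j ε)
  have hpos := siteSum_pos h s g
  have hup : ∑ ε : Bool, Real.exp (h * spinVal ε + ∑ j ∈ s, g j ε) ≤ 2 * Real.exp B := by
    calc ∑ ε : Bool, Real.exp (h * spinVal ε + ∑ j ∈ s, g j ε)
        ≤ ∑ _ε : Bool, Real.exp B :=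
          Finset.sum_le_sum fun ε _ => Real.exp_le_exp.2 (abs_le.1 (hbound ε)).2
      _ = 2 * Real.exp B := by simp
  have hlo : 2 * Real.exp (-B) ≤ ∑ ε : Bool, Real.exp (h * spinVal ε + ∑ j ∈ s, g j ε) := by
    calc 2 * Real.exp (-B) = ∑ _ε : Bool, Real.exp (-B) := by simp
      _ ≤ _ := Finset.sum_le_sum fun ε _ => Real.exp_le_exp.2 (abs_le.1 (hbound ε)).1
  have l2 : 0 ≤ Real.log 2 := Real.log_nonneg one_le_two
  rw [abs_le]
  constructor
  · have h1 := Real.log_le_log (by positivity) hlo
    rw [Real.log_mul two_ne_zero (Real.exp_pos _).ne', Real.log_exp] at h1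
    linarith
  · have h1 := Real.log_le_log hpos hup
    rw [Real.log_mul two_ne_zero (Real.exp_pos _).ne', Real.log_exp] at h1
    linarith

theorem Wsite_pos {p N M : ℕ} (X : (Fin (r + 1) → unitInterval) → ℝ) (hs : Fin N → ℝ)
    (θs : Fin M → Inter p) (t : Fin M → Fin N)
    (u : Fin M × Fin (p - 1) → Fin (r + 1) → unitInterval) : 0 < Wsite X hs θs t u :=
  Finset.prod_pos fun i _ => siteSum_pos (hs i) _
    (fun j ε => siteMessage (θs j) (fun ℓ => X (u (j, ℓ))) ε)

theorem abs_log_Wsite_le {p N M : ℕ} (X : (Fin (r + 1) → unitInterval) → ℝ) (hs : Fin N → ℝ)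
    (θs : Fin M → Inter p) (t : Fin M → Fin N)
    (u : Fin M × Fin (p - 1) → Fin (r + 1) → unitInterval) :
    |Real.log (Wsite X hs θs t u)| ≤
      N * Real.log 2 + (∑ i, |hs i| + ∑ j, supNorm (θs j)) := by
  unfold Wsite
  rw [Real.log_prod fun i _ => (siteSum_pos (hs i) _
    (fun j ε => siteMessage (θs j) (fun ℓ => X (u (j, ℓ))) ε)).ne']
  refine (Finset.abs_sum_le_sum_abs _ _).trans ?_
  refine (Finset.sum_le_sum fun i _ => abs_log_siteSum_le (hs i) _
    (fun j ε => siteMessage (θs j) (fun ℓ => X (u (j, ℓ))) ε) (fun j => supNorm (θs j))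
    fun j ε => abs_siteMessage_le _ _ _).trans (le_of_eq ?_)
  rw [Finset.sum_add_distrib, Finset.sum_add_distrib, Finset.sum_const, Finset.card_univ,
    Fintype.card_fin, nsmul_eq_mul]
  congr 2
  exact Finset.sum_fiberwise Finset.univ t (fun j => supNorm (θs j))

theorem measurable_Wsite {p N M : ℕ} {X : (Fin (r + 1) → unitInterval) → ℝ} (hX : Measurable X)
    (t : Fin M → Fin N) :
    Measurable (fun q : ((Fin M → Inter p) × (Fin N → ℝ)) ×
      (Fin M × Fin (p - 1) → Fin (r + 1) → unitInterval) => Wsite X q.1.2 q.1.1 t q.2) := by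
  unfold Wsite
  refine Finset.measurable_prod _ fun i _ => Finset.measurable_sum _ fun ε _ => ?_
  refine Real.measurable_exp.comp (Measurable.add ?_ ?_)
  · exact (((measurable_pi_apply i).comp (measurable_snd.comp measurable_fst)).mul_const _)
  · refine Finset.measurable_sum _ fun j _ => ?_
    refine (continuous_siteMessage_joint ε).measurable.comp (Measurable.prodMk ?_ ?_)
    · exact (measurable_pi_apply j).comp (measurable_fst.comp measurable_fst)
    · exact measurable_pi_lambda _ fun ℓ =>
        hX.comp ((measurable_pi_apply (j, ℓ)).comp measurable_snd)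

end Crest.Agent.R141.UBd
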