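import Mathlib

/-!
R141, Part U: rearrangements of finite product measures.
-/

set_option autoImplicit false

namespace Crest.Agent.R141.U

open MeasureTheory

theorem measurePreserving_curry {ι κ Y : Type} [Fintype ι] [Fintype κ] [MeasurableSpace Y]
    (Q : Measure Y) [IsProbabilityMeasure Q] :
    MeasurePreserving (MeasurableEquiv.curry ι κ Y) (Measure.pi fun _ : ι × κ => Q)
      (Measure.pi fun _ : ι => Measure.pi fun _ : κ => Q) := by
  refine ⟨(MeasurableEquiv.curry ι κ Y).measurable, ?_⟩
  have h := Measure.infinitePi_map_curry (ι := ι) (κ := κ) (X := Y) (fun _ _ => Q)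
  rw [Measure.infinitePi_eq_pi, Measure.infinitePi_eq_pi] at h
  rw [h]
  congr 1
  funext i
  exact Measure.infinitePi_eq_pi _

theorem integral_curry {ι κ Y : Type} [Fintype ι] [Fintype κ] [MeasurableSpace Y]
    (Q : Measure Y) [IsProbabilityMeasure Q] (F : (ι → κ → Y) → ℝ) :
    ∫ y, F y ∂(Measure.pi fun _ : ι => Measure.pi fun _ : κ => Q) =
      ∫ y, F (fun i j => y (i, j)) ∂(Measure.pi fun _ : ι × κ => Q) :=
  ((measurePreserving_curry (ι := ι) (κ := κ) Q).integral_comp' F).symm

theorem integral_arrow_prod {ι α β : Type} [Fintype ι] [MeasurableSpace α] [MeasurableSpace β]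
    (ρ : Measure α) (τ : Measure β) [IsProbabilityMeasure ρ] [IsProbabilityMeasure τ]
    (F : (ι → α × β) → ℝ) (hF : Integrable F (Measure.pi fun _ : ι => ρ.prod τ)) :
    ∫ z, F z ∂(Measure.pi fun _ : ι => ρ.prod τ) =
      ∫ a, ∫ b, F (fun i => (a i, b i)) ∂(Measure.pi fun _ : ι => τ)
        ∂(Measure.pi fun _ : ι => ρ) := by
  have h := measurePreserving_arrowProdEquivProdArrow α β ι (fun _ => ρ) (fun _ => τ)
  have h1 := h.symm.integral_comp' F
  rw [← h1, integral_prod]
  · rfl
  · exact h.symm.integrable_comp_of_integrable hF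

theorem integrable_arrow_prod {ι α β : Type} [Fintype ι] [MeasurableSpace α] [MeasurableSpace β]
    (ρ : Measure α) (τ : Measure β) [IsProbabilityMeasure ρ] [IsProbabilityMeasure τ]
    (F : (ι → α × β) → ℝ) (hF : Integrable F (Measure.pi fun _ : ι => ρ.prod τ)) :
    Integrable (fun z : (ι → α) × (ι → β) => F (fun i => (z.1 i, z.2 i)))
      ((Measure.pi fun _ : ι => ρ).prod (Measure.pi fun _ : ι => τ)) := by
  have h := measurePreserving_arrowProdEquivProdArrow α β ι (fun _ => ρ) (fun _ => τ)
  exact h.symm.integrable_comp_of_integrable hF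

end Crest.Agent.R141.U
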