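import Mathlib
import Crest.Prelude.Def_DilutedSpinGlass

/-!
# Row 141, Part U: Poisson splitting, thinning and the hybrid argument for real sequences (helper318)

* `hasSum_poissonWeight`, `tsum_poissonWeight_mul_id` : total mass and mean.
* `tsum_poissonWeight_binomial` : `Poisson(lam)` many events, each independently of kind 1 with
  probability `q` and of kind 2 otherwise, are independent `Poisson(lam q)` and
  `Poisson(lam (1-q))` numbers of events.
* `poisson_split` : the number of events at one of `N` sites.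
* `hybrid_binomial`, `hybrid_poisson` : the replacement of the events one by one.
-/

set_option autoImplicit false

open Crest.ProbabilityR.Diluted

namespace Crest.Agent.R141.UPois

theorem poissonWeight_nonneg {lam : ℝ} (h : 0 ≤ lam) (n : ℕ) : 0 ≤ poissonWeight lam n := by
  unfold poissonWeight; positivity

theorem poissonWeight_succ (lam : ℝ) (n : ℕ) :
    poissonWeight lam (n + 1) * ((n + 1 : ℕ) : ℝ) = lam * poissonWeight lam n := by
  unfold poissonWeight
  rw [Nat.factorial_succ]
  have h1 : ((n + 1 : ℕ) : ℝ) ≠ 0 := by positivity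
  have h2 : ((Nat.factorial n : ℕ) : ℝ) ≠ 0 := by positivity
  push_cast
  push_cast at h1
  field_simp
  ring

theorem hasSum_poissonWeight (lam : ℝ) : HasSum (poissonWeight lam) 1 := by
  have h := (NormedSpace.expSeries_div_hasSum_exp (lam : ℝ)).mul_left (Real.exp (-lam))
  rw [← Real.exp_eq_exp_ℝ, ← Real.exp_add, neg_add_cancel, Real.exp_zero] at h
  have e : poissonWeight lam = fun i : ℕ => Real.exp (-lam) * (lam ^ i / (i.factorial : ℝ)) := by
    funext n
    unfold poissonWeight
    ring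
  rw [e]
  exact h

theorem hasSum_poissonWeight_mul_id (lam : ℝ) :
    HasSum (fun n : ℕ => poissonWeight lam n * (n : ℝ)) lam := by
  have h := (hasSum_poissonWeight lam).mul_left lam
  rw [mul_one] at h
  have h2 : HasSum (fun n : ℕ => poissonWeight lam (n + 1) * ((n + 1 : ℕ) : ℝ)) lam := by
    have e : (fun n : ℕ => poissonWeight lam (n + 1) * ((n + 1 : ℕ) : ℝ)) =
        fun n => lam * poissonWeight lam n := by
      funext n
      exact poissonWeight_succ lam n
    rw [e]
    exact h
  have h3 := (hasSum_nat_add_iff (f := fun n : ℕ => poissonWeight lam n * (n : ℝ)) 1).1 h2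
  simpa using h3

theorem tsum_poissonWeight_mul_id (lam : ℝ) :
    ∑' K : ℕ, poissonWeight lam K * (K : ℝ) = lam :=
  (hasSum_poissonWeight_mul_id lam).tsum_eq

theorem summable_poissonWeight_mul {lam C : ℝ} (hlam : 0 ≤ lam) {φ : ℕ → ℝ}
    (hφ : ∀ k, |φ k| ≤ C * (1 + k)) : Summable (fun k => poissonWeight lam k * φ k) := by
  have h1 : Summable (fun k : ℕ => C * (poissonWeight lam k + poissonWeight lam k * (k : ℝ))) :=
    ((hasSum_poissonWeight lam).summable.add
      (hasSum_poissonWeight_mul_id lam).summable).mul_left C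
  refine Summable.of_norm_bounded h1 fun k => ?_
  rw [Real.norm_eq_abs, abs_mul, abs_of_nonneg (poissonWeight_nonneg hlam k)]
  calc poissonWeight lam k * |φ k| ≤ poissonWeight lam k * (C * (1 + k)) :=
        mul_le_mul_of_nonneg_left (hφ k) (poissonWeight_nonneg hlam k)
    _ = C * (poissonWeight lam k + poissonWeight lam k * (k : ℝ)) := by ring

/-- the identity behind Poisson thinning -/
theorem poissonWeight_mul_choose (lam q : ℝ) (j k : ℕ) :
    poissonWeight lam (j + k) * (((j + k).choose j : ℝ) * q ^ j * (1 - q) ^ k) =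
      poissonWeight (lam * q) j * poissonWeight (lam * (1 - q)) k := by
  unfold poissonWeight
  have hj : (Nat.factorial j : ℝ) ≠ 0 := by positivity
  have hk : (Nat.factorial k : ℝ) ≠ 0 := by positivity
  have hjk : (Nat.factorial (j + k) : ℝ) ≠ 0 := by positivity
  have hch : ((j + k).choose j : ℝ) =
      (Nat.factorial (j + k) : ℝ) / ((Nat.factorial j : ℝ) * (Nat.factorial k : ℝ)) := by
    rw [Nat.cast_choose ℝ (Nat.le_add_right j k), Nat.add_sub_cancel_left]
  have hexp : Real.exp (-lam) = Real.exp (-(lam * q)) * Real.exp (-(lam * (1 - q))) := by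
    rw [← Real.exp_add]; congr 1; ring
  rw [hch, hexp, pow_add, mul_pow, mul_pow]
  field_simp

theorem tsum_antidiagonal {f : ℕ × ℕ → ℝ} (hf : Summable f) :
    ∑' n, ∑ kl ∈ Finset.HasAntidiagonal.antidiagonal n, f kl = ∑' q, f q := by
  have h := hf.hasSum
  have h2 : HasSum (f ∘ Finset.HasAntidiagonal.sigmaAntidiagonalEquivProd) (∑' q, f q) :=
    (Finset.HasAntidiagonal.sigmaAntidiagonalEquivProd.hasSum_iff).2 h
  have h3 := h2.sigma (g := fun n => ∑ kl ∈ Finset.HasAntidiagonal.antidiagonal n, f kl) (fun n => by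
    have := hasSum_fintype (fun c : Finset.HasAntidiagonal.antidiagonal n => f (c : ℕ × ℕ))
    rw [Finset.sum_coe_sort (Finset.HasAntidiagonal.antidiagonal n) f] at this
    exact this)
  exact h3.tsum_eq

theorem summable_antidiagonal {f : ℕ × ℕ → ℝ} (hf : Summable f) :
    Summable (fun n => ∑ kl ∈ Finset.HasAntidiagonal.antidiagonal n, f kl) := by
  have h := hf.hasSum
  have h2 : HasSum (f ∘ Finset.HasAntidiagonal.sigmaAntidiagonalEquivProd) (∑' q, f q) :=
    (Finset.HasAntidiagonal.sigmaAntidiagonalEquivProd.hasSum_iff).2 h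
  have h3 := h2.sigma (g := fun n => ∑ kl ∈ Finset.HasAntidiagonal.antidiagonal n, f kl) (fun n => by
    have := hasSum_fintype (fun c : Finset.HasAntidiagonal.antidiagonal n => f (c : ℕ × ℕ))
    rw [Finset.sum_coe_sort (Finset.HasAntidiagonal.antidiagonal n) f] at this
    exact this)
  exact h3.summable

/-- summability of a double sequence of at most linear growth against a product of Poisson
weights -/
theorem summable_poisson_double {l1 l2 C : ℝ} (h1 : 0 ≤ l1) (h2 : 0 ≤ l2) {b : ℕ → ℕ → ℝ}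
    (hb : ∀ j k, |b j k| ≤ C * (1 + j + k)) :
    Summable (fun jk : ℕ × ℕ =>
      poissonWeight l1 jk.1 * poissonWeight l2 jk.2 * b jk.1 jk.2) := by
  have e1 : Summable (fun jk : ℕ × ℕ => (poissonWeight l1 jk.1 * (1 + (jk.1 : ℝ))) *
      (poissonWeight l2 jk.2 * (1 + (jk.2 : ℝ)))) := by
    have s1 : Summable (fun j : ℕ => poissonWeight l1 j * (1 + (j : ℝ))) := by
      have := (hasSum_poissonWeight l1).summable.add (hasSum_poissonWeight_mul_id l1).summable
      refine this.congr fun j => ?_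
      ring
    have s2 : Summable (fun j : ℕ => poissonWeight l2 j * (1 + (j : ℝ))) := by
      have := (hasSum_poissonWeight l2).summable.add (hasSum_poissonWeight_mul_id l2).summable
      refine this.congr fun j => ?_
      ring
    exact Summable.mul_of_nonneg s1 s2
      (fun j => mul_nonneg (poissonWeight_nonneg h1 j) (by positivity))
      (fun j => mul_nonneg (poissonWeight_nonneg h2 j) (by positivity))
  refine Summable.of_norm_bounded (e1.mul_left C) fun jk => ?_
  have hC : 0 ≤ C := by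
    have := (abs_nonneg _).trans (hb 0 0)
    simpa using this
  rw [Real.norm_eq_abs, abs_mul, abs_mul, abs_of_nonneg (poissonWeight_nonneg h1 _),
    abs_of_nonneg (poissonWeight_nonneg h2 _)]
  have hp := mul_nonneg (poissonWeight_nonneg h1 jk.1) (poissonWeight_nonneg h2 jk.2)
  calc poissonWeight l1 jk.1 * poissonWeight l2 jk.2 * |b jk.1 jk.2|
      ≤ poissonWeight l1 jk.1 * poissonWeight l2 jk.2 * (C * (1 + jk.1 + jk.2)) :=
        mul_le_mul_of_nonneg_left (hb _ _) hp
    _ ≤ poissonWeight l1 jk.1 * poissonWeight l2 jk.2 *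
          (C * ((1 + (jk.1 : ℝ)) * (1 + (jk.2 : ℝ)))) := by
        refine mul_le_mul_of_nonneg_left (mul_le_mul_of_nonneg_left ?_ hC) hp
        have : (0 : ℝ) ≤ (jk.1 : ℝ) * jk.2 := by positivity
        nlinarith
    _ = C * (poissonWeight l1 jk.1 * (1 + (jk.1 : ℝ)) *
          (poissonWeight l2 jk.2 * (1 + (jk.2 : ℝ)))) := by ring

/-- **Poisson splitting.** -/
theorem tsum_poissonWeight_binomial {lam q C : ℝ} (hlam : 0 ≤ lam) (hq0 : 0 ≤ q) (hq1 : q ≤ 1)
    {b : ℕ → ℕ → ℝ} (hb : ∀ j k, |b j k| ≤ C * (1 + j + k)) :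
    ∑' n, poissonWeight lam n *
        ∑ jk ∈ Finset.HasAntidiagonal.antidiagonal n, ((n.choose jk.1 : ℝ) * q ^ jk.1 * (1 - q) ^ jk.2) *
          b jk.1 jk.2 =
      ∑' jk : ℕ × ℕ, poissonWeight (lam * q) jk.1 * poissonWeight (lam * (1 - q)) jk.2 *
        b jk.1 jk.2 := by
  have hs := summable_poisson_double (mul_nonneg hlam hq0)
    (mul_nonneg hlam (sub_nonneg.2 hq1)) hb
  rw [← tsum_antidiagonal hs]
  congr 1
  funext n
  rw [Finset.mul_sum]
  refine Finset.sum_congr rfl fun jk hjk => ?_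
  rw [Finset.HasAntidiagonal.mem_antidiagonal] at hjk
  subst hjk
  rw [← mul_assoc, poissonWeight_mul_choose]

theorem summable_poissonWeight_binomial {lam q C : ℝ} (hlam : 0 ≤ lam) (hq0 : 0 ≤ q)
    (hq1 : q ≤ 1) {b : ℕ → ℕ → ℝ} (hb : ∀ j k, |b j k| ≤ C * (1 + j + k)) :
    Summable (fun n => poissonWeight lam n *
        ∑ jk ∈ Finset.HasAntidiagonal.antidiagonal n, ((n.choose jk.1 : ℝ) * q ^ jk.1 * (1 - q) ^ jk.2) *
          b jk.1 jk.2) := by
  have hs := summable_poisson_double (mul_nonneg hlam hq0)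
    (mul_nonneg hlam (sub_nonneg.2 hq1)) hb
  refine (summable_antidiagonal hs).congr fun n => ?_
  rw [Finset.mul_sum]
  refine Finset.sum_congr rfl fun jk hjk => ?_
  rw [Finset.HasAntidiagonal.mem_antidiagonal] at hjk
  subst hjk
  rw [← mul_assoc, poissonWeight_mul_choose]

/-- Poisson splitting for functions of the first number only. -/
theorem tsum_poissonWeight_binomial_fst {lam q C : ℝ} (hlam : 0 ≤ lam) (hq0 : 0 ≤ q)
    (hq1 : q ≤ 1) {φ : ℕ → ℝ} (hφ : ∀ j, |φ j| ≤ C * (1 + j)) :
    ∑' n, poissonWeight lam n *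
        ∑ jk ∈ Finset.HasAntidiagonal.antidiagonal n, ((n.choose jk.1 : ℝ) * q ^ jk.1 * (1 - q) ^ jk.2) *
          φ jk.1 =
      ∑' j, poissonWeight (lam * q) j * φ j := by
  have hC : 0 ≤ C := by
    have := (abs_nonneg _).trans (hφ 0)
    simpa using this
  have hb : ∀ j k : ℕ, |(fun j (_ : ℕ) => φ j) j k| ≤ C * (1 + j + k) := fun j k =>
    (hφ j).trans (mul_le_mul_of_nonneg_left (by have : (0 : ℝ) ≤ k := by positivity
                                                linarith) hC)
  have h := tsum_poissonWeight_binomial (b := fun j _ => φ j) hlam hq0 hq1 hb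
  rw [h]
  have hs := summable_poisson_double (mul_nonneg hlam hq0)
    (mul_nonneg hlam (sub_nonneg.2 hq1)) hb
  rw [hs.tsum_prod]
  congr 1
  funext j
  have : ∀ k, poissonWeight (lam * q) j * poissonWeight (lam * (1 - q)) k * φ j =
      (poissonWeight (lam * q) j * φ j) * poissonWeight (lam * (1 - q)) k := fun k => by ring
  simp only [this]
  rw [tsum_mul_left, (hasSum_poissonWeight _).tsum_eq, mul_one]

/-- Poisson splitting for sums of a function of the first and a function of the second number. -/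
theorem tsum_poisson_double_add {l1 l2 C : ℝ} (h1 : 0 ≤ l1) (h2 : 0 ≤ l2) {A B : ℕ → ℝ}
    (hA : ∀ j, |A j| ≤ C * (1 + j)) (hB : ∀ j, |B j| ≤ C * (1 + j)) :
    ∑' jk : ℕ × ℕ, poissonWeight l1 jk.1 * poissonWeight l2 jk.2 * (A jk.1 + B jk.2) =
      (∑' j, poissonWeight l1 j * A j) + ∑' k, poissonWeight l2 k * B k := by
  have hC : 0 ≤ C := by
    have := (abs_nonneg _).trans (hA 0)
    simpa using this
  have sA : Summable (fun jk : ℕ × ℕ =>
      poissonWeight l1 jk.1 * poissonWeight l2 jk.2 * A jk.1) :=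
    summable_poisson_double (b := fun j _ => A j) (C := C) h1 h2 fun j k =>
      (hA j).trans (mul_le_mul_of_nonneg_left (by have : (0 : ℝ) ≤ k := by positivity
                                                  linarith) hC)
  have sB : Summable (fun jk : ℕ × ℕ =>
      poissonWeight l1 jk.1 * poissonWeight l2 jk.2 * B jk.2) :=
    summable_poisson_double (b := fun _ k => B k) (C := C) h1 h2 fun j k =>
      (hB k).trans (mul_le_mul_of_nonneg_left (by have : (0 : ℝ) ≤ j := by positivity
                                                  linarith) hC)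
  have e : ∀ jk : ℕ × ℕ, poissonWeight l1 jk.1 * poissonWeight l2 jk.2 * (A jk.1 + B jk.2) =
      poissonWeight l1 jk.1 * poissonWeight l2 jk.2 * A jk.1 +
      poissonWeight l1 jk.1 * poissonWeight l2 jk.2 * B jk.2 := fun jk => by ring
  simp only [e]
  rw [sA.tsum_add sB]
  congr 1
  · rw [sA.tsum_prod]
    congr 1
    funext j
    have : ∀ k, poissonWeight l1 j * poissonWeight l2 k * A j =
        (poissonWeight l1 j * A j) * poissonWeight l2 k := fun k => by ring
    simp only [this]
    rw [tsum_mul_left, (hasSum_poissonWeight _).tsum_eq, mul_one]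
  · rw [sB.tsum_prod]
    have hsB := summable_poissonWeight_mul h2 hB
    have : ∀ j, ∑' k, poissonWeight l1 j * poissonWeight l2 k * B k =
        poissonWeight l1 j * ∑' k, poissonWeight l2 k * B k := fun j => by
      rw [← tsum_mul_left]
      congr 1
      funext k
      ring
    simp only [this]
    rw [tsum_mul_right, (hasSum_poissonWeight _).tsum_eq, one_mul]

/-! ### The number of events at one site -/

/-- sum over all assignments of `M` events to `N` sites of a function of the number of events at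
the site `i` -/
theorem sum_card_eq (N : ℕ) (i : Fin N) (M : ℕ) (φ : ℕ → ℝ) :
    ∑ s : Fin M → Fin N, φ (Fintype.card {j // s j = i}) =
      ∑ jk ∈ Finset.HasAntidiagonal.antidiagonal M, (M.choose jk.1 : ℝ) * ((N : ℝ) - 1) ^ jk.2 * φ jk.1 := by
  induction M generalizing φ with
  | zero => simp
  | succ M ih =>
    have key : ∀ (a : Fin N) (s : Fin M → Fin N),
        Fintype.card {j : Fin (M + 1) // (Fin.cons a s : Fin (M + 1) → Fin N) j = i} =
          Fintype.card {j : Fin M // s j = i} + if a = i then 1 else 0 := by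
      intro a s
      rw [Fintype.card_subtype, Fintype.card_subtype, Finset.card_filter, Finset.card_filter,
        Fin.sum_univ_succ]
      simp only [Fin.cons_zero, Fin.cons_succ]
      ring
    have e1 : ∑ s : Fin (M + 1) → Fin N, φ (Fintype.card {j // s j = i}) =
        ∑ a : Fin N, ∑ s : Fin M → Fin N,
          φ (Fintype.card {j // s j = i} + if a = i then 1 else 0) := by
      rw [← (Fin.consEquiv (fun _ : Fin (M + 1) => Fin N)).sum_comp, Fintype.sum_prod_type]
      refine Finset.sum_congr rfl fun a _ => Finset.sum_congr rfl fun s _ => ?_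
      congr 1
      exact key a s
    rw [e1]
    have e2 : ∀ a : Fin N, ∑ s : Fin M → Fin N,
        φ (Fintype.card {j // s j = i} + if a = i then 1 else 0) =
        if a = i then ∑ s : Fin M → Fin N, φ (Fintype.card {j // s j = i} + 1) else
          ∑ s : Fin M → Fin N, φ (Fintype.card {j // s j = i}) := by
      intro a
      by_cases ha : a = i <;> simp [ha]
    simp only [e2]
    rw [Finset.sum_ite, Finset.sum_const, Finset.sum_const]
    have c1 : (Finset.filter (fun a => a = i) (Finset.univ : Finset (Fin N))).card = 1 := by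
      rw [Finset.filter_eq' Finset.univ i]; simp
    have c2 : ((Finset.filter (fun a => ¬ a = i) (Finset.univ : Finset (Fin N))).card : ℝ) =
        (N : ℝ) - 1 := by
      have h3 := Finset.card_filter_add_card_filter_not (s := (Finset.univ : Finset (Fin N)))
        (fun a => a = i)
      rw [c1] at h3
      simp only [Finset.card_univ, Fintype.card_fin] at h3
      have h4 : (1 : ℝ) + ((Finset.filter (fun a => ¬ a = i)
          (Finset.univ : Finset (Fin N))).card : ℝ) = N := by exact_mod_cast h3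
      linarith
    rw [nsmul_eq_mul, nsmul_eq_mul, c1, c2, ih (fun k => φ (k + 1)), ih φ]
    rw [Nat.cast_one, one_mul]
    have hchoose : ∀ jk ∈ Finset.HasAntidiagonal.antidiagonal (M + 1),
        ((M + 1).choose jk.1 : ℝ) * ((N : ℝ) - 1) ^ jk.2 * φ jk.1 =
          (M.choose jk.1 : ℝ) * ((N : ℝ) - 1) ^ jk.2 * φ jk.1 +
          (if jk.1 = 0 then 0 else (M.choose (jk.1 - 1) : ℝ) * ((N : ℝ) - 1) ^ jk.2 * φ jk.1) := by
      intro jk _
      rcases Nat.eq_zero_or_pos jk.1 with h | h
      · simp [h]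
      · obtain ⟨j, hj⟩ := Nat.exists_eq_succ_of_ne_zero h.ne'
        rw [if_neg h.ne', hj, Nat.succ_sub_one, Nat.choose_succ_succ]
        push_cast
        ring
    rw [Finset.sum_congr rfl hchoose, Finset.sum_add_distrib, add_comm]
    congr 1
    · rw [Finset.Nat.antidiagonal_succ', Finset.sum_cons, Finset.sum_map, Finset.mul_sum]
      simp [Nat.choose_succ_self, pow_succ, mul_comm, mul_left_comm]
    · rw [Finset.Nat.antidiagonal_succ, Finset.sum_cons, Finset.sum_map]
      simp

/-- **U4b.** `Poisson(lam N)` events with uniform sites in `Fin N`: the number of events at each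
site is `Poisson(lam)`. -/
theorem poisson_split {lam C : ℝ} (hlam : 0 ≤ lam) {N : ℕ} (hN : 1 ≤ N) {φ : ℕ → ℝ}
    (hφ : ∀ k, |φ k| ≤ C * (1 + k)) :
    ∑' M : ℕ, poissonWeight (lam * N) M * (((N : ℝ) ^ M)⁻¹ *
        ∑ s : Fin M → Fin N, ∑ i : Fin N, φ (Fintype.card {j // s j = i})) =
      N * ∑' k, poissonWeight lam k * φ k := by
  have hN0 : (0 : ℝ) < N := by exact_mod_cast hN
  have hN1 : (1 : ℝ) ≤ N := by exact_mod_cast hN
  have hq0 : (0 : ℝ) ≤ 1 / N := by positivity
  have hq1 : (1 : ℝ) / N ≤ 1 := by rw [div_le_one hN0]; exact hN1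
  have h := tsum_poissonWeight_binomial_fst (mul_nonneg hlam hN0.le) hq0 hq1 hφ
  have e1 : lam * N * (1 / N) = lam := by field_simp
  rw [e1] at h
  rw [← h, ← tsum_mul_left]
  congr 1
  funext M
  rw [Finset.sum_comm]
  simp only [sum_card_eq]
  rw [Finset.sum_const, Finset.card_univ, Fintype.card_fin, nsmul_eq_mul]
  have e2 : ((N : ℝ) ^ M)⁻¹ * ∑ jk ∈ Finset.HasAntidiagonal.antidiagonal M,
      (M.choose jk.1 : ℝ) * ((N : ℝ) - 1) ^ jk.2 * φ jk.1 =
      ∑ jk ∈ Finset.HasAntidiagonal.antidiagonal M,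
        (M.choose jk.1 : ℝ) * (1 / (N : ℝ)) ^ jk.1 * (1 - 1 / (N : ℝ)) ^ jk.2 * φ jk.1 := by
    rw [Finset.mul_sum]
    refine Finset.sum_congr rfl fun jk hjk => ?_
    rw [Finset.HasAntidiagonal.mem_antidiagonal] at hjk
    have e3 : (1 - 1 / (N : ℝ)) = ((N : ℝ) - 1) * (1 / N) := by field_simp
    rw [e3, mul_pow, ← hjk, pow_add, one_div, inv_pow, inv_pow, mul_inv]
    ring
  rw [← e2]
  ring

theorem antidiagonal_pascal (n : ℕ) (x y : ℝ) (ψ : ℕ → ℕ → ℝ) :
    ∑ jk ∈ Finset.HasAntidiagonal.antidiagonal (n + 1),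
        (((n + 1).choose jk.1 : ℝ) * x ^ jk.1 * y ^ jk.2) * ψ jk.1 jk.2 =
      x * (∑ jk ∈ Finset.HasAntidiagonal.antidiagonal n,
        ((n.choose jk.1 : ℝ) * x ^ jk.1 * y ^ jk.2) * ψ (jk.1 + 1) jk.2) +
      y * (∑ jk ∈ Finset.HasAntidiagonal.antidiagonal n,
        ((n.choose jk.1 : ℝ) * x ^ jk.1 * y ^ jk.2) * ψ jk.1 (jk.2 + 1)) := by
  have hchoose : ∀ jk ∈ Finset.HasAntidiagonal.antidiagonal (n + 1),
      (((n + 1).choose jk.1 : ℝ) * x ^ jk.1 * y ^ jk.2) * ψ jk.1 jk.2 =
        ((n.choose jk.1 : ℝ) * x ^ jk.1 * y ^ jk.2) * ψ jk.1 jk.2 +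
        (if jk.1 = 0 then 0 else
          ((n.choose (jk.1 - 1) : ℝ) * x ^ jk.1 * y ^ jk.2) * ψ jk.1 jk.2) := by
    intro jk _
    rcases Nat.eq_zero_or_pos jk.1 with h | h
    · simp [h]
    · obtain ⟨j, hj⟩ := Nat.exists_eq_succ_of_ne_zero h.ne'
      rw [if_neg h.ne', hj, Nat.succ_sub_one, Nat.choose_succ_succ]
      push_cast
      ring
  rw [Finset.sum_congr rfl hchoose, Finset.sum_add_distrib, add_comm]
  congr 1
  · rw [Finset.Nat.antidiagonal_succ, Finset.sum_cons, Finset.sum_map, Finset.mul_sum]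
    simp only [if_true, zero_add]
    refine Finset.sum_congr rfl fun jk _ => ?_
    simp [pow_succ]
    ring
  · rw [Finset.Nat.antidiagonal_succ', Finset.sum_cons, Finset.sum_map, Finset.mul_sum]
    simp only [Nat.choose_succ_self, Nat.cast_zero, zero_mul, zero_add]
    refine Finset.sum_congr rfl fun jk _ => ?_
    simp [pow_succ]
    ring

/-- **Hybrid argument.** If one event of kind 2 may be replaced by an event of kind 1 (probability
`q`) or of kind 3 (probability `1 - q`), then `n` events of kind 2 may be replaced. -/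
theorem hybrid_binomial {q : ℝ} (hq0 : 0 ≤ q) (hq1 : q ≤ 1) (a : ℕ → ℕ → ℕ → ℝ)
    (h : ∀ j k l, q * a (j + 1) k l + (1 - q) * a j (k + 1) l ≤ a j k (l + 1)) (n : ℕ) :
    ∀ j0 k0 : ℕ, ∑ jk ∈ Finset.HasAntidiagonal.antidiagonal n,
      ((n.choose jk.1 : ℝ) * q ^ jk.1 * (1 - q) ^ jk.2) * a (j0 + jk.1) (k0 + jk.2) 0 ≤
        a j0 k0 n := by
  induction n with
  | zero => intro j0 k0; simp
  | succ n ih =>
    intro j0 k0
    rw [antidiagonal_pascal n q (1 - q) (fun j k => a (j0 + j) (k0 + k) 0)]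
    refine le_trans ?_ (h j0 k0 n)
    refine add_le_add (mul_le_mul_of_nonneg_left ?_ hq0)
      (mul_le_mul_of_nonneg_left ?_ (sub_nonneg.2 hq1))
    · refine le_trans (le_of_eq ?_) (ih (j0 + 1) k0)
      refine Finset.sum_congr rfl fun jk _ => ?_
      rw [show j0 + 1 + jk.1 = j0 + (jk.1 + 1) by ring]
    · refine le_trans (le_of_eq ?_) (ih j0 (k0 + 1))
      refine Finset.sum_congr rfl fun jk _ => ?_
      rw [show k0 + 1 + jk.2 = k0 + (jk.2 + 1) by ring]

/-- The Poisson version of the hybrid argument. -/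
theorem hybrid_poisson {lam q C : ℝ} (hlam : 0 ≤ lam) (hq0 : 0 ≤ q) (hq1 : q ≤ 1)
    (a : ℕ → ℕ → ℕ → ℝ)
    (h : ∀ j k l, q * a (j + 1) k l + (1 - q) * a j (k + 1) l ≤ a j k (l + 1))
    (hb : ∀ j k, |a j k 0| ≤ C * (1 + j + k)) (hb2 : ∀ n, |a 0 0 n| ≤ C * (1 + n)) :
    ∑' jk : ℕ × ℕ, poissonWeight (lam * q) jk.1 * poissonWeight (lam * (1 - q)) jk.2 *
        a jk.1 jk.2 0 ≤
      ∑' n, poissonWeight lam n * a 0 0 n := by
  rw [← tsum_poissonWeight_binomial hlam hq0 hq1 hb]
  refine (summable_poissonWeight_binomial hlam hq0 hq1 hb).tsum_le_tsum ?_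
    (summable_poissonWeight_mul hlam hb2)
  intro n
  refine mul_le_mul_of_nonneg_left ?_ (poissonWeight_nonneg hlam n)
  have := hybrid_binomial hq0 hq1 a h n 0 0
  simpa using this

/-- The Poisson version of the hybrid argument when the left end splits as a sum. -/
theorem hybrid_poisson_add {lam q C : ℝ} (hlam : 0 ≤ lam) (hq0 : 0 ≤ q) (hq1 : q ≤ 1)
    (a : ℕ → ℕ → ℕ → ℝ)
    (h : ∀ j k l, q * a (j + 1) k l + (1 - q) * a j (k + 1) l ≤ a j k (l + 1))
    {A B : ℕ → ℝ} (hab : ∀ j k, a j k 0 = A j + B k)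
    (hA : ∀ j, |A j| ≤ C * (1 + j)) (hB : ∀ j, |B j| ≤ C * (1 + j))
    (hb2 : ∀ n, |a 0 0 n| ≤ C * (1 + n)) :
    (∑' j, poissonWeight (lam * q) j * A j) + (∑' k, poissonWeight (lam * (1 - q)) k * B k) ≤
      ∑' n, poissonWeight lam n * a 0 0 n := by
  have hC : 0 ≤ C := by
    have := (abs_nonneg _).trans (hA 0)
    simpa using this
  have hb : ∀ j k, |a j k 0| ≤ (2 * C) * (1 + j + k) := by
    intro j k
    rw [hab]
    refine (abs_add_le _ _).trans ?_
    have h1 := hA j
    have h2 := hB k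
    have h3 : (0 : ℝ) ≤ C * j := by positivity
    have h4 : (0 : ℝ) ≤ C * k := by positivity
    nlinarith
  have hb2' : ∀ n, |a 0 0 n| ≤ (2 * C) * (1 + n) := by
    intro n
    have h3 : (0 : ℝ) ≤ C * (1 + n) := by positivity
    nlinarith [hb2 n]
  have h1 := hybrid_poisson hlam hq0 hq1 a h hb hb2'
  refine le_trans (le_of_eq ?_) h1
  rw [← tsum_poisson_double_add (mul_nonneg hlam hq0) (mul_nonneg hlam (sub_nonneg.2 hq1)) hA hB]
  congr 1
  funext jk
  rw [hab]

end Crest.Agent.R141.UPois
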