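import Crest.Agent.R141.UHyb
import Crest.Agent.R141.UPi
import Crest.Agent.R141.UPois

/-!
R141, Part U, U2 part 4: evaluation of the operator iterates at the two ends and the hybrid theorem.
-/

set_option autoImplicit false

namespace Crest.Agent.R141.U

open MeasureTheory Filter Topology Crest.ProbabilityR.Diluted
open scoped NNReal ENNReal

section

variable {p : ℕ} {μ : Measure (Inter p)} [IsProbabilityMeasure μ]
  (hμ : Integrable (fun θ => supNorm θ) μ)
  {A : Type} [Fintype A] [Nonempty A] {N : ℕ} (hN : 0 < N)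
  {Y : Type} [MeasurableSpace Y] (Q : Measure Y) [IsProbabilityMeasure Q]
  (x : Y → A → ℝ) (hx : ∀ a, Measurable fun y => x y a)
  (v : A → ℝ) (hv : ∀ a, 0 < v a) (hs : Fin N → ℝ)

/-- The base energy `log v_a + Σ_i h_i σ_i`. -/
noncomputable def g0 (v : A → ℝ) (hs : Fin N → ℝ) (s : A × (Fin N → Bool)) : ℝ :=
  Real.log (v s.1) + ∑ i, hs i * spinVal (s.2 i)

/-- messages on `A × config`. -/
def xS (N : ℕ) (x : Y → A → ℝ) (y : Y) (s : A × (Fin N → Bool)) : ℝ := x y s.1

omit [MeasurableSpace Y] [Fintype A] [Nonempty A] in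
theorem xS_meas [MeasurableSpace Y] (hx : ∀ a, Measurable fun y => x y a)
    (s : A × (Fin N → Bool)) : Measurable fun y => xS N x y s := hx s.1

/-- `Σ` over types 1 and 3 factorizes. -/
theorem lse_split (j k : ℕ) (hv : ∀ a, 0 < v a) (θs : Fin j → Inter p)
    (idx : Fin j → Fin p → Fin N) (θs' : Fin k → Inter p) (y : Fin k → Fin p → Y) :
    lse (g0 v hs + ∑ i, (fun s : A × (Fin N → Bool) => θs i fun ℓ => s.2 (idx i ℓ)) +
      ∑ i, (fun s : A × (Fin N → Bool) => Real.log (edgeTerm (θs' i) fun ℓ => xS N x (y i ℓ) s))) =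
    logPartition N θs idx hs +
      Real.log (∑ a, v a * ∏ i, edgeTerm (θs' i) fun ℓ => x (y i ℓ) a) := by
  unfold lse logPartition
  rw [← Real.log_mul]
  · congr 1
    rw [Fintype.sum_prod_type, Finset.sum_mul_sum, Finset.sum_comm]
    refine Finset.sum_congr rfl fun σ _ => Finset.sum_congr rfl fun a _ => ?_
    simp only [Pi.add_apply, Finset.sum_apply, g0, xS]
    rw [Real.exp_add, Real.exp_add, Real.exp_add, Real.exp_log (hv a), Real.exp_sum (s := Finset.univ)
      (f := fun i => Real.log (edgeTerm (θs' i) fun ℓ => x (y i ℓ) a))]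
    have : ∀ i, Real.exp (Real.log (edgeTerm (θs' i) fun ℓ => x (y i ℓ) a)) =
        edgeTerm (θs' i) fun ℓ => x (y i ℓ) a := fun i => Real.exp_log (Red.edgeTerm_pos _ _)
    simp only [this]
    rw [Real.exp_add]
    ring
  · exact (Finset.sum_pos (fun σ _ => Real.exp_pos _) Finset.univ_nonempty).ne'
  · refine (Finset.sum_pos (fun a _ => mul_pos (hv a) ?_) Finset.univ_nonempty).ne'
    exact Finset.prod_pos fun i _ => Red.edgeTerm_pos _ _

theorem lse_edges (j : ℕ) (θs : Fin j → Inter p) (idx : Fin j → Fin p → Fin N) :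
    lse ((fun s : A × (Fin N → Bool) => ∑ i, hs i * spinVal (s.2 i)) +
      ∑ i, (fun s : A × (Fin N → Bool) => θs i fun ℓ => s.2 (idx i ℓ))) =
    logPartition N θs idx hs + Real.log (Fintype.card A) := by
  unfold lse logPartition
  rw [← Real.log_mul]
  · congr 1
    rw [Fintype.sum_prod_type, Finset.sum_comm, Finset.sum_mul]
    refine Finset.sum_congr rfl fun σ _ => ?_
    simp only [Pi.add_apply, Finset.sum_apply]
    rw [Finset.sum_const, nsmul_eq_mul, Finset.card_univ, mul_comm, add_comm]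
  · exact (Finset.sum_pos (fun σ _ => Real.exp_pos _) Finset.univ_nonempty).ne'
  · exact_mod_cast Fintype.card_ne_zero

/-- The model part with `j` edges. -/
noncomputable def Apart (p : ℕ) (μ : Measure (Inter p)) {N : ℕ} (hs : Fin N → ℝ) (j : ℕ) : ℝ :=
  ∫ θs, ((Fintype.card (Fin j → Fin p → Fin N) : ℝ)⁻¹ *
    ∑ idx : Fin j → Fin p → Fin N, logPartition N θs idx hs) ∂(Measure.pi fun _ : Fin j => μ)

/-- The cavity edge part with `k` edges. -/
noncomputable def Bpart (p : ℕ) (μ : Measure (Inter p)) (Q : Measure Y) (x : Y → A → ℝ)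
    (v : A → ℝ) (k : ℕ) : ℝ :=
  ∫ θs, ∫ y, Real.log (∑ a, v a * ∏ i, edgeTerm (θs i) fun ℓ => x (y (i, ℓ)) a)
    ∂(Measure.pi fun _ : Fin k × Fin p => Q) ∂(Measure.pi fun _ : Fin k => μ)

/-- The cavity site part with `n` events. -/
noncomputable def Cpart (p : ℕ) (μ : Measure (Inter p)) (Q : Measure Y) (x : Y → A → ℝ)
    (v : A → ℝ) {N : ℕ} (hs : Fin N → ℝ) (n : ℕ) : ℝ :=
  ∫ θs, ∫ y, ((Fintype.card (Fin n → Fin N) : ℝ)⁻¹ * ∑ t : Fin n → Fin N,
    Real.log (∑ a, v a * ∏ i, ∑ ε : Bool, Real.exp (hs i * spinVal ε +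
      ∑ j ∈ Finset.univ.filter (fun j => t j = i),
        siteMessage (θs j) (fun ℓ => x (y (j, ℓ)) a) ε)))
    ∂(Measure.pi fun _ : Fin n × Fin (p - 1) => Q) ∂(Measure.pi fun _ : Fin n => μ)

/-- Integrability of `lse` of sums of events. -/
theorem lse_integrable {S : Type} [Fintype S] [Nonempty S] (L : ULaw S) (g : S → ℝ) (k : ℕ) :
    Integrable (fun ys : Fin k → L.Y => lse (g + ∑ i, L.ξ (ys i)))
      (Measure.pi fun _ => L.ρ) := by
  refine Integrable.mono' ((integrable_const (|lse g|)).add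
    (integrable_finsetSum Finset.univ fun (i : Fin k) _ =>
      integrable_comp_eval (μ := fun _ : Fin k => L.ρ) (i := i) (f := fun y => ‖L.ξ y‖) L.int))
    ?_ (Eventually.of_forall fun ys => ?_)
  · refine (lse_lip.continuous.measurable.comp (measurable_const.add ?_)).aestronglyMeasurable
    exact Finset.measurable_sum _ fun i _ => L.meas.comp (measurable_pi_apply i)
  · have h1 := LipS.abs_le (lse_lip (S := S)) g (∑ i, L.ξ (ys i))
    have h2 := norm_sum_le Finset.univ fun i => L.ξ (ys i)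
    simp only [NNReal.coe_one, one_mul] at h1
    rw [Real.norm_eq_abs]
    exact h1.trans (add_le_add le_rfl h2)

include hv in
theorem K3_iter (k : ℕ) (j : ℕ) (θs : Fin j → Inter p) (idx : Fin j → Fin p → Fin N) :
    (((Kop (law3 hμ Q (xS N x) (xS_meas x hx))) ^ k) (lseL (A × (Fin N → Bool))) :
        (A × (Fin N → Bool) → ℝ) → ℝ)
      (g0 v hs + ∑ i, (fun s : A × (Fin N → Bool) => θs i fun ℓ => s.2 (idx i ℓ))) =
    logPartition N θs idx hs + Bpart p μ Q x v k := by
  set S := A × (Fin N → Bool) with hS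
  let L := law3 hμ Q (xS N x) (xS_meas x hx) (S := S)
  set g : S → ℝ := g0 v hs + ∑ i, (fun s : S => θs i fun ℓ => s.2 (idx i ℓ)) with hg
  rw [Kop_pow_apply]
  have hint := lse_integrable L g k
  let F : (Fin k → L.Y) → ℝ := fun ys => Real.log (∑ a, v a * ∏ i, edgeTerm (ys i).1
    fun ℓ => x ((ys i).2 ℓ) a)
  have hF : ∀ ys : Fin k → L.Y, lse (g + ∑ i, L.ξ (ys i)) = logPartition N θs idx hs + F ys :=
    fun ys => lse_split x v hs j k hv θs idx (fun i => (ys i).1) (fun i => (ys i).2)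
  have hFi : Integrable F (Measure.pi fun _ : Fin k => L.ρ) := by
    refine (hint.sub (integrable_const (logPartition N θs idx hs))).congr
      (Eventually.of_forall fun ys => ?_)
    simp only [Pi.sub_apply]
    rw [hF ys]
    ring
  show ∫ ys : Fin k → L.Y, lse (g + ∑ i, L.ξ (ys i)) ∂(Measure.pi fun _ => L.ρ) = _
  simp only [hF]
  rw [integral_add (integrable_const _) hFi]
  congr 1
  · simp
  · have h1 := integral_arrow_prod μ (Measure.pi fun _ : Fin p => Q) F hFi
    refine h1.trans ?_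
    unfold Bpart
    refine integral_congr_ae (Eventually.of_forall fun θs' => ?_)
    exact integral_curry Q (fun y : Fin k → Fin p → Y => F fun i => (θs' i, y i))

include hv in
theorem K13_iter (j k : ℕ) :
    (((Kop (law1 hμ hN (fun s : A × (Fin N → Bool) => s.2))) ^ j *
      (Kop (law3 hμ Q (xS N x) (xS_meas x hx))) ^ k) (lseL (A × (Fin N → Bool))) :
        (A × (Fin N → Bool) → ℝ) → ℝ) (g0 v hs) =
    Apart p μ hs j + Bpart p μ Q x v k := by
  haveI : Nonempty (Fin N) := ⟨⟨0, hN⟩⟩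
  set S := A × (Fin N → Bool) with hS
  let L := law1 hμ hN (fun s : A × (Fin N → Bool) => s.2)
  rw [Module.End.mul_apply, Kop_pow_apply]
  have h1 : ∀ ys : Fin j → L.Y, (((Kop (law3 hμ Q (xS N x) (xS_meas x hx))) ^ k)
      (lseL S) : (S → ℝ) → ℝ) (g0 v hs + ∑ i, L.ξ (ys i)) =
      logPartition N (fun i => (ys i).1) (fun i => (ys i).2) hs + Bpart p μ Q x v k := fun ys =>
    K3_iter hμ Q x hx v hv hs k j (fun i => (ys i).1) (fun i => (ys i).2)
  show ∫ ys : Fin j → L.Y, (((Kop (law3 hμ Q (xS N x) (xS_meas x hx))) ^ k)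
      (lseL S) : (S → ℝ) → ℝ) (g0 v hs + ∑ i, L.ξ (ys i)) ∂(Measure.pi fun _ => L.ρ) = _
  simp only [h1]
  have hint : Integrable (fun ys : Fin j → L.Y =>
      logPartition N (fun i => (ys i).1) (fun i => (ys i).2) hs)
      (Measure.pi fun _ : Fin j => L.ρ) := by
    have h2 := lse_integrable L (fun s : S => ∑ i, hs i * spinVal (s.2 i)) j
    refine (h2.sub (integrable_const (Real.log (Fintype.card A)))).congr
      (Eventually.of_forall fun ys => ?_)
    simp only [Pi.sub_apply]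
    rw [sub_eq_iff_eq_add]
    exact lse_edges hs j (fun i => (ys i).1) (fun i => (ys i).2)
  rw [integral_add hint (integrable_const _)]
  congr 1
  · refine (integral_arrow_prod μ (unif (Fin p → Fin N)) _ hint).trans ?_
    unfold Apart
    refine integral_congr_ae (Eventually.of_forall fun θs => ?_)
    exact integral_pi_unif (fun idx : Fin j → Fin p → Fin N => logPartition N θs idx hs)
  · simp

/-- `Σ` over type 2 events. -/
theorem lse_split2 (n : ℕ) (hv : ∀ a, 0 < v a) (θs : Fin n → Inter p) (t : Fin n → Fin N)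
    (y : Fin n → Fin (p - 1) → Y) :
    lse (g0 v hs + ∑ j, (fun s : A × (Fin N → Bool) =>
      siteMessage (θs j) (fun ℓ => xS N x (y j ℓ) s) (s.2 (t j)))) =
      Real.log (∑ a, v a * ∏ i, ∑ ε : Bool, Real.exp (hs i * spinVal ε +
      ∑ j ∈ Finset.univ.filter (fun j => t j = i),
        siteMessage (θs j) (fun ℓ => x (y j ℓ) a) ε)) := by
  unfold lse
  congr 1
  rw [Fintype.sum_prod_type]
  refine Finset.sum_congr rfl fun a _ => ?_
  have h1 := Finset.prod_univ_sum (t := fun _ : Fin N => (Finset.univ : Finset Bool))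
    (f := fun i ε => Real.exp (hs i * spinVal ε + ∑ j ∈ Finset.univ.filter (fun j => t j = i),
        siteMessage (θs j) (fun ℓ => x (y j ℓ) a) ε))
  rw [h1, Fintype.piFinset_univ, Finset.mul_sum]
  refine Finset.sum_congr rfl fun σ _ => ?_
  rw [← Real.exp_sum]
  simp only [Pi.add_apply, Finset.sum_apply, g0, xS]
  rw [Real.exp_add, Real.exp_add, Real.exp_log (hv a), Finset.sum_add_distrib, Real.exp_add,
    mul_assoc]
  congr 3
  rw [← Finset.sum_fiberwise Finset.univ t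
    (fun j => siteMessage (θs j) (fun ℓ => x (y j ℓ) a) (σ (t j)))]
  refine Finset.sum_congr rfl fun i _ => ?_
  refine Finset.sum_congr rfl fun j hj => ?_
  rw [(Finset.mem_filter.1 hj).2]

include hv in
theorem K2_iter (n : ℕ) :
    (((Kop (law2 hμ hN (fun s : A × (Fin N → Bool) => s.2) Q (xS N x) (xS_meas x hx))) ^ n)
      (lseL (A × (Fin N → Bool))) : (A × (Fin N → Bool) → ℝ) → ℝ) (g0 v hs) =
    Cpart p μ Q x v hs n := by
  haveI : Nonempty (Fin N) := ⟨⟨0, hN⟩⟩
  set S := A × (Fin N → Bool) with hS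
  let L := law2 hμ hN (fun s : A × (Fin N → Bool) => s.2) Q (xS N x) (xS_meas x hx)
  rw [Kop_pow_apply]
  let F : (Fin n → L.Y) → ℝ := fun ys => Real.log (∑ a, v a * ∏ i, ∑ ε : Bool,
    Real.exp (hs i * spinVal ε + ∑ j ∈ Finset.univ.filter (fun j => (ys j).2.2 = i),
        siteMessage (ys j).1 (fun ℓ => x ((ys j).2.1 ℓ) a) ε))
  have hF : ∀ ys : Fin n → L.Y, lse (g0 v hs + ∑ i, L.ξ (ys i)) = F ys := fun ys =>
    lse_split2 x v hs n hv (fun i => (ys i).1) (fun i => (ys i).2.2) (fun i => (ys i).2.1)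
  have hint := lse_integrable L (g0 v hs) n
  show ∫ ys : Fin n → L.Y, lse (g0 v hs + ∑ i, L.ξ (ys i)) ∂(Measure.pi fun _ => L.ρ) = _
  simp only [hF] at hint ⊢
  refine (integral_arrow_prod μ ((Measure.pi fun _ : Fin (p - 1) => Q).prod (unif (Fin N)))
    F hint).trans ?_
  have hint2 := (integrable_arrow_prod μ ((Measure.pi fun _ : Fin (p - 1) => Q).prod
    (unif (Fin N))) F hint).prod_right_ae
  unfold Cpart
  refine integral_congr_ae ?_
  filter_upwards [hint2] with θs hθ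
  refine (integral_arrow_prod (Measure.pi fun _ : Fin (p - 1) => Q) (unif (Fin N)) _ hθ).trans ?_
  have h3 := integral_curry Q (fun y : Fin n → Fin (p - 1) → Y =>
    ∫ t : Fin n → Fin N, F (fun i => (θs i, y i, t i)) ∂(Measure.pi fun _ => unif (Fin N)))
  refine h3.trans ?_
  refine integral_congr_ae (Eventually.of_forall fun y => ?_)
  exact integral_pi_unif (fun t : Fin n → Fin N => F (fun i => (θs i, fun ℓ => y (i, ℓ), t i)))

include hv hN hx hμ in
/-- **The hybrid theorem** (U2). -/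
theorem hybrid (hp : 1 ≤ p) (hKI : KIProp p μ) {α : ℝ} (hα : 0 ≤ α) :
    (∑' j, poissonWeight (α * N) j * Apart p μ hs j) +
      (∑' k, poissonWeight (α * (p - 1) * N) k * Bpart p μ Q x v k) ≤
    ∑' n, poissonWeight (α * p * N) n * Cpart p μ Q x v hs n := by
  set S := A × (Fin N → Bool) with hS
  set L1 := law1 hμ hN (fun s : S => s.2) with hL1
  set L2 := law2 hμ hN (fun s : S => s.2) Q (xS N x) (xS_meas x hx) with hL2
  set L3 := law3 hμ Q (xS N x) (xS_meas x hx) (S := S) with hL3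
  have hp0 : (1 : ℝ) ≤ p := by exact_mod_cast hp
  have hpp : (0 : ℝ) < p := by linarith
  let a : ℕ → ℕ → ℕ → ℝ := fun j k l =>
    (((Kop L1) ^ j * (Kop L3) ^ k * (Kop L2) ^ l) (lseL S) : (S → ℝ) → ℝ) (g0 v hs)
  have hc13 : Commute (Kop L1) (Kop L3) := Kop_commute _ _
  have hc12 : Commute (Kop L1) (Kop L2) := Kop_commute _ _
  have hc32 : Commute (Kop L3) (Kop L2) := Kop_commute _ _
  have hmono : ∀ j k l, OpMono ((Kop L1) ^ j * (Kop L3) ^ k * (Kop L2) ^ l) := by
    intro j k l G G' hG g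
    simp only [Module.End.mul_apply]
    exact (Kop_mono L1).pow j _ _ ((Kop_mono L3).pow k _ _ ((Kop_mono L2).pow l _ _ hG)) g
  have hstep : ∀ j k l, (1 / (p : ℝ)) * a (j + 1) k l + (1 - 1 / (p : ℝ)) * a j (k + 1) l ≤
      a j k (l + 1) := by
    intro j k l
    have h1 : (Kop L1) ^ (j + 1) * (Kop L3) ^ k * (Kop L2) ^ l =
        ((Kop L1) ^ j * (Kop L3) ^ k * (Kop L2) ^ l) * Kop L1 := by
      rw [pow_succ, mul_assoc, mul_assoc, mul_assoc, mul_assoc]
      congr 1
      rw [← mul_assoc, (hc13.pow_right k).eq, mul_assoc, (hc12.pow_right l).eq]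
    have h2 : (Kop L1) ^ j * (Kop L3) ^ (k + 1) * (Kop L2) ^ l =
        ((Kop L1) ^ j * (Kop L3) ^ k * (Kop L2) ^ l) * Kop L3 := by
      rw [pow_succ, mul_assoc, mul_assoc, mul_assoc, mul_assoc]
      congr 2
      rw [(hc32.pow_right l).eq]
    have h3 : (Kop L1) ^ j * (Kop L3) ^ k * (Kop L2) ^ (l + 1) =
        ((Kop L1) ^ j * (Kop L3) ^ k * (Kop L2) ^ l) * Kop L2 := by
      rw [pow_succ, ← mul_assoc]
    have h4 := hmono j k l _ _ (KI_op hμ hN (fun s : S => s.2) Q (xS N x) (xS_meas x hx)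
      hp hKI) (g0 v hs)
    have h5 : (((Kop L1) ^ j * (Kop L3) ^ k * (Kop L2) ^ l)
        ((Kmix hμ hN (fun s : S => s.2) Q (xS N x) (xS_meas x hx)) (lseL S)) :
          (S → ℝ) → ℝ) (g0 v hs) =
        (1 / (p : ℝ)) * a (j + 1) k l + (1 - 1 / (p : ℝ)) * a j (k + 1) l := by
      show _ = (1 / (p : ℝ)) * (((Kop L1) ^ (j + 1) * (Kop L3) ^ k * (Kop L2) ^ l) (lseL S) :
        (S → ℝ) → ℝ) (g0 v hs) + (1 - 1 / (p : ℝ)) *
          (((Kop L1) ^ j * (Kop L3) ^ (k + 1) * (Kop L2) ^ l) (lseL S) :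
        (S → ℝ) → ℝ) (g0 v hs)
      rw [h1, h2, Module.End.mul_apply _ (Kop L1), Module.End.mul_apply _ (Kop L3)]
      unfold Kmix
      rw [LinearMap.add_apply, LinearMap.smul_apply, LinearMap.smul_apply, map_add, map_smul,
        map_smul]
      have : (1 : ℝ) - 1 / p = (p - 1) / p := by field_simp
      rw [this]
      rfl
    rw [h5] at h4
    show _ ≤ (((Kop L1) ^ j * (Kop L3) ^ k * (Kop L2) ^ (l + 1)) (lseL S) :
        (S → ℝ) → ℝ) (g0 v hs)
    rw [h3, Module.End.mul_apply _ (Kop L2)]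
    exact h4
  have hab : ∀ j k, a j k 0 = Apart p μ hs j + Bpart p μ Q x v k := by
    intro j k
    have := K13_iter hμ hN Q x hx v hv hs j k
    show (((Kop L1) ^ j * (Kop L3) ^ k * (Kop L2) ^ 0) (lseL S) :
        (S → ℝ) → ℝ) (g0 v hs) = _
    rw [pow_zero, mul_one]
    exact this
  have ha2 : ∀ n, a 0 0 n = Cpart p μ Q x v hs n := by
    intro n
    have := K2_iter hμ hN Q x hx v hv hs n
    show (((Kop L1) ^ 0 * (Kop L3) ^ 0 * (Kop L2) ^ n) (lseL S) :
        (S → ℝ) → ℝ) (g0 v hs) = _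
    rw [pow_zero, pow_zero, one_mul, one_mul]
    exact this
  -- bounds
  have hb : ∀ (L : ULaw S) (n : ℕ), |(((Kop L) ^ n) (lseL S) : (S → ℝ) → ℝ) (g0 v hs)| ≤
      |lse (g0 v hs)| + n * ∫ y, ‖L.ξ y‖ ∂L.ρ := by
    intro L n
    have h1 := Kop_pow_sub_le L n (lseL S) (C := 1) lse_lip (g0 v hs)
    rw [NNReal.coe_one, one_mul, coe_lseL] at h1
    have h2 := abs_add_le ((((Kop L) ^ n) (lseL S) : (S → ℝ) → ℝ) (g0 v hs) -
      lse (g0 v hs)) (lse (g0 v hs))
    rw [sub_add_cancel] at h2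
    linarith
  set c1 := ∫ y, ‖L1.ξ y‖ ∂L1.ρ with hc1
  set c2 := ∫ y, ‖L2.ξ y‖ ∂L2.ρ with hc2
  set c3 := ∫ y, ‖L3.ξ y‖ ∂L3.ρ with hc3
  have hc1' : 0 ≤ c1 := integral_nonneg fun _ => norm_nonneg _
  have hc2' : 0 ≤ c2 := integral_nonneg fun _ => norm_nonneg _
  have hc3' : 0 ≤ c3 := integral_nonneg fun _ => norm_nonneg _
  set C := |lse (g0 v hs)| + c1 + c2 + c3 + |Apart p μ hs 0| + |Bpart p μ Q x v 0| with hC
  have hl0 := abs_nonneg (lse (g0 v hs))
  have hA0 := abs_nonneg (Apart p μ hs 0)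
  have hB0 := abs_nonneg (Bpart p μ Q x v 0)
  have hA : ∀ j : ℕ, |Apart p μ hs j| ≤ C * (1 + j) := by
    intro j
    have h1 := hb L1 j
    have h2 : (((Kop L1) ^ j) (lseL S) : (S → ℝ) → ℝ) (g0 v hs) =
        Apart p μ hs j + Bpart p μ Q x v 0 := by
      rw [← hab j 0]
      show _ = (((Kop L1) ^ j * (Kop L3) ^ 0 * (Kop L2) ^ 0) (lseL S) :
        (S → ℝ) → ℝ) (g0 v hs)
      rw [pow_zero, pow_zero, mul_one, mul_one]
    rw [h2] at h1
    have h3 := abs_sub (Apart p μ hs j + Bpart p μ Q x v 0) (Bpart p μ Q x v 0)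
    rw [add_sub_cancel_right] at h3
    have hj : (0 : ℝ) ≤ j := Nat.cast_nonneg j
    nlinarith [mul_nonneg hj hl0, mul_nonneg hj hc2', mul_nonneg hj hc3', mul_nonneg hj hA0,
      mul_nonneg hj hB0]
  have hB : ∀ j : ℕ, |Bpart p μ Q x v j| ≤ C * (1 + j) := by
    intro j
    have h1 := hb L3 j
    have h2 : (((Kop L3) ^ j) (lseL S) : (S → ℝ) → ℝ) (g0 v hs) =
        Apart p μ hs 0 + Bpart p μ Q x v j := by
      rw [← hab 0 j]
      show _ = (((Kop L1) ^ 0 * (Kop L3) ^ j * (Kop L2) ^ 0) (lseL S) :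
        (S → ℝ) → ℝ) (g0 v hs)
      rw [pow_zero, pow_zero, mul_one, one_mul]
    rw [h2] at h1
    have h3 := abs_sub (Apart p μ hs 0 + Bpart p μ Q x v j) (Apart p μ hs 0)
    rw [add_sub_cancel_left] at h3
    have hj : (0 : ℝ) ≤ j := Nat.cast_nonneg j
    nlinarith [mul_nonneg hj hl0, mul_nonneg hj hc2', mul_nonneg hj hc1', mul_nonneg hj hA0,
      mul_nonneg hj hB0]
  have hD : ∀ n : ℕ, |a 0 0 n| ≤ C * (1 + n) := by
    intro n
    have h1 := hb L2 n
    have h2 : (((Kop L2) ^ n) (lseL S) : (S → ℝ) → ℝ) (g0 v hs) = a 0 0 n := by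
      show _ = (((Kop L1) ^ 0 * (Kop L3) ^ 0 * (Kop L2) ^ n) (lseL S) :
        (S → ℝ) → ℝ) (g0 v hs)
      rw [pow_zero, pow_zero, one_mul, one_mul]
    rw [h2] at h1
    have hj : (0 : ℝ) ≤ n := Nat.cast_nonneg n
    nlinarith [mul_nonneg hj hl0, mul_nonneg hj hc3', mul_nonneg hj hc1', mul_nonneg hj hA0,
      mul_nonneg hj hB0]
  have hfin := UPois.hybrid_poisson_add (lam := α * p * N) (q := 1 / (p : ℝ)) (C := C)
    (by positivity) (by positivity) (by rw [div_le_one hpp]; exact hp0) a hstep hab hA hB hD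
  have e1 : α * p * N * (1 / (p : ℝ)) = α * N := by field_simp
  have e2 : α * p * N * (1 - 1 / (p : ℝ)) = α * (p - 1) * N := by field_simp
  rw [e1, e2] at hfin
  refine hfin.trans (le_of_eq (tsum_congr fun n => ?_))
  rw [ha2]

end

end Crest.Agent.R141.U
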