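import Crest.Agent.R141.ULaws

/-!
R141, Part U, U2 part 3: from `KIProp` to the hybrid inequality.
-/

set_option autoImplicit false

namespace Crest.Agent.R141.U

open MeasureTheory Filter Topology Crest.ProbabilityR.Diluted
open scoped NNReal ENNReal

section

variable {p : ℕ} {μ : Measure (Inter p)} [IsProbabilityMeasure μ]
  (hμ : Integrable (fun θ => supNorm θ) μ)
  {S : Type} [Fintype S] [Nonempty S] {N : ℕ} (hN : 0 < N) (sg : S → Fin N → Bool)
  {Y : Type} [MeasurableSpace Y] (Q : Measure Y) [IsProbabilityMeasure Q]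
  (x : Y → S → ℝ) (hx : ∀ s, Measurable fun y => x y s)

theorem lse_add_log (g w : S → ℝ) (hw : ∀ s, 0 < w s) :
    lse (g + fun s => Real.log (w s)) = Real.log (∑ s, Real.exp (g s) * w s) := by
  unfold lse
  congr 1
  refine Finset.sum_congr rfl fun s _ => ?_
  rw [Pi.add_apply, Real.exp_add, Real.exp_log (hw s)]

theorem lse_add (g w : S → ℝ) :
    lse (g + w) = Real.log (∑ s, Real.exp (g s) * Real.exp (w s)) := by
  unfold lse
  congr 1
  refine Finset.sum_congr rfl fun s _ => ?_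
  rw [Pi.add_apply, Real.exp_add]

/-- one type 1 event. -/
theorem K1_apply (g : S → ℝ) :
    ((Kop (law1 hμ hN sg)) (lseL S) : (S → ℝ) → ℝ) g =
      (Fintype.card (Fin p → Fin N) : ℝ)⁻¹ * ∑ I : Fin p → Fin N,
        ∫ θ, Real.log (∑ s, Real.exp (g s) * Real.exp (θ fun ℓ => sg s (I ℓ))) ∂μ := by
  haveI : Nonempty (Fin N) := ⟨⟨0, hN⟩⟩
  have h0 := (law1 hμ hN sg).integrable (lse_lip (S := S)) g
  rw [Kop_apply, coe_lseL]
  show ∫ z, lse (g + fun s => z.1 fun ℓ => sg s (z.2 ℓ)) ∂(μ.prod (unif (Fin p → Fin N))) = _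
  rw [integral_prod_symm]
  · rw [integral_unif]
    simp only [lse_add]
  · exact h0

/-- one type 3 event. -/
theorem K3_apply (g : S → ℝ) :
    ((Kop (law3 hμ Q x hx)) (lseL S) : (S → ℝ) → ℝ) g =
      ∫ θ, ∫ y, Real.log (∑ s, Real.exp (g s) * edgeTerm θ fun ℓ => x (y ℓ) s)
        ∂(Measure.pi fun _ : Fin p => Q) ∂μ := by
  have h0 := (law3 hμ Q x hx).integrable (lse_lip (S := S)) g
  rw [Kop_apply, coe_lseL]
  show ∫ z, lse (g + fun s => Real.log (edgeTerm z.1 fun ℓ => x (z.2 ℓ) s))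
    ∂(μ.prod (Measure.pi fun _ : Fin p => Q)) = _
  rw [integral_prod]
  · refine integral_congr_ae (Eventually.of_forall fun θ => ?_)
    refine integral_congr_ae (Eventually.of_forall fun y => ?_)
    exact lse_add_log _ _ fun s => Red.edgeTerm_pos _ _
  · exact h0

/-- one type 2 event. -/
theorem K2_apply (g : S → ℝ) :
    ((Kop (law2 hμ hN sg Q x hx)) (lseL S) : (S → ℝ) → ℝ) g =
      (N : ℝ)⁻¹ * ∑ i : Fin N, ∫ θ, ∫ y, Real.log (∑ s, Real.exp (g s) *
        Real.exp (siteMessage θ (fun ℓ => x (y ℓ) s) (sg s i)))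
        ∂(Measure.pi fun _ : Fin (p - 1) => Q) ∂μ := by
  haveI : Nonempty (Fin N) := ⟨⟨0, hN⟩⟩
  have h0 := (law2 hμ hN sg Q x hx).integrable (lse_lip (S := S)) g
  rw [Kop_apply, coe_lseL]
  let F : Inter p × ((Fin (p - 1) → Y) × Fin N) → ℝ := fun z =>
    lse (g + fun s => siteMessage z.1 (fun ℓ => x (z.2.1 ℓ) s) (sg s z.2.2))
  have h0' : Integrable F (μ.prod ((Measure.pi fun _ : Fin (p - 1) => Q).prod (unif (Fin N)))) := h0
  show ∫ z, F z ∂(μ.prod ((Measure.pi fun _ : Fin (p - 1) => Q).prod (unif (Fin N)))) = _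
  have h1 : Integrable (fun w : (Inter p × (Fin (p - 1) → Y)) × Fin N => F (w.1.1, (w.1.2, w.2)))
      ((μ.prod (Measure.pi fun _ : Fin (p - 1) => Q)).prod (unif (Fin N))) :=
    (measurePreserving_prodAssoc μ (Measure.pi fun _ : Fin (p - 1) => Q)
      (unif (Fin N))).integrable_comp_of_integrable h0'
  have h2 : ∫ z, F z ∂(μ.prod ((Measure.pi fun _ : Fin (p - 1) => Q).prod (unif (Fin N)))) =
      ∫ w : (Inter p × (Fin (p - 1) → Y)) × Fin N, F (w.1.1, (w.1.2, w.2))
        ∂((μ.prod (Measure.pi fun _ : Fin (p - 1) => Q)).prod (unif (Fin N))) :=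
    ((measurePreserving_prodAssoc μ (Measure.pi fun _ : Fin (p - 1) => Q)
      (unif (Fin N))).integral_comp' F).symm
  rw [h2, integral_prod_symm _ h1, integral_unif, Fintype.card_fin]
  congr 1
  refine Finset.sum_congr rfl fun i _ => ?_
  have h3 : Integrable (fun w : Inter p × (Fin (p - 1) → Y) => F (w.1, (w.2, i)))
      (μ.prod (Measure.pi fun _ : Fin (p - 1) => Q)) := by
    have h4 := h1.prod_left_ae
    have h5 : ∀ i : Fin N, (unif (Fin N)) {i} ≠ 0 := by
      intro i hi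
      have := unif_real_singleton (I := Fin N) i
      rw [Measure.real, hi] at this
      simp only [ENNReal.toReal_zero, Fintype.card_fin] at this
      have h6 : (0 : ℝ) < (N : ℝ)⁻¹ := by positivity
      linarith
    rw [ae_iff] at h4
    by_contra hcon
    have h6 : ({i} : Set (Fin N)) ⊆ {a | ¬Integrable (fun w : Inter p × (Fin (p - 1) → Y) =>
        F (w.1, (w.2, a))) (μ.prod (Measure.pi fun _ : Fin (p - 1) => Q))} := by
      intro a ha
      rw [Set.mem_singleton_iff] at ha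
      subst ha
      exact hcon
    exact h5 i (measure_mono_null h6 h4)
  rw [integral_prod _ h3]
  refine integral_congr_ae (Eventually.of_forall fun θ => ?_)
  refine integral_congr_ae (Eventually.of_forall fun y => ?_)
  exact lse_add _ _

/-- The operator of a mixed event. -/
noncomputable def Kmix : Module.End ℝ (LipS S) :=
  (1 / (p : ℝ)) • Kop (law1 hμ hN sg) + ((p - 1 : ℝ) / p) • Kop (law3 hμ Q x hx)

theorem KI_op (hp : 0 < p) (hKI : KIProp p μ) (g : S → ℝ) :
    ((Kmix hμ hN sg Q x hx) (lseL S) : (S → ℝ) → ℝ) g ≤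
      ((Kop (law2 hμ hN sg Q x hx)) (lseL S) : (S → ℝ) → ℝ) g := by
  have h := hKI S N hN sg Y Q x hx (fun s => Real.exp (g s)) (fun s => Real.exp_pos _)
  have e : ((Kmix hμ hN sg Q x hx) (lseL S) : (S → ℝ) → ℝ) g =
      (1 / (p : ℝ)) * ((Kop (law1 hμ hN sg)) (lseL S) : (S → ℝ) → ℝ) g +
      ((p - 1 : ℝ) / p) * ((Kop (law3 hμ Q x hx)) (lseL S) : (S → ℝ) → ℝ) g := rfl
  rw [e, K1_apply, K3_apply, K2_apply]
  exact h

theorem Kmix_mono (hp : 1 ≤ p) : OpMono (Kmix hμ hN sg Q x hx) := by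
  have h1 : (1 : ℝ) ≤ p := by exact_mod_cast hp
  refine OpMono.add (OpMono.smul (Kop_mono _) (by positivity)) (OpMono.smul (Kop_mono _) ?_)
  exact div_nonneg (by linarith) (by linarith)

theorem Kmix_commute : Commute (Kmix hμ hN sg Q x hx) (Kop (law2 hμ hN sg Q x hx)) := by
  unfold Kmix
  exact ((Kop_commute _ _).smul_left _).add_left ((Kop_commute _ _).smul_left _)

/-- The hybrid inequality for a fixed number `M` of events. -/
theorem hybrid_fixed (hp : 1 ≤ p) (hKI : KIProp p μ) (M : ℕ) (g : S → ℝ) :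
    (((Kmix hμ hN sg Q x hx) ^ M) (lseL S) : (S → ℝ) → ℝ) g ≤
      (((Kop (law2 hμ hN sg Q x hx)) ^ M) (lseL S) : (S → ℝ) → ℝ) g :=
  hybrid_pow (Kmix_commute hμ hN sg Q x hx) (Kmix_mono hμ hN sg Q x hx hp) (Kop_mono _) _
    (KI_op hμ hN sg Q x hx hp hKI) M g

end

end Crest.Agent.R141.U
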