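import Crest.Agent.R141.UOps
import Crest.Agent.R141.RedBasic
import Crest.Agent.R141.KI0

/-!
R141, Part U, U2 part 2: the three types of events as `ULaw`s, log-sum-exp, and the hybrid
inequality for a fixed number of events, from `KIProp`.
-/

set_option autoImplicit false

namespace Crest.Agent.R141.U

open MeasureTheory Filter Topology Crest.ProbabilityR.Diluted
open scoped NNReal ENNReal

/-- The uniform law on a finite type. -/
noncomputable def unif (I : Type) [Fintype I] [MeasurableSpace I] : Measure I :=
  ((Fintype.card I : ℝ≥0∞)⁻¹) • Measure.count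

section Unif

variable {I : Type} [Fintype I] [Nonempty I] [MeasurableSpace I] [MeasurableSingletonClass I]

instance unif_prob : IsProbabilityMeasure (unif I) := by
  constructor
  have h : (Fintype.card I : ℝ≥0∞) ≠ 0 := by
    simp
  simp only [unif, Measure.smul_apply, smul_eq_mul]
  rw [Measure.count_univ]
  simp only [ENat.card_eq_coe_fintype_card, ENat.toENNReal_coe]
  exact ENNReal.inv_mul_cancel h (ENNReal.natCast_ne_top _)

theorem unif_real_singleton (i : I) : (unif I).real {i} = (Fintype.card I : ℝ)⁻¹ := by
  simp only [unif, Measure.real, Measure.smul_apply, smul_eq_mul]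
  rw [Measure.count_singleton, mul_one, ENNReal.toReal_inv, ENNReal.toReal_natCast]

theorem integral_unif (F : I → ℝ) : ∫ i, F i ∂(unif I) = (Fintype.card I : ℝ)⁻¹ * ∑ i, F i := by
  rw [integral_fintype (Integrable.of_finite), Finset.mul_sum]
  refine Finset.sum_congr rfl fun i _ => ?_
  rw [unif_real_singleton, smul_eq_mul]

theorem integral_pi_unif {M : ℕ} (F : (Fin M → I) → ℝ) :
    ∫ i, F i ∂(Measure.pi fun _ : Fin M => unif I) =
      (Fintype.card (Fin M → I) : ℝ)⁻¹ * ∑ i, F i := by
  rw [integral_fintype (Integrable.of_finite), Finset.mul_sum]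
  refine Finset.sum_congr rfl fun i _ => ?_
  have h : (Measure.pi fun _ : Fin M => unif I).real {i} = (Fintype.card (Fin M → I) : ℝ)⁻¹ := by
    simp only [Measure.real]
    rw [Measure.pi_singleton, ENNReal.toReal_prod]
    have : ∀ j, ((unif I) {i j}).toReal = (Fintype.card I : ℝ)⁻¹ := fun j =>
      unif_real_singleton (i j)
    simp only [this, Finset.prod_const, Finset.card_univ, Fintype.card_fin]
    rw [Fintype.card_fun, Fintype.card_fin]
    push_cast
    rw [inv_pow]
  rw [h, smul_eq_mul]

end Unif

/-- log-sum-exp. -/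
noncomputable def lse {S : Type} [Fintype S] (g : S → ℝ) : ℝ := Real.log (∑ s, Real.exp (g s))

section

variable {S : Type} [Fintype S] [Nonempty S]

theorem lse_lip : LipschitzWith 1 (lse : (S → ℝ) → ℝ) := by
  refine LipschitzWith.of_dist_le_mul fun g g' => ?_
  rw [Real.dist_eq, NNReal.coe_one, one_mul]
  have := Red.abs_log_sum_exp_le (ι := S) (fun _ => 1) (fun _ => one_pos) g g' (dist g g')
    (fun i => by
      rw [← Real.dist_eq]; exact dist_le_pi_dist g g' i)
  simp only [one_mul] at this
  exact this

/-- `lse` as an element of `LipS`. -/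
noncomputable def lseL (S : Type) [Fintype S] [Nonempty S] : LipS S := ⟨lse, 1, lse_lip⟩

@[simp] theorem coe_lseL : ((lseL S : LipS S) : (S → ℝ) → ℝ) = lse := rfl

end

section Laws

variable {p : ℕ} {μ : Measure (Inter p)} [IsProbabilityMeasure μ]
  (hμ : Integrable (fun θ => supNorm θ) μ)
  {S : Type} [Fintype S] {N : ℕ} (hN : 0 < N) (sg : S → Fin N → Bool)
  {Y : Type} [MeasurableSpace Y] (Q : Measure Y) [IsProbabilityMeasure Q]
  (x : Y → S → ℝ) (hx : ∀ s, Measurable fun y => x y s)

include hμ in
theorem integrable_norm_of_le {Z : Type} [MeasurableSpace Z] (ρ : Measure Z)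
    [IsProbabilityMeasure ρ] {ξ : Inter p × Z → S → ℝ} (hξ : Measurable ξ)
    (hb : ∀ z s, |ξ z s| ≤ supNorm z.1) : Integrable (fun z => ‖ξ z‖) (μ.prod ρ) := by
  have h1 : Integrable (fun z : Inter p × Z => supNorm z.1) (μ.prod ρ) := hμ.comp_fst ρ
  refine h1.mono' hξ.norm.aestronglyMeasurable (Eventually.of_forall fun z => ?_)
  rw [norm_norm]
  refine (pi_norm_le_iff_of_nonneg (Red.supNorm_nonneg _)).2 fun s => ?_
  rw [Real.norm_eq_abs]
  exact hb z s

/-- measurability of evaluation of interactions. -/
theorem measurable_inter_eval {Z : Type} [MeasurableSpace Z] {f : Z → Inter p}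
    (hf : Measurable f) (s : Fin p → Bool) : Measurable fun z => f z s :=
  (measurable_pi_apply s).comp hf

theorem measurable_tilt_comp {Z : Type} [MeasurableSpace Z] {f : Z → ℝ} (hf : Measurable f)
    (s : Bool) : Measurable fun z => tilt (f z) s :=
  (Red.continuous_tilt s).measurable.comp hf

theorem measurable_edgeTerm_comp {Z : Type} [MeasurableSpace Z] {f : Z → Inter p}
    (hf : Measurable f) {y : Z → Fin p → ℝ} (hy : ∀ ℓ, Measurable fun z => y z ℓ) :
    Measurable fun z => edgeTerm (f z) (y z) := by
  unfold edgeTerm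
  refine Finset.measurable_sum _ fun s _ => ?_
  refine ((measurable_inter_eval hf s).exp).mul ?_
  exact Finset.measurable_prod _ fun ℓ _ => measurable_tilt_comp (hy ℓ) (s ℓ)

theorem measurable_siteMessage_comp {Z : Type} [MeasurableSpace Z] {f : Z → Inter p}
    (hf : Measurable f) {y : Z → Fin (p - 1) → ℝ} (hy : ∀ ℓ, Measurable fun z => y z ℓ)
    (ε : Bool) : Measurable fun z => siteMessage (f z) (y z) ε := by
  unfold siteMessage
  refine Measurable.log (Finset.measurable_sum _ fun s _ => ?_)
  refine ((measurable_inter_eval hf _).exp).mul ?_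
  exact Finset.measurable_prod _ fun ℓ _ => measurable_tilt_comp (hy ℓ) (s ℓ)

theorem law1_meas : Measurable (fun (z : Inter p × (Fin p → Fin N)) (s : S) =>
    z.1 fun ℓ => sg s (z.2 ℓ)) := by
  refine measurable_pi_lambda _ fun s => ?_
  refine measurable_from_prod_countable_left fun I => ?_
  exact measurable_pi_apply (fun ℓ => sg s (I ℓ))

/-- Type 1 events: an edge of the model. -/
noncomputable def law1 : ULaw S :=
  haveI : Nonempty (Fin N) := ⟨⟨0, hN⟩⟩
  { Y := Inter p × (Fin p → Fin N)
    mY := inferInstance
    ρ := μ.prod (unif (Fin p → Fin N))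
    prob := inferInstance
    ξ := fun z s => z.1 fun ℓ => sg s (z.2 ℓ)
    meas := law1_meas sg
    int := integrable_norm_of_le hμ _ (law1_meas sg) fun z s => Red.abs_le_supNorm _ _ }

/-- Type 3 events: an edge of the cavity fields. -/
noncomputable def law3 : ULaw S where
  Y := Inter p × (Fin p → Y)
  mY := inferInstance
  ρ := μ.prod (Measure.pi fun _ => Q)
  prob := inferInstance
  ξ := fun z s => Real.log (edgeTerm z.1 fun ℓ => x (z.2 ℓ) s)
  meas := by
    refine measurable_pi_lambda _ fun s => Measurable.log ?_
    exact measurable_edgeTerm_comp measurable_fst fun ℓ =>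
      (hx s).comp ((measurable_pi_apply ℓ).comp measurable_snd)
  int := by
    refine integrable_norm_of_le hμ _ ?_ fun z s => Red.abs_log_edgeTerm_le _ _
    refine measurable_pi_lambda _ fun s => Measurable.log ?_
    exact measurable_edgeTerm_comp measurable_fst fun ℓ =>
      (hx s).comp ((measurable_pi_apply ℓ).comp measurable_snd)

/-- Type 2 events: a cavity field on a uniform site. -/
noncomputable def law2 : ULaw S :=
  haveI : Nonempty (Fin N) := ⟨⟨0, hN⟩⟩
  { Y := Inter p × ((Fin (p - 1) → Y) × Fin N)
    mY := inferInstance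
    ρ := μ.prod ((Measure.pi fun _ => Q).prod (unif (Fin N)))
    prob := inferInstance
    ξ := fun z s => siteMessage z.1 (fun ℓ => x (z.2.1 ℓ) s) (sg s z.2.2)
    meas := by
      refine measurable_pi_lambda _ fun s => ?_
      have h : ∀ ε : Bool, Measurable fun z : Inter p × ((Fin (p - 1) → Y) × Fin N) =>
          siteMessage z.1 (fun ℓ => x (z.2.1 ℓ) s) ε := fun ε =>
        measurable_siteMessage_comp measurable_fst (fun ℓ => (hx s).comp
          ((measurable_pi_apply ℓ).comp (measurable_fst.comp measurable_snd))) ε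
      have h2 : Measurable fun z : Inter p × ((Fin (p - 1) → Y) × Fin N) =>
          (z, sg s z.2.2) := measurable_id.prodMk
            ((measurable_of_finite (sg s)).comp (measurable_snd.comp measurable_snd))
      exact (measurable_from_prod_countable_left (f := fun w : (Inter p ×
        ((Fin (p - 1) → Y) × Fin N)) × Bool =>
          siteMessage w.1.1 (fun ℓ => x (w.1.2.1 ℓ) s) w.2) h).comp h2
    int := by
      refine integrable_norm_of_le hμ _ ?_ fun z s => Red.abs_siteMessage_le _ _ _
      refine measurable_pi_lambda _ fun s => ?_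
      have h : ∀ ε : Bool, Measurable fun z : Inter p × ((Fin (p - 1) → Y) × Fin N) =>
          siteMessage z.1 (fun ℓ => x (z.2.1 ℓ) s) ε := fun ε =>
        measurable_siteMessage_comp measurable_fst (fun ℓ => (hx s).comp
          ((measurable_pi_apply ℓ).comp (measurable_fst.comp measurable_snd))) ε
      have h2 : Measurable fun z : Inter p × ((Fin (p - 1) → Y) × Fin N) =>
          (z, sg s z.2.2) := measurable_id.prodMk
            ((measurable_of_finite (sg s)).comp (measurable_snd.comp measurable_snd))
      exact (measurable_from_prod_countable_left (f := fun w : (Inter p ×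
        ((Fin (p - 1) → Y) × Fin N)) × Bool =>
          siteMessage w.1.1 (fun ℓ => x (w.1.2.1 ℓ) s) w.2) h).comp h2 }

end Laws

end Crest.Agent.R141.U
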