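import Crest.Agent.R141.UStmt
import Crest.Agent.R141.FinTrial2
import Crest.Agent.R141.Red3

/-!
# Row 141, Part U: the two product identities `EdgeId` and `SiteId` (helper318)
-/

set_option autoImplicit false

namespace Crest.Agent.R141.USite

open MeasureTheory Crest.ProbabilityR.Diluted Crest.Agent.R141.RedT

/-- Precomposition with an injective map preserves product probability measures. -/
theorem measurePreserving_comp_inj {ι κ E : Type*} [Fintype ι] [Fintype κ] [MeasurableSpace E]
    (μ : Measure E) [IsProbabilityMeasure μ] (g : κ → ι) (hg : Function.Injective g) :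
    MeasurePreserving (fun (x : ι → E) (k : κ) => x (g k)) (Measure.pi fun _ : ι => μ)
      (Measure.pi fun _ : κ => μ) := by
  have hf : Measurable (fun (x : ι → E) (k : κ) => x (g k)) :=
    measurable_pi_lambda _ fun k => measurable_pi_apply (g k)
  refine ⟨hf, ?_⟩
  symm
  refine Measure.pi_eq fun s hs => ?_
  rw [Measure.map_apply hf (MeasurableSet.univ_pi hs)]
  have hpre : (fun (x : ι → E) (k : κ) => x (g k)) ⁻¹' (Set.univ.pi s) =
      Set.univ.pi (Function.extend g s (fun _ => Set.univ)) := by
    ext x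
    simp only [Set.mem_preimage, Set.mem_pi, Set.mem_univ, true_implies]
    constructor
    · intro h i
      by_cases hi : ∃ k, g k = i
      · obtain ⟨k, rfl⟩ := hi
        rw [hg.extend_apply]
        exact h k
      · rw [Function.extend_apply' _ _ _ hi]
        exact Set.mem_univ _
    · intro h k
      have := h (g k)
      rwa [hg.extend_apply] at this
  rw [hpre, Measure.pi_pi]
  symm
  refine Fintype.prod_of_injective g hg _ _ ?_ ?_
  · intro i hi
    rw [Function.extend_apply' _ _ _ (by simpa using hi), measure_univ]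
  · intro k
    rw [hg.extend_apply]

/-- reindexing of the labels in an integral of the nested power means -/
theorem integral_log_powerMeans_reindex {L L' : Type*} [Fintype L] [Fintype L'] (e : L ≃ L')
    {r : ℕ} (m : Fin r → ℝ) (W : (L → Fin (r + 1) → unitInterval) → ℝ) (hW : Measurable W) :
    ∫ u, Real.log (powerMeans m (fun u' : L' → Fin (r + 1) → unitInterval =>
        W (fun ω => u' (e ω))) u) ∂(uniformArrays L' r) =
      ∫ u, Real.log (powerMeans m W u) ∂(uniformArrays L r) := by
  have hmp : MeasurePreserving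
      (fun (x : L' → Fin (r + 1) → unitInterval) (k : L) => x (e k))
      (uniformArrays L' r) (uniformArrays L r) := by
    unfold uniformArrays
    exact measurePreserving_comp_inj _ e e.injective
  simp only [powerMeans_reindex e m W]
  have haes : AEStronglyMeasurable (fun u => Real.log (powerMeans m W u))
      (Measure.map (fun (x : L' → Fin (r + 1) → unitInterval) (k : L) => x (e k))
        (uniformArrays L' r)) :=
    (measurable_powerMeans' hW).log.aestronglyMeasurable
  rw [← hmp.map_eq, integral_map hmp.measurable.aemeasurable haes]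

section Edge

variable {p r : ℕ} {m : Fin r → ℝ} {X : (Fin (r + 1) → unitInterval) → ℝ}

theorem edge_pointwise (hm : ∀ d, 0 < m d) (hX : Measurable X) {K : ℕ} (θs : Fin K → Inter p) :
    ∫ u, Real.log (powerMeans m (Wedge (K := K) (p := p) X θs) u)
      ∂(uniformArrays (Fin K × Fin p) r) = ∑ j, edgeInner p r m X (θs j) := by
  have hmeas : ∀ j, Measurable (fun u : Fin p → Fin (r + 1) → unitInterval =>
      edgeTerm (θs j) (fun ℓ => X (u ℓ))) := fun j => measurable_edgeTerm_X hX (θs j)
  have hb := fun (j : Fin K) (u : Fin p → Fin (r + 1) → unitInterval) =>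
    edgeTerm_bounds (θs j) (fun ℓ => X (u ℓ))
  have h1 := integral_log_powerMeans_sigma_prod (κ := fun _ : Fin K => Fin p) m
    (fun j u => edgeTerm (θs j) (fun ℓ => X (u ℓ)))
    (fun j u => (Real.exp_pos _).le.trans (hb j u).1)
    (fun j u => (Real.exp_pos _).trans_le
      (le_powerMeans hm (Real.exp_pos _) (hmeas j) (fun u => (hb j u).1) (fun u => (hb j u).2) u))
    (fun j => integrable_log_powerMeans hm (Real.exp_pos _) (hmeas j)
      (fun u => (hb j u).1) (fun u => (hb j u).2))
  have hW : Measurable (fun u : ((j : Fin K) × Fin p) → Fin (r + 1) → unitInterval =>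
      ∏ j, edgeTerm (θs j) (fun ℓ => X (u ⟨j, ℓ⟩))) := by
    refine Finset.measurable_prod _ fun j _ => ?_
    exact (hmeas j).comp (measurable_pi_lambda _ fun ℓ => measurable_pi_apply (⟨j, ℓ⟩ :
      (j : Fin K) × Fin p))
  have h2 := integral_log_powerMeans_reindex (Equiv.sigmaEquivProd (Fin K) (Fin p)) m
    (fun u : ((j : Fin K) × Fin p) → Fin (r + 1) → unitInterval =>
      ∏ j, edgeTerm (θs j) (fun ℓ => X (u ⟨j, ℓ⟩))) hW
  rw [h1] at h2
  exact h2

/-- **EdgeId.** -/
theorem edgeId {μ : Measure (Inter p)} [IsProbabilityMeasure μ]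
    (hμ : Integrable (fun θ => supNorm θ) μ) (hm : ∀ d, 0 < m d) (hX : Measurable X) :
    EdgeId p μ r m X := by
  intro K
  simp only [edge_pointwise hm hX]
  rw [integral_sum_comp_eval (integrable_edgeInner hm hX hμ)]
  rfl

end Edge

section Site

variable {p r : ℕ} {m : Fin r → ℝ} {X : (Fin (r + 1) → unitInterval) → ℝ}

/-- enumeration of the events at the site `i` -/
noncomputable def ev {M N : ℕ} (t : Fin M → Fin N) (i : Fin N) :
    Fin (Fintype.card {j // t j = i}) ≃ {j // t j = i} :=
  (Fintype.equivFin {j // t j = i}).symm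

/-- the labels grouped by sites -/
noncomputable def groupEquiv (q : ℕ) {M N : ℕ} (t : Fin M → Fin N) :
    ((i : Fin N) × (Fin (Fintype.card {j // t j = i}) × Fin q)) ≃ Fin M × Fin q :=
  (Equiv.sigmaCongrRight fun i => (ev t i).prodCongr (Equiv.refl (Fin q))).trans
    ((Equiv.sigmaProdDistrib (fun i => {j // t j = i}) (Fin q)).symm.trans
      ((Equiv.sigmaFiberEquiv t).prodCongr (Equiv.refl (Fin q))))

theorem groupEquiv_apply (q : ℕ) {M N : ℕ} (t : Fin M → Fin N) (i : Fin N)
    (k : Fin (Fintype.card {j // t j = i})) (ℓ : Fin q) :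
    groupEquiv q t ⟨i, (k, ℓ)⟩ = ((ev t i k).1, ℓ) := rfl

theorem sum_filter_eq {M N : ℕ} (t : Fin M → Fin N) (i : Fin N) (f : Fin M → ℝ) :
    ∑ j ∈ Finset.univ.filter (fun j => t j = i), f j =
      ∑ k : Fin (Fintype.card {j // t j = i}), f (ev t i k).1 := by
  rw [(ev t i).sum_comp (fun j : {j // t j = i} => f j.1)]
  exact Finset.sum_subtype _ (fun x => by simp) f

theorem Wsite_eq {M N : ℕ} (hs : Fin N → ℝ) (θs : Fin M → Inter p) (t : Fin M → Fin N)
    (u : Fin M × Fin (p - 1) → Fin (r + 1) → unitInterval) :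
    Wsite X hs θs t u = ∏ i, (2 * siteTerm (hs i) (fun k => θs (ev t i k).1)
      (fun k ℓ => X (u (groupEquiv (p - 1) t ⟨i, (k, ℓ)⟩)))) := by
  unfold Wsite
  refine Finset.prod_congr rfl fun i _ => ?_
  unfold siteTerm
  rw [← mul_assoc]
  norm_num
  simp only [groupEquiv_apply, sum_filter_eq]

theorem sigma_two_mul (hm : ∀ d, 0 < m d) {ι : Type*} [Fintype ι] {κ : ι → Type*}
    [∀ i, Fintype (κ i)] (V : (i : ι) → (κ i → Fin (r + 1) → unitInterval) → ℝ)
    (hV : ∀ i, Measurable (V i)) (a b : ι → ℝ) (ha : ∀ i, 0 < a i) (hVa : ∀ i u, a i ≤ V i u)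
    (hVb : ∀ i u, V i u ≤ b i) :
    ∫ u, Real.log (powerMeans m (fun u => ∏ i, (2 * V i (fun j => u ⟨i, j⟩))) u)
      ∂(uniformArrays ((i : ι) × κ i) r) =
      ∑ i, (Real.log 2 + ∫ u, Real.log (powerMeans m (V i) u) ∂(uniformArrays (κ i) r)) := by
  have hc : ∀ i u, powerMeans m (fun u => 2 * V i u) u = 2 * powerMeans m (V i) u :=
    fun i u => powerMeans_const_mul hm (ha i) two_pos (hV i) (hVa i) (hVb i) u
  have hpos : ∀ i u, 0 < powerMeans m (V i) u :=
    fun i u => (ha i).trans_le (le_powerMeans hm (ha i) (hV i) (hVa i) (hVb i) u)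
  have hint : ∀ i, Integrable (fun u => Real.log (powerMeans m (V i) u))
      (uniformArrays (κ i) r) :=
    fun i => integrable_log_powerMeans hm (ha i) (hV i) (hVa i) (hVb i)
  have hlog : ∀ i u, Real.log (powerMeans m (fun u => 2 * V i u) u) =
      Real.log 2 + Real.log (powerMeans m (V i) u) := by
    intro i u
    rw [hc, Real.log_mul two_ne_zero (hpos i u).ne']
  have h1 := integral_log_powerMeans_sigma_prod m (fun i u => 2 * V i u)
    (fun i u => mul_nonneg two_pos.le ((ha i).le.trans (hVa i u)))
    (fun i u => by rw [hc]; exact mul_pos two_pos (hpos i u))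
    (fun i => by simp only [hlog]; exact (integrable_const _).add (hint i))
  rw [h1]
  refine Finset.sum_congr rfl fun i _ => ?_
  simp only [hlog]
  rw [integral_add (integrable_const _) (hint i)]
  simp only [integral_const, probReal_univ, smul_eq_mul, one_mul]

theorem sigma_two_mul_reindex (hm : ∀ d, 0 < m d) {ι : Type*} [Fintype ι] {κ : ι → Type*}
    [∀ i, Fintype (κ i)] {L' : Type*} [Fintype L'] (e : ((i : ι) × κ i) ≃ L')
    (V : (i : ι) → (κ i → Fin (r + 1) → unitInterval) → ℝ)
    (hV : ∀ i, Measurable (V i)) (a b : ι → ℝ) (ha : ∀ i, 0 < a i) (hVa : ∀ i u, a i ≤ V i u)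
    (hVb : ∀ i u, V i u ≤ b i) :
    ∫ u, Real.log (powerMeans m (fun u : L' → Fin (r + 1) → unitInterval =>
      ∏ i, (2 * V i (fun j => u (e ⟨i, j⟩)))) u) ∂(uniformArrays L' r) =
      ∑ i, (Real.log 2 + ∫ u, Real.log (powerMeans m (V i) u) ∂(uniformArrays (κ i) r)) := by
  rw [← sigma_two_mul hm V hV a b ha hVa hVb]
  have hW : Measurable (fun u : ((i : ι) × κ i) → Fin (r + 1) → unitInterval =>
      ∏ i, (2 * V i (fun j => u ⟨i, j⟩))) := by
    refine Finset.measurable_prod _ fun i _ => ?_
    refine Measurable.const_mul ?_ 2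
    exact (hV i).comp (measurable_pi_lambda _ fun z => measurable_pi_apply _)
  exact integral_log_powerMeans_reindex e m _ hW

theorem site_pointwise (hm : ∀ d, 0 < m d) (hX : Measurable X) {M N : ℕ} (hs : Fin N → ℝ)
    (θs : Fin M → Inter p) (t : Fin M → Fin N) :
    ∫ u, Real.log (powerMeans m (Wsite X hs θs t) u)
      ∂(uniformArrays (Fin M × Fin (p - 1)) r) =
      ∑ i, (Real.log 2 + siteInner p (Fintype.card {j // t j = i}) r m X
        (fun k => θs (ev t i k).1) (hs i)) := by
  have h1 := sigma_two_mul_reindex hm (κ := fun i : Fin N => Fin (Fintype.card {j // t j = i}) ×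
      Fin (p - 1)) (groupEquiv (p - 1) t)
    (fun i u => siteTerm (hs i) (fun k => θs (ev t i k).1) (fun k ℓ => X (u (k, ℓ))))
    (fun i => measurable_siteTerm_X hX (hs i) _)
    _ _ (fun i => Real.exp_pos _)
    (fun i u => (siteTerm_bounds (hs i) (fun k => θs (ev t i k).1)
      (fun k ℓ => X (u (k, ℓ)))).1)
    (fun i u => (siteTerm_bounds (hs i) (fun k => θs (ev t i k).1)
      (fun k ℓ => X (u (k, ℓ)))).2)
  have h3 : (fun u' : Fin M × Fin (p - 1) → Fin (r + 1) → unitInterval =>
      ∏ i, (2 * siteTerm (hs i) (fun k => θs (ev t i k).1)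
        (fun k ℓ => X (u' (groupEquiv (p - 1) t ⟨i, (k, ℓ)⟩))))) = Wsite X hs θs t := by
    funext u'
    rw [Wsite_eq]
  rw [← h3]
  exact h1

/-- **SiteId.** -/
theorem siteId {μ : Measure (Inter p)} {ν : Measure ℝ} [IsProbabilityMeasure μ]
    [IsProbabilityMeasure ν] (hμ : Integrable (fun θ => supNorm θ) μ)
    (hν : Integrable (fun x : ℝ => x) ν) (hm : ∀ d, 0 < m d) (hX : Measurable X) :
    SiteId p μ ν r m X := by
  intro N M t
  simp only [site_pointwise hm hX]
  have hG : ∀ i : Fin N, LipG (siteInner p (Fintype.card {j // t j = i}) r m X) :=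
    fun i => lipG_siteInner hm hX
  have hinj : ∀ i : Fin N, Function.Injective
      (fun k : Fin (Fintype.card {j // t j = i}) => (ev t i k).1) := fun i =>
    Subtype.val_injective.comp (ev t i).injective
  have hmp := fun i : Fin N => measurePreserving_comp_inj (E := Inter p) μ _ (hinj i)
  have hint1 : ∀ (θs : Fin M → Inter p) (i : Fin N), Integrable (fun hs : Fin N → ℝ =>
      siteInner p (Fintype.card {j // t j = i}) r m X (fun k => θs (ev t i k).1) (hs i))
      (Measure.pi fun _ : Fin N => ν) := fun θs i =>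
    integrable_comp_eval (i := i) ((hG i).integrable_right hν (fun k => θs (ev t i k).1))
  have hstep1 : ∀ θs : Fin M → Inter p, ∫ hs : Fin N → ℝ, ∑ i, (Real.log 2 +
      siteInner p (Fintype.card {j // t j = i}) r m X (fun k => θs (ev t i k).1) (hs i))
      ∂(Measure.pi fun _ : Fin N => ν) = ∑ i : Fin N, (Real.log 2 +
      ∫ h, siteInner p (Fintype.card {j // t j = i}) r m X (fun k => θs (ev t i k).1) h ∂ν) := by
    intro θs
    rw [integral_finsetSum]
    swap
    · intro i _
      exact (integrable_const _).add (hint1 θs i)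
    refine Finset.sum_congr rfl fun i _ => ?_
    rw [integral_add (integrable_const _) (hint1 θs i)]
    simp only [integral_const, probReal_univ, smul_eq_mul, one_mul]
    rw [integral_comp_eval (μ := fun _ : Fin N => ν) (i := i)
      ((hG i).integrable_right hν (fun k => θs (ev t i k).1)).aestronglyMeasurable]
  simp only [hstep1]
  have hint2 : ∀ i : Fin N, Integrable (fun θs : Fin M → Inter p =>
      ∫ h, siteInner p (Fintype.card {j // t j = i}) r m X (fun k => θs (ev t i k).1) h ∂ν)
      (Measure.pi fun _ : Fin M => μ) := fun i =>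
    (hmp i).integrable_comp_of_integrable ((hG i).integrable_integral hμ hν)
  rw [integral_finsetSum]
  swap
  · intro i _
    exact (integrable_const _).add (hint2 i)
  refine Finset.sum_congr rfl fun i _ => ?_
  rw [integral_add (integrable_const _) (hint2 i)]
  simp only [integral_const, probReal_univ, smul_eq_mul, one_mul]
  unfold sitePhi
  congr 1
  have haes : AEStronglyMeasurable (fun θs : Fin (Fintype.card {j // t j = i}) → Inter p =>
      ∫ h, siteInner p (Fintype.card {j // t j = i}) r m X θs h ∂ν)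
      (Measure.map (fun (x : Fin M → Inter p) (k : Fin (Fintype.card {j // t j = i})) =>
        x (ev t i k).1) (Measure.pi fun _ : Fin M => μ)) := by
    rw [(hmp i).map_eq]
    exact ((hG i).integrable_integral hμ hν).aestronglyMeasurable
  have := integral_map (hmp i).measurable.aemeasurable haes
  rw [(hmp i).map_eq] at this
  rw [← this]
  rfl

end Site

end Crest.Agent.R141.USite
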