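import Crest.Agent.R141.UAsm
import Crest.Agent.R141.USite
import Crest.Agent.R141.KI

/-!
R141, Part U: the limit of large trees and the upper bound.
-/

set_option autoImplicit false

namespace Crest.Agent.R141.U

open MeasureTheory Filter Topology Crest.ProbabilityR.Diluted
open scoped NNReal ENNReal

theorem Wedge_meas {p k r : ℕ} {X : (Fin (r + 1) → unitInterval) → ℝ} (hX : Measurable X)
    (θs : Fin k → Inter p) : Measurable (fun u : Fin k × Fin p → Fin (r + 1) → unitInterval =>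
      Wedge (p := p) X θs u) := by
  have h1 := UBd.measurable_Wedge (p := p) (K := k) hX
  have h2 : Measurable (fun u : Fin k × Fin p → Fin (r + 1) → unitInterval => (θs, u)) :=
    measurable_prodMk_left
  have h3 := h1.comp h2
  exact h3

theorem Wt_meas_u {p n N r : ℕ} {X : (Fin (r + 1) → unitInterval) → ℝ} (hX : Measurable X)
    (t : Fin n → Fin N) (z : (Fin n → Inter p) × (Fin N → ℝ)) :
    Measurable (fun u : Fin n × Fin (p - 1) → Fin (r + 1) → unitInterval =>
      Wt (p := p) X n t z u) := by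
  have h1 := Wt_meas (p := p) hX n t
  have h2 : Measurable (fun u : Fin n × Fin (p - 1) → Fin (r + 1) → unitInterval => (z, u)) :=
    measurable_prodMk_left
  have h3 := h1.comp h2
  exact h3

theorem Wedge_mem {p k r : ℕ} (X : (Fin (r + 1) → unitInterval) → ℝ) (θs : Fin k → Inter p)
    (u : Fin k × Fin p → Fin (r + 1) → unitInterval) :
    Real.exp (-Bk k θs) ≤ Wedge (p := p) X θs u ∧ Wedge (p := p) X θs u ≤ Real.exp (Bk k θs) := by
  have h1 : |Real.log (Wedge (p := p) X θs u)| ≤ Bk k θs := UBd.abs_log_Wedge_le X θs u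
  have h2 : 0 < Wedge (p := p) X θs u := UBd.Wedge_pos X θs u
  exact UBd.exp_neg_le_of_abs_log_le h2 h1

theorem Wt_mem {p n N r : ℕ} (X : (Fin (r + 1) → unitInterval) → ℝ) (t : Fin n → Fin N)
    (z : (Fin n → Inter p) × (Fin N → ℝ))
    (u : Fin n × Fin (p - 1) → Fin (r + 1) → unitInterval) :
    Real.exp (-Bn N n z) ≤ Wt (p := p) X n t z u ∧
      Wt (p := p) X n t z u ≤ Real.exp (Bn N n z) := by
  have h1 : |Real.log (Wt (p := p) X n t z u)| ≤ Bn N n z := Wt_bd X n t z u
  have h2 : 0 < Wt (p := p) X n t z u := Wt_pos X n t z u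
  exact UBd.exp_neg_le_of_abs_log_le h2 h1

section

variable {p : ℕ} {μ : Measure (Inter p)} [IsProbabilityMeasure μ]
  (hμ : Integrable (fun θ => supNorm θ) μ)
  (ν : Measure ℝ) [IsProbabilityMeasure ν] (hν : Integrable (fun x : ℝ => x) ν)
  {N r : ℕ} {m : Fin r → ℝ} {X : (Fin (r + 1) → unitInterval) → ℝ} (hX : Measurable X)

include hμ hX in
theorem iter_edge (hm : ∀ d, 0 < m d)
    {Leaf : (Fin r → ℕ) → Type} [∀ K, Fintype (Leaf K)]
    (V : ∀ K, Measure (Leaf K → ℝ))
    (Q : ∀ K, Measure (Leaf K → Fin (r + 1) → unitInterval))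
    (hVQ : ∀ K : Fin r → ℕ, (∀ i, 0 < K i) → Nonempty (Leaf K) ∧ IsProbabilityMeasure (V K) ∧
      IsProbabilityMeasure (Q K) ∧ ∀ᵐ v ∂(V K), ∀ a, 0 < v a)
    (hlim : ∀ (L : Type) [Fintype L] (W : (L → Fin (r + 1) → unitInterval) → ℝ), Measurable W →
      ∀ c C : ℝ, 0 < c → (∀ u, c ≤ W u) → (∀ u, W u ≤ C) →
        IterTendsto r (fun K => treeF (V K) (Q K) W)
          (∫ u, Real.log (powerMeans m W u) ∂(uniformArrays L r))) (k : ℕ) :
    IterTendsto r (fun K => ∫ θs : Fin k → Inter p, treeF (V K) (Q K) (Wedge (p := p) X θs)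
      ∂(Measure.pi fun _ => μ)) (k * edgeFun p μ r m X) := by
  rw [← USite.edgeId hμ hm hX k]
  refine IterTendsto.integral (B := fun θs => Bk k θs) ?_ (integrable_Bk hμ k) ?_ ?_
  · intro K hK
    obtain ⟨h1, h2, h3, h4⟩ := hVQ K hK
    exact (measurable_treeF (Q K) _ (UBd.measurable_Wedge hX) (V K)).aestronglyMeasurable
  · intro K hK
    obtain ⟨h1, h2, h3, h4⟩ := hVQ K hK
    exact Eventually.of_forall fun θs => abs_treeF_le (Q K) _ (UBd.measurable_Wedge hX)
      (UBd.Wedge_pos X) (UBd.abs_log_Wedge_le X) (V K) h4 θs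
  · refine Eventually.of_forall fun θs => ?_
    have hm1 := Wedge_meas (p := p) hX θs
    have hm2 := Wedge_mem (p := p) X θs
    exact hlim (Fin k × Fin p) (fun u => Wedge (p := p) X θs u) hm1 (Real.exp (-Bk k θs))
      (Real.exp (Bk k θs)) (Real.exp_pos _) (fun u => (hm2 u).1) (fun u => (hm2 u).2)

include hμ hν hX in
theorem iter_site (hm : ∀ d, 0 < m d)
    {Leaf : (Fin r → ℕ) → Type} [∀ K, Fintype (Leaf K)]
    (V : ∀ K, Measure (Leaf K → ℝ))
    (Q : ∀ K, Measure (Leaf K → Fin (r + 1) → unitInterval))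
    (hVQ : ∀ K : Fin r → ℕ, (∀ i, 0 < K i) → Nonempty (Leaf K) ∧ IsProbabilityMeasure (V K) ∧
      IsProbabilityMeasure (Q K) ∧ ∀ᵐ v ∂(V K), ∀ a, 0 < v a)
    (hlim : ∀ (L : Type) [Fintype L] (W : (L → Fin (r + 1) → unitInterval) → ℝ), Measurable W →
      ∀ c C : ℝ, 0 < c → (∀ u, c ≤ W u) → (∀ u, W u ≤ C) →
        IterTendsto r (fun K => treeF (V K) (Q K) W)
          (∫ u, Real.log (powerMeans m W u) ∂(uniformArrays L r))) (n : ℕ) :
    IterTendsto r (fun K => Cint ν (Q K) (V K) X μ N n)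
      ((Fintype.card (Fin n → Fin N) : ℝ)⁻¹ * ∑ t : Fin n → Fin N,
        ∑ i : Fin N, sitePhi p μ ν r m X (Fintype.card {j // t j = i})) := by
  unfold Cint
  refine IterTendsto.const_mul _ (IterTendsto.finset_sum _ fun t _ => ?_)
  have hmeas : Measurable (fun z : (Fin n → Inter p) × (Fin N → ℝ) =>
      ∫ u, Real.log (powerMeans m (Wt (p := p) X n t z) u)
        ∂(uniformArrays (Fin n × Fin (p - 1)) r)) :=
    UBd.measurable_integral_log_powerMeans (Wt_meas hX n t)
  have hbd : ∀ z : (Fin n → Inter p) × (Fin N → ℝ),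
      |∫ u, Real.log (powerMeans m (Wt (p := p) X n t z) u)
        ∂(uniformArrays (Fin n × Fin (p - 1)) r)| ≤ Bn N n z := fun z =>
    UBd.abs_integral_log_powerMeans_le hm (Wt_meas_u hX t z) (Wt_pos X n t z) (Wt_bd X n t z)
  have h1 : ∑ i : Fin N, sitePhi p μ ν r m X (Fintype.card {j // t j = i}) =
      ∫ z, ∫ u, Real.log (powerMeans m (Wt (p := p) X n t z) u)
        ∂(uniformArrays (Fin n × Fin (p - 1)) r)
        ∂((Measure.pi fun _ : Fin n => μ).prod (Measure.pi fun _ : Fin N => ν)) := by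
    rw [← USite.siteId hμ hν hm hX N n t, integral_prod]
    · rfl
    · exact Integrable.mono' (integrable_Bn hμ ν hν n) hmeas.aestronglyMeasurable
        (Eventually.of_forall fun z => by rw [Real.norm_eq_abs]; exact hbd z)
  rw [h1]
  refine IterTendsto.integral (B := fun z => Bn N n z) ?_ (integrable_Bn hμ ν hν n) ?_ ?_
  · intro K hK
    obtain ⟨h1, h2, h3, h4⟩ := hVQ K hK
    exact (measurable_treeF (Q K) _ (Wt_meas hX n t) (V K)).aestronglyMeasurable
  · intro K hK
    obtain ⟨h1, h2, h3, h4⟩ := hVQ K hK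
    exact Eventually.of_forall fun z => abs_treeF_le (Q K) _ (Wt_meas hX n t)
      (Wt_pos X n t) (Wt_bd X n t) (V K) h4 z
  · refine Eventually.of_forall fun z => ?_
    have hm1 := Wt_meas_u (p := p) hX t z
    have hm2 := Wt_mem (p := p) X t z
    exact hlim (Fin n × Fin (p - 1)) (fun u => Wt (p := p) X n t z u) hm1
      (Real.exp (-Bn N n z)) (Real.exp (Bn N n z)) (Real.exp_pos _)
      (fun u => (hm2 u).1) (fun u => (hm2 u).2)

include hμ hν in
theorem integral_Bn (n : ℕ) : ∫ z, Bn (p := p) N n z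
    ∂((Measure.pi fun _ : Fin n => μ).prod (Measure.pi fun _ : Fin N => ν)) =
    N * Real.log 2 + (N * (∫ x, |x| ∂ν) + n * ∫ θ, supNorm θ ∂μ) := by
  have h1 : Integrable (fun z : (Fin n → Inter p) × (Fin N → ℝ) => ∑ i, |z.2 i|)
      ((Measure.pi fun _ : Fin n => μ).prod (Measure.pi fun _ : Fin N => ν)) :=
    (Red.integrable_sum_eval ν hν.abs).comp_snd _
  have h2 : Integrable (fun z : (Fin n → Inter p) × (Fin N → ℝ) => ∑ j, supNorm (z.1 j))
      ((Measure.pi fun _ : Fin n => μ).prod (Measure.pi fun _ : Fin N => ν)) :=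
    (Red.integrable_sum_eval μ hμ).comp_fst _
  unfold Bn
  have h3 : Integrable (fun z : (Fin n → Inter p) × (Fin N → ℝ) =>
      (∑ i, |z.2 i|) + ∑ j, supNorm (z.1 j))
      ((Measure.pi fun _ : Fin n => μ).prod (Measure.pi fun _ : Fin N => ν)) := h1.add h2
  rw [integral_add (integrable_const _) h3, integral_add h1 h2,
    integral_fun_snd (μ := Measure.pi fun _ : Fin n => μ) (ν := Measure.pi fun _ : Fin N => ν)
      (fun h : Fin N → ℝ => ∑ i, |h i|),
    integral_fun_fst (μ := Measure.pi fun _ : Fin n => μ) (ν := Measure.pi fun _ : Fin N => ν)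
      (fun θs : Fin n → Inter p => ∑ j, supNorm (θs j)),
    Red.integral_sum_eval ν hν.abs, Red.integral_sum_eval μ hμ]
  simp

include hμ hν hX in
theorem abs_Cint_le {A : Type} [Fintype A] [Nonempty A]
    (Q : Measure (A → Fin (r + 1) → unitInterval)) [IsProbabilityMeasure Q]
    (V : Measure (A → ℝ)) [IsProbabilityMeasure V] (hV : ∀ᵐ v ∂V, ∀ a, 0 < v a) (n : ℕ) :
    |Cint ν Q V X μ N n| ≤ N * Real.log 2 + (N * (∫ x, |x| ∂ν) + n * ∫ θ, supNorm θ ∂μ) := by
  unfold Cint
  refine Red.abs_avg_le _ ?_ fun t => ?_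
  · have h1 : 0 ≤ ∫ θ, supNorm θ ∂μ := integral_nonneg fun θ => Red.supNorm_nonneg θ
    have h2 : 0 ≤ ∫ x, |x| ∂ν := integral_nonneg fun x => abs_nonneg x
    have h3 : 0 ≤ Real.log 2 := Real.log_nonneg one_le_two
    positivity
  · rw [← integral_Bn hμ ν hν n, ← Real.norm_eq_abs]
    refine norm_integral_le_of_norm_le (integrable_Bn hμ ν hν n) (Eventually.of_forall fun z => ?_)
    exact abs_treeF_le Q _ (Wt_meas hX n t) (Wt_pos X n t) (Wt_bd X n t) V hV z

include hμ hν hX in
/-- **Upper bound** from the tree limit. -/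
theorem pressure_le_of_tree (hp : 1 ≤ p) (hN : 1 ≤ N) (hKI : KIProp p μ) {α : ℝ} (hα : 0 ≤ α)
    (hm : ∀ d, 0 < m d) (hT : TreeLimit m) :
    pressure p α μ ν N ≤ trialFunctional p α μ ν r m X := by
  obtain ⟨Leaf, instF, V, Q, hVQ, hlim⟩ := hT
  have hN0 : 0 < N := hN
  have hNr : (0 : ℝ) < N := by exact_mod_cast hN0
  have hp0 : (1 : ℝ) ≤ p := by exact_mod_cast hp
  set c := ∫ θ, supNorm θ ∂μ with hc
  have hc0 : 0 ≤ c := integral_nonneg fun θ => Red.supNorm_nonneg θ
  have hx0 : 0 ≤ ∫ x, |x| ∂ν := integral_nonneg fun x => abs_nonneg x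
  have hl2 : 0 ≤ Real.log 2 := Real.log_nonneg one_le_two
  have hlam3 : 0 ≤ α * (p - 1) * N := mul_nonneg (mul_nonneg hα (by linarith)) hNr.le
  have hlam2 : 0 ≤ α * p * N := by positivity
  -- left side
  have hL : IterTendsto r (fun K => (∑' j, poissonWeight (α * N) j * Red.lpInt p μ ν N j) +
      (∑' k, poissonWeight (α * (p - 1) * N) k *
        ∫ θs : Fin k → Inter p, treeF (V K) (Q K) (Wedge (p := p) X θs)
          ∂(Measure.pi fun _ => μ)))
      ((∑' j, poissonWeight (α * N) j * Red.lpInt p μ ν N j) +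
        ∑' k, poissonWeight (α * (p - 1) * N) k * (k * edgeFun p μ r m X)) := by
    refine (IterTendsto.const r _).add ?_
    refine IterTendsto.tsum (B := fun k => poissonWeight (α * (p - 1) * N) k * (k * c)) ?_ ?_ ?_
    · refine UPois.summable_poissonWeight_mul (C := c) hlam3 fun k => ?_
      have hk : (0 : ℝ) ≤ k := Nat.cast_nonneg k
      rw [abs_of_nonneg (mul_nonneg hk hc0)]
      nlinarith
    · intro K hK k
      obtain ⟨h1, h2, h3, h4⟩ := hVQ K hK
      rw [abs_mul, abs_of_nonneg (UPois.poissonWeight_nonneg hlam3 k)]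
      refine mul_le_mul_of_nonneg_left ?_ (UPois.poissonWeight_nonneg hlam3 k)
      have h5 : |∫ θs : Fin k → Inter p, treeF (V K) (Q K) (Wedge (p := p) X θs)
          ∂(Measure.pi fun _ => μ)| ≤ ∫ θs : Fin k → Inter p, Bk k θs
            ∂(Measure.pi fun _ => μ) := by
        rw [← Real.norm_eq_abs]
        refine norm_integral_le_of_norm_le (integrable_Bk hμ k) (Eventually.of_forall fun θs => ?_)
        exact abs_treeF_le (Q K) _ (UBd.measurable_Wedge hX) (UBd.Wedge_pos X)
          (UBd.abs_log_Wedge_le X) (V K) h4 θs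
      refine h5.trans (le_of_eq ?_)
      unfold Bk
      rw [Red.integral_sum_eval μ hμ, Fintype.card_fin]
    · intro k
      exact (iter_edge hμ hX hm V Q hVQ hlim k).const_mul _
  -- right side
  have hR : IterTendsto r (fun K => ∑' n, poissonWeight (α * p * N) n *
      Cint ν (Q K) (V K) X μ N n)
      (∑' n, poissonWeight (α * p * N) n * ((Fintype.card (Fin n → Fin N) : ℝ)⁻¹ *
        ∑ t : Fin n → Fin N, ∑ i : Fin N,
          sitePhi p μ ν r m X (Fintype.card {j // t j = i}))) := by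
    refine IterTendsto.tsum (B := fun n => poissonWeight (α * p * N) n *
      (N * Real.log 2 + (N * (∫ x, |x| ∂ν) + n * c))) ?_ ?_ ?_
    · refine UPois.summable_poissonWeight_mul
        (C := N * Real.log 2 + N * (∫ x, |x| ∂ν) + c) hlam2 fun n => ?_
      have hk : (0 : ℝ) ≤ n := Nat.cast_nonneg n
      have e1 := mul_nonneg hNr.le hl2
      have e2 := mul_nonneg hNr.le hx0
      rw [abs_of_nonneg (by positivity)]
      nlinarith [mul_nonneg e1 hk, mul_nonneg e2 hk]
    · intro K hK n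
      obtain ⟨h1, h2, h3, h4⟩ := hVQ K hK
      rw [abs_mul, abs_of_nonneg (UPois.poissonWeight_nonneg hlam2 n)]
      exact mul_le_mul_of_nonneg_left (abs_Cint_le hμ ν hν hX (Q K) (V K) h4 n)
        (UPois.poissonWeight_nonneg hlam2 n)
    · intro n
      exact (iter_site hμ ν hν hX hm V Q hVQ hlim n).const_mul _
  have hle := hL.le hR (fun K hK => by
    obtain ⟨h1, h2, h3, h4⟩ := hVQ K hK
    exact tree_ineq hμ ν hν hX (Q K) (V K) h4 hN0 hp hKI hα)
  -- evaluate
  have e1 : ∑' k : ℕ, poissonWeight (α * (p - 1) * N) k * (k * edgeFun p μ r m X) =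
      α * (p - 1) * N * edgeFun p μ r m X := by
    have : ∀ k : ℕ, poissonWeight (α * (p - 1) * N) k * (k * edgeFun p μ r m X) =
        (poissonWeight (α * (p - 1) * N) k * k) * edgeFun p μ r m X := fun k => by ring
    simp only [this]
    rw [tsum_mul_right, UPois.tsum_poissonWeight_mul_id]
  have hphi : ∀ k : ℕ, |sitePhi p μ ν r m X k| ≤
      (Real.log 2 + (∫ x, |x| ∂ν) + c) * (1 + k) := by
    intro k
    have h1 := RedT.abs_siteTermFun_le (p := p) hm hX hμ hν k
    have h2 : |sitePhi p μ ν r m X k| ≤ Real.log 2 + ((∫ h, |h| ∂ν) + k * ∫ θ, supNorm θ ∂μ) := by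
      unfold sitePhi
      refine (abs_add_le _ _).trans (add_le_add (le_of_eq (abs_of_nonneg hl2)) h1)
    have hk : (0 : ℝ) ≤ k := Nat.cast_nonneg k
    nlinarith [mul_nonneg hl2 hk, mul_nonneg hx0 hk]
  have e2 : ∑' n, poissonWeight (α * p * N) n * ((Fintype.card (Fin n → Fin N) : ℝ)⁻¹ *
        ∑ t : Fin n → Fin N, ∑ i : Fin N,
          sitePhi p μ ν r m X (Fintype.card {j // t j = i})) =
      N * ∑' k, poissonWeight (α * p) k * sitePhi p μ ν r m X k := by
    rw [← UPois.poisson_split (lam := α * p) (by positivity) hN hphi]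
    refine tsum_congr fun n => ?_
    rw [Fintype.card_fun, Fintype.card_fin, Fintype.card_fin]
    push_cast
    rfl
  have e3 : ∑' k, poissonWeight (α * p) k * sitePhi p μ ν r m X k =
      Real.log 2 + siteFun p (α * p) μ ν r m X := by
    have h1 : ∀ k : ℕ, poissonWeight (α * p) k * sitePhi p μ ν r m X k =
        poissonWeight (α * p) k * Real.log 2 + poissonWeight (α * p) k *
          (sitePhi p μ ν r m X k - Real.log 2) := fun k => by ring
    simp only [h1]
    have h2 : Summable fun k : ℕ => poissonWeight (α * p) k *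
        (sitePhi p μ ν r m X k - Real.log 2) := by
      refine UPois.summable_poissonWeight_mul
        (C := 2 * Real.log 2 + (∫ x, |x| ∂ν) + c) (by positivity) fun k => ?_
      have h3 := hphi k
      have h4 := abs_sub (sitePhi p μ ν r m X k) (Real.log 2)
      rw [abs_of_nonneg hl2] at h4
      have hk : (0 : ℝ) ≤ k := Nat.cast_nonneg k
      nlinarith [mul_nonneg hl2 hk]
    rw [Summable.tsum_add ((UPois.hasSum_poissonWeight _).summable.mul_right _) h2,
      tsum_mul_right, (UPois.hasSum_poissonWeight _).tsum_eq, one_mul]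
    congr 1
    unfold siteFun sitePhi
    refine tsum_congr fun k => ?_
    rw [add_sub_cancel_left]
  rw [e1, e2, e3] at hle
  rw [Red.pressure_eq, trialFunctional_eq]
  have h5 : (1 / (N : ℝ)) * ∑' M : ℕ, poissonWeight (α * N) M * Red.lpInt p μ ν N M ≤
      (1 / (N : ℝ)) * (N * (Real.log 2 + siteFun p (α * p) μ ν r m X) -
        α * (p - 1) * N * edgeFun p μ r m X) :=
    mul_le_mul_of_nonneg_left (by linarith) (by positivity)
  refine h5.trans (le_of_eq ?_)
  field_simp

end

end Crest.Agent.R141.U
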