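import Crest.Prelude.Def_DilutedSpinGlass

/-!
R141, Part U, U2 part 1: averaging operators on Lipschitz functions of `S → ℝ`
(`S` finite), their commutation, positivity, iterates, Poisson sums and thinning.
-/

set_option autoImplicit false

namespace Crest.Agent.R141.U

open MeasureTheory Filter Topology Crest.ProbabilityR.Diluted
open scoped NNReal

/-- Lipschitz functions on `S → ℝ` as a submodule. -/
def LipS (S : Type) [Fintype S] : Submodule ℝ ((S → ℝ) → ℝ) where
  carrier := {G | ∃ C : ℝ≥0, LipschitzWith C G}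
  add_mem' := by
    rintro a b ⟨C, hC⟩ ⟨D, hD⟩
    exact ⟨C + D, hC.add hD⟩
  zero_mem' := ⟨0, LipschitzWith.const 0⟩
  smul_mem' := by
    rintro c a ⟨C, hC⟩
    refine ⟨‖c‖₊ * C, ?_⟩
    have h := (lipschitzWith_smul c (β := ℝ)).comp hC
    exact h

/-- A random element of `S → ℝ` with integrable norm, given on a probability space. -/
structure ULaw (S : Type) [Fintype S] where
  Y : Type
  mY : MeasurableSpace Y
  ρ : Measure Y
  prob : IsProbabilityMeasure ρ
  ξ : Y → S → ℝ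
  meas : Measurable ξ
  int : Integrable (fun y => ‖ξ y‖) ρ

attribute [instance] ULaw.mY ULaw.prob

variable {S : Type} [Fintype S]

theorem LipS.abs_sub_le {G : (S → ℝ) → ℝ} {C : ℝ≥0} (hG : LipschitzWith C G) (g h : S → ℝ) :
    |G (g + h) - G g| ≤ C * ‖h‖ := by
  have := hG.dist_le_mul (g + h) g
  rw [Real.dist_eq, dist_eq_norm, add_sub_cancel_left] at this
  exact this

theorem LipS.abs_le {G : (S → ℝ) → ℝ} {C : ℝ≥0} (hG : LipschitzWith C G) (g h : S → ℝ) :
    |G (g + h)| ≤ |G g| + C * ‖h‖ := by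
  have h1 := LipS.abs_sub_le hG g h
  have h2 : |G (g + h)| ≤ |G (g + h) - G g| + |G g| := by
    have := abs_add_le (G (g + h) - G g) (G g)
    simpa using this
  linarith

theorem ULaw.integrable (κ : ULaw S) {G : (S → ℝ) → ℝ} {C : ℝ≥0} (hG : LipschitzWith C G)
    (g : S → ℝ) : Integrable (fun y => G (g + κ.ξ y)) κ.ρ := by
  have hm : Measurable (fun y => G (g + κ.ξ y)) :=
    hG.continuous.measurable.comp (measurable_const.add κ.meas)
  refine Integrable.mono' ((integrable_const (|G g|)).add (κ.int.const_mul (C : ℝ)))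
    hm.aestronglyMeasurable (Eventually.of_forall fun y => ?_)
  simpa using LipS.abs_le hG g (κ.ξ y)

/-- The averaging operator as a function. -/
noncomputable def ULaw.app (κ : ULaw S) (G : (S → ℝ) → ℝ) (g : S → ℝ) : ℝ :=
  ∫ y, G (g + κ.ξ y) ∂κ.ρ

theorem ULaw.app_lip (κ : ULaw S) {G : (S → ℝ) → ℝ} {C : ℝ≥0} (hG : LipschitzWith C G) :
    LipschitzWith C (κ.app G) := by
  refine LipschitzWith.of_dist_le_mul fun g g' => ?_
  rw [Real.dist_eq]
  unfold ULaw.app
  rw [← integral_sub (κ.integrable hG g) (κ.integrable hG g')]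
  have : ∀ y, ‖G (g + κ.ξ y) - G (g' + κ.ξ y)‖ ≤ C * dist g g' := by
    intro y
    have := hG.dist_le_mul (g + κ.ξ y) (g' + κ.ξ y)
    rwa [Real.dist_eq, dist_add_right] at this
  have h2 := norm_integral_le_of_norm_le_const (μ := κ.ρ) (Eventually.of_forall this)
  simpa using h2

/-- The averaging operator as an endomorphism of the Lipschitz functions. -/
noncomputable def Kop (κ : ULaw S) : Module.End ℝ (LipS S) where
  toFun G := ⟨κ.app G.1, by obtain ⟨C, hC⟩ := G.2; exact ⟨C, κ.app_lip hC⟩⟩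
  map_add' := by
    rintro ⟨G, C, hC⟩ ⟨G', C', hC'⟩
    apply Subtype.ext
    funext g
    show κ.app (G + G') g = κ.app G g + κ.app G' g
    unfold ULaw.app
    simp only [Pi.add_apply]
    exact integral_add (κ.integrable hC g) (κ.integrable hC' g)
  map_smul' := by
    rintro c ⟨G, C, hC⟩
    apply Subtype.ext
    funext g
    show κ.app (c • G) g = c * κ.app G g
    unfold ULaw.app
    simp only [Pi.smul_apply, smul_eq_mul]
    exact integral_const_mul _ _

theorem Kop_apply (κ : ULaw S) (G : LipS S) (g : S → ℝ) :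
    ((Kop κ) G : (S → ℝ) → ℝ) g = ∫ y, (G : (S → ℝ) → ℝ) (g + κ.ξ y) ∂κ.ρ := rfl

theorem Kop_commute (κ κ' : ULaw S) : Commute (Kop κ) (Kop κ') := by
  apply LinearMap.ext
  rintro ⟨G, C, hC⟩
  apply Subtype.ext
  funext g
  simp only [Module.End.mul_apply, Kop_apply]
  have hint : Integrable (fun z : κ.Y × κ'.Y => G (g + κ.ξ z.1 + κ'.ξ z.2)) (κ.ρ.prod κ'.ρ) := by
    have hm : Measurable (fun z : κ.Y × κ'.Y => G (g + κ.ξ z.1 + κ'.ξ z.2)) :=
      hC.continuous.measurable.comp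
        ((measurable_const.add (κ.meas.comp measurable_fst)).add (κ'.meas.comp measurable_snd))
    have hb : Integrable (fun z : κ.Y × κ'.Y => |G g| + C * (‖κ.ξ z.1‖ + ‖κ'.ξ z.2‖))
        (κ.ρ.prod κ'.ρ) :=
      (integrable_const _).add (((κ.int.comp_fst κ'.ρ).add (κ'.int.comp_snd κ.ρ)).const_mul _)
    refine Integrable.mono' hb hm.aestronglyMeasurable (Eventually.of_forall fun z => ?_)
    have h1 := LipS.abs_le hC g (κ.ξ z.1 + κ'.ξ z.2)
    rw [← add_assoc] at h1
    have h2 : (C : ℝ) * ‖κ.ξ z.1 + κ'.ξ z.2‖ ≤ C * (‖κ.ξ z.1‖ + ‖κ'.ξ z.2‖) :=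
      mul_le_mul_of_nonneg_left (norm_add_le _ _) C.2
    rw [Real.norm_eq_abs]
    linarith
  rw [integral_integral_swap hint]
  refine integral_congr_ae (Eventually.of_forall fun y => ?_)
  refine integral_congr_ae (Eventually.of_forall fun y' => ?_)
  simp only
  congr 1
  rw [add_right_comm]

/-- Positive operators. -/
def OpMono (T : Module.End ℝ (LipS S)) : Prop :=
  ∀ G G' : LipS S, (∀ g, (G : (S → ℝ) → ℝ) g ≤ (G' : (S → ℝ) → ℝ) g) →
    ∀ g, (T G : (S → ℝ) → ℝ) g ≤ (T G' : (S → ℝ) → ℝ) g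

theorem Kop_mono (κ : ULaw S) : OpMono (Kop κ) := by
  rintro ⟨G, C, hC⟩ ⟨G', C', hC'⟩ h g
  rw [Kop_apply, Kop_apply]
  exact integral_mono (κ.integrable hC g) (κ.integrable hC' g) (fun y => h _)

theorem OpMono.add {T T' : Module.End ℝ (LipS S)} (h : OpMono T) (h' : OpMono T') :
    OpMono (T + T') := by
  intro G G' hG g
  have h1 := h G G' hG g
  have h2 := h' G G' hG g
  show (T G : (S → ℝ) → ℝ) g + (T' G : (S → ℝ) → ℝ) g ≤
    (T G' : (S → ℝ) → ℝ) g + (T' G' : (S → ℝ) → ℝ) g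
  linarith

theorem OpMono.smul {T : Module.End ℝ (LipS S)} (h : OpMono T) {c : ℝ} (hc : 0 ≤ c) :
    OpMono (c • T) := by
  intro G G' hG g
  show c * (T G : (S → ℝ) → ℝ) g ≤ c * (T G' : (S → ℝ) → ℝ) g
  exact mul_le_mul_of_nonneg_left (h G G' hG g) hc

theorem OpMono.pow {T : Module.End ℝ (LipS S)} (h : OpMono T) (M : ℕ) : OpMono (T ^ M) := by
  induction M with
  | zero =>
    intro G G' hG g
    simpa using hG g
  | succ M ih =>
    intro G G' hG g
    rw [pow_succ, Module.End.mul_apply, Module.End.mul_apply]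
    exact ih _ _ (h G G' hG) g

/-- The hybrid argument. -/
theorem hybrid_pow {T T' : Module.End ℝ (LipS S)} (hc : Commute T T') (h : OpMono T)
    (h' : OpMono T') (G : LipS S)
    (hG : ∀ g, (T G : (S → ℝ) → ℝ) g ≤ (T' G : (S → ℝ) → ℝ) g) (M : ℕ) (g : S → ℝ) :
    ((T ^ M) G : (S → ℝ) → ℝ) g ≤ ((T' ^ M) G : (S → ℝ) → ℝ) g := by
  induction M generalizing g with
  | zero => simp
  | succ M ih =>
    have h1 : ((T ^ (M + 1)) G : (S → ℝ) → ℝ) g ≤ ((T ^ M) (T' G) : (S → ℝ) → ℝ) g := by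
      rw [pow_succ, Module.End.mul_apply]
      exact h.pow M _ _ hG g
    have h2 : (T ^ M) (T' G) = T' ((T ^ M) G) := by
      rw [← Module.End.mul_apply, ← Module.End.mul_apply, (hc.pow_left M).eq]
    have h3 : (T' ((T ^ M) G) : (S → ℝ) → ℝ) g ≤ ((T' ^ (M + 1)) G : (S → ℝ) → ℝ) g := by
      rw [pow_succ', Module.End.mul_apply]
      exact h' _ _ ih g
    rw [h2] at h1
    exact h1.trans h3

/-- Bound on iterates. -/
theorem Kop_pow_lip (κ : ULaw S) (M : ℕ) (G : LipS S) {C : ℝ≥0}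
    (hG : LipschitzWith C (G : (S → ℝ) → ℝ)) :
    LipschitzWith C (((Kop κ) ^ M) G : (S → ℝ) → ℝ) := by
  induction M with
  | zero => simpa using hG
  | succ M ih =>
    rw [pow_succ', Module.End.mul_apply]
    exact κ.app_lip ih

theorem Kop_pow_sub_le (κ : ULaw S) (M : ℕ) (G : LipS S) {C : ℝ≥0}
    (hG : LipschitzWith C (G : (S → ℝ) → ℝ)) (g : S → ℝ) :
    |(((Kop κ) ^ M) G : (S → ℝ) → ℝ) g - (G : (S → ℝ) → ℝ) g| ≤
      M * (C * ∫ y, ‖κ.ξ y‖ ∂κ.ρ) := by
  induction M with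
  | zero => simp
  | succ M ih =>
    have hL := Kop_pow_lip κ M G hG
    have h1 : |(((Kop κ) ^ (M + 1)) G : (S → ℝ) → ℝ) g - (((Kop κ) ^ M) G : (S → ℝ) → ℝ) g| ≤
        C * ∫ y, ‖κ.ξ y‖ ∂κ.ρ := by
      rw [pow_succ', Module.End.mul_apply, Kop_apply]
      have e : (((Kop κ) ^ M) G : (S → ℝ) → ℝ) g =
          ∫ _y, (((Kop κ) ^ M) G : (S → ℝ) → ℝ) g ∂κ.ρ := by simp
      rw [e, ← integral_sub (κ.integrable hL g) (integrable_const _), ← integral_const_mul]
      rw [← Real.norm_eq_abs]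
      refine (norm_integral_le_integral_norm _).trans ?_
      refine integral_mono_of_nonneg (Eventually.of_forall fun y => norm_nonneg _)
        (κ.int.const_mul _) (Eventually.of_forall fun y => ?_)
      exact LipS.abs_sub_le hL g (κ.ξ y)
    have h2 := abs_add_le ((((Kop κ) ^ (M + 1)) G : (S → ℝ) → ℝ) g -
      (((Kop κ) ^ M) G : (S → ℝ) → ℝ) g) ((((Kop κ) ^ M) G : (S → ℝ) → ℝ) g -
        (G : (S → ℝ) → ℝ) g)
    rw [sub_add_sub_cancel] at h2
    push_cast
    linarith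

/-- Iterates as integrals over products. -/
theorem Kop_pow_apply (κ : ULaw S) (M : ℕ) (G : LipS S) (g : S → ℝ) :
    (((Kop κ) ^ M) G : (S → ℝ) → ℝ) g =
      ∫ ys : Fin M → κ.Y, (G : (S → ℝ) → ℝ) (g + ∑ j, κ.ξ (ys j)) ∂(Measure.pi fun _ => κ.ρ) := by
  induction M generalizing g with
  | zero => simp
  | succ M ih =>
    obtain ⟨C, hC⟩ := G.2
    rw [pow_succ', Module.End.mul_apply, Kop_apply]
    have e := measurePreserving_piFinSuccAbove (fun _ : Fin (M + 1) => κ.ρ) 0
    have h2 := e.symm.integral_comp' (g := fun ys : Fin (M + 1) → κ.Y =>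
      (G : (S → ℝ) → ℝ) (g + ∑ j, κ.ξ (ys j)))
    rw [← h2, integral_prod]
    · refine integral_congr_ae (Eventually.of_forall fun y => ?_)
      simp only
      rw [ih]
      refine integral_congr_ae (Eventually.of_forall fun ys => ?_)
      simp only [MeasurableEquiv.piFinSuccAbove_symm_apply, Fin.insertNthEquiv_zero,
        Fin.consEquiv_apply, Fin.sum_univ_succ, Fin.cons_zero, Fin.cons_succ]
      rw [add_assoc]
    · have hm : Measurable (fun z : κ.Y × (Fin M → κ.Y) =>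
          (G : (S → ℝ) → ℝ) (g + (κ.ξ z.1 + ∑ j, κ.ξ (z.2 j)))) := by
        refine hC.continuous.measurable.comp (measurable_const.add ((κ.meas.comp
          measurable_fst).add ?_))
        exact Finset.measurable_sum _ fun j _ => κ.meas.comp
          ((measurable_pi_apply j).comp measurable_snd)
      have hb : Integrable (fun z : κ.Y × (Fin M → κ.Y) => |(G : (S → ℝ) → ℝ) g| +
          C * (‖κ.ξ z.1‖ + ∑ j, ‖κ.ξ (z.2 j)‖)) (κ.ρ.prod (Measure.pi fun _ => κ.ρ)) := by
        refine (integrable_const _).add ((Integrable.add (κ.int.comp_fst _) ?_).const_mul _)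
        refine Integrable.comp_snd (f := fun ys : Fin M → κ.Y => ∑ j, ‖κ.ξ (ys j)‖) ?_ κ.ρ
        exact integrable_finsetSum _ fun j _ =>
          integrable_comp_eval (μ := fun _ : Fin M => κ.ρ) (i := j) (f := fun y => ‖κ.ξ y‖) κ.int
      refine (Integrable.mono' hb hm.aestronglyMeasurable
        (Eventually.of_forall fun z => ?_)).congr (Eventually.of_forall fun z => ?_)
      · have h1 := LipS.abs_le hC g (κ.ξ z.1 + ∑ j, κ.ξ (z.2 j))
        have h2 : (C : ℝ) * ‖κ.ξ z.1 + ∑ j, κ.ξ (z.2 j)‖ ≤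
            C * (‖κ.ξ z.1‖ + ∑ j, ‖κ.ξ (z.2 j)‖) :=
          mul_le_mul_of_nonneg_left ((norm_add_le _ _).trans
            (add_le_add le_rfl (norm_sum_le _ _))) C.2
        rw [Real.norm_eq_abs]
        linarith
      · simp only [MeasurableEquiv.piFinSuccAbove_symm_apply, Fin.insertNthEquiv_zero,
          Fin.consEquiv_apply, Fin.sum_univ_succ, Fin.cons_zero, Fin.cons_succ]

end Crest.Agent.R141.U
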