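import Crest.Agent.R141.UEval
import Crest.Agent.R141.UBd
import Crest.Agent.R141.RedP

/-!
R141, Part U: the hybrid sequence `aSeq` and its integrated version (over weights and fields).
-/

set_option autoImplicit false

namespace Crest.Agent.R141.U

open MeasureTheory Filter Topology Crest.ProbabilityR.Diluted
open scoped NNReal ENNReal

section

variable {p : ℕ} {μ : Measure (Inter p)} [IsProbabilityMeasure μ]
  (hμ : Integrable (fun θ => supNorm θ) μ)
  {A : Type} [Fintype A] [Nonempty A] {N : ℕ} (hN : 0 < N)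
  {Y : Type} [MeasurableSpace Y] (Q : Measure Y) [IsProbabilityMeasure Q]
  (x : Y → A → ℝ) (hx : ∀ a, Measurable fun y => x y a)

/-- The mixed sequence. -/
noncomputable def aSeq (v : A → ℝ) (hs : Fin N → ℝ) (j k l : ℕ) : ℝ :=
  (((Kop (law1 hμ hN (fun s : A × (Fin N → Bool) => s.2))) ^ j *
    (Kop (law3 hμ Q (xS N x) (xS_meas x hx) (S := A × (Fin N → Bool)))) ^ k *
    (Kop (law2 hμ hN (fun s : A × (Fin N → Bool) => s.2) Q (xS N x) (xS_meas x hx))) ^ l)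
      (lseL (A × (Fin N → Bool))) : (A × (Fin N → Bool) → ℝ) → ℝ) (g0 v hs)

theorem aSeq_step (hp : 1 ≤ p) (hKI : KIProp p μ) (v : A → ℝ) (hs : Fin N → ℝ) (j k l : ℕ) :
    (1 / (p : ℝ)) * aSeq hμ hN Q x hx v hs (j + 1) k l +
      (1 - 1 / (p : ℝ)) * aSeq hμ hN Q x hx v hs j (k + 1) l ≤
      aSeq hμ hN Q x hx v hs j k (l + 1) := by
  set S := A × (Fin N → Bool) with hS
  set L1 := law1 hμ hN (fun s : S => s.2) with hL1
  set L2 := law2 hμ hN (fun s : S => s.2) Q (xS N x) (xS_meas x hx) with hL2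
  set L3 := law3 hμ Q (xS N x) (xS_meas x hx) (S := S) with hL3
  have hp0 : (1 : ℝ) ≤ p := by exact_mod_cast hp
  have hpp : (0 : ℝ) < p := by linarith
  have hc13 : Commute (Kop L1) (Kop L3) := Kop_commute _ _
  have hc12 : Commute (Kop L1) (Kop L2) := Kop_commute _ _
  have hc32 : Commute (Kop L3) (Kop L2) := Kop_commute _ _
  have hmono : OpMono ((Kop L1) ^ j * (Kop L3) ^ k * (Kop L2) ^ l) := by
    intro G G' hG g
    simp only [Module.End.mul_apply]
    exact (Kop_mono L1).pow j _ _ ((Kop_mono L3).pow k _ _ ((Kop_mono L2).pow l _ _ hG)) g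
  have h1 : (Kop L1) ^ (j + 1) * (Kop L3) ^ k * (Kop L2) ^ l =
      ((Kop L1) ^ j * (Kop L3) ^ k * (Kop L2) ^ l) * Kop L1 := by
    rw [pow_succ, mul_assoc, mul_assoc, mul_assoc, mul_assoc]
    congr 1
    rw [← mul_assoc, (hc13.pow_right k).eq, mul_assoc, (hc12.pow_right l).eq]
  have h2 : (Kop L1) ^ j * (Kop L3) ^ (k + 1) * (Kop L2) ^ l =
      ((Kop L1) ^ j * (Kop L3) ^ k * (Kop L2) ^ l) * Kop L3 := by
    rw [pow_succ, mul_assoc, mul_assoc, mul_assoc, mul_assoc]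
    congr 2
    rw [(hc32.pow_right l).eq]
  have h3 : (Kop L1) ^ j * (Kop L3) ^ k * (Kop L2) ^ (l + 1) =
      ((Kop L1) ^ j * (Kop L3) ^ k * (Kop L2) ^ l) * Kop L2 := by
    rw [pow_succ, ← mul_assoc]
  have h4 := hmono _ _ (KI_op hμ hN (fun s : S => s.2) Q (xS N x) (xS_meas x hx)
    hp hKI) (g0 v hs)
  have h5 : (((Kop L1) ^ j * (Kop L3) ^ k * (Kop L2) ^ l)
      ((Kmix hμ hN (fun s : S => s.2) Q (xS N x) (xS_meas x hx)) (lseL S)) :
        (S → ℝ) → ℝ) (g0 v hs) =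
      (1 / (p : ℝ)) * aSeq hμ hN Q x hx v hs (j + 1) k l +
        (1 - 1 / (p : ℝ)) * aSeq hμ hN Q x hx v hs j (k + 1) l := by
    show _ = (1 / (p : ℝ)) * (((Kop L1) ^ (j + 1) * (Kop L3) ^ k * (Kop L2) ^ l) (lseL S) :
      (S → ℝ) → ℝ) (g0 v hs) + (1 - 1 / (p : ℝ)) *
        (((Kop L1) ^ j * (Kop L3) ^ (k + 1) * (Kop L2) ^ l) (lseL S) :
      (S → ℝ) → ℝ) (g0 v hs)
    rw [h1, h2, Module.End.mul_apply _ (Kop L1), Module.End.mul_apply _ (Kop L3)]
    unfold Kmix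
    rw [LinearMap.add_apply, LinearMap.smul_apply, LinearMap.smul_apply, map_add, map_smul,
      map_smul]
    have : (1 : ℝ) - 1 / p = (p - 1) / p := by field_simp
    rw [this]
    rfl
  rw [h5] at h4
  show _ ≤ (((Kop L1) ^ j * (Kop L3) ^ k * (Kop L2) ^ (l + 1)) (lseL S) :
      (S → ℝ) → ℝ) (g0 v hs)
  rw [h3, Module.End.mul_apply _ (Kop L2)]
  exact h4

theorem aSeq_zero (v : A → ℝ) (hv : ∀ a, 0 < v a) (hs : Fin N → ℝ) (j k : ℕ) :
    aSeq hμ hN Q x hx v hs j k 0 = Apart p μ hs j + Bpart p μ Q x v k := by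
  have := K13_iter hμ hN Q x hx v hv hs j k
  unfold aSeq
  rw [pow_zero, mul_one]
  exact this

theorem aSeq_two (v : A → ℝ) (hv : ∀ a, 0 < v a) (hs : Fin N → ℝ) (n : ℕ) :
    aSeq hμ hN Q x hx v hs 0 0 n = Cpart p μ Q x v hs n := by
  have := K2_iter hμ hN Q x hx v hv hs n
  unfold aSeq
  rw [pow_zero, pow_zero, one_mul, one_mul]
  exact this

/-- all mixed iterates are 1-Lipschitz. -/
theorem op_lip (j k l : ℕ) :
    LipschitzWith 1 (((Kop (law1 hμ hN (fun s : A × (Fin N → Bool) => s.2))) ^ j *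
    (Kop (law3 hμ Q (xS N x) (xS_meas x hx) (S := A × (Fin N → Bool)))) ^ k *
    (Kop (law2 hμ hN (fun s : A × (Fin N → Bool) => s.2) Q (xS N x) (xS_meas x hx))) ^ l)
      (lseL (A × (Fin N → Bool))) : (A × (Fin N → Bool) → ℝ) → ℝ) := by
  simp only [Module.End.mul_apply]
  exact Kop_pow_lip _ _ _ (Kop_pow_lip _ _ _ (Kop_pow_lip _ _ _ lse_lip))

include hμ in
/-- `E ‖ξ‖ ≤ E supNorm`. -/
theorem law_norm_le {S : Type} [Fintype S] {Z : Type} [MeasurableSpace Z] (ρ : Measure Z)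
    [IsProbabilityMeasure ρ] {ξ : Inter p × Z → S → ℝ}
    (hint : Integrable (fun z => ‖ξ z‖) (μ.prod ρ))
    (hb : ∀ z s, |ξ z s| ≤ supNorm z.1) : ∫ z, ‖ξ z‖ ∂(μ.prod ρ) ≤ ∫ θ, supNorm θ ∂μ := by
  have h1 : ∫ z : Inter p × Z, supNorm z.1 ∂(μ.prod ρ) = ∫ θ, supNorm θ ∂μ := by
    rw [integral_fun_fst]
    simp
  rw [← h1]
  refine integral_mono hint (hμ.comp_fst ρ) fun z => ?_
  refine (pi_norm_le_iff_of_nonneg (Red.supNorm_nonneg _)).2 fun s => ?_
  rw [Real.norm_eq_abs]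
  exact hb z s

omit [Nonempty A] in
theorem lse_g0 [Nonempty A] (v : A → ℝ) (hv : ∀ a, 0 < v a) (hs : Fin N → ℝ) :
    lse (g0 v hs) = Real.log (∑ a, v a) +
      logPartition N (p := p) (M := 0) Fin.elim0 Fin.elim0 hs := by
  unfold lse logPartition
  rw [← Real.log_mul]
  · congr 1
    rw [Fintype.sum_prod_type, Finset.sum_mul]
    refine Finset.sum_congr rfl fun a _ => ?_
    rw [Finset.mul_sum]
    refine Finset.sum_congr rfl fun σ _ => ?_
    simp only [g0, Finset.univ_eq_empty, Finset.sum_empty, zero_add]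
    rw [Real.exp_add, Real.exp_log (hv a)]
  · exact (Finset.sum_pos (fun a _ => hv a) Finset.univ_nonempty).ne'
  · exact (Finset.sum_pos (fun σ _ => Real.exp_pos _) Finset.univ_nonempty).ne'

theorem norm_law1_le (hμ : Integrable (fun θ => supNorm θ) μ) (hN : 0 < N) :
    ∫ y, ‖(law1 hμ hN (fun s : A × (Fin N → Bool) => s.2)).ξ y‖
      ∂(law1 hμ hN (fun s : A × (Fin N → Bool) => s.2)).ρ ≤ ∫ θ, supNorm θ ∂μ := by
  haveI : Nonempty (Fin N) := ⟨⟨0, hN⟩⟩
  exact law_norm_le hμ (unif (Fin p → Fin N))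
    (law1 hμ hN (fun s : A × (Fin N → Bool) => s.2)).int
    (fun z s => Red.abs_le_supNorm _ _)

theorem norm_law3_le : ∫ y, ‖(law3 hμ Q (xS N x) (xS_meas x hx)
      (S := A × (Fin N → Bool))).ξ y‖ ∂(law3 hμ Q (xS N x) (xS_meas x hx)
      (S := A × (Fin N → Bool))).ρ ≤ ∫ θ, supNorm θ ∂μ :=
  law_norm_le hμ (Measure.pi fun _ : Fin p => Q)
    (law3 hμ Q (xS N x) (xS_meas x hx) (S := A × (Fin N → Bool))).int
    (fun z s => Red.abs_log_edgeTerm_le _ _)

theorem norm_law2_le : ∫ y, ‖(law2 hμ hN (fun s : A × (Fin N → Bool) => s.2) Q (xS N x)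
      (xS_meas x hx)).ξ y‖ ∂(law2 hμ hN (fun s : A × (Fin N → Bool) => s.2) Q (xS N x)
      (xS_meas x hx)).ρ ≤ ∫ θ, supNorm θ ∂μ := by
  haveI : Nonempty (Fin N) := ⟨⟨0, hN⟩⟩
  exact law_norm_le hμ ((Measure.pi fun _ : Fin (p - 1) => Q).prod (unif (Fin N)))
    (law2 hμ hN (fun s : A × (Fin N → Bool) => s.2) Q (xS N x) (xS_meas x hx)).int
    (fun z s => Red.abs_siteMessage_le _ _ _)

theorem aSeq_bound (v : A → ℝ) (hv : ∀ a, 0 < v a) (hs : Fin N → ℝ) (j k l : ℕ) :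
    |aSeq hμ hN Q x hx v hs j k l - Real.log (∑ a, v a)| ≤
      N * Real.log 2 + (∑ i, |hs i|) + ((j : ℝ) + k + l) * ∫ θ, supNorm θ ∂μ := by
  set S := A × (Fin N → Bool) with hS
  set L1 := law1 hμ hN (fun s : S => s.2) with hL1
  set L2 := law2 hμ hN (fun s : S => s.2) Q (xS N x) (xS_meas x hx) with hL2
  set L3 := law3 hμ Q (xS N x) (xS_meas x hx) (S := S) with hL3
  set c := ∫ θ, supNorm θ ∂μ with hc
  have h2 : LipschitzWith 1 (((Kop L2) ^ l) (lseL S) : (S → ℝ) → ℝ) := Kop_pow_lip _ _ _ lse_lip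
  have h3 : LipschitzWith 1 (((Kop L3) ^ k) (((Kop L2) ^ l) (lseL S)) : (S → ℝ) → ℝ) :=
    Kop_pow_lip _ _ _ h2
  have e1 := Kop_pow_sub_le L1 j (((Kop L3) ^ k) (((Kop L2) ^ l) (lseL S))) h3 (g0 v hs)
  have e2 := Kop_pow_sub_le L3 k (((Kop L2) ^ l) (lseL S)) h2 (g0 v hs)
  have e3 := Kop_pow_sub_le L2 l (lseL S) (C := 1) lse_lip (g0 v hs)
  have n1 : ∫ y, ‖L1.ξ y‖ ∂L1.ρ ≤ c := norm_law1_le (A := A) (p := p) hμ hN
  have n2 : ∫ y, ‖L2.ξ y‖ ∂L2.ρ ≤ c := norm_law2_le hμ hN Q x hx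
  have n3 : ∫ y, ‖L3.ξ y‖ ∂L3.ρ ≤ c := norm_law3_le (N := N) hμ Q x hx
  rw [NNReal.coe_one, one_mul] at e1 e2 e3
  have hj : (0 : ℝ) ≤ j := Nat.cast_nonneg j
  have hk : (0 : ℝ) ≤ k := Nat.cast_nonneg k
  have hl : (0 : ℝ) ≤ l := Nat.cast_nonneg l
  have e1' := e1.trans (mul_le_mul_of_nonneg_left n1 hj)
  have e2' := e2.trans (mul_le_mul_of_nonneg_left n3 hk)
  have e3' := e3.trans (mul_le_mul_of_nonneg_left n2 hl)
  rw [coe_lseL] at e3'
  have h0 : aSeq hμ hN Q x hx v hs j k l = (((Kop L1) ^ j) (((Kop L3) ^ k)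
      (((Kop L2) ^ l) (lseL S))) : (S → ℝ) → ℝ) (g0 v hs) := rfl
  have h4 := lse_g0 (p := p) v hv hs
  have h5 := Red.abs_logPartition_le N (p := p) (M := 0) Fin.elim0 Fin.elim0 hs
  rw [Finset.univ_eq_empty, Finset.sum_empty, zero_add] at h5
  rw [h0]
  rw [abs_le] at e1' e2' e3' h5 ⊢
  rw [h4] at e3'
  constructor <;> nlinarith [e1'.1, e1'.2, e2'.1, e2'.2, e3'.1, e3'.2, h5.1, h5.2]

omit [Nonempty A] in
theorem measurable_g0 : Measurable fun z : (A → ℝ) × (Fin N → ℝ) => g0 z.1 z.2 := by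
  refine measurable_pi_lambda _ fun s => ?_
  unfold g0
  refine Measurable.add ?_ ?_
  · exact Real.measurable_log.comp ((measurable_pi_apply s.1).comp measurable_fst)
  · exact Finset.measurable_sum _ fun i _ =>
      ((measurable_pi_apply i).comp measurable_snd).mul_const _

theorem measurable_aSeq (j k l : ℕ) :
    Measurable fun z : (A → ℝ) × (Fin N → ℝ) => aSeq hμ hN Q x hx z.1 z.2 j k l :=
  (op_lip hμ hN Q x hx j k l).continuous.measurable.comp measurable_g0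

variable (V : Measure (A → ℝ)) [IsProbabilityMeasure V] (hV : ∀ᵐ v ∂V, ∀ a, 0 < v a)
  (ν : Measure ℝ) [IsProbabilityMeasure ν] (hν : Integrable (fun x : ℝ => x) ν)

include hV hν in
theorem integrable_aSeq (j k l : ℕ) :
    Integrable (fun z : (A → ℝ) × (Fin N → ℝ) =>
      aSeq hμ hN Q x hx z.1 z.2 j k l - Real.log (∑ a, z.1 a))
      (V.prod (Measure.pi fun _ : Fin N => ν)) := by
  have hm : Measurable (fun z : (A → ℝ) × (Fin N → ℝ) =>
      aSeq hμ hN Q x hx z.1 z.2 j k l - Real.log (∑ a, z.1 a)) :=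
    (measurable_aSeq hμ hN Q x hx j k l).sub (Real.measurable_log.comp
      (Finset.measurable_sum _ fun a _ => (measurable_pi_apply a).comp measurable_fst))
  have hb : Integrable (fun z : (A → ℝ) × (Fin N → ℝ) => N * Real.log 2 + (∑ i, |z.2 i|) +
      ((j : ℝ) + k + l) * ∫ θ, supNorm θ ∂μ) (V.prod (Measure.pi fun _ : Fin N => ν)) := by
    refine ((integrable_const _).add ?_).add (integrable_const _)
    exact (Red.integrable_sum_eval ν hν.abs).comp_snd V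
  refine Integrable.mono' hb hm.aestronglyMeasurable ?_
  have hV' : ∀ᵐ z ∂(V.prod (Measure.pi fun _ : Fin N => ν)), ∀ a, 0 < z.1 a :=
    Measure.quasiMeasurePreserving_fst.ae hV
  filter_upwards [hV'] with z hz
  exact aSeq_bound hμ hN Q x hx z.1 hz z.2 j k l

/-- integrated sequence. -/
noncomputable def aInt (j k l : ℕ) : ℝ :=
  ∫ z : (A → ℝ) × (Fin N → ℝ), (aSeq hμ hN Q x hx z.1 z.2 j k l - Real.log (∑ a, z.1 a))
    ∂(V.prod (Measure.pi fun _ : Fin N => ν))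

include hV hν in
theorem aInt_step (hp : 1 ≤ p) (hKI : KIProp p μ) (j k l : ℕ) :
    (1 / (p : ℝ)) * aInt hμ hN Q x hx V ν (j + 1) k l +
      (1 - 1 / (p : ℝ)) * aInt hμ hN Q x hx V ν j (k + 1) l ≤
      aInt hμ hN Q x hx V ν j k (l + 1) := by
  unfold aInt
  rw [← integral_const_mul, ← integral_const_mul, ← integral_add]
  · refine integral_mono ?_ (integrable_aSeq hμ hN Q x hx V hV ν hν j k (l + 1)) fun z => ?_
    · exact ((integrable_aSeq hμ hN Q x hx V hV ν hν (j + 1) k l).const_mul _).add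
        ((integrable_aSeq hμ hN Q x hx V hV ν hν j (k + 1) l).const_mul _)
    · have := aSeq_step hμ hN Q x hx hp hKI z.1 z.2 j k l
      simp only
      linarith
  · exact (integrable_aSeq hμ hN Q x hx V hV ν hν (j + 1) k l).const_mul _
  · exact (integrable_aSeq hμ hN Q x hx V hV ν hν j (k + 1) l).const_mul _

include hV hν in
theorem aInt_bound (j k l : ℕ) :
    |aInt hμ hN Q x hx V ν j k l| ≤ N * Real.log 2 + N * (∫ x, |x| ∂ν) +
      ((j : ℝ) + k + l) * ∫ θ, supNorm θ ∂μ := by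
  unfold aInt
  have hb : Integrable (fun z : (A → ℝ) × (Fin N → ℝ) => N * Real.log 2 + (∑ i, |z.2 i|) +
      ((j : ℝ) + k + l) * ∫ θ, supNorm θ ∂μ) (V.prod (Measure.pi fun _ : Fin N => ν)) := by
    refine ((integrable_const _).add ?_).add (integrable_const _)
    exact (Red.integrable_sum_eval ν hν.abs).comp_snd V
  have hV' : ∀ᵐ z ∂(V.prod (Measure.pi fun _ : Fin N => ν)), ∀ a, 0 < z.1 a :=
    Measure.quasiMeasurePreserving_fst.ae hV
  rw [← Real.norm_eq_abs]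
  refine (norm_integral_le_of_norm_le hb ?_).trans (le_of_eq ?_)
  · filter_upwards [hV'] with z hz
    exact aSeq_bound hμ hN Q x hx z.1 hz z.2 j k l
  · have h1 : Integrable (fun z : (A → ℝ) × (Fin N → ℝ) => ∑ i, |z.2 i|)
        (V.prod (Measure.pi fun _ : Fin N => ν)) := (Red.integrable_sum_eval ν hν.abs).comp_snd V
    have h2 : ∫ z : (A → ℝ) × (Fin N → ℝ), ∑ i, |z.2 i| ∂(V.prod (Measure.pi fun _ : Fin N => ν)) =
        N * ∫ x, |x| ∂ν := by
      rw [integral_fun_snd (μ := V) (ν := Measure.pi fun _ : Fin N => ν)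
        (fun h : Fin N → ℝ => ∑ i, |h i|)]
      rw [Red.integral_sum_eval ν hν.abs]
      simp
    have h3 : Integrable (fun z : (A → ℝ) × (Fin N → ℝ) => N * Real.log 2 + ∑ i, |z.2 i|)
        (V.prod (Measure.pi fun _ : Fin N => ν)) := (integrable_const _).add h1
    rw [integral_add h3 (integrable_const _), integral_add (integrable_const _) h1, h2]
    simp

end

end Crest.Agent.R141.U
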